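import Vale.Agent.P347.Model

/-!
Functions of a gradient field that can be computed with a given number of adaptive queries, and
their conversion into algorithms.
-/

noncomputable section

open MeasureTheory ProbabilityTheory

namespace Vale.Agent.P347

variable {d : ℕ} {Ω Ω' β γ : Type} [MeasurableSpace Ω] [MeasurableSpace Ω'] [MeasurableSpace β]
  [MeasurableSpace γ]

/-- A transcript of `q` adaptive gradient queries. -/
inductive Trans (Ω : Type) [MeasurableSpace Ω] (d : ℕ) :
    (q : ℕ) → ((Space d → Space d) → Ω → Fin q → Space d) → Prop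
  | zero : Trans Ω d 0 (fun _ _ => Fin.elim0)
  | succ {q : ℕ} {T : (Space d → Space d) → Ω → Fin q → Space d} (hT : Trans Ω d q T)
      (p : Ω × (Fin q → Space d) → Space d) (hp : Measurable p) :
      Trans Ω d (q + 1) (fun G ω => Fin.snoc (T G ω) (G (p (ω, T G ω))))

/-- `F` can be computed with `q` queries. -/
def Computes (q : ℕ) (F : (Space d → Space d) → Ω → β) : Prop :=
  ∃ T, Trans Ω d q T ∧ ∃ out : Ω × (Fin q → Space d) → β, Measurable out ∧
    ∀ G ω, F G ω = out (ω, T G ω)

theorem measurable_snoc {q : ℕ} :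
    Measurable fun p : (Fin q → Space d) × Space d => (Fin.snoc p.1 p.2 : Fin (q + 1) → Space d) := by
  refine measurable_pi_lambda _ fun i => ?_
  refine Fin.lastCases ?_ (fun j => ?_) i
  · simp only [Fin.snoc_last]; exact measurable_snd
  · simp only [Fin.snoc_castSucc]; exact (measurable_pi_apply j).comp measurable_fst

theorem Trans.measurable {q : ℕ} {T : (Space d → Space d) → Ω → Fin q → Space d}
    (hT : Trans Ω d q T) {G : Space d → Space d} (hG : Measurable G) : Measurable (T G) := by
  induction hT with
  | zero => exact measurable_const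
  | @succ q T _ p hp ih =>
    exact measurable_snoc.comp (ih.prodMk (hG.comp (hp.comp (measurable_id.prodMk ih))))

theorem Computes.measurable {q : ℕ} {F : (Space d → Space d) → Ω → β} (hF : Computes q F)
    {G : Space d → Space d} (hG : Measurable G) : Measurable (F G) := by
  obtain ⟨T, hT, out, ho, e⟩ := hF
  simp only [funext (e G)]
  exact ho.comp (measurable_id.prodMk (hT.measurable hG))

theorem Computes.of_measurable {f : Ω → β} (hf : Measurable f) :
    Computes (d := d) 0 (fun _ => f) :=
  ⟨_, Trans.zero, fun p => f p.1, hf.comp measurable_fst, fun _ _ => rfl⟩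

theorem Computes.query {p : Ω → Space d} (hp : Measurable p) :
    Computes (d := d) 1 (fun G ω => G (p ω)) := by
  refine ⟨_, Trans.zero.succ (fun x => p x.1) (hp.comp measurable_fst), fun x => x.2 (Fin.last 0),
    (measurable_pi_apply _).comp measurable_snd, fun G ω => ?_⟩
  exact (Fin.snoc_last (α := fun _ => Space d) (G (p ω)) Fin.elim0).symm

theorem Computes.map {q : ℕ} {F : (Space d → Space d) → Ω → β} (hF : Computes q F)
    {f : Ω × β → γ} (hf : Measurable f) : Computes q (fun G ω => f (ω, F G ω)) := by
  obtain ⟨T, hT, out, ho, e⟩ := hF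
  exact ⟨T, hT, fun x => f (x.1, out x), hf.comp (measurable_fst.prodMk ho), fun G ω => by simp only [e]⟩

theorem Trans.append {q₁ q₂ : ℕ} {T₁ : (Space d → Space d) → Ω → Fin q₁ → Space d}
    (h₁ : Trans Ω d q₁ T₁) {f : Ω × (Fin q₁ → Space d) → Ω'} (hf : Measurable f)
    {T₂ : (Space d → Space d) → Ω' → Fin q₂ → Space d} (h₂ : Trans Ω' d q₂ T₂) :
    ∃ T, Trans Ω d (q₁ + q₂) T ∧
      ∃ (fst : (Fin (q₁ + q₂) → Space d) → Fin q₁ → Space d)
        (snd : (Fin (q₁ + q₂) → Space d) → Fin q₂ → Space d), Measurable fst ∧ Measurable snd ∧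
          ∀ G ω, fst (T G ω) = T₁ G ω ∧ snd (T G ω) = T₂ G (f (ω, T₁ G ω)) := by
  induction h₂ with
  | zero =>
    exact ⟨T₁, h₁, id, fun _ => Fin.elim0, measurable_id, measurable_const, fun G ω => ⟨rfl, rfl⟩⟩
  | @succ q T₂ _ p hp ih =>
    obtain ⟨T, hT, fst, snd, hfst, hsnd, e⟩ := ih
    set p' : Ω × (Fin (q₁ + q) → Space d) → Space d :=
      fun x => p (f (x.1, fst x.2), snd x.2) with hp'
    have hp'm : Measurable p' :=
      hp.comp ((hf.comp (measurable_fst.prodMk (hfst.comp measurable_snd))).prodMk
        (hsnd.comp measurable_snd))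
    refine ⟨_, hT.succ p' hp'm, fun a => fst (Fin.init a),
      fun a => Fin.snoc (snd (Fin.init a)) (a (Fin.last _)), ?_, ?_, fun G ω => ?_⟩
    · exact hfst.comp (measurable_pi_lambda _ fun i => measurable_pi_apply i.castSucc)
    · exact measurable_snoc.comp
        ((hsnd.comp (measurable_pi_lambda _ fun i => measurable_pi_apply i.castSucc)).prodMk
          (measurable_pi_apply (Fin.last _)))
    · obtain ⟨e1, e2⟩ := e G ω
      simp [hp', e1, e2]

theorem Computes.bind {q₁ q₂ : ℕ} {F : (Space d → Space d) → Ω → β}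
    {K : (Space d → Space d) → Ω × β → γ} (hF : Computes q₁ F) (hK : Computes q₂ K) :
    Computes (q₁ + q₂) (fun G ω => K G (ω, F G ω)) := by
  obtain ⟨T₁, h₁, out₁, ho₁, e₁⟩ := hF
  obtain ⟨T₂, h₂, out₂, ho₂, e₂⟩ := hK
  obtain ⟨T, hT, fst, snd, hfst, hsnd, e⟩ :=
    h₁.append (f := fun x => (x.1, out₁ x)) (measurable_fst.prodMk ho₁) h₂
  refine ⟨T, hT, fun x => out₂ ((x.1, out₁ (x.1, fst x.2)), snd x.2), ?_, fun G ω => ?_⟩
  · exact ho₂.comp ((measurable_fst.prodMk (ho₁.comp (measurable_fst.prodMk
      (hfst.comp measurable_snd)))).prodMk (hsnd.comp measurable_snd))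
  · obtain ⟨a, b⟩ := e G ω
    simp only [a, b, e₁, e₂]

theorem Computes.congr {q : ℕ} {F F' : (Space d → Space d) → Ω → β} (hF : Computes q F)
    (h : ∀ G ω, F' G ω = F G ω) : Computes q F' := by
  obtain ⟨T, hT, out, ho, e⟩ := hF
  exact ⟨T, hT, out, ho, fun G ω => (h G ω).trans (e G ω)⟩

theorem Computes.comp {q : ℕ} {K : (Space d → Space d) → Ω' → γ} (hK : Computes q K)
    {f : Ω → Ω'} (hf : Measurable f) : Computes q (fun G ω => K G (f ω)) := by
  obtain ⟨T₂, h₂, out₂, ho₂, e₂⟩ := hK
  obtain ⟨T, hT, fst, snd, -, hsnd, e⟩ :=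
    (Trans.zero (Ω := Ω) (d := d)).append (f := fun x => f x.1) (hf.comp measurable_fst) h₂
  refine Computes.congr (q := q) ?_ fun G ω => rfl
  have hc : Computes (0 + q) (fun G ω => K G (f ω)) :=
    ⟨T, hT, fun x => out₂ (f x.1, snd x.2),
      ho₂.comp ((hf.comp measurable_fst).prodMk (hsnd.comp measurable_snd)),
      fun G ω => by simp only [(e G ω).2, e₂]⟩
  simpa using hc

theorem Computes.queries {m : ℕ} {p : Fin m → Ω → Space d} (hp : ∀ k, Measurable (p k)) :
    Computes (d := d) m (fun G ω k => G (p k ω)) := by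
  induction m with
  | zero =>
    exact (Computes.of_measurable (f := fun _ : Ω => (Fin.elim0 : Fin 0 → Space d))
      measurable_const).congr fun G ω => funext fun k => k.elim0
  | succ m ih =>
    have h := ((ih fun k => hp k.castSucc).bind
      ((Computes.query (hp (Fin.last m))).comp (f := fun x : Ω × (Fin m → Space d) => x.1)
        measurable_fst |>.map (f := fun x => (Fin.snoc x.1.2 x.2 : Fin (m + 1) → Space d))
        (measurable_snoc.comp ((measurable_snd.comp measurable_fst).prodMk measurable_snd))))
    exact h.congr fun G ω => (Fin.snoc_init_self (fun k => G (p k ω))).symm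

/-- A state updated by `n` steps. -/
def iter {σ : Type} (step : ℕ → (Space d → Space d) → Ω × σ → σ) (init : Ω → σ)
    (G : Space d → Space d) (ω : Ω) : ℕ → σ
  | 0 => init ω
  | n + 1 => step n G (ω, iter step init G ω n)

theorem Computes.iter {σ : Type} [MeasurableSpace σ]
    {step : ℕ → (Space d → Space d) → Ω × σ → σ} {init : Ω → σ} (hi : Measurable init) {m : ℕ}
    (hs : ∀ n, Computes m (step n)) (n : ℕ) :
    Computes (n * m) (fun G ω => Vale.Agent.P347.iter step init G ω n) := by
  induction n with
  | zero =>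
    rw [Nat.zero_mul]
    exact Computes.of_measurable hi
  | succ n ih =>
    rw [Nat.succ_mul]
    exact ih.bind (hs n)

theorem Trans.exists_query {q : ℕ} {T : (Space d → Space d) → Ω → Fin q → Space d}
    (hT : Trans Ω d q T) :
    ∃ qry : (i : Fin q) → Ω → (Fin i.val → Space d) → Space d,
      (∀ i : Fin q, Measurable fun p : Ω × (Fin i.val → Space d) => qry i p.1 p.2) ∧
      ∀ G ω (i : Fin q), T G ω i =
        G (qry i ω (fun j => T G ω (j.castLE i.2.le))) := by
  induction hT with
  | zero => exact ⟨fun i => i.elim0, fun i => i.elim0, fun _ _ i => i.elim0⟩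
  | @succ q T _ p hp ih =>
    obtain ⟨qry, hm, e⟩ := ih
    refine ⟨fun i ω a => if h : i.val < q then qry ⟨i.val, h⟩ ω a
      else p (ω, fun j => a ⟨j.val, by omega⟩), fun i => ?_, fun G ω i => ?_⟩
    · by_cases h : i.val < q
      · simpa [h] using hm ⟨i.val, h⟩
      · simp only [h, dite_false]
        exact hp.comp (measurable_fst.prodMk (measurable_pi_lambda _ fun j =>
          (measurable_pi_apply _).comp measurable_snd))
    · refine Fin.lastCases ?_ (fun k => ?_) i
      · simp only [Fin.snoc_last, Fin.val_last, lt_irrefl, dite_false]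
        congr 3
        funext j
        exact (Fin.snoc_castSucc (α := fun _ => Space d) (G (p (ω, T G ω))) (T G ω) j).symm
      · simp only [Fin.snoc_castSucc, Fin.val_castSucc, k.isLt, dite_true]
        refine (e G ω k).trans ?_
        congr 2
        funext j
        exact (Fin.snoc_castSucc (α := fun _ => Space d) (G (p (ω, T G ω))) (T G ω)
          (j.castLE k.isLt.le)).symm

/-- A computation from `r` random reals is an algorithm. -/
theorem Computes.algorithm {q r : ℕ} {F : (Space d → Space d) → (Fin r → ℝ) → Space d}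
    (hF : Computes q F) :
    ∃ A : Algorithm d q, ∀ V : Space d → ℝ,
      A.law V = (Measure.pi fun _ : Fin r => gaussianReal 0 1).map (F fun x => gradient V x) := by
  obtain ⟨T, hT, out, ho, e⟩ := hF
  obtain ⟨qry, hm, he⟩ := hT.exists_query
  refine ⟨⟨r, fun i s a => qry i s (fun j => (a j).2), fun s a => out (s, fun j => (a j).2),
    fun i => ?_, ?_⟩, fun V => ?_⟩
  · exact (hm i).comp (measurable_fst.prodMk (measurable_pi_lambda _ fun j =>
      measurable_snd.comp ((measurable_pi_apply j).comp measurable_snd)))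
  · exact ho.comp (measurable_fst.prodMk (measurable_pi_lambda _ fun j =>
      measurable_snd.comp ((measurable_pi_apply j).comp measurable_snd)))
  · set A : Algorithm d q := ⟨r, fun i s a => qry i s (fun j => (a j).2),
      fun s a => out (s, fun j => (a j).2), _, _⟩ with hA
    have key : ∀ s (n : ℕ) (h : n ≤ q) (j : Fin n),
        (A.answers V s n h j).2 = T (fun x => gradient V x) s (j.castLE h) := by
      intro s n
      induction n with
      | zero => exact fun _ j => j.elim0
      | succ n ih =>
        intro h j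
        refine Fin.lastCases ?_ (fun k => ?_) j
        · simp only [Algorithm.answers, Fin.snoc_last, oracle]
          rw [he]
          exact congrArg (fun x => gradient V x)
            (congrArg (qry ⟨n, h⟩ s) (funext fun k => ih _ k))
        · simp only [Algorithm.answers, Fin.snoc_castSucc]
          exact ih _ k
    refine congrArg (Measure.map · _) (funext fun s => ?_)
    rw [e]
    exact congrArg (fun a => out (s, a)) (funext fun j => key s q le_rfl j)

end Vale.Agent.P347
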