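import Vale.Agent.P347.Defs
import Vale.Agent.P347.Oracle

/-!
The sampler as a function of the gradient field, its query count and its measurability.
-/

noncomputable section

open MeasureTheory ProbabilityTheory

namespace Vale.Agent.P347

variable {d m J : ℕ} {Ω β : Type} [MeasurableSpace Ω] [MeasurableSpace β]

theorem Computes.and {q₁ q₂ : ℕ} {γ : Type} [MeasurableSpace γ]
    {F : (Space d → Space d) → Ω → β} {K : (Space d → Space d) → Ω → γ} (hF : Computes q₁ F)
    (hK : Computes q₂ K) : Computes (q₁ + q₂) (fun G ω => (F G ω, K G ω)) :=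
  hF.bind ((hK.comp (f := fun x : Ω × β => x.1) measurable_fst).map (f := fun x => (x.1.2, x.2))
    ((measurable_snd.comp measurable_fst).prodMk measurable_snd))

/-- Picard iteration for the proximal point. -/
def proxPt (G : Space d → Space d) (s : ℝ) (a : Space d) : ℕ → Space d
  | 0 => 0
  | k + 1 => a - s • (G (proxPt G s a k) - proxPt G s a k)

/-- The gradient subtracted by the centring. -/
def proxGrad (G : Space d → Space d) (s : ℝ) (a : Space d) (K : ℕ) : Space d :=
  G (proxPt G s a K) - proxPt G s a K

/-- The scaled centred gradient. -/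
def gshift (G : Space d → Space d) (b c : Space d) (σ : ℝ) (x : Space d) : Space d :=
  σ • (G (c + σ • x) - (c + σ • x) - b)

/-- The halving chain as a function of a gradient. -/
def chainG (N : Nodes m) (g : Space d → Space d) :
    (J : ℕ) → (Fin J → Space d × Space d × (Fin m → Space d)) → Space d
  | 0, _ => 0
  | J + 1, s => chainG N g J (fun j => s j.castSucc)
      + (Real.sqrt ((1 / 2 : ℝ) ^ J) / 2) • ((s (Fin.last J)).1
        - nodeSum N (fun x => Real.sqrt ((1 / 2 : ℝ) ^ J)
            • g (chainG N g J (fun j => s j.castSucc) + Real.sqrt ((1 / 2 : ℝ) ^ J) • x))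
          (s (Fin.last J)).1 (s (Fin.last J)).2.2
        + (s (Fin.last J)).2.1)

/-- The local sampler as a function of a gradient. -/
def localG (N : Nodes m) (g : Space d → Space d) (ξ : Space d) (ω : RI m J → Space d) : Space d :=
  ξ - nodeSum N g ξ (fun k => ω (.inl k))
    + nodeSum N g (ω (.inr (.inl none))) (fun k => ω (.inr (.inl (some k))))
    - g (chainG N g J (chainSeed ω) + Real.sqrt ((1 / 2 : ℝ) ^ J) • ω (.inr (.inr none)))

theorem chainG_eq {h : ℝ} (N : Nodes m) (P : Pot d h) (J : ℕ)
    (s : Fin J → Space d × Space d × (Fin m → Space d)) :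
    chainPt N P J s = chainG N P.g J s := by
  induction J with
  | zero => rfl
  | succ J ih => simp only [chainPt, chainG, chainStep, ih, Pot.aff]

theorem localX_eq {h : ℝ} (N : Nodes m) (P : Pot d h) (ξ : Space d) (ω : RI m J → Space d) :
    localX N P ξ ω = localG N P.g ξ ω := by
  simp only [localX, localG, meanEst, chainG_eq]

/-- The seeds of one step of the outer chain. -/
abbrev Seed (d m J : ℕ) := Space d × (RI m J → Space d) × Space d

/-- One step of the outer chain: posterior sampling at step size `η`, then noise of variance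
`η'`. -/
def outStep (N : Nodes m) (K : ℕ) (η η' : ℝ) (G : Space d → Space d) (y : Space d)
    (S : Seed d m J) : Space d :=
  let s := η / (1 + η)
  let a := (1 + η)⁻¹ • y
  let b := proxGrad G s a K
  (a - s • b) + Real.sqrt s • localG N (gshift G b (a - s • b) (Real.sqrt s)) S.1 S.2.1
    + Real.sqrt η' • S.2.2

/-- The last posterior approximation. -/
def lastStep (K : ℕ) (η : ℝ) (G : Space d → Space d) (y ξ : Space d) : Space d :=
  let s := η / (1 + η)
  let a := (1 + η)⁻¹ • y
  (a - s • proxGrad G s a K) + Real.sqrt s • ξ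

theorem measurable_eval {ι : Type} (i : ι) : Measurable fun f : ι → Space d => f i :=
  measurable_pi_apply i

theorem computes_proxPt {s : ℝ} {a : Ω → Space d} (ha : Measurable a) :
    ∀ k : ℕ, Computes k (fun G ω => proxPt G s (a ω) k)
  | 0 => Computes.of_measurable measurable_const
  | k + 1 => by
    have hf : Measurable fun x : (Ω × Space d) × Space d => a x.1.1 - s • (x.2 - x.1.2) := by fun_prop
    exact (computes_proxPt ha k).bind
      ((Computes.query (p := fun x : Ω × Space d => x.2) measurable_snd).map hf)

theorem computes_proxGrad {s : ℝ} {a : Ω → Space d} (ha : Measurable a) (K : ℕ) :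
    Computes (K + 1) (fun G ω => proxGrad G s (a ω) K) := by
  have hf : Measurable fun x : (Ω × Space d) × Space d => x.2 - x.1.2 := by fun_prop
  exact (computes_proxPt ha K).bind
    ((Computes.query (p := fun x : Ω × Space d => x.2) measurable_snd).map hf)

theorem computes_gshift {b c : Ω → Space d} {σ : ℝ} (hb : Measurable b) (hc : Measurable c)
    {p : Fin m → Ω → Space d} (hp : ∀ k, Measurable (p k)) :
    Computes m (fun G ω k => gshift G (b ω) (c ω) σ (p k ω)) := by
  have hq : ∀ k, Measurable fun ω => c ω + σ • p k ω := fun k => by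
    have := hp k; fun_prop
  have hf : Measurable fun x : Ω × (Fin m → Space d) =>
      fun k => σ • (x.2 k - (c x.1 + σ • p k x.1) - b x.1) := by
    refine measurable_pi_lambda _ fun k => ?_
    have := hp k
    fun_prop
  exact (Computes.queries (p := fun k ω => c ω + σ • p k ω) hq).map hf

theorem computes_nodeSum (N : Nodes m) {b c : Ω → Space d} {σ : ℝ} (hb : Measurable b)
    (hc : Measurable c) {u : ℝ} {a ξ : Ω → Space d} (ha : Measurable a) (hξ : Measurable ξ)
    {z : Ω → Fin m → Space d} (hz : Measurable z) :
    Computes m (fun G ω =>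
      nodeSum N (fun x => u • gshift G (b ω) (c ω) σ (a ω + u • x)) (ξ ω) (z ω)) := by
  have hp : ∀ k, Measurable fun ω =>
      a ω + u • (N.t k • ξ ω + Real.sqrt (1 - N.t k ^ 2) • z ω k) := fun k => by fun_prop
  have hf : Measurable fun x : Ω × (Fin m → Space d) => ∑ k, N.w k • u • x.2 k := by fun_prop
  exact (computes_gshift (σ := σ) hb hc hp).map hf

theorem computes_chainG (N : Nodes m) {σ : ℝ} :
    ∀ {J : ℕ} {Ω : Type} [MeasurableSpace Ω] {b c : Ω → Space d}
      {s : Ω → Fin J → Space d × Space d × (Fin m → Space d)}, Measurable b → Measurable c →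
      Measurable s → Computes (J * m) (fun G ω => chainG N (gshift G (b ω) (c ω) σ) J (s ω)) := by
  intro J
  induction J with
  | zero =>
    intro Ω _ b c s hb hc hs
    rw [Nat.zero_mul]
    exact Computes.of_measurable measurable_const
  | succ J ih =>
    intro Ω _ b c s hb hc hs
    rw [Nat.succ_mul]
    have hs' : Measurable fun ω => fun j : Fin J => s ω j.castSucc := by fun_prop
    have hl : Measurable fun ω => s ω (Fin.last J) := by fun_prop
    have hξ : Measurable fun x : Ω × Space d => (s x.1 (Fin.last J)).1 := by fun_prop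
    have hz : Measurable fun x : Ω × Space d => (s x.1 (Fin.last J)).2.2 := by fun_prop
    have hf : Measurable fun x : (Ω × Space d) × Space d =>
        x.1.2 + (Real.sqrt ((1 / 2 : ℝ) ^ J) / 2) • ((s x.1.1 (Fin.last J)).1 - x.2
          + (s x.1.1 (Fin.last J)).2.1) := by fun_prop
    exact (ih hb hc hs').bind ((computes_nodeSum N (σ := σ) (u := Real.sqrt ((1 / 2 : ℝ) ^ J))
      (hb.comp measurable_fst) (hc.comp measurable_fst) measurable_snd hξ hz).map hf)

theorem computes_localG (N : Nodes m) {σ : ℝ} {b c ξ : Ω → Space d} {ω : Ω → RI m J → Space d}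
    (hb : Measurable b) (hc : Measurable c) (hξ : Measurable ξ) (hω : Measurable ω) :
    Computes (m + m + (J * m + 1))
      (fun G x => localG N (gshift G (b x) (c x) σ) (ξ x) (ω x)) := by
  have hseed : Measurable fun x => chainSeed (ω x) := by unfold chainSeed; fun_prop
  have hz1 : Measurable fun x => fun k : Fin m => ω x (.inl k) := by fun_prop
  have hz2 : Measurable fun x => fun k : Fin m => ω x (.inr (.inl (some k))) := by fun_prop
  have hξ2 : Measurable fun x => ω x (.inr (.inl none)) := by fun_prop
  have h1 := computes_nodeSum N (σ := σ) (u := 1) hb hc (a := fun _ => 0) measurable_const hξ hz1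
  have h2 := computes_nodeSum N (σ := σ) (u := 1) hb hc (a := fun _ => 0) measurable_const hξ2 hz2
  have hp : Measurable fun x : Ω × Space d =>
      c x.1 + σ • (x.2 + Real.sqrt ((1 / 2 : ℝ) ^ J) • ω x.1 (.inr (.inr none))) := by fun_prop
  have hg : Measurable fun x : (Ω × Space d) × Space d =>
      σ • (x.2 - (c x.1.1 + σ • (x.1.2 + Real.sqrt ((1 / 2 : ℝ) ^ J)
        • ω x.1.1 (.inr (.inr none)))) - b x.1.1) := by fun_prop
  have h3 := (computes_chainG N (σ := σ) hb hc hseed).bind ((Computes.query hp).map hg)
  have hf : Measurable fun x : Ω × (Space d × Space d) × Space d =>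
      ξ x.1 - x.2.1.1 + x.2.1.2 - x.2.2 := by fun_prop
  refine (((h1.and h2).and h3).map hf).congr fun G x => ?_
  simp only [one_smul, zero_add, localG]
  rfl

theorem computes_outStep (N : Nodes m) (K : ℕ) (η η' : ℝ) {y : Ω → Space d} {S : Ω → Seed d m J}
    (hy : Measurable y) (hS : Measurable S) :
    Computes (K + 1 + (m + m + (J * m + 1))) (fun G ω => outStep N K η η' G (y ω) (S ω)) := by
  have ha : Measurable fun ω => (1 + η)⁻¹ • y ω := by fun_prop
  have hc : Measurable fun x : Ω × Space d => (1 + η)⁻¹ • y x.1 - (η / (1 + η)) • x.2 := by fun_prop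
  have hξ : Measurable fun x : Ω × Space d => (S x.1).1 := by fun_prop
  have hω : Measurable fun x : Ω × Space d => (S x.1).2.1 := by fun_prop
  have hf : Measurable fun x : (Ω × Space d) × Space d =>
      ((1 + η)⁻¹ • y x.1.1 - (η / (1 + η)) • x.1.2) + Real.sqrt (η / (1 + η)) • x.2
        + Real.sqrt η' • (S x.1.1).2.2 := by fun_prop
  exact (computes_proxGrad (s := η / (1 + η)) ha K).bind
    ((computes_localG N (σ := Real.sqrt (η / (1 + η))) measurable_snd hc hξ hω).map hf)

theorem computes_lastStep (K : ℕ) (η : ℝ) {y ξ : Ω → Space d} (hy : Measurable y)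
    (hξ : Measurable ξ) :
    Computes (K + 1) (fun G ω => lastStep K η G (y ω) (ξ ω)) := by
  have ha : Measurable fun ω => (1 + η)⁻¹ • y ω := by fun_prop
  have hf : Measurable fun x : Ω × Space d => ((1 + η)⁻¹ • y x.1 - (η / (1 + η)) • x.2)
      + Real.sqrt (η / (1 + η)) • ξ x.1 := by fun_prop
  exact (computes_proxGrad (s := η / (1 + η)) ha K).map hf

/-- The outer chain from the origin along a schedule of step sizes. -/
def outChain (N : Nodes m) (K : ℕ) (η : ℕ → ℝ) (G : Space d → Space d) :
    (n : ℕ) → (Fin n → Seed d m J) → Space d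
  | 0, _ => 0
  | n + 1, S => outStep N K (η n) (η (n + 1)) G (outChain N K η G n fun i => S i.castSucc)
      (S (Fin.last n))

theorem computes_outChain (N : Nodes m) (K : ℕ) (η : ℕ → ℝ) :
    ∀ {n : ℕ} {Ω : Type} [MeasurableSpace Ω] {S : Ω → Fin n → Seed d m J}, Measurable S →
      Computes (n * (K + 1 + (m + m + (J * m + 1)))) (fun G ω => outChain N K η G n (S ω)) := by
  intro n
  induction n with
  | zero =>
    intro Ω _ S hS
    rw [Nat.zero_mul]
    exact Computes.of_measurable measurable_const
  | succ n ih =>
    intro Ω _ S hS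
    rw [Nat.succ_mul]
    exact ((ih (measurable_pi_lambda _ fun i => (measurable_pi_apply i.castSucc).comp hS)).bind
      (computes_outStep N K (η n) (η (n + 1)) measurable_snd
        (((measurable_pi_apply (Fin.last n)).comp hS).comp measurable_fst))).congr fun G ω => rfl

/-- The whole sampler. -/
def sampler (N : Nodes m) (K T : ℕ) (η : ℕ → ℝ) (G : Space d → Space d)
    (S : (Fin T → Seed d m J) × Space d) : Space d :=
  lastStep K (η T) G (outChain N K η G T S.1) S.2

theorem computes_sampler (N : Nodes m) (K T : ℕ) (η : ℕ → ℝ)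
    {S : Ω → (Fin T → Seed d m J) × Space d} (hS : Measurable S) :
    Computes (T * (K + 1 + (m + m + (J * m + 1))) + (K + 1))
      (fun G ω => sampler N K T η G (S ω)) :=
  ((computes_outChain N K η (measurable_fst.comp hS)).bind
    (computes_lastStep K (η T) measurable_snd
      ((measurable_snd.comp hS).comp measurable_fst))).congr fun G ω => rfl

end Vale.Agent.P347
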