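import Vale.Agent.P347.Pins
import Vale.Agent.P245.Gauss

/-!
The tilted Gaussian laws: integrability, Stein's identity, moments, comparison with the Gaussian
law, the posterior identity and the derivatives of posterior averages.
-/

noncomputable section

open MeasureTheory ProbabilityTheory Set Filter Topology
open scoped RealInnerProductSpace

namespace Vale.Agent.P347

variable {d : ℕ} {h : ℝ}

/-- At most exponential growth. -/
abbrev Tame (F : Space d → ℝ) : Prop := P245.Tame (n := d) F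

theorem tame_integrable {F : Space d → ℝ} (hm : Measurable F) (hT : Tame F) :
    Integrable F (gam d) := by
  obtain ⟨A, c, hA⟩ := hT
  exact Integrable.mono' ((P245.integrable_exp_norm c).const_mul A) hm.aestronglyMeasurable
    (ae_of_all _ fun x => hA x)

theorem poly_le_exp (k : ℕ) (r : ℝ) (hr : 0 ≤ r) : (1 + r) ^ k ≤ Real.exp (k * r) := by
  rw [Real.exp_nat_mul]
  exact pow_le_pow_left₀ (by linarith) (by linarith [Real.add_one_le_exp r]) k

theorem tame_of_grow {f : Space d → ℝ} (hf : Grow f) : Tame f := by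
  obtain ⟨C, k, hC⟩ := hf
  refine ⟨|C|, k, fun x => ?_⟩
  exact (hC x).trans (mul_le_mul (le_abs_self C) (poly_le_exp k _ (norm_nonneg x)) (by positivity)
    (abs_nonneg C))

theorem tame_mul {F G : Space d → ℝ} (hF : Tame F) (hG : Tame G) : Tame fun x => F x * G x := by
  obtain ⟨A, a, hA⟩ := hF
  obtain ⟨B, b, hB⟩ := hG
  refine ⟨A * B, a + b, fun x => ?_⟩
  rw [abs_mul, add_mul, Real.exp_add]
  calc |F x| * |G x| ≤ A * Real.exp (a * ‖x‖) * (B * Real.exp (b * ‖x‖)) :=
        mul_le_mul (hA x) (hB x) (abs_nonneg _) ((abs_nonneg _).trans (hA x))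
    _ = _ := by ring

theorem tame_comp {F : Space d → ℝ} (hF : Tame F) (a : Space d) (s : ℝ) :
    Tame fun ξ => F (a + s • ξ) := by
  obtain ⟨A, c, hA⟩ := hF
  refine ⟨|A| * Real.exp (|c| * ‖a‖), |c| * |s|, fun ξ => ?_⟩
  refine (hA _).trans (le_trans (mul_le_mul_of_nonneg_right (le_abs_self A) (Real.exp_pos _).le) ?_)
  rw [mul_assoc, ← Real.exp_add]
  refine mul_le_mul_of_nonneg_left (Real.exp_le_exp.2 ?_) (abs_nonneg _)
  have h1 : ‖a + s • ξ‖ ≤ ‖a‖ + |s| * ‖ξ‖ := by
    refine (norm_add_le _ _).trans ?_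
    rw [norm_smul, Real.norm_eq_abs]
  have h2 := mul_le_mul_of_nonneg_left h1 (abs_nonneg c)
  linarith [mul_le_mul_of_nonneg_right (le_abs_self c) (norm_nonneg (a + s • ξ))]

theorem grow_inner (e : Space d) : Grow fun x : Space d => ⟪e, x⟫ :=
  ⟨‖e‖, 1, fun x => by
    rw [Real.norm_eq_abs, pow_one]
    exact (abs_real_inner_le_norm e x).trans
      (mul_le_mul_of_nonneg_left (by linarith) (norm_nonneg e))⟩

theorem grow_mul {f g : Space d → ℝ} (hf : Grow f) (hg : Grow g) : Grow fun x => f x * g x := by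
  obtain ⟨A, a, hA⟩ := hf
  obtain ⟨B, b, hB⟩ := hg
  refine ⟨A * B, a + b, fun x => ?_⟩
  rw [norm_mul, pow_add]
  calc ‖f x‖ * ‖g x‖ ≤ A * (1 + ‖x‖) ^ a * (B * (1 + ‖x‖) ^ b) :=
        mul_le_mul (hA x) (hB x) (norm_nonneg _) ((norm_nonneg _).trans (hA x))
    _ = _ := by ring

theorem grow_sub_const {f : Space d → ℝ} (hf : Grow f) (c : ℝ) : Grow fun x => f x - c := by
  obtain ⟨A, a, hA⟩ := hf
  refine ⟨A + |c|, a, fun x => ?_⟩
  have h1 : |c| ≤ |c| * (1 + ‖x‖) ^ a :=
    le_mul_of_one_le_right (abs_nonneg c) (one_le_pow₀ (by linarith [norm_nonneg x]))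
  have h2 := norm_sub_le (f x) c
  rw [Real.norm_eq_abs c] at h2
  linarith [hA x]

theorem grow_comp {f : Space d → ℝ} (hf : Grow f) (a : Space d) (s : ℝ) :
    Grow fun ξ => f (a + s • ξ) := by
  obtain ⟨A, k, hA⟩ := hf
  refine ⟨|A| * (1 + ‖a‖ + |s|) ^ k, k, fun ξ => (hA _).trans ?_⟩
  rw [mul_assoc, ← mul_pow]
  refine mul_le_mul (le_abs_self A) (pow_le_pow_left₀ (by positivity) ?_ k) (by positivity)
    (abs_nonneg A)
  refine (add_le_add le_rfl (norm_add_le _ _)).trans ?_
  rw [norm_smul, Real.norm_eq_abs]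
  nlinarith [norm_nonneg ξ, norm_nonneg a, abs_nonneg s,
    mul_nonneg (norm_nonneg a) (norm_nonneg ξ)]

theorem grow_of_fderiv {f : Space d → ℝ} (hf : ContDiff ℝ 1 f)
    (hg : Grow (fun x => fderiv ℝ f x)) : Grow f := by
  obtain ⟨C, k, hC⟩ := hg
  refine ⟨|f 0| + |C|, k + 1, fun x => ?_⟩
  have hd : ∀ y ∈ Metric.closedBall (0 : Space d) ‖x‖, ‖fderiv ℝ f y‖ ≤ |C| * (1 + ‖x‖) ^ k := by
    intro y hy
    rw [mem_closedBall_zero_iff] at hy
    refine (hC y).trans ?_
    exact mul_le_mul (le_abs_self C) (pow_le_pow_left₀ (by positivity) (by linarith) k)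
      (by positivity) (abs_nonneg C)
  have h1 := (convex_closedBall (0 : Space d) ‖x‖).norm_image_sub_le_of_norm_fderiv_le
    (fun y _ => hf.differentiable one_ne_zero y) hd (Metric.mem_closedBall_self (norm_nonneg x))
    (by simp : x ∈ Metric.closedBall (0 : Space d) ‖x‖)
  rw [sub_zero] at h1
  have h2 : 1 ≤ (1 + ‖x‖) ^ (k + 1) := one_le_pow₀ (by linarith [norm_nonneg x])
  have h3 : |C| * (1 + ‖x‖) ^ k * ‖x‖ ≤ |C| * (1 + ‖x‖) ^ (k + 1) := by
    rw [pow_succ, ← mul_assoc]
    exact mul_le_mul_of_nonneg_left (by linarith) (by positivity)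
  have h4 := norm_le_norm_add_norm_sub' (f x) (f 0)
  rw [Real.norm_eq_abs (f 0)] at h4
  nlinarith [mul_le_mul_of_nonneg_left h2 (abs_nonneg (f 0))]

/-! ### The density of the tilt -/

/-- The density of the tilt, not normalised. -/
def dens (P : Pot d h) (x : Space d) : ℝ := Real.exp (-P.W x)

theorem Pot.differentiable_W (P : Pot d h) : Differentiable ℝ P.W :=
  fun x => (P.grad x).differentiableAt

theorem Pot.norm_g_le (P : Pot d h) (x : Space d) : ‖P.g x‖ ≤ ‖P.g 0‖ + h * ‖x‖ := by
  have h1 := P.lip x 0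
  rw [sub_zero] at h1
  linarith [norm_le_norm_add_norm_sub' (P.g x) (P.g 0)]

theorem Pot.contDiff_W (P : Pot d h) : ContDiff ℝ 1 P.W := by
  refine contDiff_one_iff_fderiv.2 ⟨P.differentiable_W, ?_⟩
  rw [show fderiv ℝ P.W = fun x => innerSL ℝ (P.g x) from funext fun x => (P.grad x).fderiv]
  have := P.smooth.continuous
  fun_prop

theorem Pot.convexity (P : Pot d h) (x : Space d) : P.W 0 + ⟪P.g 0, x⟫ ≤ P.W x := by
  have hd : ∀ t : ℝ, HasDerivAt (fun t : ℝ => P.W (t • x)) ⟪P.g (t • x), x⟫ t := fun t => by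
    have h1 : HasDerivAt (fun t : ℝ => t • x) x t := by
      simpa using (hasDerivAt_id t).smul_const x
    exact (P.grad (t • x)).comp_hasDerivAt t h1
  obtain ⟨c, hc, e⟩ := exists_hasDerivAt_eq_slope (fun t : ℝ => P.W (t • x)) _ zero_lt_one
    (continuous_iff_continuousAt.2 fun t => (hd t).continuousAt).continuousOn fun t _ => hd t
  simp only [one_smul, zero_smul, sub_zero, div_one] at e
  have h2 : 0 ≤ ⟪P.g (c • x) - P.g 0, x⟫ := by
    have h3 := P.mono (c • x) 0
    rw [sub_zero, real_inner_smul_right] at h3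
    exact nonneg_of_mul_nonneg_right h3 hc.1
  rw [inner_sub_left] at h2
  linarith

theorem continuous_dens (P : Pot d h) : Continuous (dens P) :=
  Real.continuous_exp.comp P.differentiable_W.continuous.neg

theorem tame_dens (P : Pot d h) : Tame (dens P) := by
  refine ⟨Real.exp (-P.W 0), ‖P.g 0‖, fun x => ?_⟩
  rw [dens, abs_of_pos (Real.exp_pos _), ← Real.exp_add]
  refine Real.exp_le_exp.2 ?_
  linarith [P.convexity x, neg_abs_le ⟪P.g 0, x⟫, abs_real_inner_le_norm (P.g 0) x]

theorem integrable_dens (P : Pot d h) : Integrable (dens P) (gam d) :=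
  tame_integrable (continuous_dens P).measurable (tame_dens P)

theorem norm_pos (P : Pot d h) : 0 < ∫ x, dens P x ∂gam d := integral_exp_pos (integrable_dens P)

theorem mu_integral (P : Pot d h) (f : Space d → ℝ) :
    ∫ x, f x ∂mu P = (∫ x, dens P x * f x ∂gam d) / ∫ x, dens P x ∂gam d := by
  rw [mu, integral_tilted, ← integral_div]
  refine integral_congr_ae (ae_of_all _ fun x => ?_)
  simp [dens, div_mul_eq_mul_div]

theorem mu_prob (P : Pot d h) : IsProbabilityMeasure (mu P) :=
  isProbabilityMeasure_tilted (integrable_dens P)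

theorem mu_int {P : Pot d h} {f : Space d → ℝ} (hm : Measurable f) (hg : Grow f) :
    Integrable f (mu P) := by
  refine (integrable_tilted_iff (integrable_dens P) f).2 ?_
  simp only [smul_eq_mul]
  exact tame_integrable ((continuous_dens P).measurable.mul hm)
    (tame_mul (tame_dens P) (tame_of_grow hg))

/-- Probability and integrability. -/
theorem muBasic : MuBasic := fun _ _ P => ⟨mu_prob P, fun _ hm hg => mu_int hm hg⟩

/-- Stein's identity for the tilt. -/
theorem steinMu : SteinMu := by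
  intro d h P f e hf hfg
  have hfG : Grow f := grow_of_fderiv hf hfg
  have hFd : Differentiable ℝ fun x => dens P x * f x :=
    (P.differentiable_W.neg.exp).mul (hf.differentiable one_ne_zero)
  have hgc := P.smooth.continuous
  have hfc := hf.continuous
  have hdc := continuous_dens P
  have hgG : ∀ v : Space d, Grow fun x => ⟪P.g x, v⟫ := fun v =>
    ⟨(‖P.g 0‖ + h) * ‖v‖, 1, fun x => by
      rw [Real.norm_eq_abs, pow_one]
      refine (abs_real_inner_le_norm _ v).trans ?_
      refine (mul_le_mul_of_nonneg_right (P.norm_g_le x) (norm_nonneg v)).trans ?_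
      nlinarith [norm_nonneg v, norm_nonneg x, norm_nonneg (P.g 0), P.h_nonneg,
        mul_nonneg (mul_nonneg (norm_nonneg v) (norm_nonneg x)) (norm_nonneg (P.g 0)),
        mul_nonneg P.h_nonneg (norm_nonneg v)]⟩
  have hDG : ∀ v : Space d, Grow fun x => fderiv ℝ f x v := fun v => by
    obtain ⟨C, k, hC⟩ := hfg
    refine ⟨C * ‖v‖, k, fun x => ((fderiv ℝ f x).le_opNorm v).trans ?_⟩
    rw [mul_right_comm]
    exact mul_le_mul_of_nonneg_right (hC x) (norm_nonneg v)
  have hDc : ∀ v : Space d, Continuous fun x => fderiv ℝ f x v := fun v =>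
    (hf.continuous_fderiv one_ne_zero).clm_apply continuous_const
  have hsub : ∀ v : Space d, Grow fun x => fderiv ℝ f x v - ⟪P.g x, v⟫ * f x := fun v => by
    obtain ⟨A, a, hA⟩ := hDG v
    obtain ⟨B, b, hB⟩ := grow_mul (hgG v) hfG
    refine ⟨|A| + |B|, a + b, fun x => ?_⟩
    refine (norm_sub_le _ _).trans ?_
    rw [add_mul]
    have h1 : (1 : ℝ) ≤ 1 + ‖x‖ := by linarith [norm_nonneg x]
    exact add_le_add
      ((hA x).trans (mul_le_mul (le_abs_self A) (pow_le_pow_right₀ h1 (by omega)) (by positivity)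
        (abs_nonneg A)))
      ((hB x).trans (mul_le_mul (le_abs_self B) (pow_le_pow_right₀ h1 (by omega)) (by positivity)
        (abs_nonneg B)))
  have hcoord : ∀ i, ∫ x, x i * (dens P x * f x) ∂gam d
      = ∫ x, dens P x * (fderiv ℝ f x (ev i) - ⟪P.g x, ev i⟫ * f x) ∂gam d := by
    intro i
    refine P245.stein (n := d) i hFd (fun x => ?_) ?_ (tame_mul (tame_dens P) (tame_of_grow hfG))
      (tame_mul (tame_dens P) (tame_of_grow (hsub (ev i))))
    · have h1 : HasDerivAt (fun s : ℝ => x + s • ev i) (ev i) 0 := by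
        simpa using ((hasDerivAt_id (0 : ℝ)).smul_const (ev i)).const_add x
      have h2 : HasFDerivAt (fun x => dens P x * f x) _ x :=
        ((P.grad x).neg.exp).mul (hf.differentiable one_ne_zero x).hasFDerivAt
      refine (h2.comp_hasDerivAt_of_eq (0 : ℝ) h1 (by simp)).congr_deriv ?_
      simp [dens]
      ring
    · exact hdc.mul ((hDc _).sub ((hgc.inner continuous_const).mul hfc))
  have hint : ∀ F : Space d → ℝ, Measurable F → Grow F → Integrable (fun x => dens P x * F x) (gam d) :=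
    fun F hm hG => tame_integrable (hdc.measurable.mul hm) (tame_mul (tame_dens P) (tame_of_grow hG))
  have e0 : e = ∑ i, e i • ev i := by
    ext j
    simp [Pi.single_apply]
  rw [mu_integral, mu_integral]
  congr 1
  have key : ∫ x, ⟪e, x⟫ * (dens P x * f x) ∂gam d
      = ∫ x, dens P x * (fderiv ℝ f x e - ⟪P.g x, e⟫ * f x) ∂gam d := by
    have eL : ∀ x, ⟪e, x⟫ * (dens P x * f x) = ∑ i, e i * (x i * (dens P x * f x)) := fun x => by
      rw [← inner_apply_sum e x, Finset.sum_mul]
      exact Finset.sum_congr rfl fun i _ => by ring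
    have eR : ∀ x, dens P x * (fderiv ℝ f x e - ⟪P.g x, e⟫ * f x)
        = ∑ i, e i * (dens P x * (fderiv ℝ f x (ev i) - ⟪P.g x, ev i⟫ * f x)) := fun x => by
      conv_lhs => rw [e0]
      simp only [map_sum, inner_sum, map_smul, real_inner_smul_right, smul_eq_mul, Finset.sum_mul,
        mul_sub, ← Finset.sum_sub_distrib, Finset.mul_sum]
      exact Finset.sum_congr rfl fun i _ => by ring
    simp only [eL, eR]
    rw [integral_finsetSum, integral_finsetSum]
    · simp only [integral_const_mul, hcoord]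
    · intro i _
      exact (hint _ ((hDc _).sub ((hgc.inner continuous_const).mul hfc)).measurable
        (hsub _)).const_mul _
    · intro i _
      have hG : Grow fun x : Space d => x i * f x :=
        grow_mul (⟨1, 1, fun x => by
          rw [one_mul, pow_one, Real.norm_eq_abs]
          linarith [P245.abs_coord_le x i]⟩) hfG
      refine Integrable.const_mul ?_ _
      refine (hint _ ((by fun_prop : Continuous fun x : Space d => x i).mul hfc).measurable hG).congr
        (ae_of_all _ fun x => by simp only [Pi.mul_apply]; ring)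
  have i1 : Integrable (fun x => dens P x * (⟪e, x⟫ * f x)) (gam d) :=
    hint _ ((by fun_prop : Continuous fun x : Space d => ⟪e, x⟫).mul hfc).measurable
      (grow_mul (grow_inner e) hfG)
  have i2 : Integrable (fun x => dens P x * (⟪P.g x, e⟫ * f x)) (gam d) :=
    hint _ ((hgc.inner continuous_const).mul hfc).measurable (grow_mul (hgG e) hfG)
  have i3 : Integrable (fun x => dens P x * fderiv ℝ f x e) (gam d) := hint _ (hDc e).measurable (hDG e)
  have e1 : ∀ x, dens P x * (⟪e, x + P.g x⟫ * f x)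
      = dens P x * (⟪e, x⟫ * f x) + dens P x * (⟪P.g x, e⟫ * f x) := fun x => by
    rw [inner_add_right, real_inner_comm e (P.g x)]; ring
  simp only [e1]
  rw [integral_add i1 i2]
  simp only [mul_sub] at key
  rw [integral_sub i3 i2] at key
  have e2 : ∀ x, ⟪e, x⟫ * (dens P x * f x) = dens P x * (⟪e, x⟫ * f x) := fun x => by ring
  simp only [e2] at key
  linarith
where
  inner_apply_sum {d : ℕ} (e x : Space d) : ∑ i, e i * x i = ⟪e, x⟫ := by
    simp [PiLp.inner_apply, mul_comm]

/-- Second moments. -/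
theorem momentMu : MomentMu := by
  intro d h P hh
  have := mu_prob P
  have hgc := P.smooth.continuous
  have hG2 : Grow fun x : Space d => ‖x‖ ^ 2 := ⟨1, 2, fun x => by
    rw [one_mul, norm_pow, norm_norm]
    exact pow_le_pow_left₀ (norm_nonneg x) (by linarith) 2⟩
  have i2 : Integrable (fun x : Space d => ‖x‖ ^ 2) (mu P) := mu_int (by fun_prop) hG2
  have icoord : ∀ i, Integrable (fun x : Space d => ⟪ev i, x + P.g x⟫ * x i) (mu P) := fun i => by
    refine mu_int (by fun_prop) ⟨(1 + ‖P.g 0‖ + h), 2, fun x => ?_⟩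
    rw [norm_mul, sq, ← mul_assoc, Real.norm_eq_abs, Real.norm_eq_abs]
    refine mul_le_mul ((abs_real_inner_le_norm _ _).trans ?_)
      ((P245.abs_coord_le x i).trans (by linarith)) (abs_nonneg _)
      (mul_nonneg (by have := P.h_nonneg; positivity) (by positivity))
    rw [show ‖ev i‖ = 1 by simp, one_mul]
    refine (norm_add_le _ _).trans ?_
    nlinarith [P.norm_g_le x, norm_nonneg x, norm_nonneg (P.g 0), P.h_nonneg,
      mul_nonneg (norm_nonneg (P.g 0)) (norm_nonneg x)]
  have hst : ∀ i, ∫ x, ⟪ev i, x + P.g x⟫ * x i ∂mu P = 1 := fun i => by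
    have he : ∀ x, fderiv ℝ (fun x : Space d => x i) x = EuclideanSpace.proj i := fun x =>
      (EuclideanSpace.proj (𝕜 := ℝ) i).fderiv
    rw [steinMu d h P (fun x => x i) (ev i) (EuclideanSpace.proj (𝕜 := ℝ) i).contDiff
      ⟨‖(EuclideanSpace.proj i : Space d →L[ℝ] ℝ)‖, 0, fun x => by simp [he x]⟩]
    simp [he]
  have hsum : ∫ x, (‖x‖ ^ 2 + ⟪P.g x, x⟫) ∂mu P = d := by
    have e : ∀ x : Space d, ‖x‖ ^ 2 + ⟪P.g x, x⟫ = ∑ i, ⟪ev i, x + P.g x⟫ * x i := fun x => by
      simp only [EuclideanSpace.inner_single_left, map_one, one_mul, PiLp.add_apply, add_mul,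
        Finset.sum_add_distrib]
      rw [← real_inner_self_eq_norm_sq, PiLp.inner_apply, PiLp.inner_apply]
      simp [mul_comm, sq]
    simp only [e]
    rw [integral_finsetSum _ fun i _ => icoord i]
    simp [hst]
  have hlow : ∀ x, ‖x‖ ^ 2 / 2 - ‖P.g 0‖ ^ 2 / 2 ≤ ‖x‖ ^ 2 + ⟪P.g x, x⟫ := fun x => by
    have h1 := P.mono x 0
    rw [sub_zero, inner_sub_left] at h1
    nlinarith [neg_abs_le ⟪P.g 0, x⟫, abs_real_inner_le_norm (P.g 0) x,
      sq_nonneg (‖x‖ - ‖P.g 0‖)]
  have iq : Integrable (fun x => ‖x‖ ^ 2 + ⟪P.g x, x⟫) (mu P) := by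
    refine i2.add (mu_int (by fun_prop) ⟨‖P.g 0‖ + h, 2, fun x => ?_⟩)
    rw [Real.norm_eq_abs, sq, ← mul_assoc]
    refine (abs_real_inner_le_norm _ _).trans (mul_le_mul ((P.norm_g_le x).trans ?_) (by linarith)
      (norm_nonneg x) (mul_nonneg (by have := P.h_nonneg; positivity) (by positivity)))
    nlinarith [norm_nonneg x, norm_nonneg (P.g 0), P.h_nonneg,
      mul_nonneg (norm_nonneg (P.g 0)) (norm_nonneg x)]
  have hx := integral_mono (((i2.div_const 2)).sub (integrable_const _)) iq hlow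
  simp only [Pi.sub_apply] at hx
  rw [integral_sub (i2.div_const 2) (integrable_const _), integral_div, hsum] at hx
  simp only [integral_const, probReal_univ, one_smul] at hx
  refine ⟨by linarith, ?_⟩
  have hpt : ∀ x, ‖P.g x‖ ^ 2 ≤ 2 * ‖P.g 0‖ ^ 2 + 2 * h ^ 2 * ‖x‖ ^ 2 := fun x => by
    nlinarith [pow_le_pow_left₀ (norm_nonneg _) (P.norm_g_le x) 2,
      sq_nonneg (‖P.g 0‖ - h * ‖x‖)]
  have ig : Integrable (fun x => ‖P.g x‖ ^ 2) (mu P) :=
    Integrable.mono' ((integrable_const (2 * ‖P.g 0‖ ^ 2)).add (i2.const_mul (2 * h ^ 2)))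
      (by fun_prop) (ae_of_all _ fun x => by
        rw [Real.norm_eq_abs, abs_of_nonneg (sq_nonneg _)]; exact hpt x)
  have hh2 : h ^ 2 ≤ 1 := pow_le_one₀ P.h_nonneg hh
  have hgs := mul_le_mul_of_nonneg_left
    (show ∫ x, ‖x‖ ^ 2 ∂mu P ≤ 2 * d + ‖P.g 0‖ ^ 2 by linarith) (show 0 ≤ 2 * h ^ 2 by positivity)
  refine (integral_mono ig ((integrable_const _).add (i2.const_mul _)) hpt).trans ?_
  simp only [Pi.add_apply]
  rw [integral_add (integrable_const _) (i2.const_mul _), integral_const_mul (2 * h ^ 2)]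
  simp only [integral_const, probReal_univ, one_smul]
  have hsq : Real.sqrt d ^ 2 = d := Real.sq_sqrt (Nat.cast_nonneg d)
  have : 0 ≤ h * Real.sqrt d * ‖P.g 0‖ := by have := P.h_nonneg; positivity
  rw [gsize, show (h * Real.sqrt d + ‖P.g 0‖) ^ 2
    = h ^ 2 * Real.sqrt d ^ 2 + 2 * (h * Real.sqrt d * ‖P.g 0‖) + ‖P.g 0‖ ^ 2 by ring, hsq]
  nlinarith [mul_le_mul_of_nonneg_right hh2 (sq_nonneg ‖P.g 0‖)]

/-! ### Covariances -/

/-- Cauchy and Schwarz. -/
theorem sq_integral_mul_le {α : Type} [MeasurableSpace α] {μ : Measure α} {u v : α → ℝ}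
    (i1 : Integrable (fun x => u x ^ 2) μ) (i2 : Integrable (fun x => v x ^ 2) μ)
    (i3 : Integrable (fun x => u x * v x) μ) :
    (∫ x, u x * v x ∂μ) ^ 2 ≤ (∫ x, u x ^ 2 ∂μ) * ∫ x, v x ^ 2 ∂μ := by
  have hq : ∀ t : ℝ, 0 ≤ (∫ x, v x ^ 2 ∂μ) * (t * t) + 2 * (∫ x, u x * v x ∂μ) * t
      + ∫ x, u x ^ 2 ∂μ := fun t => by
    have h0 : 0 ≤ ∫ x, (u x + t * v x) ^ 2 ∂μ := integral_nonneg fun x => sq_nonneg _
    have e : (fun x => (u x + t * v x) ^ 2)
        = fun x => t ^ 2 * v x ^ 2 + (2 * t * (u x * v x) + u x ^ 2) := by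
      funext x; ring
    have i12 : Integrable (fun x => 2 * t * (u x * v x) + u x ^ 2) μ := (i3.const_mul _).add i1
    rw [e, integral_add (i2.const_mul _) i12, integral_add (i3.const_mul _) i1, integral_const_mul,
      integral_const_mul] at h0
    linarith
  have := discrim_le_zero hq
  rw [discrim] at this
  linarith

theorem var_nonneg {α : Type} [MeasurableSpace α] (μ : Measure α) (f : α → ℝ) : 0 ≤ var μ f :=
  integral_nonneg fun _ => sq_nonneg _

theorem abs_cov_le (P : Pot d h) {f g : Space d → ℝ} (hf : Measurable f) (hfg : Grow f)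
    (hg : Measurable g) (hgg : Grow g) :
    |cov (mu P) f g| ≤ Real.sqrt (var (mu P) f * var (mu P) g) := by
  refine Real.abs_le_sqrt ?_
  have hf' := grow_sub_const hfg (∫ y, f y ∂mu P)
  have hg' := grow_sub_const hgg (∫ y, g y ∂mu P)
  have h1 : Measurable fun x => f x - ∫ y, f y ∂mu P := hf.sub measurable_const
  have h2 : Measurable fun x => g x - ∫ y, g y ∂mu P := hg.sub measurable_const
  exact sq_integral_mul_le
    ((mu_int (h1.mul h1) (grow_mul hf' hf')).congr (ae_of_all _ fun x => by simp [sq]))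
    ((mu_int (h2.mul h2) (grow_mul hg' hg')).congr (ae_of_all _ fun x => by simp [sq]))
    (mu_int (h1.mul h2) (grow_mul hf' hg'))

theorem cov_eq (P : Pot d h) {f g : Space d → ℝ} (hf : Measurable f) (hfg : Grow f)
    (hg : Measurable g) (hgg : Grow g) :
    cov (mu P) f g = ∫ x, f x * g x ∂mu P - (∫ x, f x ∂mu P) * ∫ x, g x ∂mu P := by
  have := mu_prob P
  have i1 : Integrable (fun x => f x * g x) (mu P) := mu_int (hf.mul hg) (grow_mul hfg hgg)
  have i2 := mu_int (P := P) hf hfg
  have i3 := mu_int (P := P) hg hgg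
  set A := ∫ x, f x ∂mu P with hA
  set B := ∫ x, g x ∂mu P with hB
  have e : ∀ x, (f x - A) * (g x - B) = f x * g x - (B * f x + (A * g x - A * B)) := fun x => by ring
  have i5 : Integrable (fun x => A * g x - A * B) (mu P) := (i3.const_mul A).sub (integrable_const _)
  have i4 : Integrable (fun x => B * f x + (A * g x - A * B)) (mu P) := (i2.const_mul B).add i5
  rw [cov, ← hA, ← hB]
  simp only [e]
  rw [integral_sub i1 i4, integral_add (i2.const_mul B) i5, integral_sub (i3.const_mul A)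
    (integrable_const _), integral_const_mul, integral_const_mul, ← hA, ← hB]
  simp
  ring

/-! ### Interpolation -/

/-- The potential scaled down. -/
def Pot.scale (P : Pot d h) (t : ℝ) (ht : t ∈ Icc (0 : ℝ) 1) : Pot d h where
  W := fun x => t * P.W x
  g := fun x => t • P.g x
  h_nonneg := P.h_nonneg
  grad := fun x => ((P.grad x).const_mul t).congr_fderiv (by simp [map_smul])
  smooth := P.smooth.const_smul t
  lip := fun x y => by
    rw [← smul_sub, norm_smul, Real.norm_eq_abs, abs_of_nonneg ht.1]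
    exact (mul_le_of_le_one_left (norm_nonneg _) ht.2).trans (P.lip x y)
  mono := fun x y => by
    rw [← smul_sub, real_inner_smul_left]
    exact mul_nonneg ht.1 (P.mono x y)

theorem Pot.grow_W (P : Pot d h) : Grow P.W :=
  grow_of_fderiv P.contDiff_W ⟨‖P.g 0‖ + h, 1, fun x => by
    simp only [(P.grad x).fderiv, innerSL_apply_norm, pow_one]
    refine (P.norm_g_le x).trans ?_
    nlinarith [norm_nonneg x, norm_nonneg (P.g 0), P.h_nonneg,
      mul_nonneg (norm_nonneg (P.g 0)) (norm_nonneg x)]⟩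

theorem dens_scale_le (P : Pot d h) {t : ℝ} (ht : t ∈ Icc (0 : ℝ) 1) (x : Space d) :
    Real.exp (-(t * P.W x)) ≤ 1 + dens P x := by
  rw [dens]
  rcases le_or_gt 0 (P.W x) with hw | hw
  · have : Real.exp (-(t * P.W x)) ≤ 1 :=
      Real.exp_le_one_iff.2 (by linarith [mul_nonneg ht.1 hw])
    linarith [Real.exp_pos (-P.W x)]
  · have : Real.exp (-(t * P.W x)) ≤ Real.exp (-P.W x) :=
      Real.exp_le_exp.2 (by nlinarith [ht.2])
    linarith

/-- The interpolated average is differentiable, with derivative minus the covariance with `W`. -/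
theorem interp_deriv (P : Pot d h) {f : Space d → ℝ} (hf : Measurable f) (hfg : Grow f) :
    ContinuousOn (fun t => (∫ x, Real.exp (-(t * P.W x)) * f x ∂gam d) /
        ∫ x, Real.exp (-(t * P.W x)) ∂gam d) (Icc 0 1) ∧
    ∀ t (ht : t ∈ Ioo (0 : ℝ) 1), HasDerivAt (fun t => (∫ x, Real.exp (-(t * P.W x)) * f x ∂gam d) /
        ∫ x, Real.exp (-(t * P.W x)) ∂gam d)
      (-cov (mu (P.scale t (Ioo_subset_Icc_self ht))) f P.W) t := by
  have hWc : Continuous P.W := P.differentiable_W.continuous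
  have h1g : Grow fun _ : Space d => (1 : ℝ) := ⟨1, 0, fun x => by simp⟩
  have h1d : Tame fun x => 1 + dens P x := by
    obtain ⟨A, c, hA⟩ := tame_dens P
    refine ⟨1 + A, |c|, fun x => ?_⟩
    have h0 : 1 ≤ Real.exp (|c| * ‖x‖) := Real.one_le_exp (by positivity)
    have hA0 : 0 ≤ A :=
      nonneg_of_mul_nonneg_left ((abs_nonneg _).trans (hA x)) (Real.exp_pos _)
    have h2 : Real.exp (c * ‖x‖) ≤ Real.exp (|c| * ‖x‖) :=
      Real.exp_le_exp.2 (mul_le_mul_of_nonneg_right (le_abs_self c) (norm_nonneg x))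
    have h3 := mul_le_mul_of_nonneg_left h2 hA0
    have h4 := abs_add_le 1 (dens P x)
    rw [abs_one] at h4
    linarith [hA x]
  have hb : ∀ F : Space d → ℝ, Measurable F → Grow F →
      Integrable (fun x => (1 + dens P x) * |F x|) (gam d) := fun F hm hG => by
    refine tame_integrable ((measurable_const.add (continuous_dens P).measurable).mul hm.abs)
      (tame_mul h1d ?_)
    obtain ⟨A, c, hA⟩ := tame_of_grow hG
    exact ⟨A, c, fun x => by rw [abs_abs]; exact hA x⟩
  have hmain : ∀ F : Space d → ℝ, Measurable F → Grow F →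
      ContinuousOn (fun t => ∫ x, Real.exp (-(t * P.W x)) * F x ∂gam d) (Icc 0 1) ∧
      ∀ t ∈ Ioo (0 : ℝ) 1, HasDerivAt (fun t => ∫ x, Real.exp (-(t * P.W x)) * F x ∂gam d)
        (-∫ x, Real.exp (-(t * P.W x)) * (P.W x * F x) ∂gam d) t := by
    intro F hm hG
    have hmm : ∀ t : ℝ, AEStronglyMeasurable (fun x => Real.exp (-(t * P.W x)) * F x) (gam d) :=
      fun t => (((by fun_prop : Continuous fun x => Real.exp (-(t * P.W x))).measurable).mul
        hm).aestronglyMeasurable
    refine ⟨continuousOn_of_dominated (bound := fun x => (1 + dens P x) * |F x|)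
      (fun t _ => hmm t) (fun t ht => ae_of_all _ fun x => ?_) (hb F hm hG)
      (ae_of_all _ fun x => by fun_prop), fun t ht => ?_⟩
    · rw [norm_mul, Real.norm_eq_abs, Real.norm_eq_abs, Real.abs_exp]
      exact mul_le_mul_of_nonneg_right (dens_scale_le P ht x) (abs_nonneg _)
    · refine (hasDerivAt_integral_of_dominated_loc_of_deriv_le
        (F' := fun s x => -(Real.exp (-(s * P.W x)) * (P.W x * F x)))
        (bound := fun x => (1 + dens P x) * |P.W x * F x|) (Ioo_mem_nhds ht.1 ht.2)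
        (Eventually.of_forall hmm) ?_ ?_ (ae_of_all _ fun x s hs => ?_)
        (hb (fun x => P.W x * F x) (hWc.measurable.mul hm) (grow_mul P.grow_W hG))
        (ae_of_all _ fun x s hs => ?_)).2.congr_deriv (integral_neg _)
      · refine Integrable.mono' (hb F hm hG) (hmm t) (ae_of_all _ fun x => ?_)
        rw [norm_mul, Real.norm_eq_abs, Real.norm_eq_abs, Real.abs_exp]
        exact mul_le_mul_of_nonneg_right (dens_scale_le P (Ioo_subset_Icc_self ht) x) (abs_nonneg _)
      · exact (((by fun_prop : Continuous fun x => Real.exp (-(t * P.W x))).measurable).mul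
          (hWc.measurable.mul hm)).neg.aestronglyMeasurable
      · rw [norm_neg, norm_mul, Real.norm_eq_abs, Real.norm_eq_abs, Real.abs_exp]
        exact mul_le_mul_of_nonneg_right (dens_scale_le P (Ioo_subset_Icc_self hs) x) (abs_nonneg _)
      · refine ((((hasDerivAt_id' s).mul_const (P.W x)).fun_neg).exp.mul_const (F x)).congr_deriv ?_
        ring
  obtain ⟨hNc, hNd⟩ := hmain f hf hfg
  obtain ⟨hZc, hZd⟩ := hmain (fun _ => 1) measurable_const h1g
  simp only [mul_one] at hZc hZd
  have hpos : ∀ t ∈ Icc (0 : ℝ) 1, 0 < ∫ x, Real.exp (-(t * P.W x)) ∂gam d := fun t ht =>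
    norm_pos (P.scale t ht)
  refine ⟨hNc.div hZc fun t ht => (hpos t ht).ne', fun t ht => ?_⟩
  refine ((hNd t ht).div (hZd t ht) (hpos t (Ioo_subset_Icc_self ht)).ne').congr_deriv ?_
  rw [cov_eq _ hf hfg hWc.measurable P.grow_W, mu_integral, mu_integral, mu_integral]
  simp only [dens, Pot.scale]
  have hne := (hpos t (Ioo_subset_Icc_self ht)).ne'
  have e : ∀ x, Real.exp (-(t * P.W x)) * (f x * P.W x)
      = Real.exp (-(t * P.W x)) * (P.W x * f x) := fun x => by ring
  simp only [e]
  field_simp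
  ring

/-- Distance of the tilted law from the Gaussian law. -/
theorem interpMu (hP : PoincareMu) : InterpMu := by
  intro d h P hh
  have hgs : 0 ≤ gsize P := by have := P.h_nonneg; rw [gsize]; positivity
  have core : ∀ (f : Space d → ℝ) (L : ℝ), 0 ≤ L → Measurable f → Grow f →
      (∀ t (ht : t ∈ Icc (0 : ℝ) 1), var (mu (P.scale t ht)) f ≤ L ^ 2) →
        |∫ x, f x ∂mu P - ∫ x, f x ∂gam d| ≤ 3 * L * gsize P := by
    intro f L hL hf hfg hvar
    obtain ⟨hc, hd⟩ := interp_deriv P hf hfg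
    obtain ⟨c, hc', e⟩ := exists_hasDerivAt_eq_slope _
      (fun t => if ht : t ∈ Ioo (0 : ℝ) 1 then
        -cov (mu (P.scale t (Ioo_subset_Icc_self ht))) f P.W else 0) zero_lt_one hc
      fun t ht => by simpa [ht] using hd t ht
    rw [dif_pos hc'] at e
    simp only [sub_zero, div_one, zero_mul, neg_zero, Real.exp_zero, one_mul, integral_const,
      probReal_univ, one_smul] at e
    have e1 : ∫ x, f x ∂mu P = (∫ x, Real.exp (-P.W x) * f x ∂gam d) / ∫ x, Real.exp (-P.W x) ∂gam d :=
      mu_integral P f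
    rw [e1, ← e, abs_neg]
    have hcI : c ∈ Icc (0 : ℝ) 1 := Ioo_subset_Icc_self hc'
    set Q := P.scale c hcI with hQ
    have := mu_prob Q
    refine (abs_cov_le Q hf hfg P.differentiable_W.continuous.measurable P.grow_W).trans ?_
    refine Real.sqrt_le_iff.2 ⟨by positivity, ?_⟩
    obtain ⟨hx, -⟩ := momentMu d h Q hh
    have hG2 : Grow fun x : Space d => ‖x‖ ^ 2 := ⟨1, 2, fun x => by
      rw [one_mul, norm_pow, norm_norm]
      exact pow_le_pow_left₀ (norm_nonneg x) (by linarith) 2⟩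
    have i2 : Integrable (fun x : Space d => ‖x‖ ^ 2) (mu Q) := mu_int (by fun_prop) hG2
    have hpt : ∀ x, ‖fderiv ℝ P.W x‖ ^ 2 ≤ 2 * ‖P.g 0‖ ^ 2 + 2 * h ^ 2 * ‖x‖ ^ 2 := fun x => by
      rw [(P.grad x).fderiv, innerSL_apply_norm]
      nlinarith [pow_le_pow_left₀ (norm_nonneg _) (P.norm_g_le x) 2,
        sq_nonneg (‖P.g 0‖ - h * ‖x‖)]
    have hW : var (mu Q) P.W ≤ 9 * gsize P ^ 2 := by
      refine (hP d h Q P.W P.contDiff_W ⟨‖P.g 0‖ + h, 1, fun x => ?_⟩).trans ?_
      · simp only [(P.grad x).fderiv, innerSL_apply_norm, pow_one]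
        refine (P.norm_g_le x).trans ?_
        nlinarith [norm_nonneg x, norm_nonneg (P.g 0), P.h_nonneg,
          mul_nonneg (norm_nonneg (P.g 0)) (norm_nonneg x)]
      · refine (integral_mono_of_nonneg (ae_of_all _ fun x => sq_nonneg _)
          ((integrable_const _).add (i2.const_mul (2 * h ^ 2))) (ae_of_all _ hpt)).trans ?_
        simp only [Pi.add_apply]
        rw [integral_add (integrable_const _) (i2.const_mul _), integral_const_mul (2 * h ^ 2)]
        simp only [integral_const, probReal_univ, one_smul]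
        have hq : ‖Q.g 0‖ ^ 2 ≤ ‖P.g 0‖ ^ 2 := by
          rw [hQ]
          simp only [Pot.scale, norm_smul, Real.norm_eq_abs, abs_of_nonneg hcI.1]
          exact pow_le_pow_left₀ (by have := hcI.1; positivity)
            (mul_le_of_le_one_left (norm_nonneg _) hcI.2) 2
        have hh2 : h ^ 2 ≤ 1 := pow_le_one₀ P.h_nonneg hh
        have h1 := mul_le_mul_of_nonneg_left (hx.trans (add_le_add le_rfl hq))
          (show 0 ≤ 2 * h ^ 2 by positivity)
        have : 0 ≤ h * Real.sqrt d * ‖P.g 0‖ := by have := P.h_nonneg; positivity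
        have hsq : Real.sqrt d ^ 2 = d := Real.sq_sqrt (Nat.cast_nonneg d)
        rw [gsize, show (h * Real.sqrt d + ‖P.g 0‖) ^ 2
          = h ^ 2 * Real.sqrt d ^ 2 + 2 * (h * Real.sqrt d * ‖P.g 0‖) + ‖P.g 0‖ ^ 2 by ring, hsq]
        nlinarith [mul_le_mul_of_nonneg_right hh2 (sq_nonneg ‖P.g 0‖)]
    calc var (mu Q) f * var (mu Q) P.W ≤ L ^ 2 * (9 * gsize P ^ 2) :=
          mul_le_mul (hvar c hcI) hW (var_nonneg _ _) (sq_nonneg L)
      _ = _ := by ring
  refine ⟨fun f hf hb => ?_, fun f L hL hf hB => ?_⟩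
  · have hg : Grow f := ⟨1, 0, fun x => by simpa using hb x⟩
    refine (core f 1 zero_le_one hf hg fun t ht => ?_).trans_eq (by ring)
    have := mu_prob (P.scale t ht)
    have i1 := mu_int (P := P.scale t ht) hf hg
    have i2 : Integrable (fun x => f x * f x) (mu (P.scale t ht)) :=
      mu_int (hf.mul hf) (grow_mul hg hg)
    have e := cov_eq (P.scale t ht) hf hg hf hg
    have e2 : var (mu (P.scale t ht)) f = cov (mu (P.scale t ht)) f f := by simp [var, cov, sq]
    rw [e2, e, one_pow]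
    have : ∫ x, f x * f x ∂mu (P.scale t ht) ≤ 1 := by
      refine (integral_mono i2 (integrable_const (1 : ℝ)) fun x => ?_).trans_eq (by simp)
      have := hb x
      nlinarith [abs_nonneg (f x), abs_mul_abs_self (f x)]
    nlinarith [mul_self_nonneg (∫ x, f x ∂mu (P.scale t ht))]
  · have hGd : Grow fun x => fderiv ℝ f x := ⟨L, 0, fun x => by simpa using hB x⟩
    refine core f L hL hf.continuous.measurable (grow_of_fderiv hf hGd) fun t ht => ?_
    have := mu_prob (P.scale t ht)
    refine (hP d h (P.scale t ht) f hf hGd).trans ?_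
    refine (integral_mono_of_nonneg (ae_of_all _ fun x => sq_nonneg _) (integrable_const (L ^ 2))
      (ae_of_all _ fun x => pow_le_pow_left₀ (norm_nonneg _) (hB x) 2)).trans_eq (by simp)

/-! ### Gaussian averages and posterior averages -/

/-- The Gaussian average at scale `s`. -/
def sm (s : ℝ) (G : Space d → ℝ) (a : Space d) : ℝ := ∫ ξ, G (a + s • ξ) ∂gam d

/-- The Gaussian density translates. -/
theorem gam_shift347 (G : Space d → ℝ) (v : Space d) :
    ∫ g, G g * Real.exp (⟪v, g⟫ - ‖v‖ ^ 2 / 2) ∂gam d = ∫ g, G (g + v) ∂gam d := by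
  rw [P245.integral_gam, P245.integral_gam, ← integral_add_right_eq_self _ v]
  refine integral_congr_ae (ae_of_all _ fun g => ?_)
  have e : P245.gd (n := d) (g + v) * Real.exp (⟪v, g + v⟫ - ‖v‖ ^ 2 / 2) = P245.gd (n := d) g := by
    simp only [P245.gd, mul_assoc, ← Real.exp_add]
    congr 2
    rw [norm_add_sq_real, inner_add_right, real_inner_self_eq_norm_sq, real_inner_comm v g]
    ring
  beta_reduce
  linear_combination G (g + v) * e

theorem post_eq (P : Pot d h) (v : ℝ) (f : Space d → ℝ) (a : Space d) :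
    post P v f a = sm (Real.sqrt v) (fun x => dens P x * f x) a / sm (Real.sqrt v) (dens P) a := by
  rw [post, mu_integral]
  rfl

theorem sm_dens_pos (P : Pot d h) (s : ℝ) (a : Space d) : 0 < sm s (dens P) a :=
  norm_pos (P.aff a s)

theorem sm_shift (s : ℝ) (G : Space d → ℝ) (b a : Space d) :
    sm s (fun x => G x * Real.exp ⟪b, x⟫) a
      = Real.exp (⟪b, a⟫ + ‖s • b‖ ^ 2 / 2) * sm s G (a + (s * s) • b) := by
  have e : ∀ ξ, G (a + s • ξ) * Real.exp ⟪b, a + s • ξ⟫ = Real.exp (⟪b, a⟫ + ‖s • b‖ ^ 2 / 2)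
      * (G (a + s • ξ) * Real.exp (⟪s • b, ξ⟫ - ‖s • b‖ ^ 2 / 2)) := fun ξ => by
    have : ⟪b, a + s • ξ⟫ = ⟪b, a⟫ + ‖s • b‖ ^ 2 / 2 + (⟪s • b, ξ⟫ - ‖s • b‖ ^ 2 / 2) := by
      rw [inner_add_right, real_inner_smul_right, real_inner_smul_left]; ring
    rw [this, Real.exp_add]; ring
  simp only [sm, e, integral_const_mul]
  rw [gam_shift347 (fun ξ => G (a + s • ξ)) (s • b)]
  congr 1
  refine integral_congr_ae (ae_of_all _ fun ξ => ?_)
  simp only [smul_add, smul_smul]
  congr 1
  abel

/-- Absorbing a linear form into the centre. -/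
theorem postShift : PostShift := by
  intro d h P b v hv f _ _ a
  have hd : ∀ x, dens (P.lin b) x = dens P x * Real.exp ⟪b, x⟫ := fun x => by
    simp only [dens, Pot.lin]
    rw [← Real.exp_add]; ring_nf
  have e1 : (fun x => dens (P.lin b) x * f x) = fun x => (dens P x * f x) * Real.exp ⟪b, x⟫ := by
    funext x; rw [hd]; ring
  have e2 : dens (P.lin b) = fun x => dens P x * Real.exp ⟪b, x⟫ := funext hd
  rw [post_eq, post_eq, e1, e2, sm_shift, sm_shift, Real.mul_self_sqrt hv.le,
    mul_div_mul_left _ _ (Real.exp_pos _).ne']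

/-- The rotation of a pair of standard vectors with unit vector `(p, r)`, with a sign on the
second. -/
theorem rot_preserves {p r σ : ℝ} (hr : 0 ≤ r) (hpr : p ^ 2 + r ^ 2 = 1) (hσ : σ = 1 ∨ σ = -1) :
    MeasurePreserving (fun q : Space d × Space d => (p • q.1 + r • q.2, σ • (-r • q.1 + p • q.2)))
      ((gam d).prod (gam d)) ((gam d).prod (gam d)) := by
  have hp : p ^ 2 ≤ 1 := by nlinarith [sq_nonneg r]
  have hp' := abs_le.1 ((sq_le_one_iff_abs_le_one p).1 hp)
  have h1 : MeasurePreserving (ContinuousLinearMap.rotation (E := Space d) (Real.arccos p))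
      ((gam d).prod (gam d)) ((gam d).prod (gam d)) :=
    ⟨(ContinuousLinearMap.rotation (E := Space d) (Real.arccos p)).continuous.measurable,
      IsGaussian.map_rotation_eq_self (by simp) _⟩
  have h2 : MeasurePreserving (fun x : Space d => σ • x) (gam d) (gam d) := by
    rcases hσ with rfl | rfl
    · simp only [one_smul]; exact MeasurePreserving.id (gam d)
    · refine ⟨measurable_const_smul _, ?_⟩
      have := stdGaussian_map (E := Space d) (LinearIsometryEquiv.neg ℝ)
      simpa [Function.comp_def] using this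
  have hs : Real.sin (Real.arccos p) = r := by
    rw [Real.sin_arccos, show 1 - p ^ 2 = r ^ 2 by linarith, Real.sqrt_sq hr]
  have h3 := ((MeasurePreserving.id (gam d)).prod h2).comp h1
  convert h3 using 1
  funext q
  simp [ContinuousLinearMap.rotation_apply, Real.cos_arccos hp'.1 hp'.2, hs]

/-- The posterior identity. -/
theorem posteriorId : PosteriorId := by
  intro d h P α β hβ Φ hΦ hgrow
  obtain ⟨C, k, hC⟩ := hgrow
  have hc2 : 0 < α ^ 2 + β ^ 2 := by positivity
  set c := Real.sqrt (α ^ 2 + β ^ 2) with hcdef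
  have hc : 0 < c := Real.sqrt_pos.2 hc2
  have hcc : c * c = α ^ 2 + β ^ 2 := Real.mul_self_sqrt hc2.le
  set r := |β| / c with hrdef
  have hr : Real.sqrt (β ^ 2 / (α ^ 2 + β ^ 2)) = r := by
    rw [Real.sqrt_div (sq_nonneg β), Real.sqrt_sq_eq_abs]
  obtain ⟨σ, hσ, hσβ⟩ : ∃ σ : ℝ, (σ = 1 ∨ σ = -1) ∧ β * σ = -|β| := by
    rcases le_or_gt 0 β with hb | hb
    · exact ⟨-1, Or.inr rfl, by rw [abs_of_nonneg hb]; ring⟩
    · exact ⟨1, Or.inl rfl, by rw [abs_of_neg hb]; ring⟩
  set T : Space d × Space d → Space d × Space d :=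
    fun q => ((α / c) • q.1 + r • q.2, σ • (-r • q.1 + (α / c) • q.2)) with hTdef
  have hT : MeasurePreserving T ((gam d).prod (gam d)) ((gam d).prod (gam d)) :=
    rot_preserves (by positivity) (by
      rw [hrdef, div_pow, div_pow, sq_abs, ← add_div, sq c, hcc, div_self hc2.ne']) hσ
  have hy : ∀ q : Space d × Space d, α • (T q).1 + β • (T q).2 = c • q.1 := fun q => by
    have e1 : α * (α / c) + β * σ * -r = c := by
      rw [hσβ, hrdef, neg_mul_neg, mul_div_assoc', mul_div_assoc', ← add_div, abs_mul_abs_self,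
        ← sq, ← sq, ← hcc, mul_div_assoc, div_self hc.ne', mul_one]
    have e2 : α * r + β * σ * (α / c) = 0 := by rw [hσβ, hrdef]; ring
    simp only [hTdef, smul_add, smul_smul]
    calc (α * (α / c)) • q.1 + (α * r) • q.2
        + ((β * (σ * -r)) • q.1 + (β * (σ * (α / c))) • q.2)
        = (α * (α / c) + β * σ * -r) • q.1 + (α * r + β * σ * (α / c)) • q.2 := by
          rw [add_smul, add_smul, mul_assoc β σ, mul_assoc β σ]; abel
      _ = c • q.1 := by rw [e1, e2, zero_smul, add_zero]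
  have hctr : ∀ u : Space d, (α / (α ^ 2 + β ^ 2)) • c • u = (α / c) • u := fun u => by
    rw [smul_smul, ← hcc]; congr 1; field_simp
  have hTm : Measurable T := hT.measurable
  have hdm : Measurable (dens P) := (continuous_dens P).measurable
  -- the integrand of the left side
  set H : Space d × Space d → ℝ := fun q => dens P q.1 * Φ (α • q.1 + β • q.2) q.1 with hH
  have hHm : Measurable H := by
    refine (hdm.comp measurable_fst).mul ?_
    exact hΦ.comp ((by fun_prop : Measurable fun q : Space d × Space d =>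
      (α • q.1 + β • q.2, q.1)))
  have hHi : Integrable H ((gam d).prod (gam d)) := by
    obtain ⟨A, a, hA⟩ := tame_dens P
    refine Integrable.mono' ((((P245.integrable_exp_norm (n := d) (a + k * (|α| + 1))).const_mul
      (|A| * |C|)).mul_prod (P245.integrable_exp_norm (n := d) (k * |β|)))) hHm.aestronglyMeasurable
      (ae_of_all _ fun q => ?_)
    rw [hH, Real.norm_eq_abs, abs_mul]
    have h1 : ‖α • q.1 + β • q.2‖ + ‖q.1‖ ≤ (|α| + 1) * ‖q.1‖ + |β| * ‖q.2‖ := by
      have := norm_add_le (α • q.1) (β • q.2)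
      rw [norm_smul, norm_smul, Real.norm_eq_abs, Real.norm_eq_abs] at this
      linarith
    have h2 : |Φ (α • q.1 + β • q.2) q.1|
        ≤ |C| * Real.exp (k * ((|α| + 1) * ‖q.1‖ + |β| * ‖q.2‖)) := by
      refine (hC _ _).trans (mul_le_mul (le_abs_self C) ?_ (by positivity) (abs_nonneg C))
      rw [add_assoc]
      refine (poly_le_exp k _ (by positivity)).trans (Real.exp_le_exp.2 ?_)
      exact mul_le_mul_of_nonneg_left h1 (Nat.cast_nonneg k)
    calc |dens P q.1| * |Φ (α • q.1 + β • q.2) q.1|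
        ≤ |A| * Real.exp (a * ‖q.1‖) * (|C| * Real.exp (k * ((|α| + 1) * ‖q.1‖ + |β| * ‖q.2‖))) :=
          mul_le_mul ((hA _).trans (mul_le_mul_of_nonneg_right (le_abs_self A) (Real.exp_pos _).le))
            h2 (abs_nonneg _) (by positivity)
      _ = |A| * |C| * Real.exp ((a + k * (|α| + 1)) * ‖q.1‖) * Real.exp (k * |β| * ‖q.2‖) := by
          rw [show (a + k * (|α| + 1)) * ‖q.1‖ = a * ‖q.1‖ + k * ((|α| + 1) * ‖q.1‖) by ring,
            show (k : ℝ) * ((|α| + 1) * ‖q.1‖ + |β| * ‖q.2‖)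
              = k * ((|α| + 1) * ‖q.1‖) + k * |β| * ‖q.2‖ by ring, Real.exp_add, Real.exp_add]
          ring
  have hGi : Integrable (fun q => H (T q)) ((gam d).prod (gam d)) :=
    (hT.integrable_comp hHm.aestronglyMeasurable).2 hHi
  -- the posterior average as a function of the observation
  set Φ' : Space d → ℝ := fun y =>
    post P (β ^ 2 / (α ^ 2 + β ^ 2)) (Φ y) ((α / (α ^ 2 + β ^ 2)) • y) with hΦ'
  have hΦ'm : Measurable Φ' := by
    have e : Φ' = fun y =>
        (∫ ξ, (fun p : Space d × Space d => dens P ((α / (α ^ 2 + β ^ 2)) • p.1 + r • p.2)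
          * Φ p.1 ((α / (α ^ 2 + β ^ 2)) • p.1 + r • p.2)) (y, ξ) ∂gam d)
        / ∫ ξ, (fun p : Space d × Space d => dens P ((α / (α ^ 2 + β ^ 2)) • p.1 + r • p.2)) (y, ξ)
            ∂gam d := by
      funext y; rw [hΦ']; beta_reduce; rw [post_eq, hr]; rfl
    have hm2 : Measurable fun p : Space d × Space d =>
        dens P ((α / (α ^ 2 + β ^ 2)) • p.1 + r • p.2) := hdm.comp (by fun_prop)
    have hm3 : Measurable fun p : Space d × Space d =>
        dens P ((α / (α ^ 2 + β ^ 2)) • p.1 + r • p.2)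
          * Φ p.1 ((α / (α ^ 2 + β ^ 2)) • p.1 + r • p.2) :=
      hm2.mul (hΦ.comp (by fun_prop :
        Measurable fun p : Space d × Space d => (p.1, (α / (α ^ 2 + β ^ 2)) • p.1 + r • p.2)))
    rw [e]
    exact ((hm3.stronglyMeasurable.integral_prod_right' (ν := gam d)).measurable).div
      ((hm2.stronglyMeasurable.integral_prod_right' (ν := gam d)).measurable)
  set H' : Space d × Space d → ℝ := fun q => dens P q.1 * Φ' (α • q.1 + β • q.2) with hH'
  have hH'm : Measurable H' :=
    (hdm.comp measurable_fst).mul (hΦ'm.comp (by fun_prop : Measurable fun q : Space d × Space d =>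
      α • q.1 + β • q.2))
  have hpsi : ∀ u, ∫ w, H (T (u, w)) ∂gam d = Φ' (c • u) * sm r (dens P) ((α / c) • u) := fun u => by
    rw [hΦ']; beta_reduce
    rw [hctr, post_eq, hr, div_mul_cancel₀ _ (sm_dens_pos P r _).ne']
    refine integral_congr_ae (ae_of_all _ fun w => ?_)
    simp only [hH, hy]
    simp [hTdef]
  have hG'u : ∀ u w, H' (T (u, w)) = Φ' (c • u) * dens P ((α / c) • u + r • w) := fun u w => by
    simp only [hH', hy]
    rw [mul_comm]
  have hG'i : Integrable (fun q => H' (T q)) ((gam d).prod (gam d)) := by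
    refine (integrable_prod_iff (hH'm.comp hTm).aestronglyMeasurable).2
      ⟨ae_of_all _ fun u => ?_, ?_⟩
    · show Integrable (fun w => H' (T (u, w))) (gam d)
      simp only [hG'u]
      exact (tame_integrable (hdm.comp (by fun_prop : Measurable fun w : Space d =>
        (α / c) • u + r • w)) (tame_comp (tame_dens P) _ r)).const_mul _
    · refine (hGi.integral_prod_left.abs).congr (ae_of_all _ fun u => ?_)
      show |∫ w, H (T (u, w)) ∂gam d| = ∫ w, ‖H' (T (u, w))‖ ∂gam d
      simp only [hG'u, norm_mul, Real.norm_eq_abs, integral_const_mul]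
      rw [hpsi, abs_mul, abs_of_pos (sm_dens_pos P r _)]
      simp only [dens, Real.abs_exp]
      rfl
  have hH'i : Integrable H' ((gam d).prod (gam d)) :=
    (hT.integrable_comp hH'm.aestronglyMeasurable).1 hG'i
  have key : ∀ F : Space d × Space d → ℝ, Measurable F → Integrable F ((gam d).prod (gam d)) →
      ∫ x, ∫ z, F (x, z) ∂gam d ∂gam d = ∫ u, ∫ w, F (T (u, w)) ∂gam d ∂gam d := by
    intro F hFm hFi
    have h1 := integral_prod F hFi
    have h2 := integral_map (μ := (gam d).prod (gam d)) hTm.aemeasurable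
      (f := F) hFm.aestronglyMeasurable
    rw [hT.map_eq] at h2
    have h3 := integral_prod (fun q => F (T q)) ((hT.integrable_comp hFm.aestronglyMeasurable).2 hFi)
    rw [← h1, h2, h3]
  have e1 : ∫ x, dens P x * ∫ z, Φ (α • x + β • z) x ∂gam d ∂gam d
      = ∫ x, dens P x * ∫ z, Φ' (α • x + β • z) ∂gam d ∂gam d := by
    simp only [← integral_const_mul]
    rw [show (fun x => ∫ z, dens P x * Φ (α • x + β • z) x ∂gam d)
        = fun x => ∫ z, H (x, z) ∂gam d from rfl, key H hHm hHi,
      show (fun x => ∫ z, dens P x * Φ' (α • x + β • z) ∂gam d)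
        = fun x => ∫ z, H' (x, z) ∂gam d from rfl, key H' hH'm hH'i]
    refine integral_congr_ae (ae_of_all _ fun u => ?_)
    simp only [hpsi, hG'u, integral_const_mul]
    rfl
  rw [mu_integral, mu_integral, e1]

/-! ### Derivatives -/

/-- The derivative of a Gaussian average, from translating the Gaussian density. -/
theorem hasFDerivAt_sm {s : ℝ} (hs : s ≠ 0) {G : Space d → ℝ} (hm : Measurable G) (hG : Tame G)
    (a : Space d) :
    ∃ D : Space d →L[ℝ] ℝ, HasFDerivAt (sm s G) D a ∧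
      ∀ e, D e = s⁻¹ * ∫ ξ, G (a + s • ξ) * ⟪e, ξ⟫ ∂gam d := by
  set F : Space d → Space d → ℝ := fun δ ξ =>
    G (a + s • ξ) * Real.exp (s⁻¹ * ⟪δ, ξ⟫ - s⁻¹ ^ 2 / 2 * ‖δ‖ ^ 2) with hF
  set F' : Space d → Space d → Space d →L[ℝ] ℝ := fun δ ξ =>
    (G (a + s • ξ) * Real.exp (s⁻¹ * ⟪δ, ξ⟫ - s⁻¹ ^ 2 / 2 * ‖δ‖ ^ 2)) •
      innerSL ℝ (s⁻¹ • ξ - s⁻¹ ^ 2 • δ) with hF'
  have hGm : Measurable fun ξ => G (a + s • ξ) := hm.comp (by fun_prop)
  have hGT : Tame fun ξ => G (a + s • ξ) := tame_comp hG a s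
  have hFm : ∀ δ, Measurable (F δ) := fun δ => hGm.mul (by fun_prop)
  have hF'm : ∀ δ, Measurable fun ξ => G (a + s • ξ) *
      Real.exp (s⁻¹ * ⟪δ, ξ⟫ - s⁻¹ ^ 2 / 2 * ‖δ‖ ^ 2) := hFm
  obtain ⟨A, c, hA⟩ := hGT
  set K := |s⁻¹| + s⁻¹ ^ 2 with hK
  have hexp : ∀ δ ∈ Metric.ball (0 : Space d) 1, ∀ ξ, |F δ ξ| ≤ |A| * Real.exp ((c + |s⁻¹|) * ‖ξ‖) := by
    intro δ hδ ξ
    rw [mem_ball_zero_iff] at hδ
    rw [hF, abs_mul, Real.abs_exp, add_mul, Real.exp_add, ← mul_assoc]
    refine mul_le_mul ((hA ξ).trans (mul_le_mul_of_nonneg_right (le_abs_self A) (Real.exp_pos _).le))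
      (Real.exp_le_exp.2 ?_) (Real.exp_pos _).le (by positivity)
    have h1 : |s⁻¹ * ⟪δ, ξ⟫| ≤ |s⁻¹| * ‖ξ‖ := by
      rw [abs_mul]
      exact mul_le_mul_of_nonneg_left ((abs_real_inner_le_norm δ ξ).trans
        (mul_le_of_le_one_left (norm_nonneg ξ) hδ.le)) (abs_nonneg _)
    have h2 : 0 ≤ s⁻¹ ^ 2 / 2 * ‖δ‖ ^ 2 := by positivity
    linarith [(abs_le.1 h1).2]
  have hbound : ∀ δ ∈ Metric.ball (0 : Space d) 1, ∀ ξ,
      ‖F' δ ξ‖ ≤ |A| * K * Real.exp ((c + |s⁻¹| + 1) * ‖ξ‖) := by
    intro δ hδ ξ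
    have h1 := hexp δ hδ ξ
    rw [mem_ball_zero_iff] at hδ
    rw [hF', norm_smul, innerSL_apply_norm, Real.norm_eq_abs]
    have h2 : ‖s⁻¹ • ξ - s⁻¹ ^ 2 • δ‖ ≤ K * Real.exp ‖ξ‖ := by
      refine (norm_sub_le _ _).trans ?_
      rw [norm_smul, norm_smul, Real.norm_eq_abs, Real.norm_eq_abs,
        abs_of_nonneg (sq_nonneg (s⁻¹)), hK, add_mul]
      have he := Real.add_one_le_exp ‖ξ‖
      have := norm_nonneg ξ
      exact add_le_add (mul_le_mul_of_nonneg_left (by linarith) (abs_nonneg _))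
        (mul_le_mul_of_nonneg_left (by linarith) (sq_nonneg _))
    refine (mul_le_mul h1 h2 (norm_nonneg _) (by positivity)).trans_eq ?_
    rw [add_mul (c + |s⁻¹|) 1, one_mul, Real.exp_add ((c + |s⁻¹|) * ‖ξ‖) ‖ξ‖]
    ring
  have hder : ∀ ξ δ, HasFDerivAt (fun x => F x ξ) (F' δ ξ) δ := by
    intro ξ δ
    have h1 : HasFDerivAt (fun x : Space d => ⟪x, ξ⟫) (innerSL ℝ ξ) δ := by
      refine (((innerSL ℝ ξ).hasFDerivAt (x := δ))).congr_of_eventuallyEq
        (Eventually.of_forall fun x => ?_)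
      simp [real_inner_comm]
    have h2 := ((h1.const_mul s⁻¹).sub
      ((hasStrictFDerivAt_norm_sq δ).hasFDerivAt.const_mul (s⁻¹ ^ 2 / 2))).exp.const_mul
        (G (a + s • ξ))
    refine h2.congr_fderiv ?_
    ext v
    simp [hF']
    ring
  have hint : Integrable (F' 0) (gam d) := by
    refine Integrable.mono' ((P245.integrable_exp_norm (n := d) (c + |s⁻¹| + 1)).const_mul (|A| * K))
      ?_ (ae_of_all _ fun ξ => hbound 0 (Metric.mem_ball_self one_pos) ξ)
    exact (hF'm 0).aestronglyMeasurable.smul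
      (((innerSL ℝ).continuous.comp (by fun_prop : Continuous fun ξ : Space d =>
        s⁻¹ • ξ - s⁻¹ ^ 2 • (0 : Space d))).aestronglyMeasurable)
  have hmain : HasFDerivAt (fun δ => ∫ ξ, F δ ξ ∂gam d) (∫ ξ, F' 0 ξ ∂gam d) 0 :=
    hasFDerivAt_integral_of_dominated_of_fderiv_le (Metric.ball_mem_nhds 0 one_pos)
      (Eventually.of_forall fun δ => (hFm δ).aestronglyMeasurable)
      (Integrable.mono' ((P245.integrable_exp_norm (n := d) (c + |s⁻¹|)).const_mul |A|)
        (hFm 0).aestronglyMeasurable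
        (ae_of_all _ fun ξ => hexp 0 (Metric.mem_ball_self one_pos) ξ))
      hint.aestronglyMeasurable (ae_of_all _ fun ξ δ hδ => hbound δ hδ ξ)
      ((P245.integrable_exp_norm (n := d) (c + |s⁻¹| + 1)).const_mul (|A| * K))
      (ae_of_all _ fun ξ δ _ => hder ξ δ)
  refine ⟨∫ ξ, F' 0 ξ ∂gam d, ?_, fun e => ?_⟩
  · have e : sm s G = fun x => ∫ ξ, F (x - a) ξ ∂gam d := by
      funext x
      simp only [sm, hF]
      have h1 := gam_shift347 (fun ξ => G (a + s • ξ)) (s⁻¹ • (x - a))
      simp only [smul_add, smul_smul, mul_inv_cancel₀ hs, one_smul] at h1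
      refine Eq.trans ?_ (h1.symm.trans ?_)
      · refine integral_congr_ae (ae_of_all _ fun ξ => ?_)
        beta_reduce; congr 1; abel
      · refine integral_congr_ae (ae_of_all _ fun ξ => ?_)
        beta_reduce
        rw [real_inner_smul_left, norm_smul, mul_pow, Real.norm_eq_abs, sq_abs]
        ring_nf
    rw [e]
    refine (HasFDerivAt.comp (g := fun δ => ∫ ξ, F δ ξ ∂gam d) a
      (by rw [id, sub_self]; exact hmain) ((hasFDerivAt_id a).sub_const a)).congr_fderiv ?_
    simp
  · rw [ContinuousLinearMap.integral_apply hint, ← integral_const_mul]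
    refine integral_congr_ae (ae_of_all _ fun ξ => ?_)
    simp [hF', real_inner_comm ξ e]
    ring

theorem differentiable_sm {s : ℝ} (hs : s ≠ 0) {G : Space d → ℝ} (hm : Measurable G) (hG : Tame G) :
    Differentiable ℝ (sm s G) := fun a => (hasFDerivAt_sm hs hm hG a).choose_spec.1.differentiableAt

theorem tame_inner (e : Space d) : Tame fun x : Space d => ⟪e, x⟫ := tame_of_grow (grow_inner e)

theorem fderiv_sm {s : ℝ} (hs : s ≠ 0) {G : Space d → ℝ} (hm : Measurable G) (hG : Tame G)
    (a e : Space d) :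
    fderiv ℝ (sm s G) a e
      = (s * s)⁻¹ * (sm s (fun x => G x * ⟪e, x⟫) a - ⟪e, a⟫ * sm s G a) := by
  obtain ⟨D, hD, he⟩ := hasFDerivAt_sm hs hm hG a
  rw [hD.fderiv, he, sm, sm]
  have h1 : Measurable fun ξ => G (a + s • ξ) := hm.comp (by fun_prop)
  have i0 : Integrable (fun ξ => G (a + s • ξ)) (gam d) := tame_integrable h1 (tame_comp hG a s)
  have i1 : Integrable (fun ξ => G (a + s • ξ) * ⟪e, a + s • ξ⟫) (gam d) :=
    tame_integrable (h1.mul (by fun_prop))
      (tame_comp (F := fun x => G x * ⟪e, x⟫) (tame_mul hG (tame_inner e)) a s)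
  rw [← integral_const_mul ⟪e, a⟫, ← integral_sub i1 (i0.const_mul _), ← integral_const_mul,
    ← integral_const_mul]
  refine integral_congr_ae (ae_of_all _ fun ξ => ?_)
  simp only [inner_add_right, real_inner_smul_right]
  field_simp
  ring

theorem contDiff_sm {s : ℝ} (hs : s ≠ 0) : ∀ (k : ℕ) {G : Space d → ℝ}, Measurable G → Tame G →
    ContDiff ℝ k (sm s G) := by
  intro k
  induction k with
  | zero => exact fun hm hG => contDiff_zero.2 (differentiable_sm hs hm hG).continuous
  | succ k ih =>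
    intro G hm hG
    rw [Nat.cast_succ, contDiff_succ_iff_fderiv]
    refine ⟨differentiable_sm hs hm hG, fun h => absurd h (by simp), contDiff_clm_apply_iff.2 fun e => ?_⟩
    rw [funext fun a => fderiv_sm hs hm hG a e]
    exact contDiff_const.mul ((ih (hm.mul (by fun_prop)) (tame_mul hG (tame_inner e))).sub
      (((innerSL ℝ e).contDiff).mul (ih hm hG)))

theorem contDiff_post (P : Pot d h) {v : ℝ} (hv : 0 < v) {f : Space d → ℝ} (hf : Measurable f)
    (hfg : Grow f) (k : ℕ) : ContDiff ℝ k (post P v f) := by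
  rw [funext (post_eq P v f)]
  exact (contDiff_sm (Real.sqrt_pos.2 hv).ne' k ((continuous_dens P).measurable.mul hf)
    (tame_mul (tame_dens P) (tame_of_grow hfg))).div
    (contDiff_sm (Real.sqrt_pos.2 hv).ne' k (continuous_dens P).measurable (tame_dens P))
    fun a => (sm_dens_pos P _ a).ne'

theorem fderiv_post (P : Pot d h) {v : ℝ} (hv : 0 < v) {f : Space d → ℝ} (hf : Measurable f)
    (hfg : Grow f) (a e : Space d) :
    fderiv ℝ (post P v f) a e = v⁻¹ * (post P v (fun x => f x * ⟪e, x⟫) a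
      - post P v f a * post P v (fun x => ⟪e, x⟫) a) := by
  have hs := (Real.sqrt_pos.2 hv).ne'
  have hdm := (continuous_dens P).measurable
  have hN := tame_mul (tame_dens P) (tame_of_grow hfg)
  have hm1 : Measurable fun x => dens P x * f x := hdm.mul hf
  have d1 := differentiable_sm hs hm1 hN a
  have d2 := differentiable_sm hs hdm (tame_dens P) a
  have hz := (sm_dens_pos P (Real.sqrt v) a).ne'
  rw [funext (post_eq P v f)]
  have h3 : fderiv ℝ (fun b => sm (Real.sqrt v) (fun x => dens P x * f x) b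
      / sm (Real.sqrt v) (dens P) b) a e
      = (fderiv ℝ (sm (Real.sqrt v) fun x => dens P x * f x) a e * sm (Real.sqrt v) (dens P) a
        - sm (Real.sqrt v) (fun x => dens P x * f x) a * fderiv ℝ (sm (Real.sqrt v) (dens P)) a e)
        / sm (Real.sqrt v) (dens P) a ^ 2 := by
    have h4 := d1.hasFDerivAt.fun_mul ((hasDerivAt_inv hz).comp_hasFDerivAt a d2.hasFDerivAt)
    simp only [Function.comp_apply, ← div_eq_mul_inv] at h4
    rw [h4.fderiv]
    simp
    field_simp
    ring
  rw [h3, fderiv_sm hs hm1 hN, fderiv_sm hs hdm (tame_dens P), Real.mul_self_sqrt hv.le,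
    post_eq, post_eq]
  simp only [mul_assoc]
  field_simp
  ring

theorem post_integral (P : Pot d h) (v : ℝ) (f : Space d → ℝ) (a : Space d) :
    post P v f a = ∫ ξ, f (a + Real.sqrt v • ξ) ∂mu (P.aff a (Real.sqrt v)) := rfl

/-- The third central mixed moment. -/
theorem third_expand (Q : Pot d h) {g p q : Space d → ℝ} (hg : Measurable g) (hgg : Grow g)
    (hp : Measurable p) (hpg : Grow p) (hq : Measurable q) (hqg : Grow q) :
    ∫ x, (g x - ∫ y, g y ∂mu Q) * ((p x - ∫ y, p y ∂mu Q) * (q x - ∫ y, q y ∂mu Q)) ∂mu Q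
      = ∫ x, g x * (p x * q x) ∂mu Q - (∫ x, g x ∂mu Q) * ∫ x, p x * q x ∂mu Q
        - (∫ x, p x ∂mu Q) * ∫ x, g x * q x ∂mu Q - (∫ x, q x ∂mu Q) * ∫ x, g x * p x ∂mu Q
        + 2 * (∫ x, g x ∂mu Q) * (∫ x, p x ∂mu Q) * ∫ x, q x ∂mu Q := by
  have := mu_prob Q
  set A := ∫ x, g x ∂mu Q with hA
  set B := ∫ x, p x ∂mu Q with hB
  set D := ∫ x, q x ∂mu Q with hD
  have i1 : Integrable (fun x => g x * (p x * q x)) (mu Q) :=
    mu_int (hg.mul (hp.mul hq)) (grow_mul hgg (grow_mul hpg hqg))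
  have i2 : Integrable (fun x => A * (p x * q x)) (mu Q) :=
    (mu_int (hp.mul hq) (grow_mul hpg hqg)).const_mul A
  have i3 : Integrable (fun x => B * (g x * q x)) (mu Q) :=
    (mu_int (hg.mul hq) (grow_mul hgg hqg)).const_mul B
  have i4 : Integrable (fun x => D * (g x * p x)) (mu Q) :=
    (mu_int (hg.mul hp) (grow_mul hgg hpg)).const_mul D
  have ig := mu_int (P := Q) hg hgg
  have ip := mu_int (P := Q) hp hpg
  have iq := mu_int (P := Q) hq hqg
  have i5 : Integrable (fun x => B * D * g x + A * D * p x) (mu Q) :=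
    (ig.const_mul _).add (ip.const_mul _)
  have i6 : Integrable (fun x => B * D * g x + A * D * p x + A * B * q x) (mu Q) :=
    i5.add (iq.const_mul _)
  have i7 : Integrable (fun x => B * D * g x + A * D * p x + A * B * q x - A * B * D) (mu Q) :=
    i6.sub (integrable_const _)
  have i12 : Integrable (fun x => g x * (p x * q x) - A * (p x * q x)) (mu Q) := i1.sub i2
  have i13 : Integrable (fun x => g x * (p x * q x) - A * (p x * q x) - B * (g x * q x)) (mu Q) :=
    i12.sub i3
  have i14 : Integrable (fun x => g x * (p x * q x) - A * (p x * q x) - B * (g x * q x)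
      - D * (g x * p x)) (mu Q) := i13.sub i4
  have e : ∀ x, (g x - A) * ((p x - B) * (q x - D)) = g x * (p x * q x) - A * (p x * q x)
      - B * (g x * q x) - D * (g x * p x)
      + (B * D * g x + A * D * p x + A * B * q x - A * B * D) := fun x => by ring
  simp only [e]
  rw [integral_add i14 i7, integral_sub i13 i4, integral_sub i12 i3, integral_sub i1 i2,
    integral_sub i6 (integrable_const _), integral_add i5 (iq.const_mul _),
    integral_add (ig.const_mul _) (ip.const_mul _)]
  simp only [integral_const_mul, ← hA, ← hB, ← hD, integral_const, probReal_univ, one_smul]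
  ring

theorem hasFDerivAt_quad (K : Fin d → Fin d → ℝ) (hK : ∀ i j, K i j = K j i) (b x : Space d) :
    HasFDerivAt (fun y : Space d => ∑ i, ∑ j, K i j * ((y i - b i) * (y j - b j)))
      (innerSL ℝ (WithLp.toLp 2 fun i => 2 * ∑ j, K i j * (x j - b j) : Space d)) x := by
  have hp : ∀ i, HasFDerivAt (fun y : Space d => y i - b i)
      (EuclideanSpace.proj i : Space d →L[ℝ] ℝ) x := fun i =>
    ((EuclideanSpace.proj (𝕜 := ℝ) i).hasFDerivAt).sub_const (b i)
  have h1 : HasFDerivAt (fun y : Space d => ∑ i, ∑ j, K i j * ((y i - b i) * (y j - b j)))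
      (∑ i, ∑ j, K i j • ((x i - b i) • (EuclideanSpace.proj j : Space d →L[ℝ] ℝ)
        + (x j - b j) • (EuclideanSpace.proj i : Space d →L[ℝ] ℝ))) x :=
    HasFDerivAt.fun_sum fun i _ => HasFDerivAt.fun_sum fun j _ => ((hp i).mul (hp j)).const_mul _
  refine h1.congr_fderiv (ContinuousLinearMap.ext fun v => ?_)
  simp only [FunLike.coe_sum, Finset.sum_apply, smul_apply, add_apply, smul_eq_mul,
    innerSL_apply_apply, PiLp.inner_apply, PiLp.proj_apply, RCLike.inner_apply, conj_trivial]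
  simp only [mul_add, Finset.sum_add_distrib]
  rw [Finset.sum_comm, ← Finset.sum_add_distrib]
  refine Finset.sum_congr rfl fun i _ => ?_
  rw [← Finset.sum_add_distrib, Finset.mul_sum, Finset.mul_sum]
  exact Finset.sum_congr rfl fun j _ => by rw [hK j i]; ring

/-- The Hilbert-Schmidt norm of the mixed moments with a function. -/
theorem hs_bound (hP : PoincareMu) (Q : Pot d h) {g : Space d → ℝ} (hg : Measurable g)
    (hgg : Grow g) :
    ∑ i, ∑ j, (∫ x, (g x - ∫ y, g y ∂mu Q) *
      ((x i - ∫ y, y i ∂mu Q) * (x j - ∫ y, y j ∂mu Q)) ∂mu Q) ^ 2 ≤ 4 * var (mu Q) g := by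
  have := mu_prob Q
  set b : Space d := WithLp.toLp 2 fun i => ∫ y, y i ∂mu Q with hb
  have hbi : ∀ i, ∫ y, y i ∂mu Q = b i := fun i => rfl
  simp only [hbi]
  set K : Fin d → Fin d → ℝ := fun i j =>
    ∫ x, (g x - ∫ y, g y ∂mu Q) * ((x i - b i) * (x j - b j)) ∂mu Q with hKdef
  have hK : ∀ i j, K i j = K j i := fun i j =>
    integral_congr_ae (ae_of_all _ fun x => by ring)
  show ∑ i, ∑ j, K i j ^ 2 ≤ _
  set S := ∑ i, ∑ j, K i j ^ 2 with hS
  have hS0 : 0 ≤ S := Finset.sum_nonneg fun i _ => Finset.sum_nonneg fun j _ => sq_nonneg _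
  set q : Space d → ℝ := fun x => ∑ i, ∑ j, K i j * ((x i - b i) * (x j - b j)) with hq
  set w : Space d → Space d := fun x => WithLp.toLp 2 fun i => 2 * ∑ j, K i j * (x j - b j)
  have hqd : ∀ x, fderiv ℝ q x = innerSL ℝ (w x) := fun x => (hasFDerivAt_quad K hK b x).fderiv
  have hqc : ContDiff ℝ 1 q := by simp only [hq]; fun_prop
  have hnorm : ∀ x, ‖fderiv ℝ q x‖ ^ 2 = ∑ i, 4 * (∑ j, K i j * (x j - b j)) ^ 2 := fun x => by
    rw [hqd, innerSL_apply_norm, EuclideanSpace.real_norm_sq_eq]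
    exact Finset.sum_congr rfl fun i _ => by show (2 * _) ^ 2 = _; ring
  have hqg : Grow (fun x => fderiv ℝ q x) := by
    refine ⟨2 * Real.sqrt S * (1 + ‖b‖), 1, fun x => ?_⟩
    refine (pow_le_pow_iff_left₀ (norm_nonneg _) (by positivity) two_ne_zero).1 ?_
    rw [hnorm, pow_one, mul_pow, mul_pow, mul_pow, Real.sq_sqrt hS0]
    refine (Finset.sum_le_sum fun i _ => mul_le_mul_of_nonneg_left
      (Finset.sum_mul_sq_le_sq_mul_sq Finset.univ (K i) fun j => x j - b j) (by norm_num)).trans ?_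
    rw [← Finset.mul_sum, ← Finset.sum_mul, ← hS]
    have h1 : ∑ j, (x j - b j) ^ 2 = ‖x - b‖ ^ 2 := by
      rw [EuclideanSpace.real_norm_sq_eq]; rfl
    have h2 : ‖x - b‖ ^ 2 ≤ (1 + ‖b‖) ^ 2 * (1 + ‖x‖) ^ 2 := by
      rw [← mul_pow]
      refine pow_le_pow_left₀ (norm_nonneg _) ((norm_sub_le _ _).trans ?_) 2
      nlinarith [norm_nonneg x, norm_nonneg b, mul_nonneg (norm_nonneg x) (norm_nonneg b)]
    rw [h1]
    nlinarith [mul_le_mul_of_nonneg_left h2 hS0]
  have hxi : ∀ i, Grow fun x : Space d => x i - b i := fun i =>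
    grow_sub_const ⟨1, 1, fun x => by
      rw [Real.norm_eq_abs, one_mul, pow_one]; linarith [P245.abs_coord_le x i]⟩ (b i)
  have hqG : Grow q := grow_of_fderiv hqc hqg
  have hvq : var (mu Q) q ≤ 4 * S := by
    refine (hP d h Q q hqc hqg).trans ?_
    simp only [hnorm]
    have hlin : ∀ i, ∫ x, (∑ j, K i j * (x j - b j)) ^ 2 ∂mu Q ≤ ∑ j, K i j ^ 2 := by
      intro i
      set k : Space d := WithLp.toLp 2 fun j => K i j with hk
      have e : ∀ x : Space d, ∑ j, K i j * (x j - b j) = ⟪k, x⟫ - ∫ y, ⟪k, y⟫ ∂mu Q := fun x => by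
        have hsum : ∫ y, ⟪k, y⟫ ∂mu Q = ∑ j, K i j * b j := by
          simp only [PiLp.inner_apply, RCLike.inner_apply, conj_trivial]
          rw [integral_finsetSum _ fun j _ => mu_int ((by fun_prop : Continuous fun y : Space d =>
            y j * k j).measurable) (grow_mul ⟨1, 1, fun x => by
              rw [Real.norm_eq_abs, one_mul, pow_one]; linarith [P245.abs_coord_le x j]⟩
              ⟨|k j|, 0, fun x => by simp⟩)]
          exact Finset.sum_congr rfl fun j _ => by rw [integral_mul_const, hbi, mul_comm]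
        rw [hsum, PiLp.inner_apply, ← Finset.sum_sub_distrib]
        exact Finset.sum_congr rfl fun j _ => by simp [hk]; ring
      simp only [e]
      have hfd : ∀ x, fderiv ℝ (fun y : Space d => ⟪k, y⟫) x = innerSL ℝ k := fun x =>
        ((innerSL ℝ k).hasFDerivAt (x := x)).fderiv
      refine (hP d h Q (fun x => ⟪k, x⟫) (innerSL ℝ k).contDiff
        ⟨‖k‖, 0, fun x => by simp [hfd]⟩).trans_eq ?_
      simp only [hfd, innerSL_apply_norm, integral_const, probReal_univ, one_smul]
      rw [EuclideanSpace.real_norm_sq_eq]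
    have hii : ∀ i, Integrable (fun x => 4 * (∑ j, K i j * (x j - b j)) ^ 2) (mu Q) := fun i => by
      refine (Integrable.const_mul ?_ 4)
      refine mu_int (by fun_prop) ⟨(∑ j, K i j ^ 2) * (1 + ‖b‖) ^ 2, 2, fun x => ?_⟩
      rw [Real.norm_eq_abs, abs_of_nonneg (sq_nonneg _), mul_assoc, ← mul_pow]
      refine (Finset.sum_mul_sq_le_sq_mul_sq Finset.univ (K i) fun j => x j - b j).trans ?_
      refine mul_le_mul_of_nonneg_left ?_ (Finset.sum_nonneg fun j _ => sq_nonneg _)
      rw [show ∑ j, (x j - b j) ^ 2 = ‖x - b‖ ^ 2 by rw [EuclideanSpace.real_norm_sq_eq]; rfl]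
      refine pow_le_pow_left₀ (norm_nonneg _) ((norm_sub_le _ _).trans ?_) 2
      nlinarith [norm_nonneg x, norm_nonneg b, mul_nonneg (norm_nonneg x) (norm_nonneg b)]
    rw [integral_finsetSum _ fun i _ => hii i, hS, Finset.mul_sum]
    refine Finset.sum_le_sum fun i _ => ?_
    rw [integral_const_mul]
    exact mul_le_mul_of_nonneg_left (hlin i) (by norm_num)
  have hKS : S = ∫ x, (g x - ∫ y, g y ∂mu Q) * q x ∂mu Q := by
    have hij : ∀ i j, Integrable (fun x => K i j * ((g x - ∫ y, g y ∂mu Q) *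
        ((x i - b i) * (x j - b j)))) (mu Q) := fun i j =>
      (mu_int ((hg.sub measurable_const).mul (by fun_prop))
        (grow_mul (grow_sub_const hgg _) (grow_mul (hxi i) (hxi j)))).const_mul _
    simp only [hq, Finset.mul_sum]
    rw [hS, integral_finsetSum _ fun i _ => ?_]
    · refine Finset.sum_congr rfl fun i _ => ?_
      rw [integral_finsetSum _ fun j _ => ?_]
      · refine Finset.sum_congr rfl fun j _ => ?_
        rw [sq]
        conv_lhs => arg 2; rw [hKdef]
        rw [← integral_const_mul]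
        exact integral_congr_ae (ae_of_all _ fun x => by ring)
      · exact (hij i j).congr (ae_of_all _ fun x => by ring)
    · refine (integrable_finsetSum Finset.univ fun j _ => hij i j).congr
        (ae_of_all _ fun x => Finset.sum_congr rfl fun j _ => by ring)
  have hcov : ∫ x, (g x - ∫ y, g y ∂mu Q) * q x ∂mu Q = cov (mu Q) g q := by
    have i1 : Integrable (fun x => (g x - ∫ y, g y ∂mu Q) * q x) (mu Q) :=
      mu_int ((hg.sub measurable_const).mul hqc.continuous.measurable)
        (grow_mul (grow_sub_const hgg _) hqG)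
    have i2 : Integrable (fun x => (g x - ∫ y, g y ∂mu Q) * ∫ y, q y ∂mu Q) (mu Q) :=
      ((mu_int hg hgg).sub (integrable_const _)).mul_const _
    rw [cov]
    simp only [mul_sub]
    rw [integral_sub i1 i2, integral_mul_const, integral_sub (mu_int hg hgg) (integrable_const _)]
    simp
  have h1 := abs_cov_le Q hg hgg hqc.continuous.measurable hqG
  rw [← hcov, ← hKS, abs_of_nonneg hS0] at h1
  have h2 := pow_le_pow_left₀ hS0 h1 2
  rw [Real.sq_sqrt (mul_nonneg (var_nonneg _ _) (var_nonneg _ _))] at h2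
  have h3 := h2.trans (mul_le_mul_of_nonneg_left hvq (var_nonneg _ _))
  rcases hS0.eq_or_lt with hz | hpos
  · rw [← hz]; linarith [var_nonneg (mu Q) g]
  · exact le_of_mul_le_mul_right (by linarith : S * S ≤ 4 * var (mu Q) g * S) hpos

/-- Derivatives of a posterior average in its centre. -/
theorem postDeriv (hP : PoincareMu) : PostDeriv := by
  intro d h P v hv f hf hfg
  refine ⟨by exact_mod_cast contDiff_post P hv hf hfg 2, fun a e => ?_, fun a => ?_⟩
  · set Q := P.aff a (Real.sqrt v) with hQ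
    have hs : 0 < Real.sqrt v := Real.sqrt_pos.2 hv
    have := mu_prob Q
    have hFm : Measurable fun ξ => f (a + Real.sqrt v • ξ) := hf.comp (by fun_prop)
    have hFg := grow_comp hfg a (Real.sqrt v)
    have hem : Measurable fun ξ : Space d => ⟪e, ξ⟫ := by fun_prop
    rw [fderiv_post P hv hf hfg, post_integral, post_integral, post_integral, ← hQ,
      cov_eq Q hFm hFg hem (grow_inner e)]
    simp only [inner_add_right, real_inner_smul_right, mul_add]
    have i1 := mu_int (P := Q) hFm hFg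
    have i2 : Integrable (fun ξ => f (a + Real.sqrt v • ξ) * (Real.sqrt v * ⟪e, ξ⟫)) (mu Q) :=
      mu_int (hFm.mul (hem.const_mul _)) (grow_mul hFg
        (grow_mul (f := fun _ => Real.sqrt v) ⟨|Real.sqrt v|, 0, fun x => by simp⟩ (grow_inner e)))
    have i3 : Integrable (fun ξ => Real.sqrt v * ⟪e, ξ⟫) (mu Q) :=
      (mu_int hem (grow_inner e)).const_mul _
    rw [integral_add (i1.mul_const _) i2, integral_add (integrable_const _) i3, integral_mul_const,
      integral_const, integral_const_mul]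
    have e1 : ∀ ξ, f (a + Real.sqrt v • ξ) * (Real.sqrt v * ⟪e, ξ⟫)
        = Real.sqrt v * (f (a + Real.sqrt v • ξ) * ⟪e, ξ⟫) := fun ξ => by ring
    simp only [e1, integral_const_mul, probReal_univ, one_smul]
    have hvv : v⁻¹ * Real.sqrt v = (Real.sqrt v)⁻¹ := by
      field_simp
      exact Real.sq_sqrt hv.le
    linear_combination (∫ ξ, f (a + Real.sqrt v • ξ) * ⟪e, ξ⟫ ∂mu Q
      - (∫ ξ, f (a + Real.sqrt v • ξ) ∂mu Q) * ∫ ξ, ⟪e, ξ⟫ ∂mu Q) * hvv
  · set Q := P.aff a (Real.sqrt v) with hQ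
    have hs : 0 < Real.sqrt v := Real.sqrt_pos.2 hv
    have := mu_prob Q
    have hmi : ∀ u : Space d, Measurable fun x : Space d => ⟪u, x⟫ := fun u => by fun_prop
    have key : ∀ u u' : Space d, fderiv ℝ (fderiv ℝ (post P v f)) a u' u
        = v⁻¹ ^ 2 * ∫ ξ, (f (a + Real.sqrt v • ξ) - ∫ y, f (a + Real.sqrt v • y) ∂mu Q) *
            ((⟪u, a + Real.sqrt v • ξ⟫ - ∫ y, ⟪u, a + Real.sqrt v • y⟫ ∂mu Q) *
              (⟪u', a + Real.sqrt v • ξ⟫ - ∫ y, ⟪u', a + Real.sqrt v • y⟫ ∂mu Q)) ∂mu Q := by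
      intro u u'
      have hfu : Measurable fun x => f x * ⟪u, x⟫ := hf.mul (hmi u)
      have hfug : Grow fun x => f x * ⟪u, x⟫ := grow_mul hfg (grow_inner u)
      have d1 := (contDiff_post P hv hfu hfug 1).differentiable (by norm_num) a
      have d2 := (contDiff_post P hv hf hfg 1).differentiable (by norm_num) a
      have d3 := (contDiff_post P hv (hmi u) (grow_inner u) 1).differentiable (by norm_num) a
      have hC2 : ContDiff ℝ 2 (post P v f) := by exact_mod_cast contDiff_post P hv hf hfg 2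
      have hfd : DifferentiableAt ℝ (fderiv ℝ (post P v f)) a :=
        (hC2.fderiv_right (m := 1) (by norm_num)).differentiable (by norm_num) a
      have e1 : fderiv ℝ (fderiv ℝ (post P v f)) a u' u
          = fderiv ℝ (fun b => fderiv ℝ (post P v f) b u) a u' := by
        rw [fderiv_clm_apply hfd (differentiableAt_const u)]
        simp
      rw [e1, funext fun b => fderiv_post P hv hf hfg b u,
        ((d1.hasFDerivAt.fun_sub (d2.hasFDerivAt.fun_mul d3.hasFDerivAt)).const_mul v⁻¹).fderiv]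
      simp only [smul_apply, sub_apply, add_apply, smul_eq_mul]
      rw [fderiv_post P hv hfu hfug, fderiv_post P hv hf hfg, fderiv_post P hv (hmi u) (grow_inner u)]
      simp only [post_integral, ← hQ]
      rw [third_expand Q (g := fun ξ => f (a + Real.sqrt v • ξ))
        (p := fun ξ => ⟪u, a + Real.sqrt v • ξ⟫) (q := fun ξ => ⟪u', a + Real.sqrt v • ξ⟫)
        (hf.comp (by fun_prop)) (grow_comp hfg a _) (by fun_prop) (grow_comp (grow_inner u) a _)
        (by fun_prop) (grow_comp (grow_inner u') a _)]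
      simp only [mul_assoc]
      ring
    have hcen : ∀ (i : Fin d) (ξ : Space d), ⟪ev i, a + Real.sqrt v • ξ⟫
        - ∫ y, ⟪ev i, a + Real.sqrt v • y⟫ ∂mu Q = Real.sqrt v * (ξ i - ∫ y, y i ∂mu Q) := by
      intro i ξ
      simp only [EuclideanSpace.inner_single_left, map_one, one_mul, PiLp.add_apply,
        PiLp.smul_apply, smul_eq_mul]
      rw [integral_add (integrable_const _) ((mu_int (by fun_prop) ⟨1, 1, fun x => by
        rw [Real.norm_eq_abs, one_mul, pow_one]; linarith [P245.abs_coord_le x i]⟩).const_mul _),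
        integral_const_mul, integral_const, probReal_univ, one_smul]
      ring
    have hij : ∀ i j : Fin d, fderiv ℝ (fderiv ℝ (post P v f)) a (ev i) (ev j)
        = v⁻¹ * ∫ ξ, (f (a + Real.sqrt v • ξ) - ∫ y, f (a + Real.sqrt v • y) ∂mu Q) *
            ((ξ i - ∫ y, y i ∂mu Q) * (ξ j - ∫ y, y j ∂mu Q)) ∂mu Q := by
      intro i j
      rw [key]
      simp only [hcen]
      rw [← integral_const_mul, ← integral_const_mul]
      refine integral_congr_ae (ae_of_all _ fun ξ => ?_)
      beta_reduce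
      have hvv : v⁻¹ ^ 2 * (Real.sqrt v * Real.sqrt v) = v⁻¹ := by
        rw [Real.mul_self_sqrt hv.le]; field_simp
      linear_combination ((f (a + Real.sqrt v • ξ) - ∫ y, f (a + Real.sqrt v • y) ∂mu Q) *
        ((ξ i - ∫ y, y i ∂mu Q) * (ξ j - ∫ y, y j ∂mu Q))) * hvv
    simp only [hij, mul_pow, ← Finset.mul_sum]
    have hb := hs_bound hP Q (g := fun ξ => f (a + Real.sqrt v • ξ)) (hf.comp (by fun_prop))
      (grow_comp hfg a (Real.sqrt v))
    refine (mul_le_mul_of_nonneg_left hb (sq_nonneg v⁻¹)).trans_eq ?_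
    rw [div_pow, inv_pow]
    ring

end Vale.Agent.P347
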