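import Vale.Agent.P347.Defs
import Vale.Agent.P245.Gauss

/-!
The potential of a member of the class, and its Gibbs law as a tilted Gaussian law.
-/

noncomputable section

open MeasureTheory ProbabilityTheory InnerProductSpace
open scoped RealInnerProductSpace ENNReal

namespace Vale.Agent.P347

variable {d : ℕ} {V : Space d → ℝ}

theorem hess2_eq (V : Space d → ℝ) (x v : Space d) :
    hess2 V x v = fderiv ℝ (fderiv ℝ V) x v v := by
  simp [hess2, iteratedFDeriv_two_apply]

theorem InClass.hess_bounds (hV : InClass V) (x v : Space d) :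
    ‖v‖ ^ 2 ≤ fderiv ℝ (fderiv ℝ V) x v v ∧ fderiv ℝ (fderiv ℝ V) x v v ≤ 2 * ‖v‖ ^ 2 := by
  rw [← hess2_eq]
  exact hV.2.2.2 x v

theorem InClass.differentiable (hV : InClass V) : Differentiable ℝ V :=
  hV.1.differentiable (by norm_num)

theorem inner_gradient (V : Space d → ℝ) (x v : Space d) :
    ⟪gradient V x, v⟫ = fderiv ℝ V x v := by
  rw [← toDual_apply_apply (𝕜 := ℝ), toDual_gradient]

theorem InClass.contDiff_gradient (hV : InClass V) : ContDiff ℝ 1 (gradient V) := by
  have h1 : ContDiff ℝ 1 (fderiv ℝ V) := hV.1.fderiv_right (by norm_num)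
  exact ((toDual ℝ (Space d)).symm.toContinuousLinearEquiv.contDiff).comp h1

/-- The derivative of `gradient V - id` as a bilinear form. -/
theorem InClass.fderiv_res (hV : InClass V) (x u v : Space d) :
    ⟪fderiv ℝ (fun z => gradient V z - z) x u, v⟫
      = fderiv ℝ (fderiv ℝ V) x u v - ⟪u, v⟫ := by
  have hg : DifferentiableAt ℝ (gradient V) x :=
    (hV.contDiff_gradient.differentiable one_ne_zero) x
  have hf : DifferentiableAt ℝ (fderiv ℝ V) x :=
    ((hV.1.fderiv_right (m := 1) (by norm_num)).differentiable one_ne_zero) x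
  have hz : HasFDerivAt (fun z => gradient V z - z)
      (fderiv ℝ (gradient V) x - ContinuousLinearMap.id ℝ (Space d)) x :=
    hg.hasFDerivAt.sub (hasFDerivAt_id x)
  rw [hz.fderiv, ContinuousLinearMap.sub_apply, ContinuousLinearMap.id_apply, inner_sub_left]
  congr 1
  have h1 := (((innerSL ℝ v).hasFDerivAt).comp x hg.hasFDerivAt).fderiv
  have h2 := (((ContinuousLinearMap.apply ℝ ℝ v).hasFDerivAt).comp x hf.hasFDerivAt).fderiv
  have e : (⇑(innerSL ℝ v) ∘ gradient V) = (⇑(ContinuousLinearMap.apply ℝ ℝ v) ∘ fderiv ℝ V) := by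
    funext z
    simp only [Function.comp_apply, innerSL_apply_apply, ContinuousLinearMap.apply_apply]
    rw [real_inner_comm]
    exact inner_gradient V z v
  have h3 := congrArg (fun L => L u) (h1.symm.trans (congrArg (fun f => fderiv ℝ f x) e |>.trans h2))
  simp only [ContinuousLinearMap.comp_apply, innerSL_apply_apply,
    ContinuousLinearMap.apply_apply] at h3
  rwa [real_inner_comm] at h3

/-- A symmetric form between zero and the identity has norm at most one. -/
theorem norm_le_of_form {L : Space d →L[ℝ] Space d} (hs : ∀ u v, ⟪L u, v⟫ = ⟪L v, u⟫)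
    (h0 : ∀ v, 0 ≤ ⟪L v, v⟫) (h1 : ∀ v, ⟪L v, v⟫ ≤ ‖v‖ ^ 2) : ‖L‖ ≤ 1 := by
  have cs : ∀ u v, ⟪L u, v⟫ ^ 2 ≤ ⟪L u, u⟫ * ⟪L v, v⟫ := by
    intro u v
    have h : ∀ t : ℝ, 0 ≤ ⟪L v, v⟫ * (t * t) + 2 * ⟪L u, v⟫ * t + ⟪L u, u⟫ := fun t => by
      have := h0 (u + t • v)
      simp only [map_add, map_smul, inner_add_left, inner_add_right, real_inner_smul_left,
        real_inner_smul_right] at this
      rw [hs v u] at this
      linarith
    have := discrim_le_zero h
    rw [discrim] at this
    nlinarith
  refine ContinuousLinearMap.opNorm_le_bound _ zero_le_one fun u => ?_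
  rw [one_mul]
  rcases eq_or_ne (L u) 0 with h | h
  · simp [h]
  have hp : 0 < ‖L u‖ := norm_pos_iff.2 h
  have := cs u (L u)
  rw [real_inner_self_eq_norm_sq] at this
  have h3 := mul_le_mul (h1 u) (h1 (L u)) (h0 _) (sq_nonneg _)
  have h4 : (‖L u‖ ^ 2) ^ 2 ≤ (‖u‖ * ‖L u‖) ^ 2 := by
    rw [mul_pow]; linarith
  have h5 : ‖L u‖ ^ 2 ≤ ‖u‖ * ‖L u‖ :=
    (sq_le_sq₀ (by positivity) (by positivity)).1 h4
  nlinarith

/-- The potential `V - ‖·‖² / 2`. -/
def InClass.pot (hV : InClass V) : Pot d 1 where
  W := fun x => V x - ‖x‖ ^ 2 / 2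
  g := fun x => gradient V x - x
  h_nonneg := zero_le_one
  grad := fun x => by
    have h1 : HasFDerivAt (fun z : Space d => ‖z‖ ^ 2 / 2) (innerSL ℝ x) x := by
      have := ((hasFDerivAt_id x).norm_sq).mul_const (2⁻¹ : ℝ)
      refine (this.congr_fderiv ?_).congr_of_eventuallyEq (Filter.Eventually.of_forall fun z => ?_)
      · ext v; simp
      · simp [div_eq_mul_inv]
    refine ((hV.differentiable x).hasFDerivAt.sub h1).congr_fderiv ?_
    ext v
    simp [inner_sub_left, inner_gradient]
  smooth := hV.contDiff_gradient.sub contDiff_id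
  lip := fun x y => by
    have hd : Differentiable ℝ (fun z => gradient V z - z) :=
      (hV.contDiff_gradient.differentiable one_ne_zero).sub differentiable_id
    have hb : ∀ z, ‖fderiv ℝ (fun z => gradient V z - z) z‖ ≤ 1 := fun z => by
      refine norm_le_of_form (fun u v => ?_) (fun v => ?_) (fun v => ?_)
      · rw [hV.fderiv_res, hV.fderiv_res, real_inner_comm u v]
        congr 1
        exact (hV.1.contDiffAt.isSymmSndFDerivAt (by simp)).eq u v
      · rw [hV.fderiv_res, real_inner_self_eq_norm_sq]; linarith [(hV.hess_bounds z v).1]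
      · rw [hV.fderiv_res, real_inner_self_eq_norm_sq]; linarith [(hV.hess_bounds z v).2]
    exact convex_univ.norm_image_sub_le_of_norm_fderiv_le (fun z _ => hd z) (fun z _ => hb z)
      (Set.mem_univ y) (Set.mem_univ x)
  mono := fun x y => by
    set φ : ℝ → ℝ := fun t => ⟪gradient V (y + t • (x - y)) - (y + t • (x - y)), x - y⟫
    have hd : Differentiable ℝ (fun z => gradient V z - z) :=
      (hV.contDiff_gradient.differentiable one_ne_zero).sub differentiable_id
    have hφ : ∀ t, HasDerivAt φ
        ⟪fderiv ℝ (fun z => gradient V z - z) (y + t • (x - y)) (x - y), x - y⟫ t := fun t => by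
      have h1 : HasDerivAt (fun s : ℝ => y + s • (x - y)) (x - y) t := by
        simpa using ((hasDerivAt_id t).smul_const (x - y)).const_add y
      have h2 := (hd _).hasFDerivAt.comp_hasDerivAt t h1
      simpa [φ] using h2.inner ℝ (hasDerivAt_const t (x - y))
    have hm : Monotone φ := monotone_of_deriv_nonneg (fun t => (hφ t).differentiableAt) fun t => by
      rw [(hφ t).deriv, hV.fderiv_res, real_inner_self_eq_norm_sq]
      linarith [(hV.hess_bounds (y + t • (x - y)) (x - y)).1]
    have := hm zero_le_one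
    simp only [φ, zero_smul, add_zero, one_smul, add_sub_cancel] at this
    rw [inner_sub_left]
    linarith

theorem InClass.pot_g_zero (hV : InClass V) : hV.pot.g 0 = 0 := by
  simp [InClass.pot, hV.2.2.1]

theorem InClass.target_eq (hV : InClass V) : target V = mu hV.pot := by
  unfold target mu
  rw [show gam d = P245.gam d from rfl, P245.gam_eq, Measure.tilted, Measure.tilted,
    withDensity_mul _ (by fun_prop) ?_ |>.symm]
  · set c : ℝ := (√(2 * Real.pi))⁻¹ ^ d with hc
    have hc0 : 0 < c := by positivity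
    have e : ∀ x : Space d, P245.gd x * Real.exp (-hV.pot.W x) = c * Real.exp (-V x) := fun x => by
      rw [P245.gd, mul_assoc, ← Real.exp_add]
      congr 2
      simp only [InClass.pot]
      ring
    congr 1
    funext x
    rw [Pi.mul_apply, ← ENNReal.ofReal_mul (P245.gd_pos x).le,
      integral_withDensity_eq_integral_toReal_smul (by fun_prop)
        (ae_of_all _ fun x => ENNReal.ofReal_lt_top)]
    simp only [ENNReal.toReal_ofReal (P245.gd_pos _).le, smul_eq_mul, e, integral_const_mul,
      ← mul_div_assoc]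
    rw [mul_div_mul_left _ _ hc0.ne']
  · have := hV.1.continuous
    simp only [InClass.pot]
    fun_prop

end Vale.Agent.P347
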