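import Vale.Agent.P347.Pins
import Vale.Agent.P245.Gauss

/-!
Elementary facts on Gaussian smoothing and posterior averages of bounded functions.
-/

noncomputable section

open MeasureTheory ProbabilityTheory
open scoped RealInnerProductSpace

namespace Vale.Agent.P347

variable {d : ℕ} {h : ℝ}

theorem mu_aff_zero (a : Space d) (σ : ℝ) : mu ((Pot.zero d).aff a σ) = gam d := by
  simp [mu, Pot.aff, Pot.zero]

theorem Pf_eq_post (r : ℝ) (f : Space d → ℝ) : Pf r f = post (Pot.zero d) r f := by
  funext x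
  rw [post, mu_aff_zero]
  rfl

theorem Pf_zero (f : Space d → ℝ) : Pf 0 f = f := by
  funext x
  simp [Pf]

theorem measurable_Pf {f : Space d → ℝ} (hf : Measurable f) (r : ℝ) : Measurable (Pf r f) := by
  have h : Measurable fun p : Space d × Space d => f (p.1 + Real.sqrt r • p.2) :=
    hf.comp (by fun_prop)
  exact (h.stronglyMeasurable.integral_prod_right' (ν := gam d)).measurable

theorem integrable_of_le_one {μ : Measure (Space d)} [IsFiniteMeasure μ] {f : Space d → ℝ}
    (hf : Measurable f) (h1 : ∀ x, |f x| ≤ 1) : Integrable f μ :=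
  Integrable.of_bound hf.aestronglyMeasurable 1 (ae_of_all _ fun x => by
    rw [Real.norm_eq_abs]; exact h1 x)

theorem abs_integral_le_one {α : Type} [MeasurableSpace α] {μ : Measure α} [IsProbabilityMeasure μ]
    {f : α → ℝ} (h1 : ∀ x, |f x| ≤ 1) : |∫ x, f x ∂μ| ≤ 1 := by
  have := norm_integral_le_of_norm_le_const (μ := μ) (C := 1)
    (ae_of_all _ fun x => (Real.norm_eq_abs _).trans_le (h1 x))
  simpa using this

theorem abs_Pf_le {f : Space d → ℝ} (h1 : ∀ x, |f x| ≤ 1) (r : ℝ) (x : Space d) : |Pf r f x| ≤ 1 :=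
  abs_integral_le_one fun _ => h1 _

theorem abs_post_le (hB : MuBasic) (P : Pot d h) {f : Space d → ℝ} (h1 : ∀ x, |f x| ≤ 1) (v : ℝ)
    (a : Space d) : |post P v f a| ≤ 1 :=
  have := (hB d _ (P.aff a (Real.sqrt v))).1
  abs_integral_le_one fun _ => h1 _

theorem grow_of_le_one {f : Space d → ℝ} (h1 : ∀ x, |f x| ≤ 1) : Grow f :=
  ⟨1, 0, fun x => by simpa using h1 x⟩

theorem measurable_post (hD : PostDeriv) (P : Pot d h) {f : Space d → ℝ} (hf : Measurable f)
    (h1 : ∀ x, |f x| ≤ 1) {v : ℝ} (hv : 0 < v) : Measurable (post P v f) :=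
  (hD d h P v hv f hf (grow_of_le_one h1)).1.continuous.measurable

/-- Two smoothings compose. -/
theorem Pf_add {f : Space d → ℝ} (hf : Measurable f) (h1 : ∀ x, |f x| ≤ 1) {a b : ℝ} (ha : 0 ≤ a)
    (hb : 0 ≤ b) : Pf (a + b) f = Pf a (Pf b f) := by
  funext x
  rcases (add_nonneg ha hb).eq_or_lt with h0 | h0
  · obtain ⟨rfl, rfl⟩ := (add_eq_zero_iff_of_nonneg ha hb).1 h0.symm
    simp [Pf_zero]
  set c := Real.sqrt (a + b) with hc
  have hc0 : 0 < c := Real.sqrt_pos.2 h0
  set θ := Real.arccos (Real.sqrt a / c) with hθ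
  have hle : Real.sqrt a / c ≤ 1 := by
    rw [div_le_one hc0]; exact Real.sqrt_le_sqrt (by linarith)
  have hcos : Real.cos θ = Real.sqrt a / c :=
    Real.cos_arccos (by linarith [div_nonneg (Real.sqrt_nonneg a) hc0.le]) hle
  have hsin : Real.sin θ = Real.sqrt b / c := by
    rw [hθ, Real.sin_arccos, div_pow, Real.sq_sqrt ha, hc, Real.sq_sqrt h0.le,
      one_sub_div h0.ne', add_sub_cancel_left, Real.sqrt_div' _ h0.le]
  have hm : Measurable fun p : Space d × Space d => f (x + c • p.1) := hf.comp (by fun_prop)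
  have hrot := integral_map (μ := (gam d).prod (gam d))
    (φ := ContinuousLinearMap.rotation θ) (by fun_prop) (f := fun p : Space d × Space d => f (x + c • p.1))
    hm.aestronglyMeasurable
  rw [P245.map_rotation_gam θ] at hrot
  have e : ∀ p : Space d × Space d, x + c • (ContinuousLinearMap.rotation θ p).1
      = x + Real.sqrt a • p.1 + Real.sqrt b • p.2 := fun p => by
    rw [ContinuousLinearMap.rotation_apply, hcos, hsin, smul_add, smul_smul, smul_smul,
      mul_div_cancel₀ _ hc0.ne', mul_div_cancel₀ _ hc0.ne', ← add_assoc]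
  simp only [e] at hrot
  have hm2 : Measurable fun p : Space d × Space d => f (x + Real.sqrt a • p.1 + Real.sqrt b • p.2) :=
    hf.comp (by fun_prop)
  rw [integral_fun_fst (f := fun z => f (x + c • z)), probReal_univ, one_smul,
    integral_prod _ (Integrable.of_bound hm2.aestronglyMeasurable 1 (ae_of_all _ fun p => by
      rw [Real.norm_eq_abs]; exact h1 _))] at hrot
  exact hrot

theorem norm_le_sq (x : Space d) : ‖x‖ ≤ 1 / 2 + ‖x‖ ^ 2 / 2 := by
  nlinarith [sq_nonneg (‖x‖ - 1)]

theorem gam_norm_sq (hM : MomentMu) :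
    ∫ x, ‖x‖ ^ 2 ∂gam d ≤ 2 * d := by
  have := (hM d 0 (Pot.zero d) zero_le_one).1
  have e : mu (Pot.zero d) = gam d := by simp [mu, Pot.zero]
  rw [e] at this
  simpa [Pot.zero] using this

theorem integrable_norm_gam : Integrable (fun x : Space d => ‖x‖) (gam d) :=
  (IsGaussian.integrable_id (μ := gam d)).norm

theorem gam_norm_le (hB : MuBasic) (hM : MomentMu) (hd : 1 ≤ d) :
    ∫ x, ‖x‖ ∂gam d ≤ 2 * d := by
  have e : mu (Pot.zero d) = gam d := by simp [mu, Pot.zero]
  have h2 : Integrable (fun x : Space d => ‖x‖ ^ 2) (gam d) := by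
    rw [← e]
    refine (hB d 0 (Pot.zero d)).2 _ (by fun_prop) ⟨1, 2, fun x => ?_⟩
    rw [one_mul, Real.norm_eq_abs, abs_of_nonneg (sq_nonneg _)]
    nlinarith [norm_nonneg x]
  have hsplit : Integrable (fun x : Space d => 1 / 2 + ‖x‖ ^ 2 / 2) (gam d) :=
    (integrable_const _).add (h2.div_const 2)
  refine (integral_mono integrable_norm_gam hsplit fun x => norm_le_sq x).trans ?_
  rw [integral_add (integrable_const _) (h2.div_const 2), integral_const, probReal_univ, one_smul,
    integral_div]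
  have := gam_norm_sq (d := d) hM
  have : (1 : ℝ) ≤ d := by exact_mod_cast hd
  linarith

end Vale.Agent.P347
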