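import Vale.Agent.P347.Algo
import Vale.Agent.P347.FromClass
import Vale.Agent.P347.Smooth

/-!
The centring by Picard iteration, the recentred potential, and crude growth of the local sampler.
-/

noncomputable section

open MeasureTheory ProbabilityTheory
open scoped RealInnerProductSpace

namespace Vale.Agent.P347

variable {d m J : ℕ} {V : Space d → ℝ}

/-- The gradient field of `V`. -/
abbrev grd (V : Space d → ℝ) : Space d → Space d := fun x => gradient V x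

theorem proxPt_succ (hV : InClass V) (s : ℝ) (a : Space d) (k : ℕ) :
    proxPt (grd V) s a (k + 1) = a - s • hV.pot.g (proxPt (grd V) s a k) := rfl

theorem proxGrad_eq (hV : InClass V) (s : ℝ) (a : Space d) (K : ℕ) :
    proxGrad (grd V) s a K = hV.pot.g (proxPt (grd V) s a K) := rfl

theorem prox_step (hV : InClass V) {s : ℝ} (hs : 0 ≤ s) (a : Space d) :
    ∀ k, ‖proxPt (grd V) s a (k + 1) - proxPt (grd V) s a k‖ ≤ s ^ k * ‖a‖
  | 0 => by
    rw [proxPt_succ hV, show proxPt (grd V) s a 0 = 0 from rfl, hV.pot_g_zero]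
    simp
  | k + 1 => by
    rw [proxPt_succ hV, proxPt_succ hV s a k, sub_sub_sub_cancel_left, ← smul_sub, norm_smul,
      Real.norm_eq_abs, abs_of_nonneg hs, pow_succ']
    have h1 := hV.pot.lip (proxPt (grd V) s a k) (a - s • hV.pot.g (proxPt (grd V) s a k))
    rw [one_mul, ← proxPt_succ hV, norm_sub_rev (proxPt (grd V) s a k)] at h1
    rw [← proxPt_succ hV, mul_assoc]
    exact mul_le_mul_of_nonneg_left (h1.trans (prox_step hV hs a k)) hs

theorem norm_proxPt_le (hV : InClass V) {s : ℝ} (hs : 0 ≤ s) (hs1 : s < 1) (a : Space d) :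
    ∀ k, ‖proxPt (grd V) s a k‖ ≤ ‖a‖ / (1 - s)
  | 0 => by
    have : 0 < 1 - s := by linarith
    rw [show proxPt (grd V) s a 0 = 0 from rfl, norm_zero]; positivity
  | k + 1 => by
    have h := hV.pot.lip (proxPt (grd V) s a k) 0
    rw [hV.pot_g_zero, sub_zero, sub_zero, one_mul] at h
    rw [proxPt_succ hV]
    refine (norm_sub_le _ _).trans ?_
    rw [norm_smul, Real.norm_eq_abs, abs_of_nonneg hs]
    have h2 := mul_le_mul_of_nonneg_left (h.trans (norm_proxPt_le hV hs hs1 a k)) hs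
    have e : ‖a‖ / (1 - s) = ‖a‖ + s * (‖a‖ / (1 - s)) := by
      have : (1 - s) ≠ 0 := by linarith
      field_simp
      ring
    linarith

theorem coef_pos {η : ℝ} (hη : 0 < η) : 0 < η / (1 + η) ∧ η / (1 + η) < 1 ∧ η / (1 + η) ≤ η := by
  have h : 0 < 1 + η := by linarith
  refine ⟨by positivity, by rw [div_lt_one h]; linarith, by rw [div_le_iff₀ h]; nlinarith⟩

/-- The centre used by a step. -/
def cen (G : Space d → Space d) (K : ℕ) (η : ℝ) (y : Space d) : Space d :=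
  (1 + η)⁻¹ • y - (η / (1 + η)) • proxGrad G (η / (1 + η)) ((1 + η)⁻¹ • y) K

/-- The recentred scaled potential of a step. -/
def InClass.loc (hV : InClass V) (K : ℕ) (η : ℝ) (y : Space d) :
    Pot d (1 * Real.sqrt (η / (1 + η)) ^ 2) :=
  (hV.pot.lin (proxGrad (grd V) (η / (1 + η)) ((1 + η)⁻¹ • y) K)).aff (cen (grd V) K η y)
    (Real.sqrt (η / (1 + η)))

theorem loc_coef {η : ℝ} (hη : 0 < η) :
    1 * Real.sqrt (η / (1 + η)) ^ 2 = η / (1 + η) := by
  rw [one_mul, Real.sq_sqrt (coef_pos hη).1.le]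

theorem norm_cen_le (hV : InClass V) {η : ℝ} (hη : 0 < η) (K : ℕ) (y : Space d) :
    ‖cen (grd V) K η y‖ ≤ ‖y‖ := by
  obtain ⟨h0, h1, -⟩ := coef_pos hη
  set s := η / (1 + η)
  have h := norm_proxPt_le hV h0.le h1 ((1 + η)⁻¹ • y) (K + 1)
  rw [proxPt_succ hV, ← proxGrad_eq hV, norm_smul, Real.norm_eq_abs,
    abs_of_pos (inv_pos.2 (by linarith))] at h
  refine h.trans (le_of_eq ?_)
  have : (1 + η) ≠ 0 := by linarith
  simp only [s]
  field_simp
  ring

theorem loc_g_zero (hV : InClass V) {η : ℝ} (hη : 0 < η) (K : ℕ) (y : Space d) :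
    ‖(hV.loc K η y).g 0‖ ≤ Real.sqrt (η / (1 + η)) * ((η / (1 + η)) ^ K * ‖y‖) := by
  obtain ⟨h0, h1, -⟩ := coef_pos hη
  set s := η / (1 + η)
  set a := (1 + η)⁻¹ • y
  have e : (hV.loc K η y).g 0
      = Real.sqrt s • (hV.pot.g (proxPt (grd V) s a (K + 1)) - hV.pot.g (proxPt (grd V) s a K)) := by
    simp only [InClass.loc, Pot.aff, Pot.lin, smul_zero, add_zero]
    rfl
  rw [e, norm_smul, Real.norm_eq_abs, abs_of_nonneg (Real.sqrt_nonneg _)]
  refine mul_le_mul_of_nonneg_left ?_ (Real.sqrt_nonneg _)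
  refine ((hV.pot.lip _ _).trans_eq (one_mul _)).trans ((prox_step hV h0.le a K).trans ?_)
  refine mul_le_mul_of_nonneg_left ?_ (pow_nonneg h0.le _)
  rw [norm_smul, Real.norm_eq_abs, abs_of_pos (inv_pos.2 (by linarith))]
  exact mul_le_of_le_one_left (norm_nonneg _) (inv_le_one_of_one_le₀ (by linarith))

theorem gshift_eq (hV : InClass V) (K : ℕ) (η : ℝ) (y : Space d) :
    gshift (grd V) (proxGrad (grd V) (η / (1 + η)) ((1 + η)⁻¹ • y) K) (cen (grd V) K η y)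
        (Real.sqrt (η / (1 + η))) = (hV.loc K η y).g := rfl

theorem outStep_eq (hV : InClass V) (N : Nodes m) (K : ℕ) (η η' : ℝ) (y : Space d)
    (S : Seed d m J) :
    outStep N K η η' (grd V) y S = cen (grd V) K η y
      + Real.sqrt (η / (1 + η)) • localX N (hV.loc K η y) S.1 S.2.1 + Real.sqrt η' • S.2.2 := by
  rw [localX_eq, ← gshift_eq hV]
  rfl

theorem lastStep_eq (K : ℕ) (η : ℝ) (G : Space d → Space d) (y ξ : Space d) :
    lastStep K η G y ξ = cen G K η y + Real.sqrt (η / (1 + η)) • ξ := rfl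

/-- The posterior average in the recentred coordinates. -/
theorem post_loc (hS : PostShift) (hV : InClass V) {η : ℝ} (hη : 0 < η) (K : ℕ) (y : Space d)
    {f : Space d → ℝ} (hf : Measurable f) (hg : Grow f) :
    post hV.pot (η / (1 + η)) f ((1 + η)⁻¹ • y)
      = ∫ ξ, f (cen (grd V) K η y + Real.sqrt (η / (1 + η)) • ξ) ∂mu (hV.loc K η y) := by
  have h := hS d 1 hV.pot (proxGrad (grd V) (η / (1 + η)) ((1 + η)⁻¹ • y) K) (η / (1 + η))
    (coef_pos hη).1 f hf hg (cen (grd V) K η y)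
  rw [cen, sub_add_cancel] at h
  exact h.symm

section growth

variable {h : ℝ} (N : Nodes m) (P : Pot d h) {Cw : ℝ}

theorem sqrt_pow_le_one (j : ℕ) : Real.sqrt ((1 / 2 : ℝ) ^ j) ≤ 1 :=
  Real.sqrt_le_one.2 (pow_le_one₀ (by norm_num) (by norm_num))

theorem norm_g_le (x : Space d) : ‖P.g x‖ ≤ ‖P.g 0‖ + h * ‖x‖ := by
  have := P.lip x 0
  rw [sub_zero] at this
  linarith [norm_sub_norm_le (P.g x) (P.g 0)]

/-- Growth of a node sum along an affine change of variables of scale at most one. -/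
theorem norm_nodeSum_le (ht : ∀ k, N.t k ∈ Set.Icc (0 : ℝ) 1) (hw : ∑ k, |N.w k| ≤ Cw)
    {u : ℝ} (hu : 0 ≤ u) (hu1 : u ≤ 1) (a ξ : Space d) (z : Fin m → Space d) :
    ‖nodeSum N (fun x => u • P.g (a + u • x)) ξ z‖
      ≤ Cw * (‖P.g 0‖ + h * (‖a‖ + ‖ξ‖ + ∑ k, ‖z k‖)) := by
  have hC : 0 ≤ ‖P.g 0‖ + h * (‖a‖ + ‖ξ‖ + ∑ k, ‖z k‖) := by
    have := P.h_nonneg; positivity
  refine (norm_sum_le _ _).trans (le_trans ?_ (mul_le_mul_of_nonneg_right hw hC))
  rw [Finset.sum_mul]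
  refine Finset.sum_le_sum fun k _ => ?_
  rw [norm_smul, Real.norm_eq_abs]
  refine mul_le_mul_of_nonneg_left ?_ (abs_nonneg _)
  rw [norm_smul, Real.norm_eq_abs, abs_of_nonneg hu]
  refine (mul_le_of_le_one_left (norm_nonneg _) hu1).trans ?_
  refine (norm_g_le P _).trans (add_le_add le_rfl (mul_le_mul_of_nonneg_left ?_ P.h_nonneg))
  have h2 : ‖N.t k • ξ + Real.sqrt (1 - N.t k ^ 2) • z k‖ ≤ ‖ξ‖ + ‖z k‖ := by
    refine (norm_add_le _ _).trans (add_le_add ?_ ?_)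
    · rw [norm_smul, Real.norm_eq_abs, abs_of_nonneg (ht k).1]
      exact mul_le_of_le_one_left (norm_nonneg _) (ht k).2
    · rw [norm_smul, Real.norm_eq_abs, abs_of_nonneg (Real.sqrt_nonneg _)]
      exact mul_le_of_le_one_left (norm_nonneg _)
        (Real.sqrt_le_one.2 (by nlinarith [sq_nonneg (N.t k)]))
  have h3 : ‖z k‖ ≤ ∑ j, ‖z j‖ :=
    Finset.single_le_sum (f := fun j => ‖z j‖) (fun j _ => norm_nonneg _) (Finset.mem_univ k)
  refine (norm_add_le _ _).trans ?_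
  rw [norm_smul, Real.norm_eq_abs, abs_of_nonneg hu]
  have := mul_le_of_le_one_left (norm_nonneg (N.t k • ξ + Real.sqrt (1 - N.t k ^ 2) • z k)) hu1
  linarith

/-- The total size of a seed of the halving chain. -/
def seedSize (s : Space d × Space d × (Fin m → Space d)) : ℝ := ‖s.1‖ + ‖s.2.1‖ + ∑ k, ‖s.2.2 k‖

theorem norm_chainPt_le (ht : ∀ k, N.t k ∈ Set.Icc (0 : ℝ) 1) (hw : ∑ k, |N.w k| ≤ Cw)
    (hC : 0 ≤ Cw) (hC1 : h * Cw ≤ 1) :
    ∀ (J : ℕ) (s : Fin J → Space d × Space d × (Fin m → Space d)),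
      ‖chainPt N P J s‖ + Cw * ‖P.g 0‖ ≤ 2 ^ J * (Cw * ‖P.g 0‖ + 2 * ∑ j, seedSize (s j))
  | 0, s => by simp [chainPt]
  | J + 1, s => by
    have ih := norm_chainPt_le ht hw hC hC1 J fun j => s j.castSucc
    set a := chainPt N P J fun j => s j.castSucc
    set l := s (Fin.last J)
    have hn := norm_nodeSum_le N P ht hw (Real.sqrt_nonneg ((1 / 2 : ℝ) ^ J)) (sqrt_pow_le_one J) a
      l.1 l.2.2
    have hl : 0 ≤ ‖a‖ + ‖l.1‖ + ∑ k, ‖l.2.2 k‖ := by positivity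
    have hn' : ‖nodeSum N (P.aff a (Real.sqrt ((1 / 2 : ℝ) ^ J))).g l.1 l.2.2‖
        ≤ Cw * ‖P.g 0‖ + (‖a‖ + ‖l.1‖ + ∑ k, ‖l.2.2 k‖) := by
      refine hn.trans ?_
      have := mul_le_of_le_one_left hl hC1
      nlinarith
    have hu : Real.sqrt ((1 / 2 : ℝ) ^ J) / 2 ≤ 1 := by linarith [sqrt_pow_le_one J]
    have e : chainPt N P (J + 1) s = a + (Real.sqrt ((1 / 2 : ℝ) ^ J) / 2) •
        (l.1 - nodeSum N (P.aff a (Real.sqrt ((1 / 2 : ℝ) ^ J))).g l.1 l.2.2 + l.2.1) := rfl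
    rw [e, Fin.sum_univ_castSucc]
    refine (add_le_add_left (norm_add_le _ _) _).trans ?_
    rw [norm_smul, Real.norm_eq_abs, abs_of_nonneg (by positivity)]
    have h4 := (mul_le_of_le_one_left (norm_nonneg _) hu).trans ((norm_add_le
      (l.1 - nodeSum N (P.aff a (Real.sqrt ((1 / 2 : ℝ) ^ J))).g l.1 l.2.2) l.2.1).trans
        (add_le_add (norm_sub_le _ _) le_rfl))
    have h5 : 0 ≤ ∑ k, ‖l.2.2 k‖ := by positivity
    have h6 : (1 : ℝ) ≤ 2 ^ J := one_le_pow₀ one_le_two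
    have hg : 0 ≤ Cw * ‖P.g 0‖ := by positivity
    have h7 : 0 ≤ seedSize l := by unfold seedSize; positivity
    have h8 : seedSize l = ‖l.1‖ + ‖l.2.1‖ + ∑ k, ‖l.2.2 k‖ := rfl
    rw [pow_succ' (2 : ℝ) J]
    nlinarith [mul_le_mul_of_nonneg_right h6 h7, mul_le_mul_of_nonneg_right h6 hg,
      norm_nonneg l.1, norm_nonneg l.2.1]

theorem sum_seedSize (ω : RI m J → Space d) :
    ∑ j, seedSize (chainSeed ω j) ≤ ∑ i, ‖ω i‖ := by
  have e : ∑ j, seedSize (chainSeed ω j)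
      = ∑ p : Fin J × (Bool ⊕ Fin m), ‖ω (.inr (.inr (some p)))‖ := by
    rw [Fintype.sum_prod_type]
    refine Finset.sum_congr rfl fun j _ => ?_
    rw [Fintype.sum_sum_type, Fintype.sum_bool]
    simp only [seedSize, chainSeed]
    ring
  rw [e]
  have h1 := Fintype.sum_sum_type (fun i : RI m J => ‖ω i‖)
  have h2 := Fintype.sum_sum_type (fun i : Option (Fin m) ⊕ Option (Fin J × (Bool ⊕ Fin m)) =>
    ‖ω (.inr i)‖)
  have h3 := Fintype.sum_option (fun i : Option (Fin J × (Bool ⊕ Fin m)) => ‖ω (.inr (.inr i))‖)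
  have n1 : 0 ≤ ∑ k : Fin m, ‖ω (.inl k)‖ := by positivity
  have n2 : 0 ≤ ∑ k : Option (Fin m), ‖ω (.inr (.inl k))‖ := by positivity
  linarith [norm_nonneg (ω (.inr (.inr none)))]

theorem norm_localX_le (ht : ∀ k, N.t k ∈ Set.Icc (0 : ℝ) 1) (hw : ∑ k, |N.w k| ≤ Cw)
    (hC : 1 ≤ Cw) (hC1 : h * Cw ≤ 1) (ξ : Space d) (ω : RI m J → Space d) :
    ‖localX N P ξ ω‖ ≤ 8 * 2 ^ J * (Cw * ‖P.g 0‖ + ‖ξ‖ + ∑ i, ‖ω i‖) := by
  have hn : ∀ (x : Space d) (z : Fin m → Space d),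
      ‖nodeSum N P.g x z‖ ≤ Cw * ‖P.g 0‖ + (‖x‖ + ∑ k, ‖z k‖) := fun x z => by
    have h1 := norm_nodeSum_le N P ht hw zero_le_one le_rfl 0 x z
    simp only [one_smul, zero_add, norm_zero] at h1
    have : 0 ≤ ‖x‖ + ∑ k, ‖z k‖ := by positivity
    have h2 := mul_le_of_le_one_left this hC1
    nlinarith
  set S := ∑ i, ‖ω i‖
  have hS1 : ∑ k : Fin m, ‖ω (.inl k)‖ ≤ S := by
    have := Fintype.sum_sum_type (fun i : RI m J => ‖ω i‖)
    have n : 0 ≤ ∑ k, ‖ω (.inr k)‖ := by positivity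
    linarith
  have hS2 : ‖ω (.inr (.inl none))‖ + ∑ k : Fin m, ‖ω (.inr (.inl (some k)))‖ ≤ S := by
    have h1 := Fintype.sum_sum_type (fun i : RI m J => ‖ω i‖)
    have h2 := Fintype.sum_sum_type (fun i : Option (Fin m) ⊕ Option (Fin J × (Bool ⊕ Fin m)) =>
      ‖ω (.inr i)‖)
    have h3 := Fintype.sum_option (fun i : Option (Fin m) => ‖ω (.inr (.inl i))‖)
    have n1 : 0 ≤ ∑ k, ‖ω (.inl k)‖ := by positivity
    have n2 : 0 ≤ ∑ k, ‖ω (.inr (.inr k))‖ := by positivity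
    linarith
  have hS3 : ‖ω (.inr (.inr none))‖ ≤ S :=
    Finset.single_le_sum (f := fun i => ‖ω i‖) (fun i _ => norm_nonneg _) (Finset.mem_univ _)
  have hS0 : 0 ≤ S := by positivity
  have hch := norm_chainPt_le N P ht hw (by linarith) hC1 J (chainSeed ω)
  have hh : h ≤ 1 := le_trans (le_mul_of_one_le_right P.h_nonneg hC) hC1
  have he : ‖meanEst N P ω‖ ≤ ‖P.g 0‖ + (‖chainPt N P J (chainSeed ω)‖ + S) := by
    refine (norm_g_le P _).trans (add_le_add le_rfl ((mul_le_of_le_one_left (norm_nonneg _) hh).trans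
      ((norm_add_le _ _).trans (add_le_add le_rfl ?_))))
    rw [norm_smul, Real.norm_eq_abs, abs_of_nonneg (Real.sqrt_nonneg _)]
    exact (mul_le_of_le_one_left (norm_nonneg _) (sqrt_pow_le_one J)).trans hS3
  have h6 : (1 : ℝ) ≤ 2 ^ J := one_le_pow₀ one_le_two
  have hg : ‖P.g 0‖ ≤ Cw * ‖P.g 0‖ := le_mul_of_one_le_left (norm_nonneg _) hC
  have hg0 : 0 ≤ Cw * ‖P.g 0‖ := by positivity
  have hm := mul_le_mul_of_nonneg_left (sum_seedSize (m := m) (J := J) ω)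
    (show (0 : ℝ) ≤ 2 ^ J by positivity)
  have h9 : ‖localX N P ξ ω‖ ≤ ‖ξ‖ + ‖nodeSum N P.g ξ (fun k => ω (.inl k))‖
      + ‖nodeSum N P.g (ω (.inr (.inl none))) (fun k => ω (.inr (.inl (some k))))‖
      + ‖meanEst N P ω‖ :=
    (norm_sub_le _ _).trans (add_le_add ((norm_add_le _ _).trans
      (add_le_add (norm_sub_le _ _) le_rfl)) le_rfl)
  nlinarith [hn ξ fun k => ω (.inl k),
    hn (ω (.inr (.inl none))) fun k => ω (.inr (.inl (some k))),
    mul_le_mul_of_nonneg_right h6 hg0, mul_le_mul_of_nonneg_right h6 hS0,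
    mul_le_mul_of_nonneg_right h6 (norm_nonneg ξ), norm_nonneg ξ]

end growth

end Vale.Agent.P347
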