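import Vale.Agent.P347.Transfer

/-!
Mean-zero Lipschitz noise seen through Gaussian smoothing, and derivative bounds of smoothings.
-/

noncomputable section

open MeasureTheory ProbabilityTheory Filter Topology
open scoped RealInnerProductSpace

namespace Vale.Agent.P347

variable {d : ℕ}

/-! ### Linear algebra -/

theorem sum_smul_ev (v : Space d) : ∑ i, v i • ev i = v := by
  simpa [EuclideanSpace.basisFun_apply, EuclideanSpace.basisFun_repr]
    using (EuclideanSpace.basisFun (Fin d) ℝ).sum_repr v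

theorem abs_clm_le (φ : Space d →L[ℝ] ℝ) (v : Space d) :
    |φ v| ≤ Real.sqrt (∑ j, φ (ev j) ^ 2) * ‖v‖ := by
  conv_lhs => rw [← sum_smul_ev v]
  rw [map_sum, EuclideanSpace.norm_eq v]
  simp only [map_smul, smul_eq_mul, Real.norm_eq_abs, sq_abs]
  rw [← Real.sqrt_mul (Finset.sum_nonneg fun j _ => sq_nonneg _), ← Real.sqrt_sq_eq_abs]
  refine Real.sqrt_le_sqrt ?_
  refine (le_of_eq ?_).trans
    (Finset.sum_mul_sq_le_sq_mul_sq Finset.univ (fun j => φ (ev j)) (fun j => v j))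
  exact congrArg (· ^ 2) (Finset.sum_congr rfl fun j _ => mul_comm _ _)

theorem norm_bilin_le (M : Space d →L[ℝ] Space d →L[ℝ] ℝ) {B : ℝ} (hB : 0 ≤ B)
    (hM : ∑ i, ∑ j, M (ev i) (ev j) ^ 2 ≤ B ^ 2) : ‖M‖ ≤ B := by
  refine M.opNorm_le_bound₂ hB fun v w => ?_
  rw [Real.norm_eq_abs]
  refine (abs_clm_le (M v) w).trans (mul_le_mul_of_nonneg_right ?_ (norm_nonneg w))
  rw [Real.sqrt_le_left (by positivity)]
  calc ∑ j, M v (ev j) ^ 2
      ≤ ∑ j, (∑ i, M (ev i) (ev j) ^ 2) * ‖v‖ ^ 2 := Finset.sum_le_sum fun j _ => by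
        have h := pow_le_pow_left₀ (abs_nonneg _) (abs_clm_le (M.flip (ev j)) v) 2
        rw [sq_abs, mul_pow, Real.sq_sqrt (Finset.sum_nonneg fun i _ => sq_nonneg _)] at h
        exact h
    _ ≤ (B * ‖v‖) ^ 2 := by
      rw [← Finset.sum_mul, Finset.sum_comm, mul_pow]
      exact mul_le_mul_of_nonneg_right hM (sq_nonneg _)

/-! ### Smoothing -/

theorem integrable_of_affine {E : Type*} [NormedAddCommGroup E] {F : Space d → E} {a b : ℝ}
    (hF : AEStronglyMeasurable F (gam d)) (h : ∀ x, ‖F x‖ ≤ a + b * ‖x‖) :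
    Integrable F (gam d) :=
  Integrable.mono' ((integrable_const a).add (integrable_norm_gam.const_mul b)) hF
    (ae_of_all _ h)

theorem norm_sub_le_of_fderiv {E F : Type*} [NormedAddCommGroup E] [NormedSpace ℝ E]
    [NormedAddCommGroup F] [NormedSpace ℝ F] {f : E → F} (hf : Differentiable ℝ f) {B : ℝ}
    (hB : ∀ x, ‖fderiv ℝ f x‖ ≤ B) (x y : E) : ‖f x - f y‖ ≤ B * ‖x - y‖ :=
  convex_univ.norm_image_sub_le_of_norm_fderiv_le (𝕜 := ℝ) (fun z _ => hf z) (fun z _ => hB z)
    (Set.mem_univ y) (Set.mem_univ x)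

theorem integrable_smul_arg {E : Type*} [NormedAddCommGroup E] [NormedSpace ℝ E]
    [CompleteSpace E] {F : Space d → E} (hF : ContDiff ℝ 1 F) {B : ℝ}
    (hB : ∀ x, ‖fderiv ℝ F x‖ ≤ B) (s : ℝ) (x : Space d) :
    Integrable (fun z => F (x + s • z)) (gam d) := by
  refine integrable_of_affine (a := ‖F x‖) (b := B * |s|)
    (hF.continuous.comp (by fun_prop)).aestronglyMeasurable fun z => ?_
  have h1 := norm_sub_le_of_fderiv (hF.differentiable one_ne_zero) hB (x + s • z) x
  rw [add_sub_cancel_left, norm_smul, Real.norm_eq_abs, ← mul_assoc] at h1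
  linarith [norm_sub_norm_le (F (x + s • z)) (F x)]

theorem hasFDerivAt_smooth {E : Type*} [NormedAddCommGroup E] [NormedSpace ℝ E]
    [CompleteSpace E] {F : Space d → E} (hF : ContDiff ℝ 1 F) {B : ℝ}
    (hB : ∀ x, ‖fderiv ℝ F x‖ ≤ B) (s : ℝ) (x : Space d) :
    HasFDerivAt (fun y => ∫ z, F (y + s • z) ∂gam d)
      (∫ z, fderiv ℝ F (x + s • z) ∂gam d) x :=
  hasFDerivAt_integral_of_dominated_of_fderiv_le (F := fun y z => F (y + s • z))
    (F' := fun y z => fderiv ℝ F (y + s • z)) (bound := fun _ => B) Filter.univ_mem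
    (Eventually.of_forall fun y => (hF.continuous.comp (by fun_prop)).aestronglyMeasurable)
    (integrable_smul_arg hF hB s x)
    ((hF.continuous_fderiv one_ne_zero).comp (by fun_prop)).aestronglyMeasurable
    (ae_of_all _ fun z y _ => hB _) (integrable_const B)
    (ae_of_all _ fun z y _ => (((hF.differentiable one_ne_zero) _).hasFDerivAt.comp y
      ((hasFDerivAt_id y).add_const (s • z))).congr_fderiv (ContinuousLinearMap.comp_id _))

theorem integrable_bdd_comp {E : Type*} [NormedAddCommGroup E] [NormedSpace ℝ E]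
    [CompleteSpace E] {F : Space d → E} (hF : Continuous F) {B : ℝ} (hB : ∀ x, ‖F x‖ ≤ B) (s : ℝ)
    (x : Space d) : Integrable (fun z => F (x + s • z)) (gam d) :=
  Integrable.of_bound (hF.comp (by fun_prop)).aestronglyMeasurable B (ae_of_all _ fun _ => hB _)

theorem fderiv_fderiv_bound {H : Space d → ℝ} {B2 : ℝ} (h2 : HessBound H B2) (hB : 0 ≤ B2)
    (x : Space d) : ‖fderiv ℝ (fderiv ℝ H) x‖ ≤ B2 :=
  norm_bilin_le _ hB (h2 x)

theorem fderiv_Pf {H : Space d → ℝ} {B1 : ℝ} (hH : ContDiff ℝ 1 H) (h1 : GradBound H B1) (r : ℝ) :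
    fderiv ℝ (Pf r H) = fun x => ∫ z, fderiv ℝ H (x + Real.sqrt r • z) ∂gam d :=
  funext fun x => (hasFDerivAt_smooth hH h1 _ x).fderiv

theorem fderiv_fderiv_Pf {H : Space d → ℝ} {B1 B2 : ℝ} (hH : ContDiff ℝ 2 H)
    (h1 : GradBound H B1) (h2 : HessBound H B2) (hB : 0 ≤ B2) (r : ℝ) :
    fderiv ℝ (fderiv ℝ (Pf r H))
      = fun x => ∫ z, fderiv ℝ (fderiv ℝ H) (x + Real.sqrt r • z) ∂gam d := by
  rw [fderiv_Pf (hH.of_le one_le_two) h1]
  exact funext fun x =>
    (hasFDerivAt_smooth (hH.fderiv_right (m := 1) (by norm_num)) (fderiv_fderiv_bound h2 hB) _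
      x).fderiv

theorem fderiv_fderiv_Pf_apply {H : Space d → ℝ} {B1 B2 : ℝ} (hH : ContDiff ℝ 2 H)
    (h1 : GradBound H B1) (h2 : HessBound H B2) (hB : 0 ≤ B2) (r : ℝ) (x v w : Space d) :
    fderiv ℝ (fderiv ℝ (Pf r H)) x v w
      = ∫ z, fderiv ℝ (fderiv ℝ H) (x + Real.sqrt r • z) v w ∂gam d := by
  have hc : Continuous (fderiv ℝ (fderiv ℝ H)) :=
    (hH.fderiv_right (m := 1) (by norm_num)).continuous_fderiv one_ne_zero
  have hi := integrable_bdd_comp (E := Space d →L[ℝ] Space d →L[ℝ] ℝ) hc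
    (fderiv_fderiv_bound h2 hB) (Real.sqrt r) x
  rw [fderiv_fderiv_Pf hH h1 h2 hB r]
  dsimp only
  rw [ContinuousLinearMap.integral_apply hi, ContinuousLinearMap.integral_apply
    (hi.apply_continuousLinearMap v)]

theorem sq_integral_le {α : Type} [MeasurableSpace α] {μ : Measure α} [IsProbabilityMeasure μ]
    {f : α → ℝ} (hf : Integrable f μ) (hf2 : Integrable (fun x => f x ^ 2) μ) :
    (∫ x, f x ∂μ) ^ 2 ≤ ∫ x, f x ^ 2 ∂μ := by
  set m := ∫ x, f x ∂μ with hm
  have h0 : 0 ≤ ∫ x, (f x ^ 2 - 2 * m * f x) + m ^ 2 ∂μ :=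
    integral_nonneg fun x => show (0 : ℝ) ≤ _ by nlinarith [sq_nonneg (f x - m)]
  rw [integral_add (f := fun x => f x ^ 2 - 2 * m * f x) (hf2.sub (hf.const_mul _))
      (integrable_const _), integral_sub hf2 (hf.const_mul _), integral_const_mul, integral_const,
    probReal_univ, one_smul, ← hm] at h0
  nlinarith

/-- Smoothing preserves derivative bounds. -/
theorem pfBound : PfBound := by
  intro d r H B1 B2 hH h1 h2 hB
  have hH1 : ContDiff ℝ 1 H := hH.of_le one_le_two
  have hD : ContDiff ℝ 1 (fderiv ℝ H) := hH.fderiv_right (by norm_num)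
  have hd2 := fderiv_fderiv_bound h2 hB
  refine ⟨?_, ?_, ?_⟩
  · rw [show (2 : WithTop ℕ∞) = 1 + 1 by norm_num, contDiff_succ_iff_fderiv]
    refine ⟨fun x => (hasFDerivAt_smooth hH1 h1 _ x).differentiableAt, by simp, ?_⟩
    rw [fderiv_Pf hH1 h1, contDiff_one_iff_fderiv]
    refine ⟨fun x => (hasFDerivAt_smooth hD hd2 _ x).differentiableAt, ?_⟩
    rw [funext fun x => (hasFDerivAt_smooth hD hd2 (Real.sqrt r) x).fderiv]
    exact continuous_of_dominated (bound := fun _ => B2)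
      (fun x => ((hD.continuous_fderiv one_ne_zero).comp (by fun_prop)).aestronglyMeasurable)
      (fun x => ae_of_all _ fun z => hd2 _) (integrable_const _)
      (ae_of_all _ fun z => (hD.continuous_fderiv one_ne_zero).comp (by fun_prop))
  · intro x
    rw [fderiv_Pf hH1 h1]
    exact (norm_integral_le_of_norm_le_const (ae_of_all _ fun z => h1 _)).trans
      (by simp [probReal_univ])
  · intro x
    simp only [fderiv_fderiv_Pf_apply hH h1 h2 hB]
    have hc : ∀ i j : Fin d, Continuous fun z : Space d =>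
        fderiv ℝ (fderiv ℝ H) (x + Real.sqrt r • z) (ev i) (ev j) := fun i j => by
      have := hD.continuous_fderiv one_ne_zero
      fun_prop
    have hb : ∀ (i j : Fin d) (z : Space d),
        |fderiv ℝ (fderiv ℝ H) (x + Real.sqrt r • z) (ev i) (ev j)| ≤ B2 := fun i j z => by
      have h := ((fderiv ℝ (fderiv ℝ H) (x + Real.sqrt r • z)).le_opNorm₂ (ev i) (ev j))
      simp only [PiLp.norm_single, norm_one, mul_one, Real.norm_eq_abs] at h
      exact h.trans (hd2 _)
    have hi : ∀ i j, Integrable (fun z : Space d =>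
        fderiv ℝ (fderiv ℝ H) (x + Real.sqrt r • z) (ev i) (ev j)) (gam d) := fun i j =>
      Integrable.of_bound (hc i j).aestronglyMeasurable B2
        (ae_of_all _ fun z => (Real.norm_eq_abs _).trans_le (hb i j z))
    have hi2 : ∀ i j, Integrable (fun z : Space d =>
        fderiv ℝ (fderiv ℝ H) (x + Real.sqrt r • z) (ev i) (ev j) ^ 2) (gam d) := fun i j =>
      Integrable.of_bound ((hc i j).pow 2).aestronglyMeasurable (B2 ^ 2) (ae_of_all _ fun z => by
        rw [Real.norm_eq_abs, abs_pow]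
        exact pow_le_pow_left₀ (abs_nonneg _) (hb i j z) 2)
    calc _ ≤ ∑ i, ∑ j, ∫ z, fderiv ℝ (fderiv ℝ H) (x + Real.sqrt r • z) (ev i) (ev j) ^ 2 ∂gam d :=
          Finset.sum_le_sum fun i _ => Finset.sum_le_sum fun j _ =>
            sq_integral_le (hi i j) (hi2 i j)
      _ = ∫ z, ∑ i, ∑ j, fderiv ℝ (fderiv ℝ H) (x + Real.sqrt r • z) (ev i) (ev j) ^ 2 ∂gam d := by
          rw [integral_finsetSum _ fun i _ => integrable_finsetSum _ fun j _ => hi2 i j]
          exact Finset.sum_congr rfl fun i _ => (integral_finsetSum _ fun j _ => hi2 i j).symm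
      _ ≤ ∫ _, B2 ^ 2 ∂gam d :=
          integral_mono (integrable_finsetSum _ fun i _ => integrable_finsetSum _ fun j _ => hi2 i j)
            (integrable_const _) fun z => h2 _
      _ = B2 ^ 2 := by simp

/-- Smoothing a Lipschitz function. -/
theorem pfLip (hP : PostDeriv) : PfLip := by
  refine ⟨2, fun d r ψ L hr hL hψ hg => ?_⟩
  have hlip : ∀ x y, |ψ x - ψ y| ≤ L * ‖x - y‖ := fun x y =>
    norm_sub_le_of_fderiv (hψ.differentiable one_ne_zero) hg x y
  have hgrow : Grow ψ := ⟨|ψ 0| + L, 1, fun x => by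
    have := LipF.abs_le hlip x
    rw [Real.norm_eq_abs, pow_one]
    nlinarith [norm_nonneg x, abs_nonneg (ψ 0)]⟩
  obtain ⟨hC, -, hH⟩ := hP d 0 (Pot.zero d) r hr ψ hψ.continuous.measurable hgrow
  rw [← Pf_eq_post] at hC
  refine ⟨hC, fun x => (hasFDerivAt_smooth hψ hg (Real.sqrt r) x).fderiv.symm ▸
    (norm_integral_le_of_norm_le_const (ae_of_all _ fun z => hg _)).trans
      (by simp [probReal_univ]), fun x => ?_⟩
  have h1 := hH x
  rw [← Pf_eq_post] at h1
  refine h1.trans ((mul_le_mul_of_nonneg_left (var_le_sq _ (K := L * Real.sqrt r) (by positivity)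
    fun a b => ?_) (sq_nonneg _)).trans (le_of_eq ?_))
  · refine (hlip _ _).trans (le_of_eq ?_)
    rw [add_sub_add_left_eq_sub, ← smul_sub, norm_smul, Real.norm_eq_abs,
      abs_of_nonneg (Real.sqrt_nonneg _), mul_assoc]
  · rw [div_pow, div_pow, mul_pow, mul_pow, Real.sq_sqrt hr.le]
    field_simp

/-- Variance of a Lipschitz vector function of Gaussian vectors, and of a gradient along it. -/
theorem vecVar : VecVar := by
  refine ⟨1, fun d ι _ A L hL hA hlip => ⟨?_, fun H B1 B2 hH _ h2 hB2 => ?_⟩⟩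
  · calc ∑ i, var (gp ι d) (fun ω => A ω i) ≤ ∑ _i : Fin d, L ^ 2 :=
          Finset.sum_le_sum fun i _ => by
            rw [var_gp]
            refine var_le_sq _ hL fun x y => ?_
            refine le_trans ?_ (hlip.norm_emb_le x y)
            rw [← Real.norm_eq_abs]
            exact PiLp.norm_apply_le (A (emb ι d x) - A (emb ι d y)) i
      _ = 1 * L ^ 2 * d := by
          rw [Finset.sum_const, Finset.card_univ, Fintype.card_fin, nsmul_eq_mul]
          ring
  · set A' := fun x => A (emb ι d x) with hA'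
    have hA'd : Differentiable ℝ A' := hA.comp (emb ι d).differentiable
    have hD : ContDiff ℝ 1 (fderiv ℝ H) := hH.fderiv_right (by norm_num)
    set M := fun x => fderiv ℝ (fderiv ℝ H) (A' x) with hM
    have hgd : ∀ (i : Fin d) x, HasFDerivAt (fun y => fderiv ℝ H (A' y) (ev i))
        ((ContinuousLinearMap.apply ℝ ℝ (ev i)).comp ((M x).comp (fderiv ℝ A' x))) x := fun i x =>
      (ContinuousLinearMap.apply ℝ ℝ (ev i)).hasFDerivAt.comp x
        (((hD.differentiable one_ne_zero) _).hasFDerivAt.comp x (hA'd x).hasFDerivAt)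
    set S := fun (i : Fin d) x => L * Real.sqrt (∑ j, M x (ev j) (ev i) ^ 2) with hS
    have hbd : ∀ i x, ‖fderiv ℝ (fun y => fderiv ℝ H (A' y) (ev i)) x‖ ≤ S i x := by
      intro i x
      rw [(hgd i x).fderiv]
      refine ContinuousLinearMap.opNorm_le_bound _ (mul_nonneg hL (Real.sqrt_nonneg _)) fun v => ?_
      rw [Real.norm_eq_abs]
      refine (abs_clm_le ((M x).flip (ev i)) (fderiv ℝ A' x v)).trans ?_
      have h1 := (fderiv ℝ A' x).le_of_opNorm_le (hlip.norm_fderiv_emb_le hL x) v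
      refine (mul_le_mul_of_nonneg_left h1 (Real.sqrt_nonneg _)).trans (le_of_eq ?_)
      simp only [hS, ContinuousLinearMap.flip_apply]
      ring
    have hSB : ∀ x, ∑ i, S i x ^ 2 ≤ (L * B2) ^ 2 := fun x => by
      simp only [hS, mul_pow, Real.sq_sqrt (Finset.sum_nonneg fun j _ => sq_nonneg _)]
      rw [← Finset.mul_sum, Finset.sum_comm]
      exact mul_le_mul_of_nonneg_left (h2 _) (sq_nonneg L)
    have hS1 : ∀ i x, S i x ≤ L * B2 := fun i x => by
      refine (sq_le_sq₀ (mul_nonneg hL (Real.sqrt_nonneg _)) (mul_nonneg hL hB2)).1 ?_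
      exact (Finset.single_le_sum (fun j _ => sq_nonneg (S j x)) (Finset.mem_univ i)).trans (hSB x)
    have hdiff : ∀ i : Fin d, Differentiable ℝ fun y => fderiv ℝ H (A' y) (ev i) := fun i x =>
      (hgd i x).differentiableAt
    have hv : ∀ i : Fin d, var (gp ι d) (fun ω => fderiv ℝ H (A ω) (ev i))
        ≤ ∫ x, ‖fderiv ℝ (fun y => fderiv ℝ H (A' y) (ev i)) x‖ ^ 2 ∂gam (famDim ι d) := by
      intro i
      have hb : ∀ x, ‖fderiv ℝ (fun y => fderiv ℝ H (A' y) (ev i)) x‖ ≤ L * B2 := fun x =>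
        (hbd i x).trans (hS1 i x)
      have h := var_le_fderiv (Pot.zero (famDim ι d)) (mul_nonneg hL hB2)
        (fun x y => norm_sub_le_of_fderiv (hdiff i) hb x y) (hdiff i)
      rw [var_gp]
      rw [mu_zero] at h ⊢
      exact h
    have hint : ∀ i : Fin d, Integrable
        (fun x => ‖fderiv ℝ (fun y => fderiv ℝ H (A' y) (ev i)) x‖ ^ 2) (gam (famDim ι d)) :=
      fun i => Integrable.of_bound ((measurable_fderiv ℝ _).norm.pow_const 2).aestronglyMeasurable
        ((L * B2) ^ 2) (ae_of_all _ fun x => by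
          rw [Real.norm_eq_abs, abs_of_nonneg (sq_nonneg _)]
          exact pow_le_pow_left₀ (norm_nonneg _) ((hbd i x).trans (hS1 i x)) 2)
    refine (Finset.sum_le_sum fun i _ => hv i).trans ?_
    rw [← integral_finsetSum _ fun i _ => hint i]
    calc _ ≤ ∫ _, (L * B2) ^ 2 ∂gam (famDim ι d) :=
          integral_mono (integrable_finsetSum _ fun i _ => hint i) (integrable_const _) fun x =>
            (Finset.sum_le_sum fun i _ => pow_le_pow_left₀ (norm_nonneg _) (hbd i x) 2).trans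
              (hSB x)
      _ = 1 * (L * B2) ^ 2 := by simp

/-! ### Shifts of the Gaussian law -/

/-- The density of the Gaussian law shifted by `u`. -/
def wgt (u z : Space d) : ℝ := Real.exp (⟪u, z⟫ - ‖u‖ ^ 2 / 2)

theorem wgt_pos (u z : Space d) : 0 < wgt u z := Real.exp_pos _

theorem integral_shift (F : Space d → ℝ) (u : Space d) :
    ∫ z, F (z + u) ∂gam d = ∫ z, wgt u z * F z ∂gam d := by
  rw [P245.integral_gam, P245.integral_gam,
    ← integral_add_right_eq_self (fun x => P245.gd x * (wgt u x * F x)) u]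
  refine integral_congr_ae (ae_of_all _ fun x => ?_)
  dsimp only
  rw [← mul_assoc]
  congr 1
  rw [P245.gd, P245.gd, wgt, mul_assoc, ← Real.exp_add]
  congr 2
  rw [norm_add_sq_real, inner_add_right, real_inner_self_eq_norm_sq, real_inner_comm x u]
  ring

theorem integrable_exp_inner (u : Space d) :
    Integrable (fun z => Real.exp ⟪u, z⟫) (gam d) :=
  Integrable.mono' (P245.integrable_exp_norm ‖u‖) (by fun_prop) (ae_of_all _ fun z => by
    rw [Real.norm_eq_abs, abs_of_pos (Real.exp_pos _)]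
    exact Real.exp_le_exp.2 (real_inner_le_norm u z))

theorem integrable_wgt (u : Space d) : Integrable (wgt u) (gam d) :=
  ((integrable_exp_inner u).const_mul (Real.exp (-(‖u‖ ^ 2 / 2)))).congr
    (ae_of_all _ fun z => by
      dsimp only [wgt]
      rw [← Real.exp_add]; ring_nf)

theorem integral_wgt (u : Space d) : ∫ z, wgt u z ∂gam d = 1 := by
  simpa using (integral_shift (fun _ => (1 : ℝ)) u).symm

theorem wgt_mul (u v z : Space d) :
    wgt u z * wgt v z = Real.exp ⟪u, v⟫ * wgt (u + v) z := by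
  rw [wgt, wgt, wgt, ← Real.exp_add, ← Real.exp_add, inner_add_left, norm_add_sq_real]
  congr 1
  ring

@[fun_prop]
theorem continuous_wgt {X : Type*} [TopologicalSpace X] {f g : X → Space d} (hf : Continuous f)
    (hg : Continuous g) : Continuous fun x => wgt (f x) (g x) := by
  unfold wgt; fun_prop

/-! ### Pairings with shifted Gaussians over an arbitrary source -/

section source

variable {X : Type} [MeasurableSpace X] {μ : Measure X}

theorem measurable_wgt {Y : Type*} [MeasurableSpace Y] {u z : Y → Space d} (hu : Measurable u)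
    (hz : Measurable z) : Measurable fun y => wgt (u y) (z y) := by
  unfold wgt; fun_prop

theorem integrable_wgt_prod [SFinite μ] {u : X → Space d} (hu : Measurable u) {a : X → ℝ}
    (ha : Measurable a) (hai : Integrable a μ) :
    Integrable (fun p : X × Space d => wgt (u p.1) p.2 * a p.1) (μ.prod (gam d)) := by
  have hm : Measurable fun p : X × Space d => wgt (u p.1) p.2 * a p.1 :=
    (measurable_wgt (hu.comp measurable_fst) measurable_snd).mul (ha.comp measurable_fst)
  rw [integrable_prod_iff hm.aestronglyMeasurable]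
  refine ⟨ae_of_all _ fun x => (integrable_wgt (u x)).mul_const (a x), ?_⟩
  simp only [norm_mul, Real.norm_eq_abs, abs_of_pos (wgt_pos _ _), integral_mul_const,
    integral_wgt, one_mul]
  exact hai.abs

theorem sq_shifted [SFinite μ] {u : X → Space d} (hu : Measurable u) {c : X → ℝ} (hc : Measurable c)
    (hi : Integrable (fun p : X × X => c p.1 * c p.2 * Real.exp ⟪u p.1, u p.2⟫) (μ.prod μ)) :
    Integrable (fun z => (∫ x, wgt (u x) z * c x ∂μ) ^ 2) (gam d) ∧
      ∫ z, (∫ x, wgt (u x) z * c x ∂μ) ^ 2 ∂gam d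
        = ∫ p : X × X, c p.1 * c p.2 * Real.exp ⟪u p.1, u p.2⟫ ∂μ.prod μ := by
  have e : ∀ (p : X × X) z, (wgt (u p.1) z * c p.1) * (wgt (u p.2) z * c p.2)
      = c p.1 * c p.2 * Real.exp ⟪u p.1, u p.2⟫ * wgt (u p.1 + u p.2) z := fun p z => by
    rw [mul_mul_mul_comm, wgt_mul]; ring
  have hm : Measurable fun q : (X × X) × Space d =>
      c q.1.1 * c q.1.2 * Real.exp ⟪u q.1.1, u q.1.2⟫ * wgt (u q.1.1 + u q.1.2) q.2 :=
    (Measurable.mul (by fun_prop) (measurable_wgt (by fun_prop) measurable_snd))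
  have hG : Integrable (fun q : (X × X) × Space d =>
      c q.1.1 * c q.1.2 * Real.exp ⟪u q.1.1, u q.1.2⟫ * wgt (u q.1.1 + u q.1.2) q.2)
      ((μ.prod μ).prod (gam d)) := by
    rw [integrable_prod_iff hm.aestronglyMeasurable]
    refine ⟨ae_of_all _ fun p => (integrable_wgt (u p.1 + u p.2)).const_mul
      (c p.1 * c p.2 * Real.exp ⟪u p.1, u p.2⟫), ?_⟩
    simp only [norm_mul, Real.norm_eq_abs, abs_of_pos (wgt_pos _ _), Real.abs_exp,
      integral_const_mul, integral_wgt, mul_one]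
    simpa [abs_mul, Real.abs_exp] using hi.abs
  have hK : ∀ z, ∫ p : X × X,
      c p.1 * c p.2 * Real.exp ⟪u p.1, u p.2⟫ * wgt (u p.1 + u p.2) z ∂μ.prod μ
        = (∫ x, wgt (u x) z * c x ∂μ) ^ 2 := fun z => by
    simp only [← e]
    rw [sq]
    exact integral_prod_mul (fun x => wgt (u x) z * c x) fun x => wgt (u x) z * c x
  refine ⟨hG.integral_prod_right.congr (ae_of_all _ hK), ?_⟩
  simp only [← hK]
  rw [← integral_integral_swap (f := fun (p : X × X) z =>
    c p.1 * c p.2 * Real.exp ⟪u p.1, u p.2⟫ * wgt (u p.1 + u p.2) z) hG]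
  simp only [integral_const_mul, integral_wgt, mul_one]

theorem sum_coord_sq (v w : Space d) :
    ∑ k : Fin d × Fin d, v k.1 * v k.2 * (w k.1 * w k.2) = ⟪v, w⟫ ^ 2 := by
  rw [PiLp.inner_apply, sq, Finset.sum_mul_sum, Fintype.sum_prod_type]
  refine Finset.sum_congr rfl fun i _ => Finset.sum_congr rfl fun j _ => ?_
  simp only [RCLike.inner_apply, conj_trivial]
  ring

theorem bilin_expand (T : Space d →L[ℝ] Space d →L[ℝ] ℝ) (v : Space d) :
    T v v = ∑ k : Fin d × Fin d, T (ev k.1) (ev k.2) * (v k.1 * v k.2) := by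
  conv_lhs => rw [← sum_smul_ev v]
  simp only [map_sum, map_smul, sum_apply, smul_eq_mul,
    smul_apply, Finset.mul_sum, Fintype.sum_prod_type]
  rw [Finset.sum_comm]
  refine Finset.sum_congr rfl fun i _ => Finset.sum_congr rfl fun j _ => ?_
  ring

theorem pairing_le [IsProbabilityMeasure μ] {u v : X → Space d} (hu : Measurable u)
    (hv : Measurable v) (hv2 : Integrable (fun x => ‖v x‖ ^ 2) μ)
    (hpair : Integrable
      (fun p : X × X => ‖v p.1‖ ^ 2 * ‖v p.2‖ ^ 2 * Real.exp ⟪u p.1, u p.2⟫) (μ.prod μ))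
    {M : Space d → Space d →L[ℝ] Space d →L[ℝ] ℝ} (hMc : Continuous M) {B a : ℝ} (hB : 0 ≤ B)
    (ha : 0 < a) (hM : ∀ z, ∑ i, ∑ j, M z (ev i) (ev j) ^ 2 ≤ B ^ 2) :
    |∫ x, ∫ z, wgt (u x) z * M z (v x) (v x) ∂gam d ∂μ|
      ≤ B * ((∫ p : X × X, ⟪v p.1, v p.2⟫ ^ 2 * Real.exp ⟪u p.1, u p.2⟫ ∂μ.prod μ) / (2 * a)
          + a / 2) := by
  set c := fun (k : Fin d × Fin d) (x : X) => v x k.1 * v x k.2 with hc
  set m := fun (k : Fin d × Fin d) (z : Space d) => M z (ev k.1) (ev k.2) with hmk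
  set K := fun (k : Fin d × Fin d) (z : Space d) => ∫ x, wgt (u x) z * c k x ∂μ with hK
  have hcm : ∀ k, Measurable (c k) := fun k => by simp only [hc]; fun_prop
  have hmc : ∀ k, Continuous (m k) := fun k => by simp only [hmk]; fun_prop
  have hcb : ∀ k x, |c k x| ≤ ‖v x‖ ^ 2 := fun k x => by
    simp only [hc]
    rw [abs_mul, sq]
    exact mul_le_mul (P245.abs_coord_le _ _) (P245.abs_coord_le _ _) (abs_nonneg _) (norm_nonneg _)
  have hmB : ∀ z, ∑ k, m k z ^ 2 ≤ B ^ 2 := fun z => by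
    rw [Fintype.sum_prod_type]; exact hM z
  have hmb2 : ∀ k z, |m k z| ≤ B := fun k z => by
    refine (sq_le_sq₀ (abs_nonneg _) hB).1 ?_
    rw [sq_abs]
    exact (Finset.single_le_sum (fun j _ => sq_nonneg (m j z)) (Finset.mem_univ k)).trans (hmB z)
  have hci : ∀ k, Integrable (c k) μ := fun k =>
    hv2.mono' (hcm k).aestronglyMeasurable (ae_of_all _ (hcb k))
  have hF : ∀ k, Integrable (fun p : X × Space d => m k p.2 * (wgt (u p.1) p.2 * c k p.1))
      (μ.prod (gam d)) := fun k =>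
    (integrable_wgt_prod hu (hcm k) (hci k)).bdd_mul
      ((hmc k).measurable.comp measurable_snd).aestronglyMeasurable
      (ae_of_all _ fun p => (Real.norm_eq_abs _).trans_le (hmb2 k p.2))
  have hexp : ∀ x z, wgt (u x) z * M z (v x) (v x) = ∑ k, m k z * (wgt (u x) z * c k x) := by
    intro x z
    rw [bilin_expand, Finset.mul_sum]
    exact Finset.sum_congr rfl fun k _ => by simp only [hc, hmk]; ring
  have hsum : ∫ x, ∫ z, wgt (u x) z * M z (v x) (v x) ∂gam d ∂μ
      = ∫ z, ∑ k, m k z * K k z ∂gam d := by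
    simp only [hexp]
    rw [integral_integral_swap (f := fun x z => ∑ k, m k z * (wgt (u x) z * c k x))
      (integrable_finsetSum _ fun k _ => hF k)]
    refine integral_congr_ae ?_
    filter_upwards [(ae_all_iff.2 fun k => (hF k).prod_left_ae)] with z hz
    rw [integral_finsetSum _ fun k _ => hz k]
    simp only [integral_const_mul, hK]
  have hcc : ∀ k, Integrable
      (fun p : X × X => c k p.1 * c k p.2 * Real.exp ⟪u p.1, u p.2⟫) (μ.prod μ) := fun k => by
    refine hpair.mono' (Measurable.aestronglyMeasurable (by have := hcm k; fun_prop))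
      (ae_of_all _ fun p => ?_)
    rw [Real.norm_eq_abs, abs_mul, abs_mul, Real.abs_exp]
    exact mul_le_mul_of_nonneg_right
      (mul_le_mul (hcb k _) (hcb k _) (abs_nonneg _) (sq_nonneg _)) (Real.exp_pos _).le
  have hKi : ∀ k, Integrable (fun z => K k z ^ 2) (gam d) := fun k =>
    (sq_shifted hu (hcm k) (hcc k)).1
  have hQ : ∑ k, ∫ z, K k z ^ 2 ∂gam d
      = ∫ p : X × X, ⟪v p.1, v p.2⟫ ^ 2 * Real.exp ⟪u p.1, u p.2⟫ ∂μ.prod μ := by
    simp only [hK, fun k => (sq_shifted hu (hcm k) (hcc k)).2]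
    rw [← integral_finsetSum _ fun k _ => hcc k]
    simp only [← Finset.sum_mul, hc, sum_coord_sq]
  rw [hsum, ← hQ]
  have hKs : Integrable (fun z => B * ((∑ k, K k z ^ 2) / (2 * a) + a / 2)) (gam d) :=
    (((integrable_finsetSum _ fun k _ => hKi k).div_const _).add (integrable_const _)).const_mul _
  refine (abs_integral_le_integral_abs).trans ((integral_mono_of_nonneg
    (ae_of_all _ fun z => abs_nonneg _) hKs (ae_of_all _ fun z => ?_)).trans (le_of_eq ?_))
  · have hS : 0 ≤ ∑ k, K k z ^ 2 := Finset.sum_nonneg fun k _ => sq_nonneg _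
    have h1 : |∑ k, m k z * K k z| ≤ B * Real.sqrt (∑ k, K k z ^ 2) := by
      rw [← Real.sqrt_sq hB, ← Real.sqrt_mul (sq_nonneg B), ← Real.sqrt_sq_eq_abs]
      exact Real.sqrt_le_sqrt ((Finset.sum_mul_sq_le_sq_mul_sq _ _ _).trans
        (mul_le_mul_of_nonneg_right (hmB z) hS))
    refine h1.trans (mul_le_mul_of_nonneg_left ?_ hB)
    rw [div_add_div _ _ (by positivity) two_ne_zero, le_div_iff₀ (by positivity)]
    nlinarith [sq_nonneg (Real.sqrt (∑ k, K k z ^ 2) - a), Real.sq_sqrt hS]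
  · rw [integral_const_mul, integral_add ((integrable_finsetSum _ fun k _ => hKi k).div_const _)
      (integrable_const _), integral_div, integral_finsetSum _ fun k _ => hKi k, integral_const,
      probReal_univ, one_smul]

theorem second_order_bound [IsProbabilityMeasure μ] {G : Space d → ℝ} (hG : ContDiff ℝ 2 G)
    {B1 B2 : ℝ} (h1 : GradBound G B1) (h2 : ∀ x, ‖fderiv ℝ (fderiv ℝ G) x‖ ≤ B2) {N : X → Space d}
    (hNm : Measurable N) (hn1 : Integrable N μ) (hn2 : Integrable (fun x => ‖N x‖ ^ 2) μ)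
    (hm : ∫ x, N x ∂μ = 0) (b : Space d) {R : ℝ} (hR : 0 ≤ R)
    (hbd : ∀ t ∈ Set.Icc (0 : ℝ) 1,
      |∫ x, fderiv ℝ (fderiv ℝ G) (b + t • N x) (N x) (N x) ∂μ| ≤ R) :
    |(∫ x, G (b + N x) ∂μ) - G b| ≤ R := by
  have hGd : ContDiff ℝ 1 (fderiv ℝ G) := hG.fderiv_right (by norm_num)
  have hp : ∀ t : ℝ, Measurable fun x => b + t • N x := fun t => by fun_prop
  have m0 : ∀ t : ℝ, AEStronglyMeasurable (fun x => G (b + t • N x)) μ := fun t =>
    (hG.continuous.measurable.comp (hp t)).aestronglyMeasurable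
  have m1 : ∀ t : ℝ, AEStronglyMeasurable (fun x => fderiv ℝ G (b + t • N x) (N x)) μ := fun t =>
    (((hGd.continuous.comp continuous_fst).clm_apply continuous_snd).measurable.comp
      ((hp t).prodMk hNm)).aestronglyMeasurable
  have m2 : ∀ t : ℝ, AEStronglyMeasurable
      (fun x => fderiv ℝ (fderiv ℝ G) (b + t • N x) (N x) (N x)) μ := fun t =>
    ((((hGd.continuous_fderiv one_ne_zero).comp continuous_fst).clm_apply
      continuous_snd).clm_apply continuous_snd).measurable.comp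
      ((hp t).prodMk hNm) |>.aestronglyMeasurable
  have hint1 : ∀ t : ℝ, Integrable (fun x => fderiv ℝ G (b + t • N x) (N x)) μ := fun t =>
    (hn1.norm.const_mul B1).mono' (m1 t) (ae_of_all _ fun x =>
      ((fderiv ℝ G _).le_opNorm _).trans (mul_le_mul_of_nonneg_right (h1 _) (norm_nonneg _)))
  have hint0 : ∀ t : ℝ, Integrable (fun x => G (b + t • N x)) μ := fun t => by
    refine ((integrable_const ‖G b‖).add ((hn1.norm.const_mul (B1 * |t|)))).mono' (m0 t)
      (ae_of_all _ fun x => ?_)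
    have h := norm_sub_le_of_fderiv (hG.differentiable two_ne_zero) h1 (b + t • N x) b
    rw [add_sub_cancel_left, norm_smul, Real.norm_eq_abs, Real.norm_eq_abs, ← mul_assoc] at h
    simp only [Pi.add_apply, Real.norm_eq_abs]
    linarith [abs_sub_abs_le_abs_sub (G (b + t • N x)) (G b)]
  set φ := fun t : ℝ => ∫ x, G (b + t • N x) ∂μ with hφ
  set φ1 := fun t : ℝ => ∫ x, fderiv ℝ G (b + t • N x) (N x) ∂μ with hφ1
  have hline : ∀ (v : Space d) (t : ℝ), HasDerivAt (fun t : ℝ => b + t • v) v t := fun v t => by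
    simpa using ((hasDerivAt_id t).smul_const v).const_add b
  have hD0 : ∀ t, HasDerivAt φ (φ1 t) t := fun t =>
    (hasDerivAt_integral_of_dominated_loc_of_deriv_le (F := fun t x => G (b + t • N x))
      (F' := fun t x => fderiv ℝ G (b + t • N x) (N x)) (bound := fun x => B1 * ‖N x‖)
      Filter.univ_mem (Eventually.of_forall m0) (hint0 t) (m1 t)
      (ae_of_all _ fun x t _ => ((fderiv ℝ G _).le_opNorm _).trans
        (mul_le_mul_of_nonneg_right (h1 _) (norm_nonneg _))) (hn1.norm.const_mul B1)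
      (ae_of_all _ fun x t _ =>
        ((hG.differentiable two_ne_zero) _).hasFDerivAt.comp_hasDerivAt t (hline _ t))).2
  have hD1 : ∀ t, HasDerivAt φ1 (∫ x, fderiv ℝ (fderiv ℝ G) (b + t • N x) (N x) (N x) ∂μ) t :=
    fun t => (hasDerivAt_integral_of_dominated_loc_of_deriv_le
      (F := fun t x => fderiv ℝ G (b + t • N x) (N x))
      (F' := fun t x => fderiv ℝ (fderiv ℝ G) (b + t • N x) (N x) (N x))
      (bound := fun x => B2 * ‖N x‖ ^ 2)
      Filter.univ_mem (Eventually.of_forall m1) (hint1 t) (m2 t)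
      (ae_of_all _ fun x t _ => by
        refine ((fderiv ℝ (fderiv ℝ G) (b + t • N x)).le_opNorm₂ _ _).trans ?_
        rw [mul_assoc, ← sq]
        exact mul_le_mul_of_nonneg_right (h2 _) (sq_nonneg _)) (hn2.const_mul B2)
      (ae_of_all _ fun x t _ => by
        simpa using (((hGd.differentiable one_ne_zero) _).hasFDerivAt.comp_hasDerivAt t
          (hline (N x) t)).clm_apply (hasDerivAt_const t (N x)))).2
  have h10 : φ1 0 = 0 := by
    simp only [hφ1, zero_smul, add_zero]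
    rw [ContinuousLinearMap.integral_comp_comm _ hn1, hm, map_zero]
  have hb1 : ∀ t ∈ Set.Icc (0 : ℝ) 1, ‖φ1 t‖ ≤ R := fun t ht => by
    have h := (convex_Icc (0 : ℝ) 1).norm_image_sub_le_of_norm_hasDerivWithin_le
      (fun x _ => (hD1 x).hasDerivWithinAt) (fun x hx => (Real.norm_eq_abs _).trans_le (hbd x hx))
      (Set.left_mem_Icc.2 zero_le_one) ht
    rw [h10, sub_zero, sub_zero, Real.norm_eq_abs t, abs_of_nonneg ht.1] at h
    exact h.trans (mul_le_of_le_one_right hR ht.2)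
  have h := (convex_Icc (0 : ℝ) 1).norm_image_sub_le_of_norm_hasDerivWithin_le
    (fun x _ => (hD0 x).hasDerivWithinAt) hb1 (Set.left_mem_Icc.2 zero_le_one)
    (Set.right_mem_Icc.2 zero_le_one)
  simpa [hφ, Real.norm_eq_abs, integral_const] using h

end source

/-! ### Moments of the noise -/

theorem sq_mul_exp_abs_le {lam κ : ℝ} (hl : 0 < lam) (hκ : 0 ≤ κ) (X : ℝ) :
    X ^ 2 * Real.exp (κ * |X|)
      ≤ 2 / lam ^ 2 * (Real.exp ((lam + κ) * X) + Real.exp (-(lam + κ) * X)) := by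
  have h1 : X ^ 2 ≤ 2 / lam ^ 2 * Real.exp (lam * |X|) := by
    have h := Real.quadratic_le_exp_of_nonneg (mul_nonneg hl.le (abs_nonneg X))
    rw [mul_pow, sq_abs] at h
    rw [div_mul_eq_mul_div, le_div_iff₀ (by positivity)]
    nlinarith [mul_nonneg hl.le (abs_nonneg X)]
  calc X ^ 2 * Real.exp (κ * |X|)
      ≤ 2 / lam ^ 2 * Real.exp (lam * |X|) * Real.exp (κ * |X|) :=
        mul_le_mul_of_nonneg_right h1 (Real.exp_pos _).le
    _ = 2 / lam ^ 2 * Real.exp ((lam + κ) * |X|) := by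
      rw [mul_assoc, ← Real.exp_add, ← add_mul]
    _ ≤ _ := by
      refine mul_le_mul_of_nonneg_left ?_ (by positivity)
      rcases abs_choice X with h | h
      · rw [h]; exact le_add_of_nonneg_right (Real.exp_pos _).le
      · rw [h, mul_neg, ← neg_mul]; exact le_add_of_nonneg_left (Real.exp_pos _).le

section noise

variable {ι : Type} [Fintype ι] {N : (ι → Space d) → Space d} {L : ℝ}

theorem integrable_noise (hd : Differentiable ℝ N) (hN : Lip2 L N) : Integrable N (gp ι d) := by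
  rw [integrable_gp_iff]
  exact integrable_of_affine (hd.continuous.comp (emb ι d).continuous).aestronglyMeasurable
    hN.norm_le

/-- The Laplace transform of centred Lipschitz noise. -/
theorem mgf_noise (hd : Differentiable ℝ N) (hN : Lip2 L N) (hm : ∫ ω, N ω ∂gp ι d = 0)
    (v : Space d) : ∫ ω, Real.exp ⟪v, N ω⟫ ∂gp ι d ≤ Real.exp (‖v‖ ^ 2 * L ^ 2 / 2) := by
  have hi := integrable_gp_iff.1 (integrable_noise hd hN)
  rw [integral_gp] at hm ⊢
  have hz : ∫ x, ⟪v, N (emb ι d x)⟫ ∂mu (Pot.zero (famDim ι d)) = 0 := by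
    rw [mu_zero, integral_inner hi, hm, inner_zero_right]
  have h := mgf_lip (Pot.zero (famDim ι d)) (hN.lipF_inner v) hz
  rw [mu_zero, mul_pow] at h
  exact h

theorem integrable_exp_sq_noise (hd : Differentiable ℝ N) (hN : Lip2 L N) {κ : ℝ} (hκ : 0 ≤ κ)
    (hκL : κ * L ^ 2 ≤ 1 / 8) : Integrable (fun ω => Real.exp (κ * ‖N ω‖ ^ 2)) (gp ι d) := by
  rw [integrable_gp_iff]
  refine Integrable.mono' ((P245.gam_exp_sq (n := famDim ι d) (u := 2 * κ * L ^ 2)
    (by linarith)).1.const_mul (Real.exp (2 * κ * ‖N (emb ι d 0)‖ ^ 2)))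
    (Real.continuous_exp.comp
      (((hd.continuous.comp (emb ι d).continuous).norm.pow 2).const_mul κ)).aestronglyMeasurable
    (ae_of_all _ fun x => ?_)
  rw [Real.norm_eq_abs, abs_of_pos (Real.exp_pos _), ← Real.exp_add]
  refine Real.exp_le_exp.2 ?_
  have h1 := pow_le_pow_left₀ (norm_nonneg _) (hN.norm_le x) 2
  have h2 : ‖N (emb ι d x)‖ ^ 2 ≤ 2 * ‖N (emb ι d 0)‖ ^ 2 + 2 * L ^ 2 * ‖x‖ ^ 2 := by
    nlinarith [sq_nonneg (‖N (emb ι d 0)‖ - L * ‖x‖)]
  nlinarith [mul_le_mul_of_nonneg_left h2 hκ]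

theorem exp_sq_noise_le (hd : Differentiable ℝ N) (hN : Lip2 L N) (hm : ∫ ω, N ω ∂gp ι d = 0)
    {κ : ℝ} (hκ : 0 ≤ κ) (hκL : κ * L ^ 2 ≤ 1 / 8) :
    ∫ ω, Real.exp (κ * ‖N ω‖ ^ 2) ∂gp ι d ≤ Real.exp (2 * (κ * L ^ 2) * d) := by
  have hint := integrable_exp_sq_noise hd hN hκ hκL
  set s := Real.sqrt (2 * κ)
  have hs : s ^ 2 = 2 * κ := Real.sq_sqrt (by linarith)
  have hinner : ∀ v : Space d, ∫ g, Real.exp ⟪s • v, g⟫ ∂gam d = Real.exp (κ * ‖v‖ ^ 2) :=
    fun v => by
      rw [P245.gam_exp_inner, norm_smul, mul_pow, Real.norm_eq_abs, sq_abs, hs]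
      ring_nf
  have hmeas : Measurable fun p : (ι → Space d) × Space d => Real.exp ⟪s • N p.1, p.2⟫ :=
    Real.measurable_exp.comp
      (((hd.continuous.measurable.comp measurable_fst).const_smul s).inner measurable_snd)
  have hF : Integrable (fun p : (ι → Space d) × Space d => Real.exp ⟪s • N p.1, p.2⟫)
      ((gp ι d).prod (gam d)) := by
    rw [integrable_prod_iff hmeas.aestronglyMeasurable]
    refine ⟨ae_of_all _ fun ω => integrable_exp_inner (s • N ω), ?_⟩
    simp only [Real.norm_eq_abs, Real.abs_exp, hinner]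
    exact hint
  refine le_trans ?_ (P245.gam_exp_sq_le (n := d) (u := κ * L ^ 2) (by positivity) (by linarith))
  calc ∫ ω, Real.exp (κ * ‖N ω‖ ^ 2) ∂gp ι d
      = ∫ g, ∫ ω, Real.exp ⟪s • N ω, g⟫ ∂gp ι d ∂gam d := by
        rw [← integral_integral_swap (f := fun ω g => Real.exp ⟪s • N ω, g⟫) hF]
        simp only [hinner]
    _ ≤ _ := by
      refine integral_mono hF.integral_prod_right (P245.gam_exp_sq (by linarith)).1 fun g => ?_
      have e : ∀ ω, ⟪s • N ω, g⟫ = ⟪s • g, N ω⟫ := fun ω => by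
        rw [real_inner_smul_left, real_inner_smul_left, real_inner_comm]
      simp only [e]
      refine (mgf_noise hd hN hm (s • g)).trans (le_of_eq ?_)
      rw [norm_smul, mul_pow, Real.norm_eq_abs, sq_abs, hs]
      ring_nf

theorem exp_pair_noise (hd : Differentiable ℝ N) (hN : Lip2 L N) (hm : ∫ ω, N ω ∂gp ι d = 0)
    {μ : ℝ} (hμ : |μ| * L ^ 2 ≤ 1 / 4) :
    Integrable (fun p : (ι → Space d) × (ι → Space d) => Real.exp (μ * ⟪N p.1, N p.2⟫))
        ((gp ι d).prod (gp ι d)) ∧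
      ∫ p : (ι → Space d) × (ι → Space d), Real.exp (μ * ⟪N p.1, N p.2⟫) ∂(gp ι d).prod (gp ι d)
        ≤ Real.exp (μ ^ 2 * L ^ 4 * d) := by
  have h1 := integrable_exp_sq_noise hd hN (κ := |μ| / 2) (by positivity) (by linarith)
  have hmeas : Measurable
      fun p : (ι → Space d) × (ι → Space d) => Real.exp (μ * ⟪N p.1, N p.2⟫) :=
    Real.measurable_exp.comp (((hd.continuous.measurable.comp measurable_fst).inner
      (hd.continuous.measurable.comp measurable_snd)).const_mul μ)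
  have hint : Integrable
      (fun p : (ι → Space d) × (ι → Space d) => Real.exp (μ * ⟪N p.1, N p.2⟫))
      ((gp ι d).prod (gp ι d)) := by
    refine Integrable.mono' (h1.mul_prod h1) hmeas.aestronglyMeasurable (ae_of_all _ fun p => ?_)
    rw [Real.norm_eq_abs, abs_of_pos (Real.exp_pos _), ← Real.exp_add]
    refine Real.exp_le_exp.2 ?_
    have h2 := (le_abs_self (μ * ⟪N p.1, N p.2⟫))
    rw [abs_mul] at h2
    have h3 := mul_le_mul_of_nonneg_left (abs_real_inner_le_norm (N p.1) (N p.2)) (abs_nonneg μ)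
    nlinarith [mul_nonneg (abs_nonneg μ) (sq_nonneg (‖N p.1‖ - ‖N p.2‖))]
  refine ⟨hint, ?_⟩
  have hκ : μ ^ 2 * L ^ 2 / 2 * L ^ 2 ≤ 1 / 8 := by
    have := pow_le_pow_left₀ (by positivity) hμ 2
    rw [mul_pow, sq_abs] at this
    nlinarith
  rw [integral_prod _ hint]
  refine (integral_mono hint.integral_prod_left
    (integrable_exp_sq_noise hd hN (by positivity) hκ) fun ω => ?_).trans
    ((exp_sq_noise_le hd hN hm (by positivity) hκ).trans (le_of_eq (by ring_nf)))
  have h := mgf_noise hd hN hm (μ • N ω)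
  simp only [real_inner_smul_left] at h
  refine h.trans (le_of_eq ?_)
  rw [norm_smul, mul_pow, Real.norm_eq_abs, sq_abs]
  ring_nf

theorem scaled_inner_le {s r : ℝ} (hs : s ^ 2 ≤ 1 / r) (v w : Space d) :
    ⟪s • v, s • w⟫ ≤ 1 / r * |⟪v, w⟫| := by
  rw [real_inner_smul_left, real_inner_smul_right, ← mul_assoc, ← sq]
  exact (mul_le_mul_of_nonneg_left (le_abs_self _) (sq_nonneg s)).trans
    (mul_le_mul_of_nonneg_right hs (abs_nonneg _))

theorem integrable_sq_noise (hd : Differentiable ℝ N) (hN : Lip2 L N) {r : ℝ} (hr : 0 < r)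
    (hrL : 1 / r * L ^ 2 ≤ 1 / 8) :
    Integrable (fun ω => ‖N ω‖ ^ 2 * Real.exp (1 / (2 * r) * ‖N ω‖ ^ 2)) (gp ι d) ∧
      Integrable (fun ω => ‖N ω‖ ^ 2) (gp ι d) := by
  have hn : Continuous fun ω => ‖N ω‖ ^ 2 := hd.continuous.norm.pow 2
  have hh : Integrable (fun ω => ‖N ω‖ ^ 2 * Real.exp (1 / (2 * r) * ‖N ω‖ ^ 2)) (gp ι d) := by
    refine Integrable.mono'
      ((integrable_exp_sq_noise hd hN (κ := 1 / r) (by positivity) hrL).const_mul (2 * r))
      (hn.mul (Real.continuous_exp.comp (hn.const_mul _))).aestronglyMeasurable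
      (ae_of_all _ fun ω => ?_)
    rw [Real.norm_eq_abs, abs_of_nonneg (by positivity)]
    set y := ‖N ω‖ ^ 2
    have h1 := mul_le_mul_of_nonneg_left (Real.add_one_le_exp (1 / (2 * r) * y))
      (show 0 ≤ 2 * r by positivity)
    rw [mul_add, ← mul_assoc, mul_one_div_cancel (by positivity), one_mul] at h1
    rw [show Real.exp (1 / r * y) = Real.exp (1 / (2 * r) * y) * Real.exp (1 / (2 * r) * y) by
      rw [← Real.exp_add]; congr 1; field_simp; ring, ← mul_assoc]
    exact mul_le_mul_of_nonneg_right (by linarith) (Real.exp_pos _).le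
  exact ⟨hh, hh.mono' hn.aestronglyMeasurable (ae_of_all _ fun ω => by
    rw [Real.norm_eq_abs, abs_of_nonneg (sq_nonneg _)]
    exact le_mul_of_one_le_right (sq_nonneg _) (Real.one_le_exp (by positivity)))⟩

theorem moment_pair (hd : Differentiable ℝ N) (hN : Lip2 L N) (hL : 0 < L)
    (hm : ∫ ω, N ω ∂gp ι d = 0) (hd1 : 1 ≤ d) {r : ℝ} (hr : 0 < r)
    (hLr : 8 * (L ^ 2 * Real.sqrt d) ≤ r) {s : ℝ} (hs : s ^ 2 ≤ 1 / r) :
    ∫ p : (ι → Space d) × (ι → Space d),
        ⟪N p.1, N p.2⟫ ^ 2 * Real.exp ⟪s • N p.1, s • N p.2⟫ ∂(gp ι d).prod (gp ι d)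
      ≤ 768 * (L ^ 2 * Real.sqrt d) ^ 2 := by
  have hsd : 1 ≤ Real.sqrt d := Real.one_le_sqrt.2 (by exact_mod_cast hd1)
  set a := L ^ 2 * Real.sqrt d with ha
  have ha0 : 0 < a := by positivity
  have haL : L ^ 2 ≤ a := le_mul_of_one_le_right (sq_nonneg L) hsd
  set lam := 1 / (8 * a) with hlam
  have hl : 0 < lam := by positivity
  have hkl : 1 / r ≤ lam := one_div_le_one_div_of_le (by positivity) hLr
  set μ := lam + 1 / r with hμ
  have hμ0 : 0 ≤ μ := by positivity
  have hμa : μ * a ≤ 1 / 4 := by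
    have : lam * a = 1 / 8 := by rw [hlam]; field_simp
    nlinarith [mul_le_mul_of_nonneg_right hkl ha0.le]
  have hμL : |μ| * L ^ 2 ≤ 1 / 4 := by
    rw [abs_of_nonneg hμ0]; nlinarith
  have hμd : μ ^ 2 * L ^ 4 * d ≤ 1 := by
    have := pow_le_pow_left₀ (by positivity) hμa 2
    rw [ha, mul_pow, mul_pow, ← pow_mul, Real.sq_sqrt (Nat.cast_nonneg d)] at this
    norm_num at this ⊢
    linarith
  have h1 := exp_pair_noise hd hN hm hμL
  have h2 := exp_pair_noise hd hN hm (μ := -μ) (by rwa [abs_neg])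
  rw [neg_sq] at h2
  have he : Real.exp (μ ^ 2 * L ^ 4 * d) ≤ 3 :=
    (Real.exp_le_exp.2 hμd).trans Real.exp_one_lt_three.le
  refine (integral_mono_of_nonneg (ae_of_all _ fun p => by positivity)
    ((h1.1.add h2.1).const_mul (2 / lam ^ 2)) (ae_of_all _ fun p => ?_)).trans ?_
  · exact (mul_le_mul_of_nonneg_left (Real.exp_le_exp.2 (scaled_inner_le hs _ _))
      (sq_nonneg _)).trans (sq_mul_exp_abs_le hl (by positivity) _)
  · simp only [Pi.add_apply]
    rw [integral_const_mul, integral_add h1.1 h2.1]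
    calc 2 / lam ^ 2 * _ ≤ 2 / lam ^ 2 * (3 + 3) :=
          mul_le_mul_of_nonneg_left (add_le_add (h1.2.trans he) (h2.2.trans he)) (by positivity)
      _ = 768 * a ^ 2 := by rw [hlam]; field_simp; ring

theorem quad_bound (hd : Differentiable ℝ N) (hN : Lip2 L N) (hL : 0 < L)
    (hm : ∫ ω, N ω ∂gp ι d = 0) (hd1 : 1 ≤ d) {r : ℝ} (hr : 0 < r)
    (hLr : 8 * (L ^ 2 * Real.sqrt d) ≤ r) (hrL : 1 / r * L ^ 2 ≤ 1 / 8)
    {M : Space d → Space d →L[ℝ] Space d →L[ℝ] ℝ} (hMc : Continuous M) {B2 : ℝ} (hB2 : 0 ≤ B2)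
    (hM : ∀ z, ∑ i, ∑ j, M z (ev i) (ev j) ^ 2 ≤ B2 ^ 2) {s : ℝ} (hs : s ^ 2 ≤ 1 / r) :
    |∫ ω, ∫ z, wgt (s • N ω) z * M z (N ω) (N ω) ∂gam d ∂gp ι d|
      ≤ 400 * B2 * L ^ 2 * Real.sqrt d := by
  have hNm := hd.continuous.measurable
  have hsd : 0 < Real.sqrt d := Real.sqrt_pos.2 (by exact_mod_cast hd1)
  set a := L ^ 2 * Real.sqrt d with ha
  have ha0 : 0 < a := by positivity
  obtain ⟨hh, hn2⟩ := integrable_sq_noise hd hN hr hrL
  have hu : Measurable fun ω => s • N ω := hNm.const_smul s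
  have hmeas : Measurable fun p : (ι → Space d) × (ι → Space d) =>
      ‖N p.1‖ ^ 2 * ‖N p.2‖ ^ 2 * Real.exp ⟪s • N p.1, s • N p.2⟫ :=
    ((((hNm.comp measurable_fst).norm.pow_const 2).mul
      ((hNm.comp measurable_snd).norm.pow_const 2)).mul
      (Real.measurable_exp.comp ((hu.comp measurable_fst).inner (hu.comp measurable_snd))))
  have hpair : Integrable (fun p : (ι → Space d) × (ι → Space d) =>
      ‖N p.1‖ ^ 2 * ‖N p.2‖ ^ 2 * Real.exp ⟪s • N p.1, s • N p.2⟫)
      ((gp ι d).prod (gp ι d)) := by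
    refine Integrable.mono' (hh.mul_prod hh) hmeas.aestronglyMeasurable (ae_of_all _ fun p => ?_)
    rw [Real.norm_eq_abs, abs_of_nonneg (by positivity), mul_mul_mul_comm, ← Real.exp_add]
    refine mul_le_mul_of_nonneg_left (Real.exp_le_exp.2 ((scaled_inner_le hs _ _).trans ?_))
      (by positivity)
    calc 1 / r * |⟪N p.1, N p.2⟫| ≤ 1 / r * ((‖N p.1‖ ^ 2 + ‖N p.2‖ ^ 2) / 2) := by
          refine mul_le_mul_of_nonneg_left ?_ (by positivity)
          nlinarith [abs_real_inner_le_norm (N p.1) (N p.2), sq_nonneg (‖N p.1‖ - ‖N p.2‖)]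
      _ = _ := by field_simp
  refine (pairing_le hu hNm hn2 hpair hMc hB2 ha0 hM).trans ?_
  have hQ := moment_pair hd hN hL hm hd1 hr hLr hs
  rw [← ha] at hQ
  calc B2 * _ ≤ B2 * (768 * a ^ 2 / (2 * a) + a / 2) :=
        mul_le_mul_of_nonneg_left (add_le_add_left
          (div_le_div_of_nonneg_right hQ (by positivity)) _) hB2
    _ ≤ B2 * (400 * a) := mul_le_mul_of_nonneg_left (by
        rw [show 768 * a ^ 2 / (2 * a) = 384 * a by field_simp; ring]; linarith) hB2
    _ = _ := by rw [ha]; ring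

end noise

theorem shifted_hess {H : Space d → ℝ} {B1 B2 : ℝ} (hH : ContDiff ℝ 2 H) (h1 : GradBound H B1)
    (h2 : HessBound H B2) (hB2 : 0 ≤ B2) {r : ℝ} (hr : 0 < r) (b v : Space d) (t : ℝ) :
    fderiv ℝ (fderiv ℝ (Pf r H)) (b + t • v) v v
      = ∫ z, wgt ((t / Real.sqrt r) • v) z
          * fderiv ℝ (fderiv ℝ H) (b + Real.sqrt r • z) v v ∂gam d := by
  rw [fderiv_fderiv_Pf_apply hH h1 h2 hB2,
    ← integral_shift (fun z => fderiv ℝ (fderiv ℝ H) (b + Real.sqrt r • z) v v)]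
  refine integral_congr_ae (ae_of_all _ fun z => ?_)
  dsimp only
  rw [smul_add, smul_smul, mul_div_cancel₀ _ (Real.sqrt_pos.2 hr).ne', add_assoc,
    add_comm (t • v)]

/-- Mean-zero Lipschitz noise seen through Gaussian smoothing. -/
theorem noiseLemma : NoiseLemma := by
  refine ⟨400, 1 / 64, by norm_num, fun d ι _ N H B1 B2 L r b hH h1 h2 hB2 hL hd hN hm hr hLr => ?_⟩
  show |(∫ ω, Pf r H (b + N ω) ∂gp ι d) - Pf r H b| ≤ 400 * B2 * L ^ 2 * Real.sqrt d
  have hRHS : 0 ≤ 400 * B2 * L ^ 2 * Real.sqrt d := by positivity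
  rcases eq_or_ne d 0 with hd0 | hd0
  · subst hd0
    have e : ∀ ω, N ω = 0 := fun ω => Subsingleton.elim _ _
    simp [e]
  rcases hL.eq_or_lt with hL0 | hL0
  · have e : ∀ ω, N ω = 0 := fun ω => by
      have hcst : ∀ η, N η = N ω := fun η => by
        have := hN η ω
        rw [← hL0, zero_mul, norm_le_zero_iff, sub_eq_zero] at this
        exact this
      simpa [hcst] using hm
    simp [e, ← hL0]
  have hd1 : 1 ≤ d := Nat.one_le_iff_ne_zero.2 hd0
  have hLr' : 8 * (L ^ 2 * Real.sqrt d) ≤ r := by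
    refine (sq_le_sq₀ (by positivity) hr.le).1 ?_
    rw [mul_pow, mul_pow, ← pow_mul, Real.sq_sqrt (Nat.cast_nonneg d)]
    norm_num
    linarith
  have hrL : 1 / r * L ^ 2 ≤ 1 / 8 := by
    rw [div_mul_eq_mul_div, div_le_iff₀ hr]
    have : L ^ 2 * 1 ≤ L ^ 2 * Real.sqrt d :=
      mul_le_mul_of_nonneg_left (Real.one_le_sqrt.2 (by exact_mod_cast hd1)) (sq_nonneg L)
    linarith
  obtain ⟨hGC, hG1, hG2⟩ := pfBound d r H B1 B2 hH h1 h2 hB2
  have hMc : Continuous fun z : Space d => fderiv ℝ (fderiv ℝ H) (b + Real.sqrt r • z) :=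
    ((hH.fderiv_right (m := 1) (by norm_num)).continuous_fderiv one_ne_zero).comp (by fun_prop)
  refine second_order_bound hGC hG1 (fderiv_fderiv_bound hG2 hB2) hd.continuous.measurable
    (integrable_noise hd hN) (integrable_sq_noise hd hN hr hrL).2 hm b hRHS fun t ht => ?_
  simp only [shifted_hess hH h1 h2 hB2 hr]
  refine quad_bound hd hN hL0 hm hd1 hr hLr' hrL hMc hB2 (fun z => h2 _) ?_
  rw [div_pow, Real.sq_sqrt hr.le]
  exact div_le_div_of_nonneg_right (pow_le_one₀ ht.1 ht.2) hr.le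

end Vale.Agent.P347
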