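import Vale.Agent.P347.ChainPins
import Vale.Agent.P347.Basics
import Vale.Agent.P347.Noise

/-!
Derivative bounds after several steps of the proximal chain: the variance decrement gives the
gradient, and Duhamel's formula for the gradient field gives the Hessian.
-/

noncomputable section

open MeasureTheory ProbabilityTheory
open scoped RealInnerProductSpace

namespace Vale.Agent.P347.Chn

variable {d : ℕ} {h : ℝ}

/-- Bounded measurable functions. -/
def Bd (f : Space d → ℝ) : Prop := Measurable f ∧ ∃ M, ∀ x, |f x| ≤ M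

theorem Bd.grow {f : Space d → ℝ} (hf : Bd f) : Grow f := by
  obtain ⟨M, hM⟩ := hf.2
  exact ⟨M, 0, fun x => by simpa using hM x⟩

theorem abs_int_le {μ : Measure (Space d)} [IsProbabilityMeasure μ] {F : Space d → ℝ} {M : ℝ}
    (h1 : ∀ x, |F x| ≤ M) : |∫ x, F x ∂μ| ≤ M := by
  have := norm_integral_le_of_norm_le_const (μ := μ) (C := M)
    (ae_of_all _ fun x => (Real.norm_eq_abs _).trans_le (h1 x))
  simpa using this

theorem int_bd {μ : Measure (Space d)} [IsFiniteMeasure μ] {f : Space d → ℝ} (hf : Bd f)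
    (a : Space d) (s : ℝ) : Integrable (fun x => f (a + s • x)) μ := by
  obtain ⟨M, hM⟩ := hf.2
  exact Integrable.of_bound (hf.1.comp (by fun_prop)).aestronglyMeasurable M
    (ae_of_all _ fun x => (Real.norm_eq_abs _).trans_le (hM _))

theorem bd_lin {f g : Space d → ℝ} (hf : Bd f) (hg : Bd g) (c e : ℝ) :
    Bd fun x => c * f x + e * g x := by
  obtain ⟨A, hA⟩ := hf.2
  obtain ⟨B, hB⟩ := hg.2
  refine ⟨(hf.1.const_mul c).add (hg.1.const_mul e), |c| * A + |e| * B, fun x => ?_⟩
  refine (abs_add_le _ _).trans ?_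
  rw [abs_mul, abs_mul]
  exact add_le_add (mul_le_mul_of_nonneg_left (hA x) (abs_nonneg c))
    (mul_le_mul_of_nonneg_left (hB x) (abs_nonneg e))

theorem bd_sq {f : Space d → ℝ} (hf : Bd f) : Bd fun x => f x ^ 2 := by
  obtain ⟨A, hA⟩ := hf.2
  refine ⟨hf.1.pow_const 2, A ^ 2, fun x => ?_⟩
  rw [abs_pow]
  exact pow_le_pow_left₀ (abs_nonneg _) (hA x) 2

theorem bd_sum {ι : Type} (s : Finset ι) {f : ι → Space d → ℝ} (hf : ∀ i, Bd (f i)) :
    Bd fun x => ∑ i ∈ s, f i x := by
  choose M hM using fun i => (hf i).2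
  exact ⟨Finset.measurable_sum s fun i _ => (hf i).1, ∑ i ∈ s, M i, fun x =>
    (Finset.abs_sum_le_sum_abs _ _).trans (Finset.sum_le_sum fun i _ => hM i x)⟩

theorem Pf_bd {f : Space d → ℝ} (hf : Bd f) (r : ℝ) : Bd (Pf r f) := by
  obtain ⟨M, hM⟩ := hf.2
  exact ⟨measurable_Pf hf.1 r, M, fun x => abs_int_le fun z => hM _⟩

theorem Qop_abs (P : Pot d h) (η : ℝ) {f : Space d → ℝ} {M : ℝ} (hM : ∀ x, |f x| ≤ M)
    (y : Space d) : |Qop P η f y| ≤ M := by
  have := mu_prob (P.aff ((1 + η)⁻¹ • y) (Real.sqrt (η / (1 + η))))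
  exact abs_int_le fun x => abs_int_le fun z => hM _

theorem v_pos {η : ℝ} (hη : 0 < η) : 0 < η / (1 + η) := by positivity

theorem Qop_bd (hP : PostDeriv) (P : Pot d h) {η : ℝ} (hη : 0 < η) {f : Space d → ℝ} (hf : Bd f) :
    Bd (Qop P η f) := by
  obtain ⟨M, hM⟩ := hf.2
  exact ⟨((hP d h P _ (v_pos hη) _ (Pf_bd hf η).1 (Pf_bd hf η).grow).1.continuous.comp
    (continuous_const_smul _)).measurable, M, Qop_abs P η hM⟩

theorem iter_bd (hP : PostDeriv) (P : Pot d h) {η : ℝ} (hη : 0 < η) :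
    ∀ (r : ℕ) {f : Space d → ℝ}, Bd f → Bd ((Qop P η)^[r] f)
  | 0, _, hf => hf
  | r + 1, _, hf => by
    rw [Function.iterate_succ_apply']
    exact Qop_bd hP P hη (iter_bd hP P hη r hf)

theorem iter_abs (P : Pot d h) (η : ℝ) {f : Space d → ℝ} {M : ℝ} (hM : ∀ x, |f x| ≤ M) :
    ∀ (r : ℕ) (y : Space d), |(Qop P η)^[r] f y| ≤ M
  | 0, y => hM y
  | r + 1, y => by
    rw [Function.iterate_succ_apply']
    exact Qop_abs P η (iter_abs P η hM r) y

theorem Qop_lin (P : Pot d h) (η : ℝ) {f g : Space d → ℝ} (hf : Bd f) (hg : Bd g) (c e : ℝ) :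
    Qop P η (fun x => c * f x + e * g x) = fun y => c * Qop P η f y + e * Qop P η g y := by
  funext y
  have := mu_prob (P.aff ((1 + η)⁻¹ • y) (Real.sqrt (η / (1 + η))))
  have e1 : Pf η (fun x => c * f x + e * g x) = fun x => c * Pf η f x + e * Pf η g x := by
    funext x
    simp only [Pf]
    rw [integral_add ((int_bd hf x _).const_mul c) ((int_bd hg x _).const_mul e),
      integral_const_mul, integral_const_mul]
  simp only [Qop, post, e1]
  rw [integral_add ((int_bd (Pf_bd hf η) _ _).const_mul c) ((int_bd (Pf_bd hg η) _ _).const_mul e),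
    integral_const_mul, integral_const_mul]

theorem iter_lin (hP : PostDeriv) (P : Pot d h) {η : ℝ} (hη : 0 < η) (c e : ℝ) :
    ∀ (r : ℕ) {f g : Space d → ℝ}, Bd f → Bd g → ∀ y,
      (Qop P η)^[r] (fun x => c * f x + e * g x) y
        = c * (Qop P η)^[r] f y + e * (Qop P η)^[r] g y
  | 0, _, _, _, _, _ => rfl
  | r + 1, f, g, hf, hg, y => by
    simp only [Function.iterate_succ_apply]
    rw [Qop_lin P η hf hg c e]
    exact iter_lin hP P hη c e r (Qop_bd hP P hη hf) (Qop_bd hP P hη hg) y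

theorem iter_sum (hP : PostDeriv) (P : Pot d h) {η : ℝ} (hη : 0 < η) (r : ℕ) {ι : Type}
    {f : ι → Space d → ℝ} (hf : ∀ i, Bd (f i)) (s : Finset ι) (y : Space d) :
    (Qop P η)^[r] (fun x => ∑ i ∈ s, f i x) y = ∑ i ∈ s, (Qop P η)^[r] (f i) y := by
  classical
  induction s using Finset.induction_on with
  | empty =>
    simp only [Finset.sum_empty]
    exact abs_nonpos_iff.1 (iter_abs P η (fun x => (abs_zero (α := ℝ)).le) r y)
  | insert i s hi ih =>
    simp only [Finset.sum_insert hi]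
    rw [← ih]
    have := iter_lin hP P hη 1 1 r (hf i) (bd_sum s hf) y
    simpa using this

/-! ### Hilbert and Schmidt -/

theorem norm_sq_clm (L : Space d →L[ℝ] ℝ) : ‖L‖ ^ 2 = ∑ i, L (ev i) ^ 2 := by
  have hS : 0 ≤ ∑ i, L (ev i) ^ 2 := Finset.sum_nonneg fun i _ => sq_nonneg _
  refine le_antisymm ?_ ?_
  · rw [← Real.le_sqrt (norm_nonneg _) hS]
    exact L.opNorm_le_bound (Real.sqrt_nonneg _) fun v => abs_clm_le L v
  · set u : Space d := WithLp.toLp 2 fun i => L (ev i) with hu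
    have h1 : L u = ∑ i, L (ev i) ^ 2 := by
      conv_lhs => rw [← sum_smul_ev u]
      rw [map_sum]
      exact Finset.sum_congr rfl fun i _ => by simp [hu, sq]
    have h2 : ‖u‖ ^ 2 = ∑ i, L (ev i) ^ 2 := by rw [EuclideanSpace.real_norm_sq_eq]
    have h3 : L u ≤ ‖L‖ * ‖u‖ := (le_abs_self _).trans (L.le_opNorm u)
    rw [h1, ← h2] at h3
    rw [← h2]
    rcases (norm_nonneg u).eq_or_lt with h0 | h0
    · rw [← h0]; simpa using sq_nonneg ‖L‖
    · exact pow_le_pow_left₀ h0.le (le_of_mul_le_mul_right (by rwa [← sq]) h0) 2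

/-- The Hilbert-Schmidt norm of the Jacobian of a family of functions. -/
def HS (φ : Fin d → Space d → ℝ) (y : Space d) : ℝ :=
  Real.sqrt (∑ j, ‖fderiv ℝ (φ j) y‖ ^ 2)

theorem HS_le_add {φ ψ χ : Fin d → Space d → ℝ} {y : Space d}
    (h1 : ∀ j, ‖fderiv ℝ (φ j) y‖ ≤ ‖fderiv ℝ (ψ j) y‖ + ‖fderiv ℝ (χ j) y‖) :
    HS φ y ≤ HS ψ y + HS χ y := by
  set A := fun j => ‖fderiv ℝ (ψ j) y‖ with hA
  set B := fun j => ‖fderiv ℝ (χ j) y‖ with hB
  have hcs := Real.sum_mul_le_sqrt_mul_sqrt Finset.univ A B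
  unfold HS
  refine Real.sqrt_le_iff.2 ⟨by positivity, ?_⟩
  calc ∑ j, ‖fderiv ℝ (φ j) y‖ ^ 2 ≤ ∑ j, (A j ^ 2 + 2 * (A j * B j) + B j ^ 2) :=
        Finset.sum_le_sum fun j _ => (pow_le_pow_left₀ (norm_nonneg _) (h1 j) 2).trans_eq (by
          simp only [hA, hB]; ring)
    _ ≤ _ := by
        rw [Finset.sum_add_distrib, Finset.sum_add_distrib, ← Finset.mul_sum, add_sq,
          Real.sq_sqrt (Finset.sum_nonneg fun j _ => sq_nonneg _),
          Real.sq_sqrt (Finset.sum_nonneg fun j _ => sq_nonneg _)]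
        linarith

/-- Smoothing of a bounded vector field. -/
theorem smoothing (hP : PostDeriv) (hV : ChainVar) (hh : h ≤ 1) (P : Pot d h) {η : ℝ}
    (hη : 0 < η) (hη1 : η ≤ 1) {r : ℕ} (hr : 1 ≤ r) {φ : Fin d → Space d → ℝ}
    (hφ : ∀ j, Bd (φ j)) {S : ℝ} (hS : 0 ≤ S) (hb : ∀ x, ∑ j, φ j x ^ 2 ≤ S ^ 2) (y : Space d) :
    HS (fun j => (Qop P η)^[r] (φ j)) y ≤ S / Real.sqrt (r * η) := by
  have hr0 : (0 : ℝ) < r * η := by positivity
  have h1 : ∀ j, ((r : ℝ) * η) * ‖fderiv ℝ ((Qop P η)^[r] (φ j)) y‖ ^ 2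
      ≤ (Qop P η)^[r] (fun x => φ j x ^ 2) y := fun j => by
    obtain ⟨M, hM⟩ := (hφ j).2
    exact (hV d h P η r (φ j) M hh hη hη1 hr (hφ j).1 hM).2 y
  have h2 := Finset.sum_le_sum fun j (_ : j ∈ Finset.univ) => h1 j
  rw [← Finset.mul_sum, ← iter_sum hP P hη r (fun j => bd_sq (hφ j))] at h2
  have h3 := (le_abs_self _).trans (iter_abs P η (f := fun x => ∑ j, φ j x ^ 2) (fun x => by
    rw [abs_of_nonneg (Finset.sum_nonneg fun j _ => sq_nonneg _)]; exact hb x) r y)
  unfold HS
  refine Real.sqrt_le_iff.2 ⟨by positivity, ?_⟩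
  rw [div_pow, Real.sq_sqrt hr0.le, le_div_iff₀ hr0, mul_comm]
  exact h2.trans h3

theorem sum_inv_sqrt : ∀ n : ℕ, ∑ i ∈ Finset.range n, 1 / Real.sqrt ((i : ℝ) + 1) ≤ 2 * Real.sqrt n
  | 0 => by simp
  | n + 1 => by
    rw [Finset.sum_range_succ]
    have hn := sum_inv_sqrt n
    have h1 : 0 < Real.sqrt ((n : ℝ) + 1) := Real.sqrt_pos.2 (by positivity)
    have h2 := Real.mul_self_sqrt (show (0 : ℝ) ≤ (n : ℝ) + 1 by positivity)
    have h3 := Real.mul_self_sqrt (Nat.cast_nonneg (α := ℝ) n)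
    have h4 : 1 / Real.sqrt ((n : ℝ) + 1) ≤ 2 * (Real.sqrt ((n : ℝ) + 1) - Real.sqrt n) := by
      rw [div_le_iff₀ h1]
      nlinarith [sq_nonneg (Real.sqrt ((n : ℝ) + 1) - Real.sqrt n)]
    push_cast
    linarith

end Vale.Agent.P347.Chn

namespace Vale.Agent.P347

open Chn

/-- Derivative bounds after `m` steps. -/
theorem chainBounds (hP : PostDeriv) (hV : ChainVar) (hC : ChainCov) : ChainBounds := by
  refine ⟨4, fun d h P η m f hh hη hη1 hm hf h1 => ?_⟩
  set Q := Qop P η with hQ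
  set u : ℕ → Space d → ℝ := fun k => Q^[k] f with hu
  set a := (1 + η)⁻¹ with ha
  set v := η / (1 + η) with hv
  have ha0 : 0 < a := by rw [ha]; positivity
  have ha1 : a ≤ 1 := by rw [ha]; exact inv_le_one_of_one_le₀ (by linarith)
  have hv0 : 0 < v := v_pos hη
  have hvη : v ≤ η := div_le_self hη.le (by linarith)
  have hfB : Bd f := ⟨hf, 1, h1⟩
  have huB : ∀ k, Bd (u k) := fun k => iter_bd hP P hη k hfB
  have hu1 : ∀ k x, |u k x| ≤ 1 := fun k x => iter_abs P η h1 k x
  have hu2 : ∀ k, 1 ≤ k → ContDiff ℝ 2 (u k) := fun k hk => (hV d h P η k f 1 hh hη hη1 hk hf h1).1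
  have hgrad : ∀ k, 1 ≤ k → ∀ y, ‖fderiv ℝ (u k) y‖ ≤ 1 / Real.sqrt (k * η) := by
    intro k hk y
    have h2 := (hV d h P η k f 1 hh hη hη1 hk hf h1).2 y
    have h3 : (Qop P η)^[k] (fun x => f x ^ 2) y ≤ 1 :=
      (le_abs_self _).trans (iter_abs P η (fun x => by
        rw [abs_pow]; exact pow_le_one₀ (abs_nonneg _) (h1 x)) k y)
    have hk0 : (0 : ℝ) < k * η := by positivity
    rw [le_div_iff₀ (Real.sqrt_pos.2 hk0)]
    nlinarith [Real.sq_sqrt hk0.le, sq_nonneg (‖fderiv ℝ (u k) y‖ * Real.sqrt (k * η) - 1)]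
  have hm0 : (0 : ℝ) < m * η := by positivity
  refine ⟨hu2 m hm, fun y => (hgrad m hm y).trans ?_, fun x => ?_⟩
  · exact div_le_div_of_nonneg_right (by norm_num) (Real.sqrt_nonneg _)
  have hsw : ∀ (F : Space d → ℝ), ContDiff ℝ 2 F → ∀ i j,
      fderiv ℝ (fun y => fderiv ℝ F y (ev j)) x (ev i)
        = fderiv ℝ (fderiv ℝ F) x (ev i) (ev j) := fun F hF i j => by
    rw [fderiv_clm_apply ((hF.fderiv_right (m := 1) (by norm_num)).differentiable one_ne_zero x)
      (differentiableAt_const _)]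
    simp
  have hcomp : ∀ (G : Space d → ℝ) (y : Space d), DifferentiableAt ℝ G (a • y) →
      fderiv ℝ (fun z => G (a • z)) y = a • fderiv ℝ G (a • y) := fun G y hG => by
    have e1 : HasFDerivAt (fun z : Space d => a • z) (a • ContinuousLinearMap.id ℝ (Space d)) y :=
      (hasFDerivAt_id y).const_smul a
    refine (hG.hasFDerivAt.comp y e1).fderiv.trans ?_
    ext e
    simp
  rcases eq_or_lt_of_le hm with rfl | hm2
  · -- one step
    set F := Pf η f with hF
    obtain ⟨hp2, -, hph⟩ := hP d h P v hv0 F (Pf_bd hfB η).1 (Pf_bd hfB η).grow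
    have e1 : (Qop P η)^[1] f = fun y => post P v F (a • y) := rfl
    have hvar : var (mu (P.aff (a • x) (Real.sqrt v))) (fun ξ => F (a • x + Real.sqrt v • ξ)) ≤ 1 := by
      set R := P.aff (a • x) (Real.sqrt v)
      have := mu_prob R
      have hm' : Measurable fun ξ => F (a • x + Real.sqrt v • ξ) :=
        (Pf_bd hfB η).1.comp (by fun_prop)
      have hg := grow_comp (Pf_bd hfB η).grow (a • x) (Real.sqrt v)
      have e2 : var (mu R) (fun ξ => F (a • x + Real.sqrt v • ξ))
          = cov (mu R) (fun ξ => F (a • x + Real.sqrt v • ξ))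
              (fun ξ => F (a • x + Real.sqrt v • ξ)) := by simp [var, cov, sq]
      rw [e2, cov_eq R hm' hg hm' hg]
      have h3 : ∀ ξ, |F (a • x + Real.sqrt v • ξ) * F (a • x + Real.sqrt v • ξ)| ≤ 1 := fun ξ => by
        rw [abs_mul]
        exact mul_le_one₀ (abs_Pf_le h1 η _) (abs_nonneg _) (abs_Pf_le h1 η _)
      have h4 := (le_abs_self _).trans (abs_int_le (μ := mu R) h3)
      nlinarith [mul_self_nonneg (∫ ξ, F (a • x + Real.sqrt v • ξ) ∂mu R)]
    have hd1 : Differentiable ℝ (fderiv ℝ (post P v F)) :=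
      (hp2.fderiv_right (m := 1) (by norm_num)).differentiable one_ne_zero
    have e3 : ∀ i j, fderiv ℝ (fderiv ℝ ((Qop P η)^[1] f)) x (ev i) (ev j)
        = a * a * fderiv ℝ (fderiv ℝ (post P v F)) (a • x) (ev i) (ev j) := fun i j => by
      rw [← hsw _ (hu2 1 le_rfl), show u 1 = fun y => post P v F (a • y) from rfl]
      have e4 : (fun y => fderiv ℝ (fun z => post P v F (a • z)) y (ev j))
          = fun y => (fun b => a * fderiv ℝ (post P v F) b (ev j)) (a • y) := funext fun y => by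
        rw [hcomp _ y (hp2.differentiable (by norm_num) _)]
        simp
      have hdj : Differentiable ℝ fun b => fderiv ℝ (post P v F) b (ev j) :=
        hd1.clm_apply (differentiable_const _)
      rw [e4, hcomp _ x ((hdj _).const_mul a), fderiv_const_mul (hdj _),
        smul_smul, smul_apply, smul_eq_mul,
        fderiv_clm_apply (hd1 _) (differentiableAt_const _)]
      simp
    refine (Finset.sum_congr rfl fun i _ => Finset.sum_congr rfl fun j _ =>
      congrArg (fun z : ℝ => z ^ 2) (e3 i j)).trans_le ?_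
    simp only [mul_pow (a * a), ← Finset.mul_sum]
    refine (mul_le_mul_of_nonneg_left ((hph (a • x)).trans
      (mul_le_of_le_one_right (sq_nonneg _) hvar)) (sq_nonneg _)).trans ?_
    rw [← mul_pow]
    refine pow_le_pow_left₀ (by positivity) ?_ 2
    have e5 : a * a * (2 / v) = 2 * a / η := by
      rw [ha, hv]; field_simp
    rw [e5]
    push_cast
    rw [one_mul, mul_add, mul_one_div, mul_one]
    exact (div_le_div_of_nonneg_right (by linarith) hη.le).trans
      (le_add_of_nonneg_right (by norm_num))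
  -- at least two steps
  set k := (m + 1) / 2 with hk
  set l := m / 2 with hl
  have hk1 : 1 ≤ k := by omega
  have hkl : k + l = m := by omega
  set G := 1 / Real.sqrt (k * η) with hG
  have hk0 : (0 : ℝ) < k * η := by positivity
  have hG0 : 0 ≤ G := by rw [hG]; positivity
  have hGn : ∀ n, GradBound (u (k + n)) G := fun n y => by
    refine (hgrad (k + n) (by omega) y).trans ?_
    rw [hG]
    refine one_div_le_one_div_of_le (Real.sqrt_pos.2 hk0) (Real.sqrt_le_sqrt ?_)
    push_cast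
    nlinarith [Nat.cast_nonneg (α := ℝ) n]
  set w : ℕ → Fin d → Space d → ℝ := fun n j y => fderiv ℝ (u (k + n)) y (ev j) with hw
  set c : ℕ → Fin d → Space d → ℝ := fun n j y => postCov P v (Pf η (u (k + n))) j (a • y) with hc
  have hwsum : ∀ n y, ∑ j, w n j y ^ 2 ≤ G ^ 2 := fun n y => by
    simp only [hw]
    rw [← norm_sq_clm]
    exact pow_le_pow_left₀ (norm_nonneg _) (hGn n y) 2
  have habs : ∀ {φ : Fin d → Space d → ℝ} {S : ℝ}, 0 ≤ S → (∀ y, ∑ j, φ j y ^ 2 ≤ S ^ 2) →
      ∀ j y, |φ j y| ≤ S := fun {φ S} hS hb j y =>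
    abs_le_of_sq_le_sq ((Finset.single_le_sum (fun i _ => sq_nonneg (φ i y))
      (Finset.mem_univ j)).trans (hb y)) hS
  have hwB : ∀ n j, Bd (w n j) := fun n j => ⟨(((hu2 (k + n) (by omega)).continuous_fderiv
    (by norm_num)).clm_apply continuous_const).measurable, G, habs hG0 (hwsum n) j⟩
  have hPf : ∀ n, ContDiff ℝ 1 (Pf η (u (k + n))) ∧ GradBound (Pf η (u (k + n))) G ∧
      ∀ j, (fun z => fderiv ℝ (Pf η (u (k + n))) z (ev j)) = Pf η (w n j) := by
    intro n
    have hu1' : ContDiff ℝ 1 (u (k + n)) := (hu2 _ (by omega)).of_le one_le_two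
    refine ⟨?_, fun z => ?_, fun j => funext fun z => ?_⟩
    · have := (hP d 0 (Pot.zero d) η hη _ (huB (k + n)).1 (huB (k + n)).grow).1
      rw [← Pf_eq_post] at this
      exact this.of_le one_le_two
    · rw [fderiv_Pf hu1' (hGn n)]
      exact (norm_integral_le_of_norm_le_const (ae_of_all _ fun z => hGn n _)).trans
        (by simp [probReal_univ])
    · rw [fderiv_Pf hu1' (hGn n)]
      dsimp only
      rw [ContinuousLinearMap.integral_apply (integrable_bdd_comp
        (E := Space d →L[ℝ] ℝ) (hu1'.continuous_fderiv one_ne_zero) (hGn n) _ z)]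
      rfl
  have hv1 : v ≤ 1 := hvη.trans hη1
  have hcov := fun n => hC d h P v (Pf η (u (k + n))) G hh hv0 hv1 (hPf n).1 (hPf n).2.1
  have hcsum : ∀ n y, ∑ j, c n j y ^ 2 ≤ (η * G) ^ 2 := fun n y =>
    ((hcov n).2.1 (a • y)).trans
      (pow_le_pow_left₀ (by positivity) (mul_le_mul_of_nonneg_right hvη hG0) 2)
  have hcB : ∀ n j, Bd (c n j) := fun n j =>
    ⟨(((hcov n).2.2.1 j).continuous.comp (continuous_const_smul a)).measurable, η * G,
      habs (by positivity) (hcsum n) j⟩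
  have hrec : ∀ n j, w (n + 1) j = fun y => a * Q (w n j) y + -a * c n j y := by
    intro n j
    funext y
    have e1 : u (k + (n + 1)) = fun z => post P v (Pf η (u (k + n))) (a • z) := by
      simp only [hu]
      rw [← add_assoc, Function.iterate_succ_apply']
      rfl
    simp only [hw]
    rw [e1, hcomp _ y ((hP d h P v hv0 _ (Pf_bd (huB _) η).1 (Pf_bd (huB _) η).grow).1.differentiable
      (by norm_num) _), smul_apply, smul_eq_mul, (hcov n).1 j (a • y), (hPf n).2.2 j]
    show a * (post P v (Pf η (w n j)) (a • y) - c n j y)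
      = a * Qop P η (w n j) y + -a * c n j y
    rw [show Qop P η (w n j) y = post P v (Pf η (w n j)) (a • y) from rfl]
    ring
  have hc0 : ∀ n y, HS (c n) y ≤ 2 * Real.sqrt η * G := by
    intro n y
    have h2 := (hcov n).2.2.2 (a • y)
    simp only [← norm_sq_clm] at h2
    unfold HS
    refine Real.sqrt_le_iff.2 ⟨by positivity, ?_⟩
    refine (Finset.sum_le_sum (g := fun j => ‖fderiv ℝ (postCov P v (Pf η (u (k + n))) j) (a • y)‖ ^ 2)
      fun j _ => ?_).trans (h2.trans ?_)
    · rw [show c n j = fun z => postCov P v (Pf η (u (k + n))) j (a • z) from rfl,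
        hcomp _ y (((hcov n).2.2.1 j).differentiable one_ne_zero _), norm_smul, Real.norm_eq_abs,
        abs_of_pos ha0]
      exact pow_le_pow_left₀ (by positivity) (mul_le_of_le_one_left (norm_nonneg _) ha1) 2
    · rw [mul_pow, mul_pow, Real.sq_sqrt hη.le]
      nlinarith [mul_le_mul_of_nonneg_right hvη (sq_nonneg G)]
  set ε : ℕ → ℝ := fun r => if r = 0 then 2 * Real.sqrt η * G else η * G / Real.sqrt (r * η)
  have hcr : ∀ n r y, HS (fun j => Q^[r] (c n j)) y ≤ ε r := by
    intro n r y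
    by_cases hr : r = 0
    · subst hr
      simpa [ε] using hc0 n y
    · simp only [ε, hr, if_false]
      exact smoothing hP hV hh P hη hη1 (Nat.one_le_iff_ne_zero.2 hr) (hcB n) (by positivity)
        (hcsum n) y
  have hdiff : ∀ (r : ℕ) (φ : Space d → ℝ), Bd φ → 1 ≤ r → Differentiable ℝ (Q^[r] φ) :=
    fun r φ hφ hr => by
      obtain ⟨M, hM⟩ := hφ.2
      exact (hV d h P η r φ M hh hη hη1 hr hφ.1 hM).1.differentiable (by norm_num)
  have main : ∀ n r y, 1 ≤ r + n → HS (fun j => Q^[r] (w n j)) y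
      ≤ G / Real.sqrt (((r + n : ℕ) : ℝ) * η) + ∑ i ∈ Finset.range n, ε (r + i) := by
    intro n
    induction n with
    | zero =>
      intro r y hr
      simpa using smoothing hP hV hh P hη hη1 (by omega : 1 ≤ r) (hwB 0) hG0 (hwsum 0) y
    | succ n ih =>
      intro r y _
      have hcd : ∀ j, Differentiable ℝ (Q^[r] (c n j)) := fun j => by
        rcases Nat.eq_zero_or_pos r with hr | hr
        · subst hr
          exact ((((hcov n).2.2.1 j)).differentiable one_ne_zero).comp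
            (differentiable_id.const_smul a)
        · exact hdiff r _ (hcB n j) hr
      have h2 : HS (fun j => Q^[r] (w (n + 1) j)) y
          ≤ HS (fun j => Q^[r + 1] (w n j)) y + HS (fun j => Q^[r] (c n j)) y := by
        refine HS_le_add fun j => ?_
        have e : Q^[r] (w (n + 1) j)
            = fun z => a * Q^[r + 1] (w n j) z + -a * Q^[r] (c n j) z := funext fun z => by
          rw [hrec, Function.iterate_succ_apply]
          exact iter_lin hP P hη a (-a) r (Qop_bd hP P hη (hwB n j)) (hcB n j) z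
        have d1 := hdiff (r + 1) _ (hwB n j) (by omega) y
        have d2 := hcd j y
        rw [e, fderiv_fun_add (d1.const_mul a) (d2.const_mul (-a)), fderiv_const_mul d1,
          fderiv_const_mul d2]
        refine (norm_add_le _ _).trans (add_le_add ?_ ?_)
        · rw [norm_smul, Real.norm_eq_abs, abs_of_pos ha0]
          exact mul_le_of_le_one_left (norm_nonneg _) ha1
        · rw [norm_smul, Real.norm_eq_abs, abs_neg, abs_of_pos ha0]
          exact mul_le_of_le_one_left (norm_nonneg _) ha1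
      refine h2.trans ((add_le_add (ih (r + 1) y (by omega)) (hcr n r y)).trans (le_of_eq ?_))
      rw [show r + 1 + n = r + (n + 1) by omega, Finset.sum_range_succ', add_zero, ← add_assoc]
      simp only [show ∀ i, r + 1 + i = r + (i + 1) from fun i => by omega, add_assoc]
  have hl1 : 1 ≤ l := by omega
  have hfin := main l 0 x (by omega)
  simp only [zero_add] at hfin
  have hε : ∑ i ∈ Finset.range l, ε i ≤ 2 * Real.sqrt η * G * (1 + Real.sqrt l) := by
    obtain ⟨p, hp⟩ : ∃ p, l = p + 1 := ⟨l - 1, by omega⟩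
    rw [hp, Finset.sum_range_succ']
    have e1 : ∀ i, ε (i + 1) = Real.sqrt η * G * (1 / Real.sqrt ((i : ℝ) + 1)) := fun i => by
      simp only [ε, Nat.succ_ne_zero, if_false]
      push_cast
      rw [Real.sqrt_mul' _ hη.le]
      have := Real.mul_self_sqrt hη.le
      field_simp
      linear_combination (-G) * this
    have e2 : ε 0 = 2 * Real.sqrt η * G := by simp [ε]
    simp only [e1, e2, ← Finset.mul_sum]
    have h2 := mul_le_mul_of_nonneg_left ((sum_inv_sqrt p).trans (mul_le_mul_of_nonneg_left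
      (Real.sqrt_le_sqrt (show (p : ℝ) ≤ ((p + 1 : ℕ) : ℝ) by push_cast; linarith)) zero_le_two))
      (show 0 ≤ Real.sqrt η * G by positivity)
    linarith
  have hB : HS (w l) x ≤ 4 * (1 / (m * η) + 1) := by
    refine (show HS (w l) x ≤ _ from hfin).trans ((add_le_add le_rfl hε).trans ?_)
    have hkR : (1 : ℝ) ≤ k := by exact_mod_cast hk1
    have hlR : (1 : ℝ) ≤ l := by exact_mod_cast hl1
    have hsk : 0 < Real.sqrt k := Real.sqrt_pos.2 (by linarith)
    have e1 : Real.sqrt η * G = 1 / Real.sqrt k := by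
      rw [hG, Real.sqrt_mul' _ hη.le]
      have := Real.sqrt_pos.2 hη
      field_simp
    have e2 : G / Real.sqrt ((l : ℝ) * η) = 1 / (Real.sqrt ((k : ℝ) * l) * η) := by
      rw [hG, div_div, ← Real.sqrt_mul hk0.le, show (k : ℝ) * η * (l * η) = k * l * (η * η) by ring,
        Real.sqrt_mul' _ (mul_self_nonneg η), Real.sqrt_mul_self hη.le]
    have h9 : (m : ℝ) / 3 ≤ Real.sqrt ((k : ℝ) * l) := by
      refine Real.le_sqrt_of_sq_le ?_
      have n1 : m * m ≤ 9 * (k * l) := by
        have p1 : m ≤ 3 * l := by omega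
        have p2 : m ≤ 3 * k := by omega
        calc m * m ≤ (3 * k) * (3 * l) := Nat.mul_le_mul p2 p1
          _ = _ := by ring
      have : (m : ℝ) * m ≤ 9 * (k * l) := by exact_mod_cast n1
      nlinarith
    have hlk : Real.sqrt l ≤ Real.sqrt k :=
      Real.sqrt_le_sqrt (by exact_mod_cast (by omega : l ≤ k))
    have h10 : G / Real.sqrt ((l : ℝ) * η) ≤ 3 / (m * η) := by
      rw [e2]
      refine (one_div_le_one_div_of_le (by positivity)
        (mul_le_mul_of_nonneg_right h9 hη.le)).trans_eq ?_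
      field_simp
    have h11 : 2 * Real.sqrt η * G * (1 + Real.sqrt l) ≤ 4 := by
      rw [mul_assoc 2, e1, mul_one_div, div_mul_eq_mul_div, div_le_iff₀ hsk]
      nlinarith [Real.one_le_sqrt.2 hkR]
    have h12 : (3 : ℝ) / (m * η) ≤ 4 * (1 / (m * η)) := by
      rw [mul_one_div]; gcongr; norm_num
    linarith
  have e6 : ∑ i, ∑ j, fderiv ℝ (fderiv ℝ ((Qop P η)^[m] f)) x (ev i) (ev j) ^ 2
      = ∑ j, ‖fderiv ℝ (w l j) x‖ ^ 2 := by
    rw [Finset.sum_comm]
    refine Finset.sum_congr rfl fun j _ => ?_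
    rw [norm_sq_clm]
    refine Finset.sum_congr rfl fun i _ => ?_
    simp only [hw, hkl]
    rw [hsw _ (hu2 m hm)]
  rw [e6, ← Real.sq_sqrt (Finset.sum_nonneg fun j _ => sq_nonneg ‖fderiv ℝ (w l j) x‖)]
  exact pow_le_pow_left₀ (Real.sqrt_nonneg _) hB 2

end Vale.Agent.P347
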