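import Vale.Agent.P347.Basics
import Vale.Agent.P347.Noise

/-!
One step of the proximal chain contracts the gradient.
-/

noncomputable section

open MeasureTheory ProbabilityTheory
open scoped RealInnerProductSpace

namespace Vale.Agent.P347

variable {d : ℕ} {h : ℝ}

theorem var_le_of_gradBound (hP : PoincareMu) (P : Pot d h) {f : Space d → ℝ} {B : ℝ}
    (hf : ContDiff ℝ 1 f) (hg : GradBound f B) : var (mu P) f ≤ B ^ 2 := by
  have := mu_prob P
  refine (hP d h P f hf ⟨B, 0, fun x => by simpa using hg x⟩).trans ?_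
  have hc : Measurable fun x => ‖fderiv ℝ f x‖ ^ 2 :=
    ((hf.continuous_fderiv one_ne_zero).norm.pow 2).measurable
  have hi : Integrable (fun x => ‖fderiv ℝ f x‖ ^ 2) (mu P) :=
    mu_int hc ⟨B ^ 2, 0, fun x => by
      simpa using pow_le_pow_left₀ (norm_nonneg _) (hg x) 2⟩
  refine (integral_mono hi (integrable_const (B ^ 2)) fun x =>
    pow_le_pow_left₀ (norm_nonneg _) (hg x) 2).trans ?_
  rw [integral_const, probReal_univ, one_smul]

theorem post_gradBound (hP : PoincareMu) (hD : PostDeriv) (P : Pot d h) {v B : ℝ} (hv : 0 < v)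
    {F : Space d → ℝ} (hF : ContDiff ℝ 1 F) (hg : GradBound F B) : GradBound (post P v F) B := by
  intro a
  have hB : 0 ≤ B := (norm_nonneg _).trans (hg a)
  have hgr : Grow F := grow_of_fderiv hF ⟨B, 0, fun x => by simpa using hg x⟩
  have hs : 0 < Real.sqrt v := Real.sqrt_pos.2 hv
  refine ContinuousLinearMap.opNorm_le_bound _ hB fun e => ?_
  rw [Real.norm_eq_abs, (hD d h P v hv F hF.continuous.measurable hgr).2.1 a e, abs_div, abs_of_pos hs,
    div_le_iff₀ hs]
  set Q := P.aff a (Real.sqrt v)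
  have hG : ContDiff ℝ 1 fun ξ => F (a + Real.sqrt v • ξ) := hF.comp (by fun_prop)
  have hGb : GradBound (fun ξ => F (a + Real.sqrt v • ξ)) (Real.sqrt v * B) := fun x => by
    have h1 : HasFDerivAt (fun z : Space d => a + Real.sqrt v • z)
        (Real.sqrt v • ContinuousLinearMap.id ℝ (Space d)) x :=
      ((hasFDerivAt_id x).const_smul (Real.sqrt v)).const_add a
    have h2 : HasFDerivAt (fun ξ => F (a + Real.sqrt v • ξ)) _ x :=
      ((hF.differentiable one_ne_zero (a + Real.sqrt v • x)).hasFDerivAt).comp x h1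
    rw [h2.fderiv, ContinuousLinearMap.comp_smul, ContinuousLinearMap.comp_id, norm_smul,
      Real.norm_eq_abs, abs_of_pos hs]
    exact mul_le_mul_of_nonneg_left (hg _) hs.le
  have hev : ContDiff ℝ 1 fun ξ : Space d => ⟪e, ξ⟫ := (innerSL ℝ e).contDiff
  have heb : GradBound (fun ξ : Space d => ⟪e, ξ⟫) ‖e‖ := fun x => by
    have h1 : HasFDerivAt (fun ξ : Space d => ⟪e, ξ⟫) (innerSL ℝ e) x := (innerSL ℝ e).hasFDerivAt
    rw [h1.fderiv, innerSL_apply_norm]
  refine (abs_cov_le Q hG.continuous.measurable (grow_comp hgr a _) hev.continuous.measurable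
    (grow_inner e)).trans ?_
  have b1 := var_le_of_gradBound hP Q hG hGb
  have b2 := var_le_of_gradBound hP Q hev heb
  refine (Real.sqrt_le_sqrt (mul_le_mul b1 b2 (var_nonneg _ _) (sq_nonneg _))).trans ?_
  rw [← mul_pow, Real.sqrt_sq (by positivity)]
  linarith

theorem chainContract (hP : PoincareMu) (hD : PostDeriv) : ChainContract := by
  intro d h P η f B hη hf hg
  have hB : 0 ≤ B := (norm_nonneg _).trans (hg 0)
  obtain ⟨C, hC⟩ := pfLip hD
  obtain ⟨hp2, hpg, -⟩ := hC d η f B hη hB hf hg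
  have hp1 : ContDiff ℝ 1 (Pf η f) := hp2.of_le (by norm_num)
  have hgr : Grow (Pf η f) := grow_of_fderiv hp1 ⟨B, 0, fun x => by simpa using hpg x⟩
  have hv : 0 < η / (1 + η) := div_pos hη (by linarith)
  set F := post P (η / (1 + η)) (Pf η f)
  have hc : ContDiff ℝ 1 F :=
    (hD d h P _ hv _ hp1.continuous.measurable hgr).1.of_le (by norm_num)
  refine ⟨hc.comp (contDiff_id.const_smul _), fun y => ?_⟩
  have h1 : HasFDerivAt (fun z : Space d => (1 + η)⁻¹ • z)
      ((1 + η)⁻¹ • ContinuousLinearMap.id ℝ (Space d)) y := (hasFDerivAt_id y).const_smul (1 + η)⁻¹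
  have h2 : HasFDerivAt (Qop P η f) _ y :=
    ((hc.differentiable one_ne_zero ((1 + η)⁻¹ • y)).hasFDerivAt).comp y h1
  rw [h2.fderiv, ContinuousLinearMap.comp_smul, ContinuousLinearMap.comp_id, norm_smul,
    Real.norm_eq_abs, abs_of_pos (by positivity : (0 : ℝ) < (1 + η)⁻¹), div_eq_inv_mul]
  exact mul_le_mul_of_nonneg_left (post_gradBound hP hD P hv hp1 hpg _) (by positivity)

end Vale.Agent.P347
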