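import Vale.Agent.P347.Pins

/-!
Split of the chain block: gradient decay by the variance decrement, the covariance field, and the
Duhamel assembly.
-/

noncomputable section

open MeasureTheory ProbabilityTheory
open scoped RealInnerProductSpace

namespace Vale.Agent.P347

variable {d : ℕ} {h : ℝ}

/-- The posterior covariance of `F` with a coordinate of the gradient. -/
def postCov (P : Pot d h) (v : ℝ) (F : Space d → ℝ) (i : Fin d) (a : Space d) : ℝ :=
  post P v (fun x => F x * P.g x i) a - post P v F a * post P v (fun x => P.g x i) a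

/-- The gradient after `m` steps is bounded by the mean square. -/
def ChainVar : Prop :=
  ∀ (d : ℕ) (h : ℝ) (P : Pot d h) (η : ℝ) (m : ℕ) (f : Space d → ℝ) (M : ℝ),
    h ≤ 1 → 0 < η → η ≤ 1 → 1 ≤ m → Measurable f → (∀ x, |f x| ≤ M) →
      ContDiff ℝ 2 ((Qop P η)^[m] f) ∧
      ∀ y, (m : ℝ) * η * ‖fderiv ℝ ((Qop P η)^[m] f) y‖ ^ 2 ≤ (Qop P η)^[m] (fun x => f x ^ 2) y

/-- The commutator of differentiation and posterior averaging. -/
def ChainCov : Prop :=
  ∀ (d : ℕ) (h : ℝ) (P : Pot d h) (v : ℝ) (F : Space d → ℝ) (B : ℝ),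
    h ≤ 1 → 0 < v → v ≤ 1 → ContDiff ℝ 1 F → GradBound F B →
      (∀ i a, fderiv ℝ (post P v F) a (ev i)
        = post P v (fun x => fderiv ℝ F x (ev i)) a - postCov P v F i a) ∧
      (∀ a, ∑ i, postCov P v F i a ^ 2 ≤ (v * B) ^ 2) ∧
      (∀ i, ContDiff ℝ 1 (postCov P v F i)) ∧
      ∀ a, ∑ i, ∑ j, fderiv ℝ (postCov P v F i) a (ev j) ^ 2 ≤ 4 * v * B ^ 2

end Vale.Agent.P347
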