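import Vale.Agent.P347.Pins
import Vale.Agent.P245.Gauss

/-!
The Poincare inequality with constant one and the subgaussian bound for Lipschitz functions of
a Gaussian law tilted by a convex potential, from the midpoint Prekopa-Leindler inequality.
-/

noncomputable section

open MeasureTheory ProbabilityTheory Set Filter Topology
open scoped ENNReal RealInnerProductSpace

namespace Vale.Agent.P347

variable {d : ℕ} {h : ℝ}

/-- The first-order inequality of convexity. -/
theorem Pot.first_order (P : Pot d h) (x z : Space d) : P.W z + ⟪P.g z, x - z⟫ ≤ P.W x := by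
  set φ : ℝ → ℝ := fun s => P.W (z + s • (x - z)) with hφ
  have hd : ∀ s, HasDerivAt φ ⟪P.g (z + s • (x - z)), x - z⟫ s := by
    intro s
    have h1 : HasDerivAt (fun s : ℝ => z + s • (x - z)) (x - z) s := by
      simpa using ((hasDerivAt_id s).smul_const (x - z)).const_add z
    simpa [Function.comp_def] using (P.grad _).comp_hasDerivAt s h1
  obtain ⟨s, hs, hsd⟩ := exists_hasDerivAt_eq_slope φ _ zero_lt_one
    (fun s _ => (hd s).continuousAt.continuousWithinAt) (fun s _ => hd s)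
  have hm := P.mono (z + s • (x - z)) z
  rw [add_sub_cancel_left, real_inner_smul_right, inner_sub_left] at hm
  have h0 : 0 ≤ ⟪P.g (z + s • (x - z)), x - z⟫ - ⟪P.g z, x - z⟫ :=
    (mul_nonneg_iff_of_pos_left hs.1).1 hm
  simp only [hφ, one_smul, zero_smul, add_zero, add_sub_cancel, sub_zero, div_one] at hsd
  linarith

/-- Midpoint convexity. -/
theorem Pot.mid (P : Pot d h) (x y : Space d) :
    P.W ((1 / 2 : ℝ) • x + (1 / 2 : ℝ) • y) ≤ P.W x / 2 + P.W y / 2 := by
  set z := (1 / 2 : ℝ) • x + (1 / 2 : ℝ) • y with hz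
  have h1 := P.first_order x z
  have h2 := P.first_order y z
  have e : x - z = -(y - z) := by simp only [hz]; module
  rw [e, inner_neg_right] at h1
  linarith

@[fun_prop]
theorem Pot.continuous_W (P : Pot d h) : Continuous P.W :=
  continuous_iff_continuousAt.2 fun x => (P.grad x).continuousAt

/-- The unnormalised Lebesgue density. -/
def rho (P : Pot d h) (x : Space d) : ℝ := Real.exp (-P.W x - ‖x‖ ^ 2 / 2)

theorem rho_pos (P : Pot d h) (x : Space d) : 0 < rho P x := Real.exp_pos _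

@[fun_prop]
theorem continuous_rho (P : Pot d h) : Continuous (rho P) := by unfold rho; fun_prop

theorem exp_neg_W_le (P : Pot d h) (x : Space d) :
    Real.exp (-P.W x) ≤ Real.exp (-P.W 0) * Real.exp (‖P.g 0‖ * ‖x‖) := by
  rw [← Real.exp_add]
  refine Real.exp_le_exp.2 ?_
  have h1 := P.first_order x 0
  have h2 := abs_real_inner_le_norm (P.g 0) x
  rw [sub_zero] at h1
  linarith [neg_abs_le ⟪P.g 0, x⟫]

theorem integrable_exp_W (P : Pot d h) {F : Space d → ℝ} (hm : Measurable F) (ht : P245.Tame F) :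
    Integrable (fun x => Real.exp (-P.W x) * F x) (gam d) := by
  obtain ⟨A, c, hA⟩ := ht
  refine Integrable.mono' ((P245.integrable_exp_norm (‖P.g 0‖ + c)).const_mul
    (Real.exp (-P.W 0) * A)) (Measurable.aestronglyMeasurable (by fun_prop))
    (ae_of_all _ fun x => ?_)
  rw [norm_mul, Real.norm_eq_abs, Real.norm_eq_abs, abs_of_pos (Real.exp_pos _), add_mul,
    Real.exp_add]
  calc Real.exp (-P.W x) * |F x|
      ≤ Real.exp (-P.W 0) * Real.exp (‖P.g 0‖ * ‖x‖) * (A * Real.exp (c * ‖x‖)) :=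
        mul_le_mul (exp_neg_W_le P x) (hA x) (abs_nonneg _) (by positivity)
    _ = _ := by ring

theorem tame_const (c : ℝ) : P245.Tame (fun _ : Space d => c) := ⟨|c|, 0, fun x => by simp⟩

theorem integrable_exp_neg_W (P : Pot d h) :
    Integrable (fun x => Real.exp (-P.W x)) (gam d) := by
  simpa using integrable_exp_W P measurable_const (tame_const (1 : ℝ))

theorem isProb_mu (P : Pot d h) : IsProbabilityMeasure (mu P) :=
  isProbabilityMeasure_tilted (integrable_exp_neg_W P)

theorem integrable_mu (P : Pot d h) {F : Space d → ℝ} (hm : Measurable F) (ht : P245.Tame F) :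
    Integrable F (mu P) := by
  rw [mu, integrable_tilted_iff (integrable_exp_neg_W P)]
  simpa only [smul_eq_mul] using integrable_exp_W P hm ht

theorem integrable_rho_mul (P : Pot d h) {F : Space d → ℝ} (hm : Measurable F) (ht : P245.Tame F) :
    Integrable fun x => rho P x * F x := by
  refine ((P245.integrable_gam_iff.1 (integrable_exp_W P hm ht)).const_mul
    (((√(2 * Real.pi))⁻¹ ^ d)⁻¹)).congr (ae_of_all _ fun x => ?_)
  simp only [P245.gd, rho]
  rw [show -P.W x - ‖x‖ ^ 2 / 2 = -(1 / 2) * ‖x‖ ^ 2 + -P.W x by ring, Real.exp_add]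
  have : (√(2 * Real.pi))⁻¹ ^ d ≠ 0 := by positivity
  field_simp

theorem integrable_rho (P : Pot d h) : Integrable (rho P) := by
  simpa using integrable_rho_mul P measurable_const (tame_const (1 : ℝ))

theorem Z_pos (P : Pot d h) : 0 < ∫ x, rho P x :=
  integral_exp_pos (μ := (volume : Measure (Space d))) (integrable_rho P)

theorem integral_mu (P : Pot d h) (F : Space d → ℝ) :
    ∫ x, F x ∂mu P = (∫ x, rho P x * F x) / ∫ x, rho P x := by
  rw [mu, integral_tilted]
  simp only [smul_eq_mul, div_mul_eq_mul_div, integral_div]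
  rw [P245.integral_gam, P245.integral_gam]
  have e : ∀ x : Space d, P245.gd x * Real.exp (-P.W x) = (√(2 * Real.pi))⁻¹ ^ d * rho P x := by
    intro x
    rw [P245.gd, rho, mul_assoc, ← Real.exp_add]
    ring_nf
  simp only [← mul_assoc, e, integral_const_mul]
  simp only [mul_assoc, integral_const_mul]
  exact mul_div_mul_left _ _ (by positivity)

theorem mu_zero : mu (Pot.zero d) = gam d := by
  simp only [mu, Pot.zero, neg_zero]
  exact tilted_const _ _

/-- The integrated midpoint inequality. -/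
theorem pl_half (P : Pot d h) {u S : Space d → ℝ} (hu : Measurable u) (hS : Measurable S)
    (hut : P245.Tame fun x => Real.exp (u x)) (hSt : P245.Tame fun x => Real.exp (S x))
    (hyp : ∀ z v, u (z + v) / 2 - ‖v‖ ^ 2 / 2 ≤ S z) :
    Real.sqrt (∫ x, Real.exp (u x) ∂mu P) ≤ ∫ x, Real.exp (S x) ∂mu P := by
  set A := fun x => rho P x * Real.exp (u x) with hA
  set C := fun x => rho P x * Real.exp (S x) with hC
  have key := P245.prekopa (n := d) (l := 1 / 2) (by norm_num) (by norm_num)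
    (f := fun x => ENNReal.ofReal (A x)) (g := fun x => ENNReal.ofReal (rho P x))
    (h := fun x => ENNReal.ofReal (C x)) (by simp only [hA]; fun_prop) (by fun_prop)
    (by simp only [hC]; fun_prop) fun x y => by
    have hA0 : 0 < A x := mul_pos (rho_pos P x) (Real.exp_pos _)
    rw [ENNReal.ofReal_rpow_of_pos hA0, ENNReal.ofReal_rpow_of_pos (rho_pos P y),
      ← ENNReal.ofReal_mul (by positivity)]
    refine ENNReal.ofReal_le_ofReal ?_
    rw [show (1 : ℝ) - 1 / 2 = 1 / 2 by norm_num]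
    set z := (1 / 2 : ℝ) • x + (1 / 2 : ℝ) • y with hz
    set v := (1 / 2 : ℝ) • x - (1 / 2 : ℝ) • y with hv
    have hx : z + v = x := by simp only [hz, hv]; module
    have hy : z - v = y := by simp only [hz, hv]; module
    have hsq : ‖x‖ ^ 2 + ‖y‖ ^ 2 = 2 * ‖z‖ ^ 2 + 2 * ‖v‖ ^ 2 := by
      have := parallelogram_law_with_norm ℝ z v
      rw [hx, hy] at this
      nlinarith
    have h1 := hyp z v
    rw [hx] at h1
    have h2 := P.mid x y
    simp only [hA, hC, rho, ← Real.exp_add, ← Real.exp_mul]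
    refine Real.exp_le_exp.2 ?_
    rw [← hz] at h2
    linarith
  have iA : Integrable A := integrable_rho_mul P (by fun_prop) hut
  have iC : Integrable C := integrable_rho_mul P (by fun_prop) hSt
  have pA : 0 ≤ᵐ[volume] A := ae_of_all _ fun x => (mul_pos (rho_pos P x) (Real.exp_pos _)).le
  have pR : 0 ≤ᵐ[volume] rho P := ae_of_all _ fun x => (rho_pos P x).le
  have pC : 0 ≤ᵐ[volume] C := ae_of_all _ fun x => (mul_pos (rho_pos P x) (Real.exp_pos _)).le
  rw [← ofReal_integral_eq_lintegral_ofReal iA pA,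
    ← ofReal_integral_eq_lintegral_ofReal (integrable_rho P) pR,
    ← ofReal_integral_eq_lintegral_ofReal iC pC, show (1 : ℝ) - 1 / 2 = 1 / 2 by norm_num,
    ENNReal.ofReal_rpow_of_nonneg (integral_nonneg_of_ae pA) (by norm_num),
    ENNReal.ofReal_rpow_of_nonneg (integral_nonneg_of_ae pR) (by norm_num),
    ← ENNReal.ofReal_mul (Real.rpow_nonneg (integral_nonneg_of_ae pA) _),
    ENNReal.ofReal_le_ofReal_iff (integral_nonneg_of_ae pC), ← Real.sqrt_eq_rpow,
    ← Real.sqrt_eq_rpow] at key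
  have hZ := Z_pos P
  rw [integral_mu P (fun x => Real.exp (u x)), integral_mu P (fun x => Real.exp (S x))]
  rw [Real.sqrt_div (integral_nonneg_of_ae pA), div_le_div_iff₀ (Real.sqrt_pos.2 hZ) hZ]
  calc √(∫ x, A x) * ∫ x, rho P x
      = (√(∫ x, A x) * √(∫ x, rho P x)) * √(∫ x, rho P x) := by
        rw [mul_assoc, Real.mul_self_sqrt hZ.le]
    _ ≤ _ := mul_le_mul_of_nonneg_right key (Real.sqrt_nonneg _)

/-- Lipschitz with constant `K`. -/
def LipF (K : ℝ) (f : Space d → ℝ) : Prop := ∀ x y, |f x - f y| ≤ K * ‖x - y‖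

theorem LipF.continuous {K : ℝ} {f : Space d → ℝ} (hf : LipF K f) : Continuous f := by
  refine (LipschitzWith.of_dist_le' (K := K) fun x y => ?_).continuous
  rw [Real.dist_eq, dist_eq_norm]
  exact hf x y

theorem LipF.abs_le {K : ℝ} {f : Space d → ℝ} (hf : LipF K f) (x : Space d) :
    |f x| ≤ |f 0| + K * ‖x‖ := by
  have := hf x 0
  rw [sub_zero] at this
  linarith [abs_sub_abs_le_abs_sub (f x) (f 0)]

theorem LipF.tame_exp {K : ℝ} {f : Space d → ℝ} (hf : LipF K f) (a b : ℝ) :
    P245.Tame fun x => Real.exp (a * f x + b) := by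
  refine ⟨Real.exp (|a| * |f 0| + b), |a| * K, fun x => ?_⟩
  rw [abs_of_pos (Real.exp_pos _), ← Real.exp_add]
  refine Real.exp_le_exp.2 ?_
  have h1 := le_abs_self (a * f x)
  rw [abs_mul] at h1
  have h2 := mul_le_mul_of_nonneg_left (hf.abs_le x) (abs_nonneg a)
  linarith

/-- A bound for the exponential remainder. -/
theorem abs_exp_rem_le (t : ℝ) : |Real.exp t - 1 - t| ≤ 3 * t ^ 2 * Real.exp |t| := by
  have he : 1 ≤ Real.exp |t| := Real.one_le_exp (abs_nonneg t)
  rcases le_total |t| 1 with h1 | h1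
  · refine (Real.abs_exp_sub_one_sub_id_le h1).trans ?_
    nlinarith [sq_nonneg t, mul_le_mul_of_nonneg_left he (sq_nonneg t)]
  · have h2 : 1 ≤ t ^ 2 := by nlinarith [sq_abs t]
    have h3 : |t| ≤ t ^ 2 := by nlinarith [sq_abs t]
    have h4 : Real.exp t ≤ Real.exp |t| := Real.exp_le_exp.2 (le_abs_self t)
    have h5 := Real.exp_pos t
    rw [abs_le]
    constructor <;> nlinarith [mul_le_mul_of_nonneg_left he (sq_nonneg t), le_abs_self t,
      neg_abs_le t, mul_le_mul_of_nonneg_right h2 (zero_le_one.trans he)]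

/-- Second-order expansion of an exponential integral. -/
theorem tendsto_expQuot (P : Pot d h) {u : Space d → ℝ} {B K : ℝ} (hu : LipF K u) (hB : 0 ≤ B)
    {v : ℝ → Space d → ℝ} {v0 : Space d → ℝ} (hvm : ∀ ε, Measurable (v ε))
    (hvb : ∀ ε x, |v ε x| ≤ B)
    (hv : ∀ x, Tendsto (fun ε => v ε x) (𝓝[>] 0) (𝓝 (v0 x))) :
    Tendsto (fun ε => ∫ x, (Real.exp (ε * u x + ε ^ 2 * v ε x) - 1 - ε * u x) / ε ^ 2 ∂mu P)
      (𝓝[>] 0) (𝓝 (∫ x, (u x ^ 2 / 2 + v0 x) ∂mu P)) := by
  have := isProb_mu P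
  have hum := hu.continuous.measurable
  set T := fun x => |u x| + B with hT
  refine tendsto_integral_filter_of_dominated_convergence
    (fun x => 3 * T x ^ 2 * Real.exp (T x) + B) ?_ ?_ ?_ (ae_of_all _ fun x => ?_)
  · exact Eventually.of_forall fun ε => (by have := hvm ε; fun_prop : Measurable _).aestronglyMeasurable
  · filter_upwards [Ioo_mem_nhdsGT (show (0 : ℝ) < 1 by norm_num)] with ε hε
    refine ae_of_all _ fun x => ?_
    set S := ε * u x + ε ^ 2 * v ε x with hS
    have hS' : |S| ≤ ε * T x := by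
      refine (abs_add_le _ _).trans ?_
      rw [abs_mul, abs_mul, abs_of_pos hε.1, abs_of_pos (show 0 < ε ^ 2 by nlinarith [hε.1])]
      have h1 : ε ^ 2 * |v ε x| ≤ ε * B := by
        calc ε ^ 2 * |v ε x| ≤ ε ^ 2 * B := mul_le_mul_of_nonneg_left (hvb ε x) (sq_nonneg ε)
          _ ≤ ε * B := mul_le_mul_of_nonneg_right (by nlinarith [hε.1, hε.2]) hB
      simp only [hT]
      linarith
    have hT0 : 0 ≤ T x := by positivity
    have h2 : S ^ 2 ≤ ε ^ 2 * T x ^ 2 := by
      rw [← mul_pow, ← sq_abs S]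
      exact pow_le_pow_left₀ (abs_nonneg _) hS' 2
    have h3 : Real.exp |S| ≤ Real.exp (T x) :=
      Real.exp_le_exp.2 (hS'.trans (mul_le_of_le_one_left hT0 hε.2.le))
    rw [Real.norm_eq_abs, abs_div, abs_of_pos (show 0 < ε ^ 2 by nlinarith [hε.1]),
      div_le_iff₀ (show 0 < ε ^ 2 by nlinarith [hε.1])]
    rw [show Real.exp S - 1 - ε * u x = (Real.exp S - 1 - S) + ε ^ 2 * v ε x by rw [hS]; ring]
    refine (abs_add_le _ _).trans ?_
    have h4 := abs_exp_rem_le S
    have h5 : |ε ^ 2 * v ε x| ≤ ε ^ 2 * B := by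
      rw [abs_mul, abs_of_nonneg (sq_nonneg ε)]
      exact mul_le_mul_of_nonneg_left (hvb ε x) (sq_nonneg ε)
    have h6 : 3 * S ^ 2 * Real.exp |S| ≤ 3 * (ε ^ 2 * T x ^ 2) * Real.exp (T x) :=
      mul_le_mul (by linarith) h3 (Real.exp_pos _).le (by positivity)
    linarith
  · refine integrable_mu P (by fun_prop) ?_
    refine ⟨3 * (|u 0| + B + 1 + |K|) ^ 2 * Real.exp (|u 0| + B) + B, 2 + |K|, fun x => ?_⟩
    have hTx : T x ≤ |u 0| + B + |K| * ‖x‖ := by
      have := hu.abs_le x
      have := mul_le_mul_of_nonneg_right (le_abs_self K) (norm_nonneg x)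
      simp only [hT]; linarith
    have hT0 : 0 ≤ T x := by positivity
    set a := |u 0| + B with ha
    have ha0 : 0 ≤ a := by positivity
    have hn := norm_nonneg x
    have e1 : T x ≤ (a + 1 + |K|) * Real.exp ‖x‖ := by
      have h1 : 1 + ‖x‖ ≤ Real.exp ‖x‖ := by linarith [Real.add_one_le_exp ‖x‖]
      have := mul_le_mul_of_nonneg_left h1 (show 0 ≤ a + 1 + |K| by positivity)
      nlinarith [abs_nonneg K]
    have e2 : Real.exp (T x) ≤ Real.exp a * Real.exp (|K| * ‖x‖) := by
      rw [← Real.exp_add]; exact Real.exp_le_exp.2 hTx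
    rw [abs_of_nonneg (by positivity), add_mul]
    refine add_le_add ?_ ?_
    · calc 3 * T x ^ 2 * Real.exp (T x)
          ≤ 3 * ((a + 1 + |K|) * Real.exp ‖x‖) ^ 2 * (Real.exp a * Real.exp (|K| * ‖x‖)) :=
            mul_le_mul (mul_le_mul_of_nonneg_left (pow_le_pow_left₀ hT0 e1 2) (by norm_num)) e2
              (Real.exp_pos _).le (by positivity)
        _ = _ := by
          rw [show (2 + |K|) * ‖x‖ = ‖x‖ + ‖x‖ + |K| * ‖x‖ by ring]
          simp only [Real.exp_add]
          ring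
    · exact le_mul_of_one_le_right hB (Real.one_le_exp (by positivity))
  · have hS0 : Tendsto (fun ε => ε * u x + ε ^ 2 * v ε x) (𝓝[>] 0) (𝓝 0) := by
      have h1 : Tendsto (fun ε : ℝ => ε) (𝓝[>] (0 : ℝ)) (𝓝 0) := nhdsWithin_le_nhds
      simpa using (h1.mul_const (u x)).add ((h1.pow 2).mul (hv x))
    set R := fun ε : ℝ => (Real.exp (ε * u x + ε ^ 2 * v ε x) - 1 - (ε * u x + ε ^ 2 * v ε x)
      - (ε * u x + ε ^ 2 * v ε x) ^ 2 / 2) / ε ^ 2 with hR
    have hR0 : Tendsto R (𝓝[>] 0) (𝓝 0) := by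
      refine squeeze_zero_norm' (a := fun ε => ε * (|u x| + B) ^ 3) ?_ ?_
      · filter_upwards [Ioo_mem_nhdsGT (show (0 : ℝ) < 1 by norm_num),
          hS0.eventually (Metric.closedBall_mem_nhds (0 : ℝ) one_pos)] with ε hε hS1
        rw [Real.dist_0_eq_abs] at hS1
        set S := ε * u x + ε ^ 2 * v ε x with hS
        have hb := Real.exp_bound (x := S) hS1 (n := 3) (by norm_num)
        norm_num [Finset.sum_range_succ, Nat.factorial] at hb
        have hS' : |S| ≤ ε * (|u x| + B) := by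
          refine (abs_add_le _ _).trans ?_
          rw [abs_mul, abs_mul, abs_of_pos hε.1, abs_of_pos (show 0 < ε ^ 2 by nlinarith [hε.1])]
          have h1 : ε ^ 2 * |v ε x| ≤ ε * B := by
            calc ε ^ 2 * |v ε x| ≤ ε ^ 2 * B := mul_le_mul_of_nonneg_left (hvb ε x) (sq_nonneg ε)
              _ ≤ ε * B := mul_le_mul_of_nonneg_right (by nlinarith [hε.1, hε.2]) hB
          linarith
        have hc := pow_le_pow_left₀ (abs_nonneg _) hS' 3
        rw [hR]
        simp only [Real.norm_eq_abs, abs_div, abs_of_pos (show 0 < ε ^ 2 by nlinarith [hε.1]),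
          ← hS]
        rw [div_le_iff₀ (show 0 < ε ^ 2 by nlinarith [hε.1])]
        rw [show Real.exp S - 1 - S - S ^ 2 / 2 = Real.exp S - (1 + S + S ^ 2 / 2) by ring]
        have h0 : 0 ≤ |S| ^ 3 := by positivity
        nlinarith
      · have h1 : Tendsto (fun ε : ℝ => ε) (𝓝[>] (0 : ℝ)) (𝓝 0) := nhdsWithin_le_nhds
        simpa using h1.mul_const ((|u x| + B) ^ 3)
    have hM : Tendsto (fun ε : ℝ => R ε + v ε x + (u x + ε * v ε x) ^ 2 / 2) (𝓝[>] 0)
        (𝓝 (0 + v0 x + (u x + 0 * v0 x) ^ 2 / 2)) :=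
      ((hR0.add (hv x)).add
        ((((tendsto_const_nhds).add
          ((show Tendsto (fun ε : ℝ => ε) (𝓝[>] (0 : ℝ)) (𝓝 0) from nhdsWithin_le_nhds).mul
            (hv x))).pow 2).div_const 2))
    rw [show u x ^ 2 / 2 + v0 x = 0 + v0 x + (u x + 0 * v0 x) ^ 2 / 2 by ring]
    refine hM.congr' ?_
    filter_upwards [self_mem_nhdsWithin] with ε hε
    have : ε ≠ 0 := (mem_Ioi.1 hε).ne'
    simp only [hR]
    field_simp
    ring

/-- Exponential moments of a centred Lipschitz function. -/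
theorem mgf_lip (P : Pot d h) {f : Space d → ℝ} {K : ℝ} (hf : LipF K f)
    (hmean : ∫ x, f x ∂mu P = 0) : ∫ x, Real.exp (f x) ∂mu P ≤ Real.exp (K ^ 2 / 2) := by
  have := isProb_mu P
  have hfm := hf.continuous.measurable
  set F := fun t : ℝ => ∫ x, Real.exp (t * f x) ∂mu P with hF
  have hFi : ∀ t : ℝ, Integrable (fun x => Real.exp (t * f x)) (mu P) := fun t =>
    integrable_mu P (by fun_prop) (by simpa using hf.tame_exp t 0)
  have hF0 : ∀ t, 0 < F t := fun t => integral_exp_pos (hFi t)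
  have step : ∀ t, 0 ≤ t → F (2 * t) ≤ Real.exp (t ^ 2 * K ^ 2) * F t ^ 2 := by
    intro t ht
    have key := pl_half P (u := fun x => 2 * t * f x) (S := fun x => t * f x + t ^ 2 * K ^ 2 / 2)
      (by fun_prop) (by fun_prop) (by simpa using hf.tame_exp (2 * t) 0)
      (hf.tame_exp t (t ^ 2 * K ^ 2 / 2)) fun z v => by
      have h1 := (abs_le.1 (hf (z + v) z)).2
      rw [add_sub_cancel_left] at h1
      nlinarith [mul_le_mul_of_nonneg_left h1 ht, sq_nonneg (t * K - ‖v‖)]
    simp only [Real.exp_add, integral_mul_const] at key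
    have h4 := pow_le_pow_left₀ (Real.sqrt_nonneg _) key 2
    rw [Real.sq_sqrt (hF0 _).le, mul_pow, ← Real.exp_nat_mul] at h4
    refine h4.trans_eq ?_
    simp only [hF]
    push_cast
    ring_nf
  have hk : ∀ k : ℕ, F 1 ≤ Real.exp (K ^ 2 / 2) * (F (1 / 2 ^ k) ^ (2 ^ k)) := by
    intro k
    suffices h : F 1 ≤ Real.exp (K ^ 2 / 2 * (1 - 1 / 2 ^ k)) * (F (1 / 2 ^ k) ^ (2 ^ k)) by
      refine h.trans (mul_le_mul_of_nonneg_right (Real.exp_le_exp.2 ?_) (pow_nonneg (hF0 _).le _))
      exact mul_le_of_le_one_right (by positivity) (sub_le_self _ (by positivity))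
    induction k with
    | zero => simp
    | succ k ih =>
      refine ih.trans ?_
      have hs := step (1 / 2 ^ (k + 1)) (by positivity)
      rw [show 2 * (1 / (2 : ℝ) ^ (k + 1)) = 1 / 2 ^ k by rw [pow_succ]; field_simp] at hs
      refine le_trans (mul_le_mul_of_nonneg_left (pow_le_pow_left₀ (hF0 _).le hs _)
        (Real.exp_pos _).le) (le_of_eq ?_)
      rw [mul_pow, ← pow_mul, ← mul_assoc, ← Real.exp_nat_mul, ← Real.exp_add]
      congr 2
      · push_cast
        rw [pow_succ]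
        field_simp
        ring
      · rw [pow_succ]; ring
  have hlim := tendsto_expQuot P (u := f) (B := 0) (v := fun _ _ => 0) (v0 := fun _ => 0) hf le_rfl
    (fun _ => measurable_const) (by simp) (fun x => tendsto_const_nhds)
  simp only [mul_zero, add_zero] at hlim
  set Lq := ∫ x, f x ^ 2 / 2 ∂mu P with hLq
  have heps : Tendsto (fun k : ℕ => (1 : ℝ) / 2 ^ k) atTop (𝓝[>] 0) := by
    refine tendsto_nhdsWithin_iff.2 ⟨?_, Eventually.of_forall fun k => by simp⟩
    exact tendsto_const_nhds.div_atTop (tendsto_pow_atTop_atTop_of_one_lt one_lt_two)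
  have hub := (hlim.comp heps).eventually (Iic_mem_nhds (lt_add_one Lq))
  refine ge_of_tendsto (f := fun k : ℕ => Real.exp (K ^ 2 / 2) * Real.exp ((Lq + 1) / 2 ^ k))
    (x := atTop) ?_ ?_
  · have h0 : Tendsto (fun k : ℕ => (Lq + 1) / 2 ^ k) atTop (𝓝 0) :=
      tendsto_const_nhds.div_atTop (tendsto_pow_atTop_atTop_of_one_lt one_lt_two)
    simpa using ((Real.continuous_exp.tendsto _).comp h0).const_mul (Real.exp (K ^ 2 / 2))
  · filter_upwards [hub] with k hk1
    have e : ∫ x, Real.exp (f x) ∂mu P = F 1 := by simp [hF]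
    rw [e]
    refine (hk k).trans (mul_le_mul_of_nonneg_left ?_ (Real.exp_pos _).le)
    set t : ℝ := 1 / 2 ^ k with ht
    have ht0 : 0 < t := by positivity
    simp only [Function.comp_apply] at hk1
    have hk2 : (∫ x, (Real.exp (t * f x) - 1 - t * f x) / t ^ 2 ∂mu P) ≤ Lq + 1 := hk1
    rw [integral_div, integral_sub (f := fun x => Real.exp (t * f x) - 1) ((hFi t).sub (integrable_const 1))
      ((integrable_mu P hfm (?_ : P245.Tame f)).const_mul t), integral_sub (hFi t) (integrable_const 1),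
      integral_const_mul, hmean, div_le_iff₀ (by positivity)] at hk2
    · simp only [integral_const, probReal_univ, smul_eq_mul, one_mul, mul_zero, sub_zero] at hk2
      have h1 : F t ≤ Real.exp (t ^ 2 * (Lq + 1)) := by
        refine le_trans ?_ (Real.add_one_le_exp _)
        simp only [hF]; linarith
      refine (pow_le_pow_left₀ (hF0 t).le h1 _).trans (le_of_eq ?_)
      rw [← Real.exp_nat_mul, ht]
      push_cast
      congr 1
      field_simp
    · exact ⟨|f 0| + |K|, 1, fun x => by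
        have := hf.abs_le x
        have h2 := mul_le_mul_of_nonneg_right (le_abs_self K) (norm_nonneg x)
        have h1 : 1 + ‖x‖ ≤ Real.exp (1 * ‖x‖) := by linarith [Real.add_one_le_exp (1 * ‖x‖)]
        nlinarith [mul_le_mul_of_nonneg_left h1 (show 0 ≤ |f 0| + |K| by positivity),
          abs_nonneg (f 0), abs_nonneg K, norm_nonneg x]⟩

theorem LipF.tame {K : ℝ} {f : Space d → ℝ} (hf : LipF K f) : P245.Tame f := by
  refine ⟨|f 0| + |K|, 1, fun x => ?_⟩
  have := hf.abs_le x
  have h2 := mul_le_mul_of_nonneg_right (le_abs_self K) (norm_nonneg x)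
  have h1 : 1 + ‖x‖ ≤ Real.exp (1 * ‖x‖) := by linarith [Real.add_one_le_exp (1 * ‖x‖)]
  nlinarith [mul_le_mul_of_nonneg_left h1 (show 0 ≤ |f 0| + |K| by positivity),
    abs_nonneg (f 0), abs_nonneg K, norm_nonneg x]

theorem Tame.mul {F G : Space d → ℝ} (hF : P245.Tame F) (hG : P245.Tame G) :
    P245.Tame fun x => F x * G x := by
  obtain ⟨A, a, hA⟩ := hF
  obtain ⟨B, b, hB⟩ := hG
  refine ⟨A * B, a + b, fun x => ?_⟩
  rw [abs_mul, add_mul, Real.exp_add]
  calc |F x| * |G x| ≤ A * Real.exp (a * ‖x‖) * (B * Real.exp (b * ‖x‖)) :=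
        mul_le_mul (hA x) (hB x) (abs_nonneg _) ((abs_nonneg _).trans (hA x))
    _ = _ := by ring

/-- The variance as a difference of integrals. -/
theorem var_mu (P : Pot d h) {f : Space d → ℝ} (hm : Measurable f) (ht : P245.Tame f) :
    var (mu P) f = ∫ x, f x ^ 2 ∂mu P - (∫ x, f x ∂mu P) ^ 2 := by
  have := isProb_mu P
  have i2 : Integrable (fun x => f x ^ 2) (mu P) :=
    integrable_mu P (by fun_prop) (by simpa [sq] using Tame.mul ht ht)
  have i1 := integrable_mu P hm ht
  set m := ∫ x, f x ∂mu P with hm'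
  have e : (fun x => (f x - m) ^ 2) = fun x => (f x ^ 2 - 2 * m * f x) + m ^ 2 := by funext x; ring
  rw [var, e, integral_add (f := fun x => f x ^ 2 - 2 * m * f x) (i2.sub (i1.const_mul _))
      (integrable_const _),
    integral_sub i2 (i1.const_mul _), integral_const_mul, integral_const]
  simp [← hm']
  ring

/-- The variance of a Lipschitz function, from an asymptotic bound on the midpoint supremum. -/
theorem var_lip_core (P : Pot d h) {f : Space d → ℝ} {K : ℝ} (hK : 0 ≤ K) (hf : LipF K f)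
    {G : Space d → ℝ} (hGm : Measurable G) (hG : ∀ x, G x ∈ Icc 0 (K ^ 2))
    (hub : ∀ x, ∀ η : ℝ, 0 < η → ∀ᶠ ε in 𝓝[>] (0 : ℝ), ∀ v,
      ε * (f (x + v) - f x) - ‖v‖ ^ 2 / 2 ≤ ε ^ 2 * (G x / 2 + η)) :
    var (mu P) f ≤ ∫ x, G x ∂mu P := by
  have := isProb_mu P
  set m := ∫ x, f x ∂mu P with hm
  set f0 := fun x => f x - m with hf0
  have hf0l : LipF K f0 := fun x y => by simpa [hf0] using hf x y
  have hmean : ∫ x, f0 x ∂mu P = 0 := by
    simp only [hf0]
    rw [integral_sub (integrable_mu P hf.continuous.measurable hf.tame) (integrable_const _),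
      integral_const]
    simp [← hm]
  set S := fun (ε : ℝ) (x : Space d) => ⨆ v : Space d, ε * f0 (x + v) - ‖v‖ ^ 2 / 2 with hS
  have hup : ∀ ε x v, ε * f0 (x + v) - ‖v‖ ^ 2 / 2 ≤ ε * f0 x + ε ^ 2 * K ^ 2 / 2 := by
    intro ε x v
    have h1 := hf0l (x + v) x
    rw [add_sub_cancel_left] at h1
    have h2 : ε * (f0 (x + v) - f0 x) ≤ |ε| * (K * ‖v‖) :=
      (le_abs_self _).trans (by rw [abs_mul]; exact mul_le_mul_of_nonneg_left h1 (abs_nonneg _))
    nlinarith [sq_nonneg (|ε| * K - ‖v‖), sq_abs ε]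
  have hbdd : ∀ ε x, BddAbove (range fun v : Space d => ε * f0 (x + v) - ‖v‖ ^ 2 / 2) :=
    fun ε x => ⟨_, forall_mem_range.2 (hup ε x)⟩
  have hSlow : ∀ ε x, ε * f0 x ≤ S ε x := fun ε x => by
    simpa using le_ciSup (hbdd ε x) 0
  have hSup : ∀ ε x, S ε x ≤ ε * f0 x + ε ^ 2 * K ^ 2 / 2 := fun ε x => ciSup_le (hup ε x)
  have hSlip : ∀ ε, LipF (|ε| * K) (S ε) := by
    intro ε
    have h1 : ∀ x y, S ε x ≤ S ε y + |ε| * K * ‖x - y‖ := fun x y => ciSup_le fun v => by
      have h2 := hf0l (x + v) (y + v)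
      rw [add_sub_add_right_eq_sub] at h2
      have h3 : ε * (f0 (x + v) - f0 (y + v)) ≤ |ε| * (K * ‖x - y‖) :=
        (le_abs_self _).trans (by rw [abs_mul]; exact mul_le_mul_of_nonneg_left h2 (abs_nonneg _))
      have h4 : ε * f0 (y + v) - ‖v‖ ^ 2 / 2 ≤ S ε y := le_ciSup (hbdd ε y) v
      linarith
    exact fun x y => abs_sub_le_iff.2 ⟨by linarith [h1 x y],
      by have := h1 y x; rw [norm_sub_rev] at this; linarith⟩
  set v := fun (ε : ℝ) (x : Space d) => max ((S ε x - ε * f0 x) / ε ^ 2) (G x / 2) with hv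
  have hvm : ∀ ε, Measurable (v ε) := fun ε => by
    have h1 := (hSlip ε).continuous.measurable
    have h2 := hf0l.continuous.measurable
    simp only [hv]; fun_prop
  have hvb : ∀ ε x, |v ε x| ≤ K ^ 2 := fun ε x => by
    have h0 := hG x
    rw [abs_of_nonneg (le_trans (by linarith [h0.1]) (le_max_right _ _))]
    refine max_le ?_ (by linarith [h0.1, h0.2])
    rcases eq_or_ne ε 0 with h1 | h1
    · simp [h1]; positivity
    · rw [div_le_iff₀ (by positivity)]
      nlinarith [hSup ε x, sq_nonneg (ε * K)]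
  have hvlim : ∀ x, Tendsto (fun ε => v ε x) (𝓝[>] 0) (𝓝 (G x / 2)) := by
    intro x
    refine tendsto_order.2 ⟨fun a ha => Eventually.of_forall fun ε => ha.trans_le (le_max_right _ _),
      fun a ha => ?_⟩
    filter_upwards [hub x ((a - G x / 2) / 2) (by linarith), self_mem_nhdsWithin] with ε hε hpos
    have hε0 : 0 < ε := hpos
    refine max_lt ?_ ha
    rw [div_lt_iff₀ (by positivity)]
    have : S ε x ≤ ε * f0 x + ε ^ 2 * (G x / 2 + (a - G x / 2) / 2) := ciSup_le fun w => by
      have := hε w; simp only [hf0]; linarith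
    nlinarith [mul_pos (pow_pos hε0 2) (show 0 < (a - G x / 2) by linarith)]
  have hL := tendsto_expQuot P (u := fun x => 2 * f0 x) (K := 2 * K) (B := K ^ 2)
    (v := fun _ _ => 0) (v0 := fun _ => 0)
    (fun x y => by
      have := hf0l x y
      rw [← mul_sub, abs_mul, abs_two]
      linarith) (sq_nonneg K) (fun _ => measurable_const)
    (fun _ _ => by simpa using sq_nonneg K) fun _ => tendsto_const_nhds
  have hR := tendsto_expQuot P hf0l (sq_nonneg K) hvm hvb hvlim
  simp only [mul_zero, add_zero] at hL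
  set Lf := fun ε : ℝ => ∫ x, (Real.exp (ε * (2 * f0 x)) - 1 - ε * (2 * f0 x)) / ε ^ 2 ∂mu P
  set Rf := fun ε : ℝ =>
    ∫ x, (Real.exp (ε * f0 x + ε ^ 2 * v ε x) - 1 - ε * f0 x) / ε ^ 2 ∂mu P
  have hineq : ∀ᶠ ε in 𝓝[>] (0 : ℝ), Lf ε ≤ 2 * Rf ε + ε ^ 2 * Rf ε ^ 2 := by
    filter_upwards [self_mem_nhdsWithin] with ε hε
    have hε0 : 0 < ε := hε
    set S' := fun x => ε * f0 x + ε ^ 2 * v ε x with hS'
    have hS'm : Measurable S' := by
      have := hf0l.continuous.measurable
      have := hvm ε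
      simp only [hS']; fun_prop
    have hS't : P245.Tame fun x => Real.exp (S' x) := by
      obtain ⟨A, c, hA⟩ := hf0l.tame_exp ε (ε ^ 2 * K ^ 2)
      refine ⟨A, c, fun x => le_trans ?_ (hA x)⟩
      rw [abs_of_pos (Real.exp_pos _), abs_of_pos (Real.exp_pos _)]
      refine Real.exp_le_exp.2 ?_
      have := mul_le_mul_of_nonneg_left ((le_abs_self _).trans (hvb ε x)) (sq_nonneg ε)
      simp only [hS']; linarith
    have hu't : P245.Tame fun x => Real.exp (ε * (2 * f0 x)) := by
      simpa [mul_assoc, mul_left_comm] using hf0l.tame_exp (ε * 2) 0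
    have hf0m := hf0l.continuous.measurable
    have key := pl_half P (u := fun x => ε * (2 * f0 x)) (S := S') (by fun_prop) hS'm hu't hS't
      fun z w => by
        have h1 : ε * f0 (z + w) - ‖w‖ ^ 2 / 2 ≤ S ε z := le_ciSup (hbdd ε z) w
        have h2 := le_max_left ((S ε z - ε * f0 z) / ε ^ 2) (G z / 2)
        rw [div_le_iff₀ (pow_pos hε0 2)] at h2
        simp only [hS', hv]
        linarith
    set X := ∫ x, Real.exp (ε * (2 * f0 x)) ∂mu P
    set Y := ∫ x, Real.exp (S' x) ∂mu P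
    have iX := integrable_mu P (show Measurable fun x => Real.exp (ε * (2 * f0 x)) by fun_prop) hu't
    have iY := integrable_mu P (show Measurable fun x => Real.exp (S' x) by fun_prop) hS't
    have iF := integrable_mu P hf0m hf0l.tame
    have eL : Lf ε = (X - 1) / ε ^ 2 := by
      simp only [Lf]
      rw [integral_div, integral_sub (f := fun x => Real.exp (ε * (2 * f0 x)) - 1)
        (iX.sub (integrable_const 1)) ((iF.const_mul 2).const_mul ε),
        integral_sub iX (integrable_const 1), integral_const_mul, integral_const_mul, hmean]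
      simp [X]
    have eR : Rf ε = (Y - 1) / ε ^ 2 := by
      simp only [Rf]
      rw [integral_div, integral_sub (f := fun x => Real.exp (S' x) - 1)
        (iY.sub (integrable_const 1)) (iF.const_mul ε),
        integral_sub iY (integrable_const 1), integral_const_mul, hmean]
      simp [Y]
    have hX0 : 0 ≤ X := integral_nonneg fun x => (Real.exp_pos _).le
    have h4 := pow_le_pow_left₀ (Real.sqrt_nonneg _) key 2
    rw [Real.sq_sqrt hX0] at h4
    have e2 : 2 * Rf ε + ε ^ 2 * Rf ε ^ 2 - Lf ε = (Y ^ 2 - X) / ε ^ 2 := by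
      rw [eL, eR]; field_simp; ring
    have : 0 ≤ (Y ^ 2 - X) / ε ^ 2 := div_nonneg (by linarith) (sq_nonneg ε)
    linarith
  have hlim2 : Tendsto (fun ε : ℝ => 2 * Rf ε + ε ^ 2 * Rf ε ^ 2) (𝓝[>] 0)
      (𝓝 (2 * ∫ x, (f0 x ^ 2 / 2 + G x / 2) ∂mu P)) := by
    have h1 : Tendsto (fun ε : ℝ => ε) (𝓝[>] (0 : ℝ)) (𝓝 0) := nhdsWithin_le_nhds
    simpa using (hR.const_mul 2).add ((h1.pow 2).mul (hR.pow 2))
  have := le_of_tendsto_of_tendsto hL hlim2 hineq
  have i2 : Integrable (fun x => f0 x ^ 2) (mu P) :=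
    integrable_mu P (hf0l.continuous.measurable.pow_const 2)
      (by simpa [sq] using Tame.mul hf0l.tame hf0l.tame)
  have iG : Integrable G (mu P) := integrable_mu P hGm ⟨K ^ 2, 0, fun x => by
    rw [abs_of_nonneg (hG x).1]; simpa using (hG x).2⟩
  rw [integral_add (i2.div_const 2) (iG.div_const 2), integral_div, integral_div,
    show (fun x => (2 * f0 x) ^ 2) = fun x => 4 * f0 x ^ 2 by funext x; ring,
    integral_const_mul, integral_div] at this
  change ∫ x, f0 x ^ 2 ∂mu P ≤ _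
  linarith

/-- The variance of a Lipschitz function. -/
theorem var_le_sq (P : Pot d h) {f : Space d → ℝ} {K : ℝ} (hK : 0 ≤ K) (hf : LipF K f) :
    var (mu P) f ≤ K ^ 2 := by
  have := isProb_mu P
  refine (var_lip_core P hK hf (G := fun _ => K ^ 2) measurable_const
    (fun _ => ⟨sq_nonneg K, le_rfl⟩) fun x η hη => ?_).trans_eq (by simp)
  filter_upwards [self_mem_nhdsWithin] with ε hε v
  have hε0 : 0 < ε := hε
  have h1 := (abs_le.1 (hf (x + v) x)).2
  rw [add_sub_cancel_left] at h1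
  nlinarith [mul_le_mul_of_nonneg_left h1 hε0.le, sq_nonneg (ε * K - ‖v‖),
    mul_pos (pow_pos hε0 2) hη]

/-- The Poincare inequality for differentiable Lipschitz functions. -/
theorem var_le_fderiv (P : Pot d h) {f : Space d → ℝ} {K : ℝ} (hK : 0 ≤ K) (hf : LipF K f)
    (hd : Differentiable ℝ f) : var (mu P) f ≤ ∫ x, ‖fderiv ℝ f x‖ ^ 2 ∂mu P := by
  have hle : ∀ x, ‖fderiv ℝ f x‖ ≤ K := fun x => by
    refine le_of_forall_pos_le_add fun η hη => ?_
    have := norm_fderiv_le_of_lipschitz ℝ (f := f) (x₀ := x) (C := K.toNNReal)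
      (LipschitzWith.of_dist_le' fun a b => by rw [Real.dist_eq, dist_eq_norm]; exact hf a b)
    rw [Real.coe_toNNReal K hK] at this
    linarith
  refine var_lip_core P hK hf ((measurable_fderiv ℝ f).norm.pow_const 2)
    (fun x => ⟨sq_nonneg _, pow_le_pow_left₀ (norm_nonneg _) (hle x) 2⟩) fun x η hη => ?_
  set a := ‖fderiv ℝ f x‖
  set θ := min 1 (η / (a + 1)) with hθ
  have ha : 0 ≤ a := norm_nonneg _
  have hθ0 : 0 < θ := lt_min one_pos (by positivity)
  obtain ⟨δ, hδ, hball⟩ := Metric.eventually_nhds_iff.1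
    (Asymptotics.isLittleO_iff.1 (hasFDerivAt_iff_isLittleO_nhds_zero.1 (hd x).hasFDerivAt) hθ0)
  filter_upwards [Ioo_mem_nhdsGT (show (0 : ℝ) < δ / (2 * K + 1) by positivity)] with ε hε v
  have hε0 := hε.1
  rcases lt_or_ge ‖v‖ δ with hv | hv
  · have h1 := hball (y := v) (by simpa using hv)
    have h2 : f (x + v) - f x ≤ (a + θ) * ‖v‖ := by
      have h3 : fderiv ℝ f x v ≤ a * ‖v‖ :=
        (le_abs_self _).trans ((fderiv ℝ f x).le_opNorm v)
      have h4 := (le_abs_self _).trans h1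
      rw [add_mul]
      linarith
    have h5 : (a + θ) ^ 2 / 2 ≤ a ^ 2 / 2 + η := by
      have h6 := min_le_left (1 : ℝ) (η / (a + 1))
      have h7 := min_le_right (1 : ℝ) (η / (a + 1))
      rw [le_div_iff₀ (by positivity)] at h7
      rw [← hθ] at h6 h7
      nlinarith
    nlinarith [mul_le_mul_of_nonneg_left h2 hε0.le, sq_nonneg (ε * (a + θ) - ‖v‖),
      mul_le_mul_of_nonneg_left h5 (sq_nonneg ε)]
  · have h1 := (abs_le.1 (hf (x + v) x)).2
    rw [add_sub_cancel_left] at h1
    have h2 : ε * (2 * K + 1) < δ := (lt_div_iff₀ (by positivity)).1 hε.2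
    have h3 : ε * K ≤ ‖v‖ / 2 := by nlinarith
    have h4 : ε * (f (x + v) - f x) ≤ ε * K * ‖v‖ := by
      rw [mul_assoc]; exact mul_le_mul_of_nonneg_left h1 hε0.le
    have h5 : 0 ≤ ε ^ 2 * (a ^ 2 / 2 + η) := by positivity
    nlinarith [mul_le_mul_of_nonneg_right h3 (norm_nonneg v)]

theorem tame_of_poly {f : Space d → ℝ} {C : ℝ} {k : ℕ} (hf : ∀ x, |f x| ≤ C * (1 + ‖x‖) ^ k) :
    P245.Tame f := by
  refine ⟨|C|, k, fun x => (hf x).trans ?_⟩
  rw [Real.exp_nat_mul]
  refine (mul_le_mul_of_nonneg_right (le_abs_self C) (by positivity)).trans ?_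
  exact mul_le_mul_of_nonneg_left
    (pow_le_pow_left₀ (by positivity) (by linarith [Real.add_one_le_exp ‖x‖]) k) (abs_nonneg C)

/-- A function with derivative of polynomial growth has polynomial growth. -/
theorem poly_of_fderiv {f : Space d → ℝ} (hf : Differentiable ℝ f) {C : ℝ} {k : ℕ}
    (hb : ∀ x, ‖fderiv ℝ f x‖ ≤ C * (1 + ‖x‖) ^ k) (x : Space d) :
    |f x| ≤ (|f 0| + C) * (1 + ‖x‖) ^ (k + 1) := by
  have hC : 0 ≤ C := by simpa using (norm_nonneg _).trans (hb 0)
  have h1 : ‖f x - f 0‖ ≤ C * (1 + ‖x‖) ^ k * ‖x - 0‖ :=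
    (convex_closedBall (0 : Space d) ‖x‖).norm_image_sub_le_of_norm_fderiv_le (𝕜 := ℝ)
      (fun y _ => hf y) (fun y hy => (hb y).trans (by
        have : ‖y‖ ≤ ‖x‖ := by simpa using hy
        gcongr)) (by simp) (by simp)
  rw [sub_zero, Real.norm_eq_abs] at h1
  have h2 := abs_sub_abs_le_abs_sub (f x) (f 0)
  have h3 : (1 : ℝ) ≤ (1 + ‖x‖) ^ (k + 1) := one_le_pow₀ (by linarith [norm_nonneg x])
  have h4 : (1 + ‖x‖) ^ k * ‖x‖ ≤ (1 + ‖x‖) ^ (k + 1) := by
    rw [pow_succ]; gcongr; linarith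
  nlinarith [mul_le_mul_of_nonneg_left h3 (abs_nonneg (f 0)), mul_le_mul_of_nonneg_left h4 hC]

/-- The Poincare inequality. -/
theorem poincareMu : PoincareMu := by
  intro d h P f hf hg
  obtain ⟨C, k, hC⟩ := hg
  have hfd : Differentiable ℝ f := hf.differentiable one_ne_zero
  set D := |f 0| + C with hD
  have hfb : ∀ x, |f x| ≤ D * (1 + ‖x‖) ^ (k + 1) := poly_of_fderiv hfd hC
  have hC0 : 0 ≤ C := by simpa using (norm_nonneg _).trans (hC 0)
  have hft : P245.Tame f := tame_of_poly hfb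
  let b : ContDiffBump (0 : Space d) := ⟨1, 2, one_pos, one_lt_two⟩
  have hb : ContDiff ℝ 1 (b : Space d → ℝ) := b.contDiff
  obtain ⟨B, hB⟩ := (b.hasCompactSupport.fderiv (𝕜 := ℝ)).exists_bound_of_continuous
    (hb.continuous_fderiv one_ne_zero)
  have hB0 : 0 ≤ B := (norm_nonneg _).trans (hB 0)
  set s := fun n : ℕ => (1 : ℝ) / (n + 1) with hs
  have hs0 : ∀ n, 0 < s n := fun n => by simp only [hs]; positivity
  have hs1 : ∀ n, s n ≤ 1 := fun n => by
    simp only [hs]
    rw [div_le_one (by positivity)]; linarith [Nat.cast_nonneg (α := ℝ) n]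
  set φ := fun (n : ℕ) (x : Space d) => b (s n • x) with hφ
  set fn := fun (n : ℕ) (x : Space d) => φ n x * f x with hfn
  have hfnd : ∀ n, ContDiff ℝ 1 (fn n) := fun n => by
    simp only [hfn, hφ]
    exact (hb.comp (contDiff_id.const_smul (s n))).mul hf
  have hfns : ∀ n, HasCompactSupport (fn n) := fun n =>
    (b.hasCompactSupport.comp_homeomorph (Homeomorph.smulOfNeZero (s n) (hs0 n).ne')).mul_right
  have hφd : ∀ n x, HasFDerivAt (φ n) (s n • fderiv ℝ b (s n • x)) x := fun n x => by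
    have h1 : HasFDerivAt (fun z : Space d => s n • z) (s n • ContinuousLinearMap.id ℝ (Space d)) x :=
      (hasFDerivAt_id x).const_smul (s n)
    refine (((hb.differentiable one_ne_zero) _).hasFDerivAt.comp x h1).congr_fderiv ?_
    ext v
    simp
  have hfnf : ∀ n x, fderiv ℝ (fn n) x
      = φ n x • fderiv ℝ f x + f x • (s n • fderiv ℝ b (s n • x)) := fun n x =>
    ((hφd n x).mul (hfd x).hasFDerivAt).fderiv
  have hφb : ∀ n x, |φ n x| ≤ 1 := fun n x => by
    simp only [hφ]
    rw [abs_of_nonneg b.nonneg]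
    exact b.le_one
  have hfnb : ∀ n x, |fn n x| ≤ |f x| := fun n x => by
    simp only [hfn]
    rw [abs_mul]
    exact mul_le_of_le_one_left (abs_nonneg _) (hφb n x)
  have hdb : ∀ n x, ‖fderiv ℝ (fn n) x‖ ≤ (C + D * B) * (1 + ‖x‖) ^ (k + 1) := fun n x => by
    rw [hfnf]
    refine (norm_add_le _ _).trans ?_
    rw [norm_smul, norm_smul, norm_smul, Real.norm_eq_abs, Real.norm_eq_abs, Real.norm_eq_abs,
      abs_of_pos (hs0 n)]
    have h1 : |φ n x| * ‖fderiv ℝ f x‖ ≤ C * (1 + ‖x‖) ^ (k + 1) := by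
      refine le_trans (mul_le_of_le_one_left (norm_nonneg _) (hφb n x)) ((hC x).trans ?_)
      refine mul_le_mul_of_nonneg_left (pow_le_pow_right₀ ?_ (Nat.le_succ k)) hC0
      linarith [norm_nonneg x]
    have h2 : |f x| * (s n * ‖fderiv ℝ b (s n • x)‖) ≤ D * (1 + ‖x‖) ^ (k + 1) * B := by
      refine mul_le_mul (hfb x) ?_ (mul_nonneg (hs0 n).le (norm_nonneg _))
        ((abs_nonneg _).trans (hfb x))
      exact le_trans (mul_le_of_le_one_left (norm_nonneg _) (hs1 n)) (hB _)
    linarith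
  have hst : Tendsto s atTop (𝓝 0) := tendsto_one_div_add_atTop_nhds_zero_nat
  have hφ1 : ∀ x, Tendsto (fun n => φ n x) atTop (𝓝 1) := fun x => by
    have h1 := (b.continuous.tendsto (0 : Space d)).comp
      (show Tendsto (fun n => s n • x) atTop (𝓝 0) by simpa using hst.smul_const x)
    rwa [b.one_of_mem_closedBall (by simp [b])] at h1
  have key : ∀ n, var (mu P) (fn n) ≤ ∫ x, ‖fderiv ℝ (fn n) x‖ ^ 2 ∂mu P := by
    intro n
    obtain ⟨K, hK⟩ := ContDiff.lipschitzWith_of_hasCompactSupport (hfns n) (hfnd n) one_ne_zero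
    refine var_le_fderiv P K.2 (fun x y => ?_) ((hfnd n).differentiable one_ne_zero)
    rw [← Real.dist_eq, ← dist_eq_norm]
    exact hK.dist_le_mul x y
  have := isProb_mu P
  have hft2 : P245.Tame fun x => f x ^ 2 := by simpa [sq] using Tame.mul hft hft
  have hP2 : P245.Tame fun x : Space d => ((C + D * B) * (1 + ‖x‖) ^ (k + 1)) ^ 2 :=
    tame_of_poly (C := (C + D * B) ^ 2) (k := (k + 1) * 2) fun x => by
      rw [abs_of_nonneg (sq_nonneg _), mul_pow, ← pow_mul]
  have l1 : Tendsto (fun n => ∫ x, fn n x ∂mu P) atTop (𝓝 (∫ x, f x ∂mu P)) :=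
    tendsto_integral_of_dominated_convergence (fun x => |f x|)
      (fun n => (hfnd n).continuous.aestronglyMeasurable)
      (integrable_mu P hf.continuous.measurable hft).abs (fun n => ae_of_all _ fun x => hfnb n x)
      (ae_of_all _ fun x => by simpa using (hφ1 x).mul_const (f x))
  have l2 : Tendsto (fun n => ∫ x, fn n x ^ 2 ∂mu P) atTop (𝓝 (∫ x, f x ^ 2 ∂mu P)) :=
    tendsto_integral_of_dominated_convergence (fun x => f x ^ 2)
      (fun n => ((hfnd n).continuous.pow 2).aestronglyMeasurable)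
      (integrable_mu P (hf.continuous.measurable.pow_const 2) hft2) (fun n => ae_of_all _ fun x => by
        rw [Real.norm_eq_abs, abs_pow, ← sq_abs (f x)]
        exact pow_le_pow_left₀ (abs_nonneg _) (hfnb n x) 2)
      (ae_of_all _ fun x => by simpa using ((hφ1 x).mul_const (f x)).pow 2)
  have l3 : Tendsto (fun n => ∫ x, ‖fderiv ℝ (fn n) x‖ ^ 2 ∂mu P) atTop
      (𝓝 (∫ x, ‖fderiv ℝ f x‖ ^ 2 ∂mu P)) := by
    refine tendsto_integral_of_dominated_convergence
      (fun x => ((C + D * B) * (1 + ‖x‖) ^ (k + 1)) ^ 2)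
      (fun n => (((hfnd n).continuous_fderiv one_ne_zero).norm.pow 2).aestronglyMeasurable)
      (integrable_mu P (by fun_prop) hP2) (fun n => ae_of_all _ fun x => by
        rw [Real.norm_eq_abs, abs_of_nonneg (sq_nonneg _)]
        exact pow_le_pow_left₀ (norm_nonneg _) (hdb n x) 2) (ae_of_all _ fun x => ?_)
    simp only [hfnf]
    have h2 : Tendsto (fun n => s n • fderiv ℝ (b : Space d → ℝ) (s n • x)) atTop (𝓝 0) := by
      refine squeeze_zero_norm (a := fun n => s n * B) (fun n => ?_) (by simpa using hst.mul_const B)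
      rw [norm_smul, Real.norm_eq_abs, abs_of_pos (hs0 n)]
      exact mul_le_mul_of_nonneg_left (hB _) (hs0 n).le
    have h3 := ((hφ1 x).smul_const (fderiv ℝ f x)).add (h2.const_smul (f x))
    rw [one_smul, smul_zero, add_zero] at h3
    exact h3.norm.pow 2
  rw [var_mu P hf.continuous.measurable hft]
  refine le_of_tendsto_of_tendsto (l2.sub (l1.pow 2)) l3 (Eventually.of_forall fun n => ?_)
  dsimp only
  rw [← var_mu P (hfnd n).continuous.measurable]
  · exact key n
  · exact tame_of_poly fun x => (hfnb n x).trans (hfb x)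

end Vale.Agent.P347
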