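import Vale.Agent.P347.Basics
import Vale.Agent.P347.Poincare
import Vale.Agent.P347.ChainPins

/-!
The commutator of differentiation and posterior averaging, and the bound on its derivative.
-/

noncomputable section

open MeasureTheory ProbabilityTheory
open scoped RealInnerProductSpace

namespace Vale.Agent.P347

variable {d : ℕ} {h : ℝ}

/-- The mean vector. -/
def meanVec (Q : Pot d h) (u : Space d → Space d) : Space d :=
  WithLp.toLp 2 fun i => ∫ x, u x i ∂mu Q

theorem LipF.grow {K : ℝ} {f : Space d → ℝ} (hf : LipF K f) : Grow f :=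
  ⟨|f 0| + |K|, 1, fun x => by
    rw [Real.norm_eq_abs, pow_one]
    nlinarith [hf.abs_le x, mul_le_mul_of_nonneg_right (le_abs_self K) (norm_nonneg x),
      abs_nonneg (f 0), abs_nonneg K, norm_nonneg x]⟩

theorem lipF_inner_vec {u : Space d → Space d} {L : ℝ}
    (hu : ∀ x y, ‖u x - u y‖ ≤ L * ‖x - y‖) (c : Space d) :
    LipF (‖c‖ * L) fun x => ⟪c, u x⟫ := fun x y => by
  rw [← inner_sub_right, mul_assoc]
  exact (abs_real_inner_le_norm _ _).trans (mul_le_mul_of_nonneg_left (hu x y) (norm_nonneg c))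

theorem grow_coord {u : Space d → Space d} {L : ℝ} (hu : ∀ x y, ‖u x - u y‖ ≤ L * ‖x - y‖)
    (i : Fin d) : Grow fun x => u x i := by
  have e : (fun x => u x i) = fun x => ⟪ev i, u x⟫ := by
    funext x; simp [EuclideanSpace.inner_single_left]
  rw [e]
  exact (lipF_inner_vec hu (ev i)).grow

theorem integral_inner_meanVec (Q : Pot d h) {u : Space d → Space d} {L : ℝ} (hc : Continuous u)
    (hu : ∀ x y, ‖u x - u y‖ ≤ L * ‖x - y‖) (c : Space d) :
    ∫ x, ⟪c, u x⟫ ∂mu Q = ⟪c, meanVec Q u⟫ := by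
  simp only [PiLp.inner_apply, RCLike.inner_apply, conj_trivial]
  rw [integral_finsetSum _ fun j _ =>
    ((mu_int (P := Q) (f := fun x => u x j) (by fun_prop) (grow_coord hu j)).mul_const (c j))]
  exact Finset.sum_congr rfl fun j _ => by rw [integral_mul_const]; rfl

theorem integral_inner_sq_le (Q : Pot d h) {u : Space d → Space d} {L : ℝ} (hL : 0 ≤ L)
    (hc : Continuous u) (hu : ∀ x y, ‖u x - u y‖ ≤ L * ‖x - y‖) (c : Space d) :
    ∫ x, ⟪c, u x - meanVec Q u⟫ ^ 2 ∂mu Q ≤ ‖c‖ ^ 2 * L ^ 2 := by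
  simp only [inner_sub_right, ← integral_inner_meanVec Q hc hu c, ← mul_pow]
  exact var_le_sq Q (mul_nonneg (norm_nonneg c) hL) (lipF_inner_vec hu c)

/-- The map whose coordinates are the inner products with given rows. -/
def rowMap (r : Fin d → Space d) : Space d →L[ℝ] Space d :=
  ∑ i, (innerSL ℝ (r i)).smulRight (ev i)

theorem rowMap_apply (r : Fin d → Space d) (y : Space d) (i : Fin d) :
    rowMap r y i = ⟪r i, y⟫ := by
  simp [rowMap, ev, Pi.single_apply, FunLike.coe_sum, Finset.sum_apply]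

theorem inner_rowMap (r : Fin d → Space d) (a e : Space d) :
    ⟪a, rowMap r e⟫ = ⟪∑ i, a i • r i, e⟫ := by
  rw [sum_inner, PiLp.inner_apply]
  exact Finset.sum_congr rfl fun i _ => by
    rw [rowMap_apply, real_inner_smul_left]
    simp [mul_comm]

/-- The variance of a bilinear form in the field and the position. -/
theorem var_pairing_le (hP : PoincareMu) (Q : Pot d h) {u : Space d → Space d} {L : ℝ}
    (hL : 0 ≤ L) (hud : ContDiff ℝ 1 u) (hu : ∀ x y, ‖u x - u y‖ ≤ L * ‖x - y‖)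
    (r : Fin d → Space d) {q : Space d → ℝ}
    (hq : q = fun x => ⟪u x - meanVec Q u, rowMap r (x - meanVec Q fun y => y)⟫) :
    ContDiff ℝ 1 q ∧ Grow q ∧ var (mu Q) q ≤ 4 * L ^ 2 * ∑ i, ‖r i‖ ^ 2 := by
  have := mu_prob Q
  have hid : ∀ x y : Space d, ‖x - y‖ ≤ 1 * ‖x - y‖ := fun x y => by rw [one_mul]
  have huc := hud.continuous
  set bu := meanVec Q u with hbu
  set bx := meanVec Q (fun y : Space d => y) with hbx
  set K := rowMap r with hK
  set Z := fun x => ∑ i, (u x - bu) i • r i with hZ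
  have hqd : ContDiff ℝ 1 q := by
    rw [hq]
    exact (hud.sub contDiff_const).inner ℝ (K.contDiff.comp (contDiff_id.sub contDiff_const))
  have hJ : ∀ x, ‖fderiv ℝ u x‖ ≤ L := fun x => by
    have := norm_fderiv_le_of_lipschitz ℝ (f := u) (x₀ := x) (C := L.toNNReal)
      (LipschitzWith.of_dist_le' fun a b => by rw [dist_eq_norm, dist_eq_norm]; exact hu a b)
    rwa [Real.coe_toNNReal L hL] at this
  have hfd : ∀ x e, fderiv ℝ q x e
      = ⟪u x - bu, K e⟫ + ⟪fderiv ℝ u x e, K (x - bx)⟫ := fun x e => by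
    have h1 := ((hud.differentiable one_ne_zero x).hasFDerivAt.sub_const bu).inner ℝ
      (K.hasFDerivAt.comp x ((hasFDerivAt_id x).sub_const bx))
    rw [hq]
    simp only [Function.comp_def, id] at h1
    rw [h1.fderiv]
    simp [fderivInnerCLM_apply]
  have hb : ∀ x, ‖fderiv ℝ q x‖ ≤ ‖Z x‖ + L * ‖K (x - bx)‖ := fun x =>
    ContinuousLinearMap.opNorm_le_bound _ (by positivity) fun e => by
      rw [hfd, Real.norm_eq_abs, add_mul]
      refine (abs_add_le _ _).trans (add_le_add ?_ ?_)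
      · rw [inner_rowMap]
        exact abs_real_inner_le_norm _ _
      · refine (abs_real_inner_le_norm _ _).trans ?_
        rw [mul_assoc, mul_comm ‖K (x - bx)‖, ← mul_assoc]
        exact mul_le_mul_of_nonneg_right ((fderiv ℝ u x).le_of_opNorm_le (hJ x) e) (norm_nonneg _)
  have hqg : Grow fun x => fderiv ℝ q x := by
    refine ⟨(∑ i, ‖r i‖) * (L + ‖u 0 - bu‖) + L * ‖K‖ * (1 + ‖bx‖), 1, fun x => ?_⟩
    rw [pow_one]
    refine (hb x).trans ?_
    have h1 : ‖u x - bu‖ ≤ L * ‖x‖ + ‖u 0 - bu‖ := by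
      have := hu x 0
      rw [sub_zero] at this
      linarith [norm_sub_le_norm_sub_add_norm_sub (u x) (u 0) bu]
    have h2 : ‖Z x‖ ≤ (∑ i, ‖r i‖) * ‖u x - bu‖ := by
      refine (norm_sum_le _ _).trans ?_
      rw [Finset.sum_mul]
      refine Finset.sum_le_sum fun i _ => ?_
      rw [norm_smul, mul_comm]
      exact mul_le_mul_of_nonneg_left (PiLp.norm_apply_le _ i) (norm_nonneg _)
    have h3 : ‖K (x - bx)‖ ≤ ‖K‖ * (‖x‖ + ‖bx‖) :=
      (K.le_opNorm _).trans (mul_le_mul_of_nonneg_left (norm_sub_le _ _) (norm_nonneg _))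
    have hr : 0 ≤ ∑ i, ‖r i‖ := Finset.sum_nonneg fun i _ => norm_nonneg _
    calc ‖Z x‖ + L * ‖K (x - bx)‖
        ≤ (∑ i, ‖r i‖) * (L * ‖x‖ + ‖u 0 - bu‖) + L * (‖K‖ * (‖x‖ + ‖bx‖)) :=
          add_le_add (h2.trans (mul_le_mul_of_nonneg_left h1 hr)) (mul_le_mul_of_nonneg_left h3 hL)
      _ ≤ _ := by
          nlinarith [norm_nonneg x, norm_nonneg bx, norm_nonneg K, norm_nonneg (u 0 - bu),
            mul_nonneg hr hL, mul_nonneg hL (norm_nonneg K),
            mul_nonneg (mul_nonneg hr (norm_nonneg (u 0 - bu))) (norm_nonneg x),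
            mul_nonneg (mul_nonneg hL (norm_nonneg K)) (mul_nonneg (norm_nonneg bx) (norm_nonneg x))]
  have hqG : Grow q := grow_of_fderiv hqd hqg
  refine ⟨hqd, hqG, ?_⟩
  have hcol : ∀ x, ‖Z x‖ ^ 2
      = ∑ j, ⟪(WithLp.toLp 2 fun i => r i j : Space d), u x - bu⟫ ^ 2 := fun x => by
    rw [EuclideanSpace.real_norm_sq_eq]
    refine Finset.sum_congr rfl fun j _ => congrArg (· ^ 2) ?_
    simp [hZ, PiLp.inner_apply, FunLike.coe_sum, Finset.sum_apply]
  have hrow : ∀ x, ‖K (x - bx)‖ ^ 2 = ∑ i, ⟪r i, x - bx⟫ ^ 2 := fun x => by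
    rw [EuclideanSpace.real_norm_sq_eq]
    simp only [hK, rowMap_apply]
  have hb2 : ∀ x, ‖fderiv ℝ q x‖ ^ 2 ≤ 2 * ∑ j, ⟪(WithLp.toLp 2 fun i => r i j : Space d),
      u x - bu⟫ ^ 2 + 2 * (L ^ 2 * ∑ i, ⟪r i, x - bx⟫ ^ 2) := fun x => by
    rw [← hcol, ← hrow, ← mul_pow]
    nlinarith [pow_le_pow_left₀ (norm_nonneg _) (hb x) 2, sq_nonneg (‖Z x‖ - L * ‖K (x - bx)‖)]
  have hint : ∀ {w : Space d → Space d} {M : ℝ}, Continuous w →
      (∀ x y, ‖w x - w y‖ ≤ M * ‖x - y‖) → ∀ (c b : Space d),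
      Integrable (fun x => ⟪c, w x - b⟫ ^ 2) (mu Q) := fun {w M} hwc hw c b => by
    have h := lipF_inner_vec (u := fun x => w x - b) (L := M) (fun x y => by
      rw [sub_sub_sub_cancel_right]; exact hw x y) c
    refine (mu_int (P := Q) (f := fun x => ⟪c, w x - b⟫ * ⟪c, w x - b⟫) (by fun_prop)
      (grow_mul h.grow h.grow)).congr (ae_of_all _ fun x => (sq _).symm)
  have i1 : ∀ j, Integrable
      (fun x => ⟪(WithLp.toLp 2 fun i => r i j : Space d), u x - bu⟫ ^ 2) (mu Q) := fun j =>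
    hint huc hu _ _
  have i2 : ∀ i, Integrable (fun x => ⟪r i, x - bx⟫ ^ 2) (mu Q) := fun i =>
    hint continuous_id hid _ _
  refine (hP d h Q q hqd hqg).trans ((integral_mono_of_nonneg
    (ae_of_all _ fun x => sq_nonneg _) (((integrable_finsetSum _ fun j _ => i1 j).const_mul 2).add
      (((integrable_finsetSum _ fun i _ => i2 i).const_mul _).const_mul 2))
    (ae_of_all _ hb2)).trans ?_)
  simp only [Pi.add_apply]
  rw [integral_add ((integrable_finsetSum _ fun j _ => i1 j).const_mul 2)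
      (((integrable_finsetSum _ fun i _ => i2 i).const_mul _).const_mul 2),
    integral_const_mul, integral_const_mul, integral_const_mul,
    integral_finsetSum _ fun j _ => i1 j, integral_finsetSum _ fun i _ => i2 i]
  have e : ∑ j, ‖(WithLp.toLp 2 fun i => r i j : Space d)‖ ^ 2 = ∑ i, ‖r i‖ ^ 2 := by
    simp only [EuclideanSpace.real_norm_sq_eq]
    exact Finset.sum_comm
  have s1 : ∑ j, ∫ x, ⟪(WithLp.toLp 2 fun i => r i j : Space d), u x - bu⟫ ^ 2 ∂mu Q
      ≤ L ^ 2 * ∑ i, ‖r i‖ ^ 2 := by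
    rw [← e, mul_comm, Finset.sum_mul]
    exact Finset.sum_le_sum fun j _ => integral_inner_sq_le Q hL huc hu _
  have s2 : ∑ i, ∫ x, ⟪r i, x - bx⟫ ^ 2 ∂mu Q ≤ ∑ i, ‖r i‖ ^ 2 :=
    Finset.sum_le_sum fun i _ =>
      (integral_inner_sq_le Q zero_le_one continuous_id hid (r i)).trans_eq (by simp)
  nlinarith [mul_le_mul_of_nonneg_left s2 (sq_nonneg L)]

/-- The mixed third moments with a Lipschitz function and a Lipschitz field. -/
theorem sum_third_le (hP : PoincareMu) (Q : Pot d h) {F : Space d → ℝ} {LF : ℝ} (hLF : 0 ≤ LF)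
    (hF : LipF LF F) {u : Space d → Space d} {L : ℝ} (hL : 0 ≤ L) (hud : ContDiff ℝ 1 u)
    (hu : ∀ x y, ‖u x - u y‖ ≤ L * ‖x - y‖) :
    ∑ i, ∑ j, (∫ x, (F x - ∫ y, F y ∂mu Q) *
      ((u x i - ∫ y, u y i ∂mu Q) * (x j - ∫ y, y j ∂mu Q)) ∂mu Q) ^ 2 ≤ 4 * LF ^ 2 * L ^ 2 := by
  have := mu_prob Q
  have hid : ∀ x y : Space d, ‖x - y‖ ≤ 1 * ‖x - y‖ := fun x y => by rw [one_mul]
  have huc := hud.continuous
  have hFm := hF.continuous.measurable
  have hFg := hF.grow
  set K : Fin d → Fin d → ℝ := fun i j => ∫ x, (F x - ∫ y, F y ∂mu Q) *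
      ((u x i - ∫ y, u y i ∂mu Q) * (x j - ∫ y, y j ∂mu Q)) ∂mu Q with hKdef
  show ∑ i, ∑ j, K i j ^ 2 ≤ _
  set S := ∑ i, ∑ j, K i j ^ 2 with hS
  have hS0 : 0 ≤ S := Finset.sum_nonneg fun i _ => Finset.sum_nonneg fun j _ => sq_nonneg _
  set r : Fin d → Space d := fun i => WithLp.toLp 2 (K i) with hr
  set q := fun x => ⟪u x - meanVec Q u, rowMap r (x - meanVec Q fun y => y)⟫ with hq
  obtain ⟨hqd, hqG, hvq⟩ := var_pairing_le hP Q hL hud hu r hq
  have hrS : ∑ i, ‖r i‖ ^ 2 = S := Finset.sum_congr rfl fun i _ => EuclideanSpace.real_norm_sq_eq _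
  rw [hrS] at hvq
  have eq : ∀ x, q x
      = ∑ i, ∑ j, K i j * ((u x i - ∫ y, u y i ∂mu Q) * (x j - ∫ y, y j ∂mu Q)) := fun x => by
    simp only [hq]
    rw [PiLp.inner_apply]
    refine Finset.sum_congr rfl fun i _ => ?_
    rw [rowMap_apply, PiLp.inner_apply]
    simp only [RCLike.inner_apply, conj_trivial, hr, meanVec, PiLp.sub_apply, Finset.sum_mul]
    exact Finset.sum_congr rfl fun j _ => by ring
  have hij : ∀ i j, Integrable (fun x => K i j * ((F x - ∫ y, F y ∂mu Q) *
      ((u x i - ∫ y, u y i ∂mu Q) * (x j - ∫ y, y j ∂mu Q)))) (mu Q) := fun i j =>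
    (mu_int ((hFm.sub measurable_const).mul (by fun_prop))
      (grow_mul (grow_sub_const hFg _) (grow_mul (grow_sub_const (grow_coord hu i) _)
        (grow_sub_const (grow_coord hid j) _)))).const_mul _
  have hKS : S = ∫ x, (F x - ∫ y, F y ∂mu Q) * q x ∂mu Q := by
    simp only [eq, Finset.mul_sum, mul_left_comm _ (K _ _) _]
    rw [hS, integral_finsetSum _ fun i _ => integrable_finsetSum _ fun j _ => hij i j]
    refine Finset.sum_congr rfl fun i _ => ?_
    rw [integral_finsetSum _ fun j _ => hij i j]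
    refine Finset.sum_congr rfl fun j _ => ?_
    rw [integral_const_mul, sq]
  have hqm := hqd.continuous.measurable
  have hcov : ∫ x, (F x - ∫ y, F y ∂mu Q) * q x ∂mu Q = cov (mu Q) F q := by
    have i1 : Integrable (fun x => (F x - ∫ y, F y ∂mu Q) * q x) (mu Q) :=
      mu_int ((hFm.sub measurable_const).mul hqm) (grow_mul (grow_sub_const hFg _) hqG)
    have i2 : Integrable (fun x => (F x - ∫ y, F y ∂mu Q) * ∫ y, q y ∂mu Q) (mu Q) :=
      ((mu_int hFm hFg).sub (integrable_const _)).mul_const _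
    rw [cov]
    simp only [mul_sub]
    rw [integral_sub i1 i2, integral_mul_const, integral_sub (mu_int hFm hFg) (integrable_const _)]
    simp
  have h1 := abs_cov_le Q hFm hFg hqm hqG
  rw [← hcov, ← hKS, abs_of_nonneg hS0] at h1
  have h2 := pow_le_pow_left₀ hS0 h1 2
  rw [Real.sq_sqrt (mul_nonneg (var_nonneg _ _) (var_nonneg _ _))] at h2
  have h3 := h2.trans (mul_le_mul (var_le_sq Q hLF hF) hvq (var_nonneg _ _) (sq_nonneg LF))
  rcases hS0.eq_or_lt with hz | hpos
  · rw [← hz]; positivity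
  · exact le_of_mul_le_mul_right (by linarith : S * S ≤ 4 * LF ^ 2 * L ^ 2 * S) hpos

theorem pot_comp_lip (P : Pot d h) (a : Space d) {s : ℝ} (hs : 0 ≤ s) (x y : Space d) :
    ‖P.g (a + s • x) - P.g (a + s • y)‖ ≤ h * s * ‖x - y‖ := by
  refine (P.lip _ _).trans (le_of_eq ?_)
  rw [add_sub_add_left_eq_sub, ← smul_sub, norm_smul, Real.norm_eq_abs, abs_of_nonneg hs]
  ring

theorem lipF_comp {F : Space d → ℝ} {B : ℝ} (hF : ContDiff ℝ 1 F) (hg : GradBound F B) (a : Space d)
    {s : ℝ} (hs : 0 ≤ s) : LipF (B * s) fun ξ => F (a + s • ξ) := fun x y => by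
  have h1 : ‖F (a + s • x) - F (a + s • y)‖ ≤ B * ‖(a + s • x) - (a + s • y)‖ :=
    convex_univ.norm_image_sub_le_of_norm_fderiv_le (𝕜 := ℝ)
      (fun z _ => hF.differentiable one_ne_zero z) (fun z _ => hg z) (Set.mem_univ _) (Set.mem_univ _)
  rw [Real.norm_eq_abs, add_sub_add_left_eq_sub, ← smul_sub, norm_smul, Real.norm_eq_abs,
    abs_of_nonneg hs, ← mul_assoc] at h1
  exact h1

theorem postCov_eq_cov (P : Pot d h) {v : ℝ} {F : Space d → ℝ} (hFm : Measurable F) (hFg : Grow F)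
    (i : Fin d) (a : Space d) :
    postCov P v F i a = cov (mu (P.aff a (Real.sqrt v)))
      (fun ξ => F (a + Real.sqrt v • ξ)) fun ξ => P.g (a + Real.sqrt v • ξ) i := by
  have hgc : Continuous P.g := P.smooth.continuous
  rw [cov_eq (P.aff a (Real.sqrt v)) (f := fun ξ => F (a + Real.sqrt v • ξ))
    (hFm.comp (by fun_prop)) (grow_comp hFg a _)
    (by fun_prop) (grow_comp (grow_coord P.lip i) a _)]
  rfl

/-- The commutator of differentiation and posterior averaging. -/
theorem chainCov (hS : SteinMu) (hP : PoincareMu) (hD : PostDeriv) : ChainCov := by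
  intro d h P v F B hh hv _ hF hFB
  have hs0 : 0 < √v := Real.sqrt_pos.2 hv
  have hs2 : √v ^ 2 = v := Real.sq_sqrt hv.le
  have hB : 0 ≤ B := (norm_nonneg _).trans (hFB 0)
  have hFm := hF.continuous.measurable
  have hFgrad : Grow fun x => fderiv ℝ F x := ⟨B, 0, fun x => by simpa using hFB x⟩
  have hFg : Grow F := grow_of_fderiv hF hFgrad
  have hgc : Continuous P.g := P.smooth.continuous
  have hgi : ∀ i, Grow fun x => P.g x i := grow_coord P.lip
  have hgim : ∀ i, Measurable fun x => P.g x i := fun i => by fun_prop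
  have hcd : ∀ i, ContDiff ℝ 1 (postCov P v F i) := fun i => by
    have h1 := (hD d h P v hv _ (hFm.mul (hgim i)) (grow_mul hFg (hgi i))).1.of_le one_le_two
    have h2 := (hD d h P v hv F hFm hFg).1.of_le one_le_two
    have h3 := (hD d h P v hv _ (hgim i) (hgi i)).1.of_le one_le_two
    exact h1.sub (h2.mul h3)
  refine ⟨fun i a => ?_, fun a => ?_, hcd, fun a => ?_⟩
  · set Q := P.aff a √v with hQ
    have := mu_prob Q
    have hFc : ContDiff ℝ 1 fun ξ : Space d => F (a + √v • ξ) := by fun_prop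
    have hFd : ∀ ξ, fderiv ℝ (fun ξ : Space d => F (a + √v • ξ)) ξ (ev i)
        = √v * fderiv ℝ F (a + √v • ξ) (ev i) := fun ξ => by
      have h1 : HasFDerivAt (fun z : Space d => a + √v • z) (√v • ContinuousLinearMap.id ℝ (Space d)) ξ :=
        ((hasFDerivAt_id ξ).const_smul √v).const_add a
      have h2 : HasFDerivAt (fun ξ : Space d => F (a + √v • ξ)) _ ξ :=
        (hF.differentiable one_ne_zero _).hasFDerivAt.comp ξ h1
      rw [h2.fderiv]
      simp
    have hFgr : Grow fun ξ => fderiv ℝ (fun ξ : Space d => F (a + √v • ξ)) ξ := by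
      refine ⟨√v * B, 0, fun ξ => ?_⟩
      have h1 : HasFDerivAt (fun z : Space d => a + √v • z) (√v • ContinuousLinearMap.id ℝ (Space d)) ξ :=
        ((hasFDerivAt_id ξ).const_smul √v).const_add a
      have h2 : HasFDerivAt (fun ξ : Space d => F (a + √v • ξ)) _ ξ :=
        (hF.differentiable one_ne_zero _).hasFDerivAt.comp ξ h1
      dsimp only
      rw [h2.fderiv,
        ContinuousLinearMap.comp_smul, ContinuousLinearMap.comp_id, norm_smul, Real.norm_eq_abs,
        abs_of_pos hs0, pow_zero, mul_one]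
      exact mul_le_mul_of_nonneg_left (hFB _) hs0.le
    have s1 := hS d _ Q (fun ξ => F (a + √v • ξ)) (ev i) hFc hFgr
    have s0 := hS d _ Q (fun _ => (1 : ℝ)) (ev i) contDiff_const ⟨0, 0, fun ξ => by simp⟩
    rw [(hD d h P v hv F hFm hFg).2.1 a (ev i)]
    simp only [hFd] at s1
    have e : ∀ ξ, ⟪ev i, ξ + Q.g ξ⟫ = ξ i + √v * P.g (a + √v • ξ) i := fun ξ => by
      simp [EuclideanSpace.inner_single_left, hQ, Pot.aff]
    have e' : ∀ ξ : Space d, ⟪ev i, ξ⟫ = ξ i := fun ξ => by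
      simp [EuclideanSpace.inner_single_left]
    simp only [e, mul_one, integral_const_mul] at s0 s1
    have hFs := grow_comp hFg a √v
    have hgs := grow_comp (hgi i) a √v
    have hid : Grow fun x : Space d => x i :=
      grow_coord (u := fun x : Space d => x) (L := 1) (fun x y => by rw [one_mul]) i
    have iX : Integrable (fun ξ : Space d => ξ i) (mu Q) := mu_int (by fun_prop) hid
    have iG : Integrable (fun ξ => √v * P.g (a + √v • ξ) i) (mu Q) :=
      (mu_int (by fun_prop) hgs).const_mul √v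
    have iFX : Integrable (fun ξ => ξ i * F (a + √v • ξ)) (mu Q) :=
      mu_int (by fun_prop) (grow_mul hid hFs)
    have iFG : Integrable (fun ξ => √v * P.g (a + √v • ξ) i * F (a + √v • ξ)) (mu Q) :=
      ((mu_int (by fun_prop) (grow_mul hgs hFs)).const_mul √v).congr
        (ae_of_all _ fun ξ => by ring)
    simp only [add_mul] at s1
    rw [integral_add iFX iFG] at s1
    rw [integral_add iX iG] at s0
    simp only [fderiv_fun_const, Pi.zero_apply, zero_apply, integral_zero, integral_const_mul] at s0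
    rw [cov_eq Q (f := fun ξ => F (a + √v • ξ)) (g := fun ξ => ⟪ev i, ξ⟫) (hFm.comp (by fun_prop)) hFs
      (by fun_prop) (grow_inner _)]
    simp only [e', postCov, post_integral, ← hQ]
    have e1 : ∫ ξ, √v * P.g (a + √v • ξ) i * F (a + √v • ξ) ∂mu Q
        = √v * ∫ ξ, F (a + √v • ξ) * P.g (a + √v • ξ) i ∂mu Q := by
      rw [← integral_const_mul]
      exact integral_congr_ae (ae_of_all _ fun ξ => by ring)
    have e2 : ∫ ξ : Space d, ξ i * F (a + √v • ξ) ∂mu Q = ∫ ξ, F (a + √v • ξ) * ξ i ∂mu Q :=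
      integral_congr_ae (ae_of_all _ fun ξ => by ring)
    rw [e1, e2] at s1
    rw [eq_comm, eq_div_iff hs0.ne']
    linear_combination (norm := ring_nf) -s1 + (∫ ξ, F (a + √v • ξ) ∂mu Q) * s0
  · set Q := P.aff a √v with hQ
    set c : Space d := WithLp.toLp 2 fun i => postCov P v F i a with hc
    have hsum : ∑ i, postCov P v F i a ^ 2 = ‖c‖ ^ 2 := (EuclideanSpace.real_norm_sq_eq c).symm
    have hu := pot_comp_lip P a hs0.le
    have hFs := lipF_comp hF hFB a hs0.le
    have hG := lipF_inner_vec hu c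
    have hcov : ‖c‖ ^ 2
        = cov (mu Q) (fun ξ => F (a + √v • ξ)) fun ξ => ⟪c, P.g (a + √v • ξ)⟫ := by
      have hFgs := grow_comp hFg a √v
      rw [cov_eq Q (f := fun ξ => F (a + √v • ξ)) (hFm.comp (by fun_prop)) hFgs (by fun_prop) hG.grow,
        ← hsum]
      simp only [PiLp.inner_apply, RCLike.inner_apply, conj_trivial, Finset.mul_sum]
      rw [integral_finsetSum _ fun j _ => ?_, integral_finsetSum _ fun j _ => ?_, Finset.mul_sum,
        ← Finset.sum_sub_distrib]
      · refine Finset.sum_congr rfl fun j _ => ?_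
        simp only [← mul_assoc, integral_mul_const]
        rw [show c j = postCov P v F j a from rfl, postCov, post_integral, post_integral,
          post_integral, ← hQ]
        ring
      · exact (mu_int (P := Q) (f := fun ξ => P.g (a + √v • ξ) j) (by fun_prop)
          (grow_comp (hgi j) a √v)).mul_const _
      · exact ((mu_int (P := Q) (f := fun ξ => F (a + √v • ξ) * P.g (a + √v • ξ) j) (by fun_prop)
          (grow_mul hFgs (grow_comp (hgi j) a √v))).mul_const (c j)).congr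
            (ae_of_all _ fun ξ => mul_assoc _ _ _)
    rw [hsum]
    have h1 := (le_abs_self _).trans (abs_cov_le Q (f := fun ξ => F (a + √v • ξ))
      (g := fun ξ => ⟪c, P.g (a + √v • ξ)⟫) (hFm.comp (by fun_prop)) hFs.grow (by fun_prop) hG.grow)
    rw [← hcov] at h1
    have hLs : 0 ≤ B * √v := mul_nonneg hB hs0.le
    have hLu : 0 ≤ ‖c‖ * (h * √v) := mul_nonneg (norm_nonneg _) (mul_nonneg P.h_nonneg hs0.le)
    have h2 : ‖c‖ ^ 2 ≤ B * √v * (‖c‖ * (h * √v)) := by
      refine h1.trans ?_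
      rw [← Real.sqrt_sq (mul_nonneg hLs hLu), mul_pow]
      exact Real.sqrt_le_sqrt (mul_le_mul (var_le_sq Q hLs hFs) (var_le_sq Q hLu hG)
        (var_nonneg _ _) (sq_nonneg _))
    have h3 : ‖c‖ ≤ v * B := by
      rcases (norm_nonneg c).eq_or_lt with hz | hpos
      · rw [← hz]; positivity
      · refine le_of_mul_le_mul_right ?_ hpos
        calc ‖c‖ * ‖c‖ = ‖c‖ ^ 2 := (sq _).symm
          _ ≤ B * √v * (‖c‖ * (h * √v)) := h2
          _ = h * (√v ^ 2 * B * ‖c‖) := by ring
          _ ≤ 1 * (√v ^ 2 * B * ‖c‖) := mul_le_mul_of_nonneg_right hh (by positivity)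
          _ = v * B * ‖c‖ := by rw [hs2, one_mul]
    exact pow_le_pow_left₀ (norm_nonneg _) h3 2
  · set Q := P.aff a √v with hQ
    have hFs := lipF_comp hF hFB a hs0.le
    have hu := pot_comp_lip P a hs0.le
    have hud : ContDiff ℝ 1 fun ξ : Space d => P.g (a + √v • ξ) := by
      have := P.smooth; fun_prop
    have key := sum_third_le hP Q (mul_nonneg hB hs0.le) hFs (mul_nonneg P.h_nonneg hs0.le) hud hu
    have hd : ∀ i j, fderiv ℝ (postCov P v F i) a (ev j)
        = (∫ ξ, (F (a + √v • ξ) - ∫ y, F (a + √v • y) ∂mu Q) *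
          ((P.g (a + √v • ξ) i - ∫ y, P.g (a + √v • y) i ∂mu Q) *
            (ξ j - ∫ y, y j ∂mu Q)) ∂mu Q) / √v := by
      intro i j
      obtain ⟨c1, d1, -⟩ := hD d h P v hv _ (hFm.mul (hgim i)) (grow_mul hFg (hgi i))
      obtain ⟨c2, d2, -⟩ := hD d h P v hv F hFm hFg
      obtain ⟨c3, d3, -⟩ := hD d h P v hv _ (hgim i) (hgi i)
      have h4 := ((c1.differentiable two_ne_zero a).hasFDerivAt).sub
        (((c2.differentiable two_ne_zero a).hasFDerivAt).mul
          ((c3.differentiable two_ne_zero a).hasFDerivAt))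
      have h5 : fderiv ℝ (postCov P v F i) a = _ := h4.fderiv
      rw [h5]
      simp only [sub_apply, add_apply, smul_apply, smul_eq_mul]
      rw [d1 a (ev j), d2 a (ev j), d3 a (ev j)]
      have e' : ∀ ξ : Space d, ⟪ev j, ξ⟫ = ξ j := fun ξ => by
        simp [EuclideanSpace.inner_single_left]
      have hFgs := grow_comp hFg a √v
      have hgs := grow_comp (hgi i) a √v
      have hm1 : Measurable fun ξ => F (a + √v • ξ) := hFm.comp (by fun_prop)
      have hm2 : Measurable fun ξ => P.g (a + √v • ξ) i := by fun_prop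
      have hmx : Measurable fun ξ : Space d => ⟪ev j, ξ⟫ := by fun_prop
      simp only [← hQ, Pi.mul_apply]
      rw [cov_eq Q (f := fun ξ => F (a + √v • ξ) * P.g (a + √v • ξ) i) (hm1.mul hm2)
          (grow_mul hFgs hgs) hmx (grow_inner _), cov_eq Q hm1 hFgs hmx (grow_inner _),
        cov_eq Q hm2 hgs hmx (grow_inner _),
        third_expand Q hm1 hFgs hm2 hgs (q := fun ξ : Space d => ξ j) (by fun_prop)
          (grow_coord (u := fun x : Space d => x) (L := 1) (fun x y => by rw [one_mul]) j)]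
      simp only [e', post_integral, ← hQ, mul_assoc]
      field_simp
      ring
    simp only [hd, div_pow, ← Finset.sum_div, hs2]
    rw [div_le_iff₀ hv]
    refine key.trans ?_
    have : (h * √v) ^ 2 ≤ v := by
      rw [mul_pow, hs2]; exact mul_le_of_le_one_left hv.le (pow_le_one₀ P.h_nonneg hh)
    calc 4 * (B * √v) ^ 2 * (h * √v) ^ 2 ≤ 4 * (B * √v) ^ 2 * v :=
          mul_le_mul_of_nonneg_left this (by positivity)
      _ = 4 * v * B ^ 2 * v := by rw [mul_pow, hs2]; ring

end Vale.Agent.P347
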