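import Vale.Agent.P347.Basics
import Vale.Agent.P347.Smooth
import Vale.Agent.P347.ChainPins

/-!
Gradient decay of the proximal chain from the decrement of the variance.
-/

noncomputable section

open MeasureTheory ProbabilityTheory
open scoped RealInnerProductSpace

namespace Vale.Agent.P347

namespace Cv

variable {d : ℕ} {h : ℝ}

/-- Bounded measurable functions. -/
def Bd (F : Space d → ℝ) : Prop := Measurable F ∧ ∃ M, ∀ x, |F x| ≤ M

theorem Bd.grow {F : Space d → ℝ} (hF : Bd F) : Grow F := by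
  obtain ⟨M, hM⟩ := hF.2
  exact ⟨M, 0, fun x => by simpa using hM x⟩

theorem Bd.comp {F : Space d → ℝ} (hF : Bd F) (a : Space d) (s : ℝ) :
    Bd fun ξ => F (a + s • ξ) := by
  obtain ⟨M, hM⟩ := hF.2
  exact ⟨hF.1.comp (by fun_prop), M, fun ξ => hM _⟩

theorem Bd.sq {F : Space d → ℝ} (hF : Bd F) : Bd fun x => F x ^ 2 := by
  obtain ⟨M, hM⟩ := hF.2
  exact ⟨hF.1.pow_const 2, M ^ 2, fun x => by
    rw [abs_pow]; exact pow_le_pow_left₀ (abs_nonneg _) (hM x) 2⟩

theorem Bd.sub {F G : Space d → ℝ} (hF : Bd F) (hG : Bd G) : Bd fun x => F x - G x := by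
  obtain ⟨M, hM⟩ := hF.2
  obtain ⟨N, hN⟩ := hG.2
  exact ⟨hF.1.sub hG.1, M + N, fun x => (abs_sub _ _).trans (add_le_add (hM x) (hN x))⟩

theorem Bd.const_mul {F : Space d → ℝ} (hF : Bd F) (c : ℝ) : Bd fun x => c * F x := by
  obtain ⟨M, hM⟩ := hF.2
  exact ⟨hF.1.const_mul c, |c| * M, fun x => by
    rw [abs_mul]; exact mul_le_mul_of_nonneg_left (hM x) (abs_nonneg c)⟩

theorem int_post (P : Pot d h) (v : ℝ) {F : Space d → ℝ} (hF : Bd F) (a : Space d) :
    Integrable (fun ξ => F (a + Real.sqrt v • ξ)) (mu (P.aff a (Real.sqrt v))) :=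
  mu_int (hF.comp a _).1 (hF.comp a _).grow

theorem post_mono (P : Pot d h) (v : ℝ) {F G : Space d → ℝ} (hF : Bd F) (hG : Bd G)
    (hle : ∀ x, F x ≤ G x) (a : Space d) : post P v F a ≤ post P v G a :=
  integral_mono (int_post P v hF a) (int_post P v hG a) fun _ => hle _

theorem post_sub (P : Pot d h) (v : ℝ) {F G : Space d → ℝ} (hF : Bd F) (hG : Bd G) (a : Space d) :
    post P v (fun x => F x - G x) a = post P v F a - post P v G a :=
  integral_sub (int_post P v hF a) (int_post P v hG a)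

theorem post_const_mul (P : Pot d h) (v : ℝ) (F : Space d → ℝ) (c : ℝ) (a : Space d) :
    post P v (fun x => c * F x) a = c * post P v F a :=
  integral_const_mul _ _

theorem bd_post (P : Pot d h) {v : ℝ} (hv : 0 < v) {F : Space d → ℝ} (hF : Bd F) :
    Bd (post P v F) := by
  obtain ⟨M, hM⟩ := hF.2
  refine ⟨(contDiff_post P hv hF.1 hF.grow 0).continuous.measurable, M, fun a => ?_⟩
  have := mu_prob (P.aff a (Real.sqrt v))
  refine abs_integral_le_integral_abs.trans ((integral_mono (int_post P v hF a).abs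
    (integrable_const M) fun ξ => hM _).trans_eq (by simp))

theorem bd_Pf {η : ℝ} (hη : 0 < η) {F : Space d → ℝ} (hF : Bd F) : Bd (Pf η F) := by
  rw [Pf_eq_post]; exact bd_post _ hη hF

theorem Pf_mono {η : ℝ} {F G : Space d → ℝ} (hF : Bd F) (hG : Bd G)
    (hle : ∀ x, F x ≤ G x) (x : Space d) : Pf η F x ≤ Pf η G x := by
  rw [Pf_eq_post, Pf_eq_post]; exact post_mono _ η hF hG hle x

theorem vpos {η : ℝ} (hη : 0 < η) : 0 < η / (1 + η) := div_pos hη (by linarith)

theorem bd_Qop (P : Pot d h) {η : ℝ} (hη : 0 < η) {F : Space d → ℝ} (hF : Bd F) :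
    Bd (Qop P η F) := by
  obtain ⟨hm, M, hM⟩ := bd_post P (vpos hη) (bd_Pf hη hF)
  exact ⟨hm.comp (measurable_const_smul _), M, fun y => hM _⟩

theorem Qop_mono (P : Pot d h) {η : ℝ} (hη : 0 < η) {F G : Space d → ℝ} (hF : Bd F) (hG : Bd G)
    (hle : ∀ x, F x ≤ G x) (y : Space d) : Qop P η F y ≤ Qop P η G y :=
  post_mono P _ (bd_Pf hη hF) (bd_Pf hη hG) (Pf_mono hF hG hle) _

theorem Qop_sub (P : Pot d h) {η : ℝ} (hη : 0 < η) {F G : Space d → ℝ} (hF : Bd F) (hG : Bd G)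
    (y : Space d) : Qop P η (fun x => F x - G x) y = Qop P η F y - Qop P η G y := by
  have e : Pf η (fun x => F x - G x) = fun x => Pf η F x - Pf η G x := by
    funext x; rw [Pf_eq_post, Pf_eq_post, Pf_eq_post]; exact post_sub _ η hF hG x
  rw [Qop, e]
  exact post_sub P _ (bd_Pf hη hF) (bd_Pf hη hG) _

theorem Qop_const_mul (P : Pot d h) (η : ℝ) (F : Space d → ℝ) (c : ℝ) (y : Space d) :
    Qop P η (fun x => c * F x) y = c * Qop P η F y := by
  have e : Pf η (fun x => c * F x) = fun x => c * Pf η F x := by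
    funext x; rw [Pf_eq_post, Pf_eq_post]; exact post_const_mul _ η F c x
  rw [Qop, e]
  exact post_const_mul P _ _ c _

theorem contDiff_Qop (P : Pot d h) {η : ℝ} (hη : 0 < η) {F : Space d → ℝ} (hF : Bd F) :
    ContDiff ℝ 2 (Qop P η F) := by
  have h1 := contDiff_post P (vpos hη) (bd_Pf hη hF).1 (bd_Pf hη hF).grow 2
  exact (show ContDiff ℝ 2 (post P (η / (1 + η)) (Pf η F)) by exact_mod_cast h1).comp
    (contDiff_const_smul _)

/-- The variance of the posterior controls the gradient of the posterior average. -/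
theorem grad_post_le_var (hP : PostDeriv) (hPI : PoincareMu) (P : Pot d h) {v : ℝ} (hv : 0 < v)
    {F : Space d → ℝ} (hF : Bd F) (a : Space d) :
    v * ‖fderiv ℝ (post P v F) a‖ ^ 2
      ≤ var (mu (P.aff a (Real.sqrt v))) (fun ξ => F (a + Real.sqrt v • ξ)) := by
  set Q := P.aff a (Real.sqrt v)
  set V := var (mu Q) (fun ξ => F (a + Real.sqrt v • ξ))
  have hV : 0 ≤ V := var_nonneg _ _
  have hs : 0 < Real.sqrt v := Real.sqrt_pos.2 hv
  have hn : ‖fderiv ℝ (post P v F) a‖ ≤ Real.sqrt V / Real.sqrt v := by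
    refine ContinuousLinearMap.opNorm_le_bound _ (by positivity) fun e => ?_
    rw [(hP d h P v hv F hF.1 hF.grow).2.1 a e, Real.norm_eq_abs, abs_div, abs_of_pos hs,
      div_mul_eq_mul_div]
    refine div_le_div_of_nonneg_right ?_ hs.le
    refine (abs_cov_le Q (hF.comp a _).1 (hF.comp a _).grow (by fun_prop) (grow_inner e)).trans ?_
    rw [Real.sqrt_mul hV]
    refine mul_le_mul_of_nonneg_left ?_ (Real.sqrt_nonneg _)
    refine Real.sqrt_le_iff.2 ⟨norm_nonneg e, ?_⟩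
    have hfd : ∀ x, fderiv ℝ (fun y : Space d => ⟪e, y⟫) x = innerSL ℝ e := fun x =>
      ((innerSL ℝ e).hasFDerivAt (x := x)).fderiv
    have := mu_prob Q
    refine (hPI _ _ Q (fun y => ⟪e, y⟫) (innerSL ℝ e).contDiff
      ⟨‖e‖, 0, fun x => by simp [hfd]⟩).trans_eq ?_
    simp [hfd]
  calc v * ‖fderiv ℝ (post P v F) a‖ ^ 2 ≤ v * (Real.sqrt V / Real.sqrt v) ^ 2 :=
        mul_le_mul_of_nonneg_left (pow_le_pow_left₀ (norm_nonneg _) hn 2) hv.le
    _ = V := by
        rw [div_pow, Real.sq_sqrt hV, Real.sq_sqrt hv.le]; field_simp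

/-- The squared gradient commutes with posterior averaging up to an inequality. -/
theorem grad_post_le (hP : PostDeriv) (hPI : PoincareMu) (P : Pot d h) {v : ℝ} (hv : 0 < v)
    {F : Space d → ℝ} (hF : Bd F) (hC : ContDiff ℝ 1 F)
    (hG : Bd fun x => ‖fderiv ℝ F x‖ ^ 2) (a : Space d) :
    ‖fderiv ℝ (post P v F) a‖ ^ 2 ≤ post P v (fun x => ‖fderiv ℝ F x‖ ^ 2) a := by
  refine le_of_mul_le_mul_left ((grad_post_le_var hP hPI P hv hF a).trans ?_) hv
  set s := Real.sqrt v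
  have hF2 : ∀ ξ, ‖fderiv ℝ (fun ξ => F (a + s • ξ)) ξ‖ ^ 2 = v * ‖fderiv ℝ F (a + s • ξ)‖ ^ 2 := by
    intro ξ
    have h1 : HasFDerivAt (fun z : Space d => a + s • z) (s • ContinuousLinearMap.id ℝ (Space d)) ξ :=
      ((hasFDerivAt_id ξ).const_smul s).const_add a
    have h2 := ((hC.differentiable one_ne_zero (a + s • ξ)).hasFDerivAt).comp ξ h1
    rw [Function.comp_def] at h2
    rw [h2.fderiv, ContinuousLinearMap.comp_smul, ContinuousLinearMap.comp_id, norm_smul, mul_pow,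
      Real.norm_eq_abs, sq_abs, Real.sq_sqrt hv.le]
  obtain ⟨M, hM⟩ := hG.2
  have hC' : ContDiff ℝ 1 fun ξ => F (a + s • ξ) := hC.comp (by fun_prop)
  refine (hPI _ _ (P.aff a s) _ hC'
    ⟨Real.sqrt (v * M), 0, fun x => ?_⟩).trans_eq ?_
  · rw [pow_zero, mul_one]
    refine Real.le_sqrt_of_sq_le ?_
    simp only [hF2]
    exact mul_le_mul_of_nonneg_left ((le_abs_self _).trans (hM _)) hv.le
  · simp only [hF2, integral_const_mul]
    rfl

/-- The variance of a posterior, in terms of posterior averages. -/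
theorem var_post_eq (P : Pot d h) (v : ℝ) {F : Space d → ℝ} (hF : Bd F) (a : Space d) :
    var (mu (P.aff a (Real.sqrt v))) (fun ξ => F (a + Real.sqrt v • ξ))
      = post P v (fun x => F x ^ 2) a - post P v F a ^ 2 := by
  have hc := hF.comp a (Real.sqrt v)
  have e := cov_eq (P.aff a (Real.sqrt v)) hc.1 hc.grow hc.1 hc.grow
  have e2 : ∀ (ν : Measure (Space d)) (f : Space d → ℝ), var ν f = cov ν f f :=
    fun ν f => by simp [var, cov, pow_two]
  rw [e2, e, post_integral, post_integral]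
  simp only [pow_two]

theorem Pf_sq_le (η : ℝ) {F : Space d → ℝ} (hF : Bd F) (x : Space d) :
    Pf η F x ^ 2 ≤ Pf η (fun z => F z ^ 2) x := by
  rw [Pf_eq_post, Pf_eq_post]
  have := var_post_eq (Pot.zero d) η hF x
  linarith [var_nonneg (mu ((Pot.zero d).aff x (Real.sqrt η)))
    (fun ξ => F (x + Real.sqrt η • ξ))]

theorem norm_fderiv_Qop (P : Pot d h) {η : ℝ} (hη : 0 < η) {F : Space d → ℝ} (hF : Bd F)
    (y : Space d) :
    ‖fderiv ℝ (Qop P η F) y‖
      = (1 + η)⁻¹ * ‖fderiv ℝ (post P (η / (1 + η)) (Pf η F)) ((1 + η)⁻¹ • y)‖ := by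
  have hd := (contDiff_post P (vpos hη) (bd_Pf hη hF).1 (bd_Pf hη hF).grow 1).differentiable
    (by norm_num) ((1 + η)⁻¹ • y)
  have h2 := hd.hasFDerivAt.comp y (((hasFDerivAt_id y).const_smul (1 + η)⁻¹))
  rw [Function.comp_def] at h2
  change HasFDerivAt (Qop P η F) _ _ at h2
  rw [h2.fderiv, ContinuousLinearMap.comp_smul, ContinuousLinearMap.comp_id, norm_smul,
    Real.norm_eq_abs, abs_of_pos (by positivity)]

/-- The decrement of the variance in one step. -/
theorem decrement (hP : PostDeriv) (hPI : PoincareMu) (P : Pot d h) {η : ℝ} (hη : 0 < η)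
    {F : Space d → ℝ} (hF : Bd F) (y : Space d) :
    η * ‖fderiv ℝ (Qop P η F) y‖ ^ 2 ≤ Qop P η (fun x => F x ^ 2) y - Qop P η F y ^ 2 := by
  set v := η / (1 + η) with hv
  set a := (1 + η)⁻¹ • y
  have hG := bd_Pf hη hF
  have h1 := grad_post_le_var hP hPI P (vpos hη) hG a
  rw [← hv, var_post_eq P v hG a] at h1
  have h2 := post_mono P v hG.sq (bd_Pf hη hF.sq) (Pf_sq_le η hF) a
  have e : η * ‖fderiv ℝ (Qop P η F) y‖ ^ 2
      = (1 + η)⁻¹ * (v * ‖fderiv ℝ (post P v (Pf η F)) a‖ ^ 2) := by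
    rw [norm_fderiv_Qop P hη hF, hv]; field_simp; ring_nf; rfl
  rw [e]
  refine le_trans (mul_le_of_le_one_left (mul_nonneg (vpos hη).le (sq_nonneg _))
    (inv_le_one_of_one_le₀ (by linarith))) (h1.trans ?_)
  show _ ≤ post P v (Pf η fun x => F x ^ 2) a - post P v (Pf η F) a ^ 2
  linarith

/-- The squared gradient contracts. -/
theorem grad_Qop_le (hP : PostDeriv) (hPI : PoincareMu) (P : Pot d h) {η : ℝ} (hη : 0 < η)
    {F : Space d → ℝ} (hF : Bd F) (hC : ContDiff ℝ 1 F)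
    (hG : Bd fun x => ‖fderiv ℝ F x‖ ^ 2) (y : Space d) :
    ‖fderiv ℝ (Qop P η F) y‖ ^ 2 ≤ Qop P η (fun x => ‖fderiv ℝ F x‖ ^ 2) y := by
  have hPfC : ContDiff ℝ 1 (Pf η F) := by
    rw [Pf_eq_post]; exact_mod_cast contDiff_post (Pot.zero d) hη hF.1 hF.grow 1
  have hstep : ∀ x, ‖fderiv ℝ (Pf η F) x‖ ^ 2 ≤ Pf η (fun z => ‖fderiv ℝ F z‖ ^ 2) x := fun x => by
    rw [Pf_eq_post, Pf_eq_post]
    exact grad_post_le hP hPI (Pot.zero d) hη hF hC hG x
  have hG' : Bd fun x => ‖fderiv ℝ (Pf η F) x‖ ^ 2 := by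
    obtain ⟨-, M, hM⟩ := bd_Pf hη hG
    refine ⟨((hPfC.continuous_fderiv one_ne_zero).norm.pow 2).measurable, M, fun x => ?_⟩
    rw [abs_of_nonneg (sq_nonneg _)]
    exact (hstep x).trans ((le_abs_self _).trans (hM x))
  refine le_trans (pow_le_pow_left₀ (norm_nonneg _) (le_of_eq_of_le (norm_fderiv_Qop P hη hF y)
    (mul_le_of_le_one_left (norm_nonneg _) (inv_le_one_of_one_le₀ (by linarith)))) 2) ?_
  refine (grad_post_le hP hPI P (vpos hη) (bd_Pf hη hF) hPfC hG' _).trans ?_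
  exact post_mono P _ hG' (bd_Pf hη hG) hstep _

theorem bd_grad_Qop (hP : PostDeriv) (hPI : PoincareMu) (P : Pot d h) {η : ℝ} (hη : 0 < η)
    {F : Space d → ℝ} (hF : Bd F) : Bd fun x => ‖fderiv ℝ (Qop P η F) x‖ ^ 2 := by
  obtain ⟨-, M, hM⟩ := bd_Qop P hη hF.sq
  refine ⟨(((contDiff_Qop P hη hF).continuous_fderiv two_ne_zero).norm.pow 2).measurable,
    M / η, fun x => ?_⟩
  rw [abs_of_nonneg (sq_nonneg _), le_div_iff₀ hη, mul_comm]
  exact (decrement hP hPI P hη hF x).trans (le_trans (sub_le_self _ (sq_nonneg _))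
    ((le_abs_self _).trans (hM x)))

theorem bd_iter (P : Pot d h) {η : ℝ} (hη : 0 < η) {F : Space d → ℝ} (hF : Bd F) :
    ∀ m : ℕ, Bd ((Qop P η)^[m] F) := by
  intro m
  induction m with
  | zero => exact hF
  | succ m ih => rw [Function.iterate_succ_apply']; exact bd_Qop P hη ih

theorem telescope (hP : PostDeriv) (hPI : PoincareMu) (P : Pot d h) {η : ℝ} (hη : 0 < η)
    {F : Space d → ℝ} (hF : Bd F) : ∀ m : ℕ, ∀ y,
    ((m + 1 : ℕ) : ℝ) * η * ‖fderiv ℝ ((Qop P η)^[m + 1] F) y‖ ^ 2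
      ≤ (Qop P η)^[m + 1] (fun x => F x ^ 2) y - (Qop P η)^[m + 1] F y ^ 2 := by
  intro m
  induction m with
  | zero => intro y; simpa using decrement hP hPI P hη hF y
  | succ m ih =>
    intro y
    set g := (Qop P η)^[m + 1] F with hgdef
    set Φ := (Qop P η)^[m + 1] (fun x => F x ^ 2) with hΦdef
    rw [Function.iterate_succ_apply' (f := Qop P η) (n := m + 1),
      Function.iterate_succ_apply' (f := Qop P η) (n := m + 1), ← hgdef, ← hΦdef]
    have hg : Bd g := bd_iter P hη hF (m + 1)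
    have hΦ : Bd Φ := bd_iter P hη hF.sq (m + 1)
    have hgC : ContDiff ℝ 1 g := by
      rw [hgdef, Function.iterate_succ_apply']
      exact (contDiff_Qop P hη (bd_iter P hη hF m)).of_le (by norm_num)
    have hgG : Bd fun x => ‖fderiv ℝ g x‖ ^ 2 := by
      rw [hgdef, Function.iterate_succ_apply']
      exact bd_grad_Qop hP hPI P hη (bd_iter P hη hF m)
    have h1 := Qop_mono P hη (hgG.const_mul (((m + 1 : ℕ) : ℝ) * η)) (hΦ.sub hg.sq)
      (fun x => ih x) y
    rw [Qop_const_mul, Qop_sub P hη hΦ hg.sq] at h1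
    have h2 := decrement hP hPI P hη hg y
    have h3 := mul_le_mul_of_nonneg_left (grad_Qop_le hP hPI P hη hg hgC hgG y)
      (show 0 ≤ ((m + 1 : ℕ) : ℝ) * η by positivity)
    push_cast at h1 h3 ⊢
    linarith

end Cv

/-- The gradient after `m` steps is bounded by the mean square. -/
theorem chainVar (hP : PostDeriv) (hPI : PoincareMu) : ChainVar := by
  intro d h P η m f M _ hη _ hm hf hM
  obtain ⟨k, rfl⟩ : ∃ k, m = k + 1 := ⟨m - 1, by omega⟩
  have hF : Cv.Bd f := ⟨hf, M, hM⟩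
  refine ⟨?_, fun y => (Cv.telescope hP hPI P hη hF k y).trans (sub_le_self _ (sq_nonneg _))⟩
  rw [Function.iterate_succ_apply']
  exact Cv.contDiff_Qop P hη (Cv.bd_iter P hη hF k)

end Vale.Agent.P347
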