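import Vale.Agent.P347.Model

/-!
Gaussian-tilted log-concave measures, posterior averages, node sums and the local sampler.
-/

noncomputable section

open MeasureTheory ProbabilityTheory
open scoped RealInnerProductSpace

namespace Vale.Agent.P347

variable {d : ℕ}

/-- The standard Gaussian law. -/
abbrev gam (d : ℕ) : Measure (Space d) := stdGaussian (Space d)

/-- Independent standard Gaussian vectors. -/
abbrev gp (ι : Type) [Fintype ι] (d : ℕ) : Measure (ι → Space d) := Measure.pi fun _ : ι => gam d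

/-- The coordinate unit vectors. -/
abbrev ev (i : Fin d) : Space d := EuclideanSpace.single i (1 : ℝ)

/-- At most polynomial growth. -/
def Grow {β : Type} [Norm β] (f : Space d → β) : Prop :=
  ∃ (C : ℝ) (k : ℕ), ∀ x, ‖f x‖ ≤ C * (1 + ‖x‖) ^ k

/-- Variance. -/
def var {α : Type} [MeasurableSpace α] (μ : Measure α) (f : α → ℝ) : ℝ :=
  ∫ x, (f x - ∫ y, f y ∂μ) ^ 2 ∂μ

/-- Covariance. -/
def cov {α : Type} [MeasurableSpace α] (μ : Measure α) (f g : α → ℝ) : ℝ :=
  ∫ x, (f x - ∫ y, f y ∂μ) * (g x - ∫ y, g y ∂μ) ∂μ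

/-- A convex potential with an `h`-Lipschitz continuously differentiable gradient `g`. -/
structure Pot (d : ℕ) (h : ℝ) where
  /-- The potential. -/
  W : Space d → ℝ
  /-- Its gradient. -/
  g : Space d → Space d
  h_nonneg : 0 ≤ h
  grad : ∀ x, HasFDerivAt W (innerSL ℝ (g x)) x
  smooth : ContDiff ℝ 1 g
  lip : ∀ x y, ‖g x - g y‖ ≤ h * ‖x - y‖
  mono : ∀ x y, 0 ≤ ⟪g x - g y, x - y⟫

variable {h : ℝ}

/-- The zero potential. -/
def Pot.zero (d : ℕ) : Pot d 0 where
  W := fun _ => 0
  g := fun _ => 0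
  h_nonneg := le_rfl
  grad := fun x => by simpa using hasFDerivAt_const (0 : ℝ) x
  smooth := contDiff_const
  lip := fun x y => by simp
  mono := fun x y => by simp

/-- The pull-back under `ξ ↦ a + σ ξ`. -/
def Pot.aff (P : Pot d h) (a : Space d) (σ : ℝ) : Pot d (h * σ ^ 2) where
  W := fun x => P.W (a + σ • x)
  g := fun x => σ • P.g (a + σ • x)
  h_nonneg := mul_nonneg P.h_nonneg (sq_nonneg σ)
  grad := fun x => by
    have h1 : HasFDerivAt (fun z : Space d => a + σ • z) (σ • ContinuousLinearMap.id ℝ (Space d)) x :=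
      ((hasFDerivAt_id x).const_smul σ).const_add a
    refine ((P.grad (a + σ • x)).comp x h1).congr_fderiv ?_
    ext v
    simp
  smooth := by have := P.smooth; fun_prop
  lip := fun x y => by
    rw [← smul_sub, norm_smul, Real.norm_eq_abs]
    calc |σ| * ‖P.g (a + σ • x) - P.g (a + σ • y)‖
        ≤ |σ| * (h * ‖(a + σ • x) - (a + σ • y)‖) :=
          mul_le_mul_of_nonneg_left (P.lip _ _) (abs_nonneg _)
      _ = h * σ ^ 2 * ‖x - y‖ := by
          rw [add_sub_add_left_eq_sub, ← smul_sub, norm_smul, Real.norm_eq_abs, ← sq_abs σ]; ring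
  mono := fun x y => by
    have := P.mono (a + σ • x) (a + σ • y)
    rw [add_sub_add_left_eq_sub, ← smul_sub, real_inner_smul_right] at this
    rw [← smul_sub, real_inner_smul_left]
    exact this

/-- Subtraction of a linear form. -/
def Pot.lin (P : Pot d h) (b : Space d) : Pot d h where
  W := fun x => P.W x - ⟪b, x⟫
  g := fun x => P.g x - b
  h_nonneg := P.h_nonneg
  grad := fun x => by
    have h1 : HasFDerivAt (fun z : Space d => ⟪b, z⟫) (innerSL ℝ b) x :=
      (innerSL ℝ b).hasFDerivAt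
    refine ((P.grad x).sub h1).congr_fderiv ?_
    ext v
    simp
  smooth := P.smooth.sub contDiff_const
  lip := fun x y => by simpa using P.lip x y
  mono := fun x y => by simpa using P.mono x y

/-- The Gaussian law tilted by `exp (-W)`. -/
def mu (P : Pot d h) : Measure (Space d) := (gam d).tilted fun x => -P.W x

/-- The size of the gradient. -/
def gsize (P : Pot d h) : ℝ := h * Real.sqrt d + ‖P.g 0‖

/-- The average of `f` under the law proportional to `exp (-W - ‖x - a‖² / (2 v))`. -/
def post (P : Pot d h) (v : ℝ) (f : Space d → ℝ) (a : Space d) : ℝ :=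
  ∫ ξ, f (a + Real.sqrt v • ξ) ∂mu (P.aff a (Real.sqrt v))

/-- Gaussian smoothing with variance `r`. -/
def Pf (r : ℝ) (f : Space d → ℝ) (x : Space d) : ℝ := ∫ z, f (x + Real.sqrt r • z) ∂gam d

/-- The proximal chain with step `η`: a posterior draw, then Gaussian noise of variance `η`. -/
def Qop (P : Pot d h) (η : ℝ) (f : Space d → ℝ) (y : Space d) : ℝ :=
  post P (η / (1 + η)) (Pf η f) ((1 + η)⁻¹ • y)

/-- The second derivative is bounded by `B` in Hilbert-Schmidt norm. -/
def HessBound (f : Space d → ℝ) (B : ℝ) : Prop :=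
  ∀ x, ∑ i, ∑ j, fderiv ℝ (fderiv ℝ f) x (ev i) (ev j) ^ 2 ≤ B ^ 2

/-- The gradient of `f` is bounded by `B`. -/
def GradBound (f : Space d → ℝ) (B : ℝ) : Prop := ∀ x, ‖fderiv ℝ f x‖ ≤ B

/-- Lipschitz in the Euclidean norm of a family of vectors. -/
def Lip2 {ι : Type} [Fintype ι] (L : ℝ) (N : (ι → Space d) → Space d) : Prop :=
  ∀ ω ω', ‖N ω - N ω'‖ ≤ L * Real.sqrt (∑ i, ‖ω i - ω' i‖ ^ 2)

/-- The Gaussian average of `g` at correlation `t` with `ξ`. -/
def Gfun (g : Space d → Space d) (t : ℝ) (ξ : Space d) : Space d :=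
  ∫ z, g (t • ξ + Real.sqrt (1 - t ^ 2) • z) ∂gam d

/-- The first-order transport field. -/
def Gbar (g : Space d → Space d) (ξ : Space d) : Space d :=
  ∫ t in (0 : ℝ)..1, Gfun g t ξ

/-- Quadrature nodes and weights. -/
structure Nodes (m : ℕ) where
  /-- The nodes. -/
  t : Fin m → ℝ
  /-- The weights. -/
  w : Fin m → ℝ

variable {m : ℕ}

/-- Admissible nodes: nodes in the unit interval, weights of total size at most `Cw`, accuracy
`e` for the transport field of every potential. -/
def Nodes.Ok (N : Nodes m) (Cw e : ℝ) : Prop :=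
  (∀ k, N.t k ∈ Set.Icc (0 : ℝ) 1) ∧ ∑ k, |N.w k| ≤ Cw ∧
    ∀ (d : ℕ) (h : ℝ) (P : Pot d h),
      ∫ ξ, ‖(∑ k, N.w k • Gfun P.g (N.t k) ξ) - Gbar P.g ξ‖ ^ 2 ∂gam d
        ≤ e ^ 2 * ∫ ξ, ‖P.g ξ‖ ^ 2 ∂gam d

/-- The randomized node sum. -/
def nodeSum (N : Nodes m) (g : Space d → Space d) (ξ : Space d) (z : Fin m → Space d) : Space d :=
  ∑ k, N.w k • g (N.t k • ξ + Real.sqrt (1 - N.t k ^ 2) • z k)

/-- One halving step of the mean estimator at scale `v`; the seed holds `ξ`, `ζ` and the node
vectors. -/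
def chainStep (N : Nodes m) (P : Pot d h) (v : ℝ) (a : Space d)
    (s : Space d × Space d × (Fin m → Space d)) : Space d :=
  a + (Real.sqrt v / 2) • (s.1 - nodeSum N (P.aff a (Real.sqrt v)).g s.1 s.2.2 + s.2.1)

/-- The halving chain. -/
def chainPt (N : Nodes m) (P : Pot d h) :
    (J : ℕ) → (Fin J → Space d × Space d × (Fin m → Space d)) → Space d
  | 0, _ => 0
  | J + 1, s => chainStep N P ((1 / 2 : ℝ) ^ J) (chainPt N P J fun j => s j.castSucc)
      (s (Fin.last J))

/-- Index of the seed vectors of the local sampler other than the main one. -/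
abbrev RI (m J : ℕ) := Fin m ⊕ Option (Fin m) ⊕ Option (Fin J × (Bool ⊕ Fin m))

variable {J : ℕ}

/-- The seeds of the halving chain inside the seed family. -/
def chainSeed (ω : RI m J → Space d) (j : Fin J) : Space d × Space d × (Fin m → Space d) :=
  (ω (.inr (.inr (some (j, .inl false)))), ω (.inr (.inr (some (j, .inl true)))),
    fun k => ω (.inr (.inr (some (j, .inr k)))))

/-- The randomized estimator of the mean gradient. -/
def meanEst (N : Nodes m) (P : Pot d h) (ω : RI m J → Space d) : Space d :=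
  P.g (chainPt N P J (chainSeed ω) + Real.sqrt ((1 / 2 : ℝ) ^ J) • ω (.inr (.inr none)))

/-- The local sampler: first-order transport with the mean replaced by the estimator. -/
def localX (N : Nodes m) (P : Pot d h) (ξ : Space d) (ω : RI m J → Space d) : Space d :=
  ξ - nodeSum N P.g ξ (fun k => ω (.inl k))
    + nodeSum N P.g (ω (.inr (.inl none))) (fun k => ω (.inr (.inl (some k))))
    - meanEst N P ω

end Vale.Agent.P347
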