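import Vale.Agent.P347.ExactDev

/-!
The exact side: the tilted law is, up to second order, the transport of a standard vector plus
mean-zero Lipschitz noise.
-/

noncomputable section

open MeasureTheory ProbabilityTheory Set Filter Topology
open scoped RealInnerProductSpace

namespace Vale.Agent.P347

variable {d : ℕ} {h : ℝ}

/-! ### The bridge -/

/-- The path with prescribed end `ξ` driven by the vectors `ω`. -/
def bridge (M i : ℕ) (ξ : Space d) (ω : Fin M → Space d) : Space d :=
  tick M i • ξ + (bsum M ω i - (tick M i * Real.sqrt (mesh M)) • ∑ j, ω j)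

/-- The centred averaged gradient along the bridge. -/
def exactNoise (P : Pot d h) (M : ℕ) (ξ : Space d) (ω : Fin M → Space d) : Space d :=
  -(mesh M • ∑ i ∈ Finset.range M,
    (gavg (1 - tick M i) P.g (bridge M i ξ ω) - Gfun P.g (tick M i) ξ))

/-- The coefficients of the bridge. -/
def bridgeCoef (M i : ℕ) (j : Fin M) : ℝ :=
  (if (j : ℕ) < i then Real.sqrt (mesh M) else 0) - tick M i * Real.sqrt (mesh M)

theorem bridge_eq (M i : ℕ) (ξ : Space d) (ω : Fin M → Space d) :
    bridge M i ξ ω = tick M i • ξ + ∑ j, bridgeCoef M i j • ω j := by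
  rw [bridge, bsum, Finset.smul_sum, ← Finset.sum_sub_distrib]
  simp only [bridgeCoef, sub_smul]

theorem tick_mem {M i : ℕ} (hi : i ≤ M) : 0 ≤ tick M i ∧ tick M i ≤ 1 := by
  refine ⟨by rw [tick, mesh]; positivity, ?_⟩
  rw [tick, mesh, ← div_eq_mul_inv]
  exact div_le_one_of_le₀ (by exact_mod_cast hi) (Nat.cast_nonneg M)

theorem sum_ind {M i : ℕ} (hi : i ≤ M) (c : ℝ) :
    ∑ j : Fin M, (if (j : ℕ) < i then c else 0) = i * c := by
  rw [Fin.sum_univ_eq_sum_range (fun j => if j < i then c else 0) M,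
    ← Finset.sum_range_add_sum_Ico _ hi,
    Finset.sum_congr rfl (fun j hj => if_pos (Finset.mem_range.1 hj)),
    Finset.sum_eq_zero (fun j hj => if_neg (not_lt.2 (Finset.mem_Ico.1 hj).1))]
  simp

theorem abs_bridgeCoef_le {M i : ℕ} (hi : i ≤ M) (j : Fin M) :
    |bridgeCoef M i j| ≤ Real.sqrt (mesh M) := by
  obtain ⟨h0, h1⟩ := tick_mem hi
  have hq := Real.sqrt_nonneg (mesh M)
  have h2 := mul_le_of_le_one_left hq h1
  have h3 := mul_nonneg h0 hq
  rw [bridgeCoef]
  split_ifs
  · exact abs_le.2 ⟨by linarith, by linarith⟩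
  · exact abs_le.2 ⟨by linarith, by linarith⟩

theorem sum_bridgeCoef_sq {M i : ℕ} (hM : 0 < M) (hi : i ≤ M) :
    ∑ j, bridgeCoef M i j ^ 2 = tick M i * (1 - tick M i) := by
  have hq : Real.sqrt (mesh M) ^ 2 = mesh M := Real.sq_sqrt (mesh_nonneg M)
  have e : ∀ j : Fin M, bridgeCoef M i j ^ 2 = (if (j : ℕ) < i then mesh M * (1 - 2 * tick M i) else 0)
      + tick M i ^ 2 * mesh M := fun j => by
    rw [bridgeCoef]
    split_ifs
    · linear_combination (1 - tick M i) ^ 2 * hq
    · linear_combination tick M i ^ 2 * hq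
  have hMm : (M : ℝ) * mesh M = 1 := mul_inv_cancel₀ (by exact_mod_cast hM.ne')
  simp only [e, Finset.sum_add_distrib, sum_ind hi, Finset.sum_const, Finset.card_univ,
    Fintype.card_fin, nsmul_eq_mul]
  rw [tick]
  linear_combination (i * mesh M) ^ 2 * hMm

/-- The bridge of the split increments is the path of the increments. -/
theorem bridge_split {M i : ℕ} (hM : 0 < M) (hi : i ≤ M) (z : Fin M → Space d) (ζ : Space d) :
    bridge M i (splitSum M (z, ζ)).1 (splitSum M (z, ζ)).2 = bsum M z i := by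
  have hMm : (M : ℝ) * mesh M = 1 := mul_inv_cancel₀ (by exact_mod_cast hM.ne')
  set q := Real.sqrt (mesh M) with hq
  set w : Space d := -(mesh M • ∑ j, z j) + q • ζ with hw
  have e1 : (splitSum M (z, ζ)).2 = fun j => z j + w := by
    funext j
    simp only [splitSum, hw, hq, mesh]
    abel
  have e2 : (splitSum M (z, ζ)).1 = q • ∑ j, z j := rfl
  have e3 : bsum M (fun j => z j + w) i = bsum M z i + ((i : ℝ) * q) • w := by
    simp only [bsum, smul_add, Finset.sum_add_distrib, ← Finset.sum_smul, ← hq, sum_ind hi]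
  have e4 : (tick M i * q) • ((M : ℝ) • (mesh M • ∑ j, z j)) = (tick M i * q) • ∑ j, z j := by
    rw [smul_smul (M : ℝ), hMm, one_smul]
  have e5 : (tick M i * q) * (M : ℝ) = (i : ℝ) * q := by
    rw [tick]
    linear_combination (i * q) * hMm
  rw [bridge, e1, e2, e3, Finset.sum_add_distrib, Finset.sum_const, Finset.card_univ, Fintype.card_fin,
    ← Nat.cast_smul_eq_nsmul ℝ, ← hq]
  simp only [smul_add, smul_smul, e5]
  module

theorem bridge_lip {M i : ℕ} (hi : i ≤ M) (ξ ξ' : Space d) (ω ω' : Fin M → Space d) :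
    ‖bridge M i ξ ω - bridge M i ξ' ω'‖
      ≤ ‖ξ - ξ'‖ + Real.sqrt (∑ j, ‖ω j - ω' j‖ ^ 2) := by
  obtain ⟨h0, h1⟩ := tick_mem hi
  rw [bridge_eq, bridge_eq, add_sub_add_comm, ← Finset.sum_sub_distrib]
  refine (norm_add_le _ _).trans (add_le_add ?_ ?_)
  · rw [← smul_sub, norm_smul, Real.norm_eq_abs, abs_of_nonneg h0]
    exact mul_le_of_le_one_left (norm_nonneg _) h1
  refine (norm_sum_le _ _).trans ((Finset.sum_le_sum (g := fun j => Real.sqrt (mesh M) * ‖ω j - ω' j‖)
    fun j _ => ?_).trans (Real.le_sqrt_of_sq_le ?_))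
  · rw [← smul_sub, norm_smul, Real.norm_eq_abs]
    exact mul_le_mul_of_nonneg_right (abs_bridgeCoef_le hi j) (norm_nonneg _)
  rw [← Finset.mul_sum, mul_pow, Real.sq_sqrt (mesh_nonneg M)]
  have h2 := sq_sum_le_card_mul_sum_sq (s := Finset.univ) (f := fun j : Fin M => ‖ω j - ω' j‖)
  rw [Finset.card_univ, Fintype.card_fin] at h2
  refine (mul_le_mul_of_nonneg_left h2 (mesh_nonneg M)).trans ?_
  rw [← mul_assoc]
  refine mul_le_of_le_one_left (Finset.sum_nonneg fun j _ => sq_nonneg _) ?_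
  rcases Nat.eq_zero_or_pos M with rfl | hM
  · simp
  · rw [mesh, inv_mul_cancel₀ (by exact_mod_cast hM.ne')]

theorem exactNoise_lip (P : Pot d h) (M : ℕ) (ξ ξ' : Space d) (ω ω' : Fin M → Space d) :
    ‖exactNoise P M ξ ω - exactNoise P M ξ' ω'‖
      ≤ 4 * h * Real.sqrt (‖ξ - ξ'‖ ^ 2 + ∑ i, ‖ω i - ω' i‖ ^ 2) := by
  have hh := P.h_nonneg
  set S := ∑ i, ‖ω i - ω' i‖ ^ 2 with hS
  have hS0 : 0 ≤ S := Finset.sum_nonneg fun i _ => sq_nonneg _
  set R := Real.sqrt (‖ξ - ξ'‖ ^ 2 + S)
  have hR1 : ‖ξ - ξ'‖ ≤ R := Real.le_sqrt_of_sq_le (by linarith)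
  have hR2 : Real.sqrt S ≤ R := Real.sqrt_le_sqrt (by nlinarith [sq_nonneg ‖ξ - ξ'‖])
  have hR0 : 0 ≤ R := Real.sqrt_nonneg _
  rw [exactNoise, exactNoise, neg_sub_neg, ← smul_sub, ← Finset.sum_sub_distrib, norm_smul,
    Real.norm_eq_abs, abs_of_nonneg (mesh_nonneg M)]
  refine (mul_le_mul_of_nonneg_left ((norm_sum_le _ _).trans (Finset.sum_le_sum
    (g := fun _ => 3 * h * R) fun i hi => ?_)) (mesh_nonneg M)).trans ?_
  · have hi' : i ≤ M := (Finset.mem_range.1 hi).le
    obtain ⟨h0, h1⟩ := tick_mem hi'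
    refine (norm_sub_le_norm_sub_add_norm_sub _ (gavg (1 - tick M i) P.g (bridge M i ξ' ω')
      - Gfun P.g (tick M i) ξ) _).trans ?_
    rw [sub_sub_sub_cancel_right, sub_sub_sub_cancel_left]
    rw [norm_sub_rev (gavg _ _ (bridge M i ξ' ω'))]
    have a1 := (gavg_lip P (1 - tick M i) (bridge M i ξ ω) (bridge M i ξ' ω')).trans
      (mul_le_mul_of_nonneg_left (bridge_lip hi' ξ ξ' ω ω') hh)
    have a2 := Gfun_lip P (tick M i) ξ ξ'
    rw [abs_of_nonneg h0] at a2
    have a3 := mul_le_of_le_one_left (norm_nonneg (ξ - ξ')) h1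
    nlinarith [mul_le_mul_of_nonneg_left hR1 hh, mul_le_mul_of_nonneg_left hR2 hh,
      mul_le_mul_of_nonneg_left a3 hh]
  · rw [Finset.sum_const, Finset.card_range, nsmul_eq_mul, ← mul_assoc]
    have hMm : mesh M * (M : ℝ) ≤ 1 := by
      rcases Nat.eq_zero_or_pos M with rfl | hM
      · simp
      · rw [mesh, inv_mul_cancel₀ (by exact_mod_cast hM.ne')]
    nlinarith [mul_le_of_le_one_left (by positivity : 0 ≤ 3 * h * R) hMm, mul_nonneg hh hR0]

theorem exactNoise_differentiable (P : Pot d h) (M : ℕ) :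
    Differentiable ℝ fun p : Space d × (Fin M → Space d) => exactNoise P M p.1 p.2 := by
  have hb : ∀ i, Differentiable ℝ fun p : Space d × (Fin M → Space d) => bridge M i p.1 p.2 :=
    fun i => by simp only [bridge_eq]; fun_prop
  refine ((Differentiable.fun_sum fun i _ => ?_).const_smul (mesh M)).neg
  have h1 : Differentiable ℝ fun p : Space d × (Fin M → Space d) => tick M i • p.1 := by fun_prop
  exact ((gavg_differentiable P _).comp (hb i)).sub ((gavg_differentiable P _).comp h1)

theorem exactNoise_mean (P : Pot d h) {M : ℕ} (hM : 0 < M) (ξ : Space d) :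
    ∫ ω, exactNoise P M ξ ω ∂gp (Fin M) d = 0 := by
  have hint : ∀ i, i < M → Integrable (fun ω => gavg (1 - tick M i) P.g (bridge M i ξ ω)) (gp (Fin M) d)
      ∧ ∫ ω, gavg (1 - tick M i) P.g (bridge M i ξ ω) ∂gp (Fin M) d = Gfun P.g (tick M i) ξ := by
    intro i hi
    obtain ⟨h0, h1⟩ := tick_mem hi.le
    have hG : Continuous fun x => gavg (1 - tick M i) P.g (tick M i • ξ + x) :=
      (gavg_differentiable P _).continuous.comp (continuous_const_add _)
    have hL : Measurable fun ω : Fin M → Space d => ∑ j, bridgeCoef M i j • ω j := by fun_prop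
    set r := Real.sqrt (∑ j, bridgeCoef M i j ^ 2) with hr
    have hmap := gp_combine (d := d) (bridgeCoef M i)
    have hi1 : Integrable (fun x => gavg (1 - tick M i) P.g (tick M i • ξ + x))
        ((gp (Fin M) d).map fun ω => ∑ j, bridgeCoef M i j • ω j) := by
      rw [hmap]
      refine (integrable_map_measure hG.aestronglyMeasurable (by fun_prop)).2 ?_
      refine Integrable.mono' ((integrable_const (2 * gsize P + h * ‖tick M i • ξ‖)).add
        (integrable_norm_gam.const_mul (h * |r|))) ((hG.comp (by fun_prop)).aestronglyMeasurable)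
        (ae_of_all _ fun w => ?_)
      refine (gavg_norm_le P (by linarith) _).trans ?_
      simp only [Pi.add_apply]
      rw [add_assoc, mul_assoc, ← mul_add]
      refine add_le_add le_rfl (mul_le_mul_of_nonneg_left ((norm_add_le _ _).trans ?_) P.h_nonneg)
      refine add_le_add le_rfl ?_
      rw [norm_smul, Real.norm_eq_abs]
    have hi2 := (integrable_map_measure hG.aestronglyMeasurable hL.aemeasurable).1 hi1
    simp only [bridge_eq]
    refine ⟨hi2, ?_⟩
    rw [← integral_map hL.aemeasurable hG.aestronglyMeasurable, hmap,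
      integral_map (by fun_prop) hG.aestronglyMeasurable, gavg_comp P (by linarith) r, Gfun_eq_gavg, hr,
      Real.sq_sqrt (Finset.sum_nonneg fun j _ => sq_nonneg _), sum_bridgeCoef_sq hM hi.le]
    congr 1
    ring
  simp only [exactNoise]
  rw [integral_neg, integral_smul, integral_finsetSum]
  · rw [Finset.sum_eq_zero fun i hi => ?_, smul_zero, neg_zero]
    obtain ⟨i1, i2⟩ := hint i (Finset.mem_range.1 hi)
    rw [integral_sub i1 (integrable_const _), i2]
    simp
  · exact fun i hi => (hint i (Finset.mem_range.1 hi)).1.sub (integrable_const _)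

/-! ### The Riemann sum -/

theorem abs_sqrt_sub_sqrt {a b : ℝ} (ha : 0 ≤ a) (hb : 0 ≤ b) :
    |Real.sqrt a - Real.sqrt b| ≤ Real.sqrt |a - b| := by
  refine Real.le_sqrt_of_sq_le ?_
  have e : a - b = (Real.sqrt a - Real.sqrt b) * (Real.sqrt a + Real.sqrt b) := by
    linear_combination -(Real.sq_sqrt ha) + Real.sq_sqrt hb
  rw [sq, e, abs_mul (Real.sqrt a - Real.sqrt b) (Real.sqrt a + Real.sqrt b)]
  refine mul_le_mul_of_nonneg_left ?_ (abs_nonneg _)
  exact abs_le_abs (by linarith [Real.sqrt_nonneg b]) (by linarith [Real.sqrt_nonneg a])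

theorem Gfun_time (P : Pot d h) {s t δ : ℝ} (hs : s ∈ Icc (0 : ℝ) 1) (ht : t ∈ Icc (0 : ℝ) 1)
    (hst : |s - t| ≤ δ) (ξ : Space d) :
    ‖Gfun P.g s ξ - Gfun P.g t ξ‖ ≤ h * (δ * ‖ξ‖ + 3 * Real.sqrt δ * Real.sqrt d) := by
  have hh := P.h_nonneg
  have hδ : 0 ≤ δ := (abs_nonneg _).trans hst
  set c := Real.sqrt (1 - s ^ 2) - Real.sqrt (1 - t ^ 2) with hc
  have hc2 : |c| ≤ 3 / 2 * Real.sqrt δ := by
    refine (abs_sqrt_sub_sqrt (by nlinarith [hs.1, hs.2]) (by nlinarith [ht.1, ht.2])).trans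
      (Real.sqrt_le_iff.2 ⟨by positivity, ?_⟩)
    rw [mul_pow, Real.sq_sqrt hδ,
      show 1 - s ^ 2 - (1 - t ^ 2) = (t - s) * (t + s) by ring, abs_mul, abs_sub_comm]
    have h2 : |t + s| ≤ 2 := by
      rw [abs_of_nonneg (by linarith [hs.1, ht.1])]
      linarith [hs.2, ht.2]
    nlinarith [mul_le_mul hst h2 (abs_nonneg _) hδ]
  have hi : Integrable (fun z : Space d => h * (δ * ‖ξ‖) + h * |c| * ‖z‖) (gam d) :=
    (integrable_const _).add (integrable_norm_gam.const_mul _)
  rw [Gfun, Gfun, ← integral_sub (integrable_gavg P _ _) (integrable_gavg P _ _)]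
  refine (norm_integral_le_of_norm_le hi (ae_of_all _ fun z => ?_)).trans ?_
  · refine (P.lip _ _).trans ?_
    rw [mul_assoc h |c|, ← mul_add]
    refine mul_le_mul_of_nonneg_left ?_ hh
    rw [add_sub_add_comm, ← sub_smul, ← sub_smul]
    refine (norm_add_le _ _).trans (add_le_add ?_ ?_)
    · rw [norm_smul, Real.norm_eq_abs]
      exact mul_le_mul_of_nonneg_right hst (norm_nonneg _)
    · rw [norm_smul, Real.norm_eq_abs]
  · rw [integral_add (integrable_const _) (integrable_norm_gam.const_mul _), integral_const,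
      probReal_univ, one_smul, integral_const_mul]
    have h3 := mul_le_mul hc2 (gam_norm_le_sqrt d)
      (integral_nonneg fun z => norm_nonneg z) (by positivity)
    nlinarith [mul_le_mul_of_nonneg_left h3 hh]

theorem Gbar_riemann (P : Pot d h) {M : ℕ} (hM : 0 < M) (ξ : Space d) :
    ‖Gbar P.g ξ - mesh M • ∑ i ∈ Finset.range M, Gfun P.g (tick M i) ξ‖
      ≤ h * (mesh M * ‖ξ‖ + 3 * Real.sqrt (mesh M) * Real.sqrt d) := by
  set K := h * (mesh M * ‖ξ‖ + 3 * Real.sqrt (mesh M) * Real.sqrt d) with hK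
  have hc := continuous_Gfun P ξ
  have hMm : (M : ℝ) * mesh M = 1 := mul_inv_cancel₀ (by exact_mod_cast hM.ne')
  have hd : ∀ i : ℕ, tick M (i + 1) - tick M i = mesh M := fun i => by
    rw [tick, tick]; push_cast; ring
  have hsplit : Gbar P.g ξ
      = ∑ i ∈ Finset.range M, ∫ t in tick M i..tick M (i + 1), Gfun P.g t ξ := by
    rw [intervalIntegral.sum_integral_adjacent_intervals fun i _ => hc.intervalIntegrable _ _, Gbar]
    congr 1
    · simp [tick]
    · exact hMm.symm
  rw [hsplit, Finset.smul_sum, ← Finset.sum_sub_distrib]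
  refine (norm_sum_le _ _).trans ((Finset.sum_le_sum (g := fun _ => mesh M * K) fun i hi => ?_).trans
    (le_of_eq ?_))
  · have hi' : i < M := Finset.mem_range.1 hi
    have hle : tick M i ≤ tick M (i + 1) := by linarith [hd i, mesh_nonneg M]
    have h2 : mesh M • Gfun P.g (tick M i) ξ
        = ∫ _t in tick M i..tick M (i + 1), Gfun P.g (tick M i) ξ := by
      rw [intervalIntegral.integral_const, hd]
    rw [h2, ← intervalIntegral.integral_sub (hc.intervalIntegrable _ _) intervalIntegrable_const]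
    refine (intervalIntegral.norm_integral_le_of_norm_le_const (C := K) fun t ht => ?_).trans
      (le_of_eq (by rw [hd, abs_of_nonneg (mesh_nonneg M), mul_comm]))
    rw [uIoc_of_le hle] at ht
    obtain ⟨a0, a1⟩ := tick_mem hi'.le
    obtain ⟨-, b1⟩ := tick_mem hi'
    exact Gfun_time P ⟨by linarith [ht.1], ht.2.trans b1⟩ ⟨a0, a1⟩
      (abs_le.2 ⟨by linarith [ht.1, mesh_nonneg M], by linarith [ht.2, hd i]⟩) ξ
  · rw [Finset.sum_const, Finset.card_range, nsmul_eq_mul, ← mul_assoc, hMm, one_mul]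

theorem sum_rstep_le : ∀ M : ℕ, ∑ i ∈ Finset.range M, rstep M i ≤ 2 * Real.sqrt M
  | 0 => by simp
  | M + 1 => by
    have e : ∀ i, rstep (M + 1) (i + 1) = rstep M i := fun i => by
      rw [rstep, rstep]; push_cast; ring_nf
    rw [Finset.sum_range_succ']
    simp only [e]
    have h1 : rstep (M + 1) 0 ≤ 2 * (Real.sqrt (M + 1 : ℕ) - Real.sqrt M) := by
      rw [rstep, Nat.cast_zero, sub_zero]
      push_cast
      set a := Real.sqrt (M + 1 : ℝ) with ha
      set b := Real.sqrt (M : ℝ) with hb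
      have ha2 : a ^ 2 = M + 1 := Real.sq_sqrt (by positivity)
      have hb2 : b ^ 2 = M := Real.sq_sqrt (Nat.cast_nonneg M)
      have ha1 : 1 ≤ a := Real.one_le_sqrt.2 (by linarith [(Nat.cast_nonneg M : (0 : ℝ) ≤ M)])
      have hab : b ≤ a := Real.sqrt_le_sqrt (by linarith)
      have h2 : 1 ≤ 2 * (a - b) * a := by nlinarith
      rw [inv_le_iff_one_le_mul₀ (by positivity), ← ha2]
      nlinarith
    linarith [sum_rstep_le M]

/-! ### The exact side -/

/-- The law of the position with the split increments. -/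
def exactLaw (P : Pot d h) (M : ℕ) : Measure (Space d × (Space d × (Fin M → Space d))) :=
  ((chainLaw P M M).prod (gam d)).map fun q => (q.1.1, splitSum M (q.1.2, q.2))

theorem exact_fields (P : Pot d h) {M : ℕ} (hM : 0 < M) :
    IsProbabilityMeasure (exactLaw P M) ∧ (exactLaw P M).map Prod.fst = mu P ∧
      (exactLaw P M).map Prod.snd = (gam d).prod (gp (Fin M) d) := by
  have := chainLaw_prob P M M
  have := mu_prob P
  have hmap : Measurable fun q : (Space d × (Fin M → Space d)) × Space d =>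
      (q.1.1, splitSum M (q.1.2, q.2)) :=
    (measurable_fst.comp measurable_fst).prodMk
      ((measurable_splitSum M).comp ((measurable_snd.comp measurable_fst).prodMk measurable_snd))
  refine ⟨Measure.isProbabilityMeasure_map hmap.aemeasurable, ?_, ?_⟩
  · have hMm : tick M M = 1 := by rw [tick, mesh]; exact mul_inv_cancel₀ (by exact_mod_cast hM.ne')
    rw [exactLaw, Measure.map_map measurable_fst hmap]
    show ((chainLaw P M M).prod (gam d)).map (fun q => q.1.1) = _
    rw [show (fun q : (Space d × (Fin M → Space d)) × Space d => q.1.1) = Prod.fst ∘ Prod.fst from rfl,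
      ← Measure.map_map measurable_fst measurable_fst, Measure.map_fst_prod, measure_univ, one_smul,
      chain_fst P M M le_rfl]
    simp [hMm]
  · have hg : Measurable (Prod.map (Prod.snd : Space d × (Fin M → Space d) → Fin M → Space d)
        (id : Space d → Space d)) := measurable_snd.prodMap measurable_id
    rw [exactLaw, Measure.map_map measurable_snd hmap]
    show ((chainLaw P M M).prod (gam d)).map (splitSum M ∘ Prod.map Prod.snd id) = _
    rw [← Measure.map_map (measurable_splitSum M) hg,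
      ← Measure.map_prod_map _ _ measurable_snd measurable_id, chain_snd, Measure.map_id,
      map_splitSum hM]

theorem exact_error (P : Pot d h) (hh : h ≤ 1 / 2) {M : ℕ} (hM : 0 < M) :
    Integrable (fun p => ‖p.1 - (p.2.1 - Gbar P.g p.2.1 + exactNoise P M p.2.1 p.2.2)‖ ^ 2)
        (exactLaw P M) ∧
      ∫ p, ‖p.1 - (p.2.1 - Gbar P.g p.2.1 + exactNoise P M p.2.1 p.2.2)‖ ^ 2 ∂exactLaw P M
        ≤ 2 * (27 * (1044 * (h * gsize P) ^ 2 + 6 * (d / Real.sqrt M)))
          + 44 * h ^ 2 * (d / Real.sqrt M) := by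
  obtain ⟨hprob, -, hsnd⟩ := exact_fields P hM
  have := chainLaw_prob P M M
  have hh0 := P.h_nonneg
  set E : Space d × (Space d × (Fin M → Space d)) → ℝ := fun p =>
    ‖p.1 - (p.2.1 - Gbar P.g p.2.1 + exactNoise P M p.2.1 p.2.2)‖ ^ 2 with hE
  have hEm : Measurable E := by
    have := (gbarReg d h P).1.continuous
    have := (exactNoise_differentiable P M).continuous
    exact ((continuous_fst.sub (((continuous_fst.comp continuous_snd).sub
      (‹Continuous (Gbar P.g)›.comp (continuous_fst.comp continuous_snd))).add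
      (this.comp continuous_snd))).norm.pow 2).measurable
  set U : Space d × (Space d × (Fin M → Space d)) → ℝ := fun p =>
    2 * (h * (mesh M * ‖p.2.1‖ + 3 * Real.sqrt (mesh M) * Real.sqrt d)) ^ 2 with hU
  obtain ⟨iD, hD⟩ := dev_sq P hh M le_rfl
  have hMm : (M : ℝ) * mesh M = 1 := mul_inv_cancel₀ (by exact_mod_cast hM.ne')
  set δ := mesh M with hδ
  have hδ0 : 0 ≤ δ := mesh_nonneg M
  have hδ1 : δ ≤ 1 := (tick_facts hM).2.1
  have hsqM : 1 ≤ Real.sqrt M := Real.one_le_sqrt.2 (by exact_mod_cast hM)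
  have hMs : Real.sqrt M * Real.sqrt M = M := Real.mul_self_sqrt (Nat.cast_nonneg M)
  have hδs : δ * Real.sqrt M = 1 / Real.sqrt M := by
    rw [eq_div_iff (by positivity), mul_assoc, hMs, mul_comm, hMm]
  set σ : (Space d × (Fin M → Space d)) × Space d → Space d × (Space d × (Fin M → Space d)) :=
    fun q => (q.1.1, splitSum M (q.1.2, q.2)) with hσ
  have hσm : Measurable σ :=
    (measurable_fst.comp measurable_fst).prodMk
      ((measurable_splitSum M).comp ((measurable_snd.comp measurable_fst).prodMk measurable_snd))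
  have hUm : Measurable U := by fun_prop
  have key : ∀ q, E (σ q) ≤ 2 * ‖dev P M M q.1‖ ^ 2 + U (σ q) := by
    intro q
    have hξ : (splitSum M (q.1.2, q.2)).1 = bsum M q.1.2 M := by
      simp [splitSum, bsum, Finset.smul_sum, mesh]
    have e : q.1.1 - ((splitSum M (q.1.2, q.2)).1 - Gbar P.g (splitSum M (q.1.2, q.2)).1
        + exactNoise P M (splitSum M (q.1.2, q.2)).1 (splitSum M (q.1.2, q.2)).2)
        = dev P M M q.1 + (Gbar P.g (splitSum M (q.1.2, q.2)).1
          - δ • ∑ i ∈ Finset.range M, Gfun P.g (tick M i) (splitSum M (q.1.2, q.2)).1) := by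
      rw [exactNoise, dev, drift, Finset.sum_sub_distrib,
        Finset.sum_congr rfl fun i hi => by rw [bridge_split hM (Finset.mem_range.1 hi).le],
        hξ, ← hδ, smul_sub]
      abel
    show ‖_ - _‖ ^ 2 ≤ _
    rw [e]
    have h1 := Gbar_riemann P hM (splitSum M (q.1.2, q.2)).1
    have h2 := norm_add_le (dev P M M q.1) (Gbar P.g (splitSum M (q.1.2, q.2)).1
      - δ • ∑ i ∈ Finset.range M, Gfun P.g (tick M i) (splitSum M (q.1.2, q.2)).1)
    refine (pow_le_pow_left₀ (norm_nonneg _) (h2.trans (add_le_add le_rfl h1)) 2).trans ?_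
    exact add_sq_le.trans_eq (mul_add _ _ _)
  have hU1 : Integrable U (exactLaw P M) ∧ ∫ p, U p ∂exactLaw P M ≤ 44 * h ^ 2 * (d / Real.sqrt M) := by
    set V : Space d → ℝ := fun x => 2 * (h * (δ * ‖x‖ + 3 * Real.sqrt δ * Real.sqrt d)) ^ 2 with hV
    have hfm : Measurable fun p : Space d × (Space d × (Fin M → Space d)) => p.2.1 := by fun_prop
    have hmap : (exactLaw P M).map (fun p => p.2.1) = gam d := by
      rw [show (fun p : Space d × (Space d × (Fin M → Space d)) => p.2.1) = Prod.fst ∘ Prod.snd from rfl,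
        ← Measure.map_map measurable_fst measurable_snd, hsnd, Measure.map_fst_prod, measure_univ,
        one_smul]
    have hVm : Measurable V := by fun_prop
    have hVb : ∀ x, V x ≤ 4 * h ^ 2 * δ ^ 2 * ‖x‖ ^ 2 + 36 * h ^ 2 * δ * d := fun x => by
      have e1 : Real.sqrt δ ^ 2 = δ := Real.sq_sqrt hδ0
      have e2 : Real.sqrt (d : ℝ) ^ 2 = d := Real.sq_sqrt (Nat.cast_nonneg d)
      have h3 := add_sq_le (a := δ * ‖x‖) (b := 3 * Real.sqrt δ * Real.sqrt d)
      calc V x = 2 * h ^ 2 * (δ * ‖x‖ + 3 * Real.sqrt δ * Real.sqrt d) ^ 2 := by rw [hV]; ring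
        _ ≤ 2 * h ^ 2 * (2 * ((δ * ‖x‖) ^ 2 + (3 * Real.sqrt δ * Real.sqrt d) ^ 2)) :=
            mul_le_mul_of_nonneg_left h3 (by positivity)
        _ = _ := by rw [mul_pow (3 * Real.sqrt δ), mul_pow 3, e1, e2]; ring
    have iW : Integrable (fun x : Space d => 4 * h ^ 2 * δ ^ 2 * ‖x‖ ^ 2 + 36 * h ^ 2 * δ * d) (gam d) :=
      ((integrable_gam_sq d).const_mul _).add (integrable_const _)
    have iV : Integrable V (gam d) := iW.mono' hVm.aestronglyMeasurable (ae_of_all _ fun x => by
      rw [Real.norm_eq_abs, abs_of_nonneg (by positivity)]; exact hVb x)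
    rw [← hmap] at iV
    refine ⟨(integrable_map_measure hVm.aestronglyMeasurable hfm.aemeasurable).1 iV, ?_⟩
    show ∫ p, V p.2.1 ∂exactLaw P M ≤ _
    rw [← integral_map hfm.aemeasurable hVm.aestronglyMeasurable, hmap]
    rw [hmap] at iV
    refine (integral_mono iV iW hVb).trans ?_
    rw [integral_add ((integrable_gam_sq d).const_mul _) (integrable_const _), integral_const_mul,
      integral_const, probReal_univ, one_smul]
    have hδd : δ * d ≤ d / Real.sqrt M := by
      rw [le_div_iff₀ (by positivity), mul_comm δ, mul_assoc, hδs]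
      exact mul_le_of_le_one_right (Nat.cast_nonneg d) (by rw [div_le_one (by positivity)]; exact hsqM)
    nlinarith [mul_le_mul_of_nonneg_left (gam_sq_le d) (by positivity : 0 ≤ 4 * h ^ 2 * δ ^ 2),
      mul_le_mul_of_nonneg_left (mul_le_mul_of_nonneg_right hδ1 (mul_nonneg hδ0 (Nat.cast_nonneg d)))
        (sq_nonneg h),
      mul_le_mul_of_nonneg_left hδd (sq_nonneg h)]
  have iUσ : Integrable (fun q => U (σ q)) ((chainLaw P M M).prod (gam d)) :=
    (integrable_map_measure hUm.aestronglyMeasurable hσm.aemeasurable).1 hU1.1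
  have hUσ : ∫ q, U (σ q) ∂(chainLaw P M M).prod (gam d) = ∫ p, U p ∂exactLaw P M :=
    (integral_map hσm.aemeasurable hUm.aestronglyMeasurable).symm
  have iDσ : Integrable (fun q : (Space d × (Fin M → Space d)) × Space d =>
      2 * ‖dev P M M q.1‖ ^ 2) ((chainLaw P M M).prod (gam d)) := (iD.comp_fst _).const_mul 2
  have hi : Integrable E (exactLaw P M) :=
    (integrable_map_measure hEm.aestronglyMeasurable hσm.aemeasurable).2
      ((iDσ.add iUσ).mono' (hEm.comp hσm).aestronglyMeasurable (ae_of_all _ fun q => by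
        rw [Function.comp_apply, Real.norm_eq_abs, abs_of_nonneg (sq_nonneg _)]; exact key q))
  refine ⟨hi, ?_⟩
  rw [exactLaw, integral_map hσm.aemeasurable hEm.aestronglyMeasurable]
  refine (integral_mono_of_nonneg (ae_of_all _ fun _ => sq_nonneg _) (iDσ.add iUσ)
    (ae_of_all _ key)).trans ?_
  simp only [Pi.add_apply]
  rw [integral_add iDσ iUσ, integral_const_mul, integral_fun_fst (f := fun p => ‖dev P M M p‖ ^ 2),
    probReal_univ, one_smul, hUσ]
  refine add_le_add (mul_le_mul_of_nonneg_left (hD.trans ?_) zero_le_two) hU1.2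
  have hexp : (1 + 3 * δ) ^ M ≤ 27 := by
    have h1 : 1 + 3 * δ ≤ Real.exp (3 * δ) := by linarith [Real.add_one_le_exp (3 * δ)]
    refine (pow_le_pow_left₀ (by positivity) h1 M).trans ?_
    rw [← Real.exp_nat_mul, show (M : ℝ) * (3 * δ) = ((3 : ℕ) : ℝ) * 1 by
      push_cast; linear_combination 3 * hMm, Real.exp_nat_mul]
    exact (pow_le_pow_left₀ (Real.exp_pos _).le
      (Real.exp_one_lt_d9.le.trans (by norm_num : (2.7182818286 : ℝ) ≤ 3)) 3).trans_eq (by norm_num)
  have hsum : ∑ i ∈ Finset.range M, (1044 * δ * (h * gsize P) ^ 2 + 3 * δ * rstep M i * d)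
      ≤ 1044 * (h * gsize P) ^ 2 + 6 * (d / Real.sqrt M) := by
    rw [Finset.sum_add_distrib, Finset.sum_const, Finset.card_range, nsmul_eq_mul, ← Finset.sum_mul,
      ← Finset.mul_sum]
    refine add_le_add (le_of_eq (by linear_combination (1044 * (h * gsize P) ^ 2) * hMm)) ?_
    refine (mul_le_mul_of_nonneg_right (mul_le_mul_of_nonneg_left (sum_rstep_le M)
      (by positivity : (0 : ℝ) ≤ 3 * δ)) (Nat.cast_nonneg d)).trans_eq ?_
    linear_combination (6 * (d : ℝ)) * hδs
  have h0 : 0 ≤ 1044 * (h * gsize P) ^ 2 + 6 * (d / Real.sqrt M) := by positivity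
  calc (1 + 3 * δ) ^ M * ∑ i ∈ Finset.range M, (1044 * δ * (h * gsize P) ^ 2 + 3 * δ * rstep M i * d)
      ≤ (1 + 3 * δ) ^ M * (1044 * (h * gsize P) ^ 2 + 6 * (d / Real.sqrt M)) :=
        mul_le_mul_of_nonneg_left hsum (by positivity)
    _ ≤ _ := mul_le_mul_of_nonneg_right hexp h0

/-- The tilted law is, up to second order, the transport plus mean-zero Lipschitz noise. -/
theorem exactSide : ExactSide := by
  refine ⟨400, by norm_num, fun d h P hd hh0 hh => ?_⟩
  set T := (h * gsize P) ^ 2 with hT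
  have hG : 0 < gsize P := by
    rw [gsize]
    have : 0 < Real.sqrt d := Real.sqrt_pos.2 (by exact_mod_cast hd)
    positivity
  have hT0 : 0 < T := by positivity
  obtain ⟨M, hM, hMd⟩ : ∃ M : ℕ, 0 < M ∧ (d : ℝ) / Real.sqrt M ≤ T := by
    obtain ⟨M, hM⟩ := exists_nat_ge (((d : ℝ) / T) ^ 2)
    refine ⟨M + 1, M.succ_pos, ?_⟩
    have h1 : (d : ℝ) / T ≤ Real.sqrt ((M + 1 : ℕ) : ℝ) :=
      Real.le_sqrt_of_sq_le (hM.trans (by push_cast; linarith))
    rw [div_le_iff₀ hT0] at h1
    rw [div_le_iff₀ (Real.sqrt_pos.2 (by exact_mod_cast M.succ_pos))]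
    linarith
  obtain ⟨hp, hfst, hsnd⟩ := exact_fields P hM
  obtain ⟨hi, he⟩ := exact_error P hh hM
  refine ⟨M, exactLaw P M, exactNoise P M, hp, hfst, hsnd, exactNoise_mean P hM,
    exactNoise_differentiable P M, fun ξ ξ' ω ω' => (exactNoise_lip P M ξ ξ' ω ω').trans ?_, hi,
    he.trans ?_⟩
  · exact mul_le_mul_of_nonneg_right (by linarith) (Real.sqrt_nonneg _)
  · have hh2 : h ^ 2 ≤ 1 / 4 := by nlinarith
    have hMd0 : 0 ≤ (d : ℝ) / Real.sqrt M := by positivity
    rw [mul_assoc (400 : ℝ), mul_pow (400 : ℝ), ← hT]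
    nlinarith [mul_le_mul_of_nonneg_right hh2 hMd0]

end Vale.Agent.P347
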