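import Vale.Agent.P347.ExactGauss

/-!
The chain whose end has the tilted law and whose increments are independent standard Gaussian
vectors, and its distance to the first-order transport of the increments.
-/

noncomputable section

open MeasureTheory ProbabilityTheory Set Filter Topology
open scoped RealInnerProductSpace ENNReal

namespace Vale.Agent.P347

variable {d : ℕ} {h : ℝ}

/-! ### Time grid -/

/-- The mesh of the grid. -/
def mesh (M : ℕ) : ℝ := (M : ℝ)⁻¹

/-- The grid points. -/
def tick (M n : ℕ) : ℝ := n * mesh M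

/-- The relative step. -/
def rstep (M n : ℕ) : ℝ := ((M : ℝ) - n)⁻¹

theorem mesh_nonneg (M : ℕ) : 0 ≤ mesh M := by unfold mesh; positivity

theorem tick_facts {M n : ℕ} (hn : n < M) :
    0 < mesh M ∧ mesh M ≤ 1 ∧ 0 < rstep M n ∧ rstep M n ≤ 1 ∧
      rstep M n * (1 - tick M n) = mesh M ∧ 0 ≤ tick M n ∧ tick M n < 1 ∧
      tick M (n + 1) = tick M n + mesh M := by
  have hM : (0 : ℝ) < M := by exact_mod_cast (Nat.zero_le n).trans_lt hn
  have h1 : (n : ℝ) + 1 ≤ M := by exact_mod_cast hn
  have hk : 0 < (M : ℝ) - n := by linarith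
  have hm : 0 < mesh M := inv_pos.2 hM
  have hMm : (M : ℝ) * mesh M = 1 := mul_inv_cancel₀ hM.ne'
  have e : 1 - tick M n = ((M : ℝ) - n) * mesh M := by rw [tick, sub_mul, hMm]
  refine ⟨hm, inv_le_one_of_one_le₀ (by linarith [(Nat.cast_nonneg n : (0 : ℝ) ≤ n)]), inv_pos.2 hk,
    inv_le_one_of_one_le₀ (by linarith), ?_, by rw [tick]; positivity, ?_,
    by rw [tick, tick]; push_cast; ring⟩
  · rw [e, rstep, inv_mul_cancel_left₀ hk.ne']
  · have := mul_pos hk hm
    linarith

/-! ### The chain -/

/-- One move of the chain: a posterior draw seen through the relative step, then noise. -/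
def chainMove (M n : ℕ) (q : (Space d × (Fin n → Space d)) × (Space d × Space d)) :
    Space d × (Fin (n + 1) → Space d) :=
  (q.1.1 + (rstep M n * Real.sqrt (1 - tick M n)) • q.2.1
      + Real.sqrt (mesh M * (1 - rstep M n)) • q.2.2,
    Fin.snoc q.1.2 q.2.2)

/-- The density of the posterior draw. -/
def chainDens (P : Pot d h) (M n : ℕ) (q : (Space d × (Fin n → Space d)) × (Space d × Space d)) :
    ℝ :=
  dens P (q.1.1 + Real.sqrt (1 - tick M n) • q.2.1) / sm (Real.sqrt (1 - tick M n)) (dens P) q.1.1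

/-- The joint law of the position and of the increments so far. -/
def chainLaw (P : Pot d h) (M : ℕ) : (n : ℕ) → Measure (Space d × (Fin n → Space d))
  | 0 => Measure.dirac (0, Fin.elim0)
  | n + 1 => (((chainLaw P M n).prod ((gam d).prod (gam d))).withDensity
      fun q => ENNReal.ofReal (chainDens P M n q)).map (chainMove M n)

theorem measurable_chainMove (M n : ℕ) : Measurable (chainMove (d := d) M n) := by
  refine Measurable.prodMk (by fun_prop) (measurable_pi_lambda _ fun i => ?_)
  induction i using Fin.lastCases with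
  | last => simpa only [Fin.snoc_last, Function.comp_def] using measurable_snd.comp measurable_snd
  | cast j =>
    simpa only [Fin.snoc_castSucc, Function.comp_def] using
      (measurable_pi_apply j).comp (measurable_snd.comp measurable_fst)

theorem measurable_chainDens (P : Pot d h) (M n : ℕ) : Measurable (chainDens P M n) := by
  have hd := (continuous_dens P).measurable
  refine (hd.comp (by fun_prop)).div ?_
  have h2 : Measurable fun p : Space d × Space d =>
      dens P (p.1 + Real.sqrt (1 - tick M n) • p.2) := hd.comp (by fun_prop)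
  exact (h2.stronglyMeasurable.integral_prod_right' (ν := gam d)).measurable.comp
    (measurable_fst.comp measurable_fst)

theorem chainLaw_lint (P : Pot d h) (M n : ℕ) [SFinite (chainLaw P M n)]
    {F : Space d × (Fin (n + 1) → Space d) → ℝ≥0∞} (hF : Measurable F) :
    ∫⁻ q, F q ∂chainLaw P M (n + 1)
      = ∫⁻ p, ∫⁻ ξ, ∫⁻ ζ, F (chainMove M n (p, ξ, ζ)) ∂gam d
          ∂mu (P.aff p.1 (Real.sqrt (1 - tick M n))) ∂chainLaw P M n := by
  have hFm : Measurable fun a => F (chainMove (d := d) M n a) := hF.comp (measurable_chainMove M n)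
  have hρ := (measurable_chainDens P M n).ennreal_ofReal
  rw [chainLaw, lintegral_map hF (measurable_chainMove M n),
    lintegral_withDensity_eq_lintegral_mul _ hρ (g := fun a => F (chainMove M n a)) hFm, lintegral_prod _ (hρ.mul hFm).aemeasurable]
  refine lintegral_congr fun p => ?_
  have hpm : Measurable fun y => ENNReal.ofReal (chainDens P M n (p, y)) * F (chainMove M n (p, y)) :=
    (hρ.mul hFm).comp measurable_prodMk_left
  simp only [Pi.mul_apply]
  rw [lintegral_prod _ hpm.aemeasurable, mu, lintegral_tilted]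
  refine lintegral_congr fun ξ => ?_
  have hFζ : Measurable fun ζ : Space d => F (chainMove M n (p, ξ, ζ)) :=
    hFm.comp (by fun_prop : Measurable fun ζ : Space d =>
      ((p, ξ, ζ) : (Space d × (Fin n → Space d)) × (Space d × Space d)))
  simp only [chainDens, sm, dens, Pot.aff]
  exact lintegral_const_mul _ hFζ

theorem chainLaw_prob (P : Pot d h) (M : ℕ) : ∀ n, IsProbabilityMeasure (chainLaw P M n)
  | 0 => by rw [chainLaw]; infer_instance
  | n + 1 => by
    have := chainLaw_prob P M n
    refine ⟨?_⟩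
    rw [← lintegral_one, chainLaw_lint P M n (F := fun _ => 1) measurable_const]
    have hp : ∀ a : Space d, IsProbabilityMeasure (mu (P.aff a (Real.sqrt (1 - tick M n)))) :=
      fun a => mu_prob _
    simp

/-- Averages of nonnegative functions after one move. -/
theorem chain_step_le (P : Pot d h) (M n : ℕ) {F : Space d × (Fin (n + 1) → Space d) → ℝ}
    (hF : Measurable F) (hF0 : ∀ q, 0 ≤ F q) {B : Space d × (Fin n → Space d) → ℝ}
    (hB : Integrable B (chainLaw P M n)) (hB0 : ∀ p, 0 ≤ B p)
    (hle : ∀ p, ∫⁻ ξ, ∫⁻ ζ, ENNReal.ofReal (F (chainMove M n (p, ξ, ζ))) ∂gam d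
      ∂mu (P.aff p.1 (Real.sqrt (1 - tick M n))) ≤ ENNReal.ofReal (B p)) :
    Integrable F (chainLaw P M (n + 1)) ∧
      ∫ q, F q ∂chainLaw P M (n + 1) ≤ ∫ p, B p ∂chainLaw P M n := by
  have := chainLaw_prob P M n
  have h1 : ∫⁻ q, ENNReal.ofReal (F q) ∂chainLaw P M (n + 1)
      ≤ ENNReal.ofReal (∫ p, B p ∂chainLaw P M n) := by
    rw [chainLaw_lint P M n hF.ennreal_ofReal,
      ofReal_integral_eq_lintegral_ofReal hB (ae_of_all _ hB0)]
    exact lintegral_mono hle
  have hi : Integrable F (chainLaw P M (n + 1)) :=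
    ⟨hF.aestronglyMeasurable, by
      rw [hasFiniteIntegral_iff_ofReal (ae_of_all _ hF0)]
      exact h1.trans_lt ENNReal.ofReal_lt_top⟩
  refine ⟨hi, (ENNReal.ofReal_le_ofReal_iff (integral_nonneg hB0)).1 ?_⟩
  rwa [ofReal_integral_eq_lintegral_ofReal hi (ae_of_all _ hF0)]

/-- Averages of bounded functions after one move. -/
theorem chain_step_eq (P : Pot d h) (M n : ℕ) {F : Space d × (Fin (n + 1) → Space d) → ℝ}
    (hF : Measurable F) (hF0 : ∀ q, 0 ≤ F q) (hF1 : ∀ q, F q ≤ 1)
    {Ψ : Space d × (Fin n → Space d) → ℝ}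
    (hΨ : ∀ p, Ψ p = ∫ ξ, ∫ ζ, F (chainMove M n (p, ξ, ζ)) ∂gam d
      ∂mu (P.aff p.1 (Real.sqrt (1 - tick M n))))
    (hΨm : Measurable Ψ) :
    ∫ q, F q ∂chainLaw P M (n + 1) = ∫ p, Ψ p ∂chainLaw P M n := by
  have := chainLaw_prob P M n
  have := chainLaw_prob P M (n + 1)
  have hp : ∀ a : Space d, IsProbabilityMeasure (mu (P.aff a (Real.sqrt (1 - tick M n)))) :=
    fun a => mu_prob _
  have hFm : ∀ p, Measurable fun w : Space d × Space d => F (chainMove M n (p, w)) := fun p =>
    hF.comp ((measurable_chainMove M n).comp measurable_prodMk_left)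
  have hb : ∀ q, ‖F q‖ ≤ 1 := fun q => by rw [Real.norm_eq_abs, abs_of_nonneg (hF0 q)]; exact hF1 q
  have hin : ∀ p ξ, ∫⁻ ζ, ENNReal.ofReal (F (chainMove M n (p, ξ, ζ))) ∂gam d
      = ENNReal.ofReal (∫ ζ, F (chainMove M n (p, ξ, ζ)) ∂gam d) := fun p ξ =>
    (ofReal_integral_eq_lintegral_ofReal (Integrable.of_bound
      ((hFm p).comp measurable_prodMk_left).aestronglyMeasurable 1 (ae_of_all _ fun _ => hb _))
      (ae_of_all _ fun _ => hF0 _)).symm
  have hi1 : ∀ p ξ, |∫ ζ, F (chainMove M n (p, ξ, ζ)) ∂gam d| ≤ 1 := fun p ξ =>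
    abs_integral_le_one fun ζ => hb _
  have hΨ0 : ∀ p, 0 ≤ Ψ p := fun p => by
    rw [hΨ]; exact integral_nonneg fun _ => integral_nonneg fun _ => hF0 _
  have hΨ1 : ∀ p, |Ψ p| ≤ 1 := fun p => by rw [hΨ]; exact abs_integral_le_one (hi1 p)
  have hout : ∀ p, ∫⁻ ξ, ∫⁻ ζ, ENNReal.ofReal (F (chainMove M n (p, ξ, ζ))) ∂gam d
      ∂mu (P.aff p.1 (Real.sqrt (1 - tick M n))) = ENNReal.ofReal (Ψ p) := fun p => by
    rw [hΨ]
    simp only [hin]
    exact (ofReal_integral_eq_lintegral_ofReal (integrable_of_le_one
      ((hFm p).stronglyMeasurable.integral_prod_right' (ν := gam d)).measurable (hi1 p))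
      (ae_of_all _ fun _ => integral_nonneg fun _ => hF0 _)).symm
  refine (ENNReal.ofReal_eq_ofReal_iff (integral_nonneg hF0) (integral_nonneg hΨ0)).1 ?_
  rw [ofReal_integral_eq_lintegral_ofReal
      (Integrable.of_bound hF.aestronglyMeasurable 1 (ae_of_all _ hb)) (ae_of_all _ hF0),
    ofReal_integral_eq_lintegral_ofReal (Integrable.of_bound hΨm.aestronglyMeasurable 1
      (ae_of_all _ fun p => by rw [Real.norm_eq_abs]; exact hΨ1 p)) (ae_of_all _ hΨ0),
    chainLaw_lint P M n hF.ennreal_ofReal]
  exact lintegral_congr hout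

/-- The increments are independent standard Gaussian vectors. -/
theorem chain_snd (P : Pot d h) (M : ℕ) :
    ∀ n, (chainLaw P M n).map Prod.snd = gp (Fin n) d
  | 0 => by
    rw [chainLaw, Measure.map_dirac' measurable_snd, gp, Measure.pi_of_empty]
    congr 1
  | n + 1 => by
    have := chainLaw_prob P M n
    refine Measure.ext_of_lintegral _ fun f hf => ?_
    have h2 : Measurable fun p : (Fin n → Space d) × Space d =>
        f (Fin.snoc (α := fun _ => Space d) p.1 p.2) := by
      refine hf.comp (measurable_pi_lambda _ fun i => ?_)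
      induction i using Fin.lastCases with
      | last => simpa only [Fin.snoc_last] using measurable_snd
      | cast j =>
        simpa only [Fin.snoc_castSucc, Function.comp_def] using
          (measurable_pi_apply j).comp measurable_fst
    rw [lintegral_map hf measurable_snd,
      chainLaw_lint P M n (F := fun q => f q.2) (hf.comp measurable_snd)]
    have hp : ∀ a : Space d, IsProbabilityMeasure (mu (P.aff a (Real.sqrt (1 - tick M n)))) :=
      fun a => mu_prob _
    simp only [chainMove, lintegral_const, measure_univ, mul_one]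
    rw [← lintegral_map (μ := chainLaw P M n) h2.lintegral_prod_right' measurable_snd,
      chain_snd P M n, ← lintegral_prod _ h2.aemeasurable]
    have he := (measurePreserving_piFinSuccAbove (α := fun _ : Fin (n + 1) => Space d)
      (fun _ => gam d) (Fin.last n)).symm
      (MeasurableEquiv.piFinSuccAbove (fun _ : Fin (n + 1) => Space d) (Fin.last n))
    rw [← he.lintegral_comp hf, lintegral_prod_symm' (fun a => f ((MeasurableEquiv.piFinSuccAbove
      (fun _ : Fin (n + 1) => Space d) (Fin.last n)).symm a)) (hf.comp (MeasurableEquiv.measurable _)),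
      lintegral_prod _ h2.aemeasurable]
    refine lintegral_congr fun z => lintegral_congr fun ζ => ?_
    simp [MeasurableEquiv.piFinSuccAbove, Fin.snocEquiv]

theorem mu_aff_id (P : Pot d h) : mu (P.aff 0 1) = mu P := by simp [mu, Pot.aff]

/-- The average of `f` after a relative step `θ` towards `x` and noise of size `c`. -/
def moveAvg (θ c : ℝ) (f : Space d → ℝ) (y x : Space d) : ℝ :=
  ∫ ζ, f ((1 - θ) • y + θ • x + c • ζ) ∂gam d

theorem measurable_moveAvg (θ c : ℝ) {f : Space d → ℝ} (hf : Measurable f) :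
    Measurable fun q : Space d × Space d => moveAvg θ c f q.1 q.2 :=
  ((hf.comp (by fun_prop : Measurable fun q : (Space d × Space d) × Space d =>
    (1 - θ) • q.1.1 + θ • q.1.2 + c • q.2)).stronglyMeasurable.integral_prod_right'
      (ν := gam d)).measurable

theorem measurable_postFam (P : Pot d h) (v : ℝ) {Φ : Space d → Space d → ℝ}
    (hΦ : Measurable fun q : Space d × Space d => Φ q.1 q.2) :
    Measurable fun a => post P v (Φ a) a := by
  set s := Real.sqrt v
  have hm2 : Measurable fun q : Space d × Space d => dens P (q.1 + s • q.2) :=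
    (continuous_dens P).measurable.comp (by fun_prop)
  have hm3 : Measurable fun q : Space d × Space d =>
      dens P (q.1 + s • q.2) * Φ q.1 (q.1 + s • q.2) :=
    hm2.mul (hΦ.comp (by fun_prop : Measurable fun q : Space d × Space d => (q.1, q.1 + s • q.2)))
  rw [funext fun a => post_eq P v (Φ a) a]
  exact ((hm3.stronglyMeasurable.integral_prod_right' (ν := gam d)).measurable).div
    ((hm2.stronglyMeasurable.integral_prod_right' (ν := gam d)).measurable)

theorem chain_step_fst (P : Pot d h) (M n : ℕ) {f : Space d → ℝ} (hfm : Measurable f)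
    (hf0 : ∀ x, 0 ≤ f x) (hf1 : ∀ x, f x ≤ 1) :
    ∫ q, f q.1 ∂chainLaw P M (n + 1) = ∫ p, post P (1 - tick M n)
      (moveAvg (rstep M n) (Real.sqrt (mesh M * (1 - rstep M n))) f p.1) p.1 ∂chainLaw P M n := by
  refine chain_step_eq P M n (F := fun q => f q.1) (hfm.comp measurable_fst) (fun q => hf0 _)
    (fun q => hf1 _) (fun p => ?_)
    ((measurable_postFam P _ (measurable_moveAvg _ _ hfm)).comp measurable_fst)
  rw [post_integral]
  refine integral_congr_ae (ae_of_all _ fun ξ => ?_)
  unfold moveAvg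
  refine integral_congr_ae (ae_of_all _ fun ζ => ?_)
  simp only [chainMove]
  congr 1
  module

theorem gam_combine_avg {f : Space d → ℝ} (hf : Measurable f) (h1 : ∀ x, |f x| ≤ 1) (p q : ℝ)
    (b : Space d) :
    ∫ z, ∫ ζ, f (b + (p • z + q • ζ)) ∂gam d ∂gam d
      = ∫ w, f (b + Real.sqrt (p ^ 2 + q ^ 2) • w) ∂gam d := by
  have hg : Measurable fun w : Space d => f (b + w) := hf.comp (by fun_prop)
  have hi : Integrable (fun w : Space d × Space d => f (b + (p • w.1 + q • w.2)))
      ((gam d).prod (gam d)) :=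
    Integrable.of_bound (hg.comp (by fun_prop)).aestronglyMeasurable 1 (ae_of_all _ fun _ => h1 _)
  calc ∫ z, ∫ ζ, f (b + (p • z + q • ζ)) ∂gam d ∂gam d
      = ∫ w, f (b + (p • w.1 + q • w.2)) ∂(gam d).prod (gam d) := (integral_prod _ hi).symm
    _ = ∫ x, f (b + x) ∂((gam d).prod (gam d)).map
          (fun w : Space d × Space d => p • w.1 + q • w.2) :=
        (integral_map (by fun_prop) hg.aestronglyMeasurable).symm
    _ = _ := by rw [gam_combine, integral_map (by fun_prop) hg.aestronglyMeasurable]

/-- The position at a grid point has the law of the interpolation with a Gaussian bridge. -/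
theorem chain_fst (P : Pot d h) (M : ℕ) : ∀ n, n ≤ M →
    (chainLaw P M n).map Prod.fst = ((mu P).prod (gam d)).map
      (fun q : Space d × Space d => tick M n • q.1 + Real.sqrt (tick M n * (1 - tick M n)) • q.2)
  | 0, _ => by
    have := mu_prob P
    rw [chainLaw, Measure.map_dirac' measurable_fst]
    simp [tick]
  | n + 1, hn => by
    have := mu_prob P
    have := chainLaw_prob P M n
    have := chainLaw_prob P M (n + 1)
    obtain ⟨hm0, hm1, hθ0, hθ1, hθv, hτ0, hτ1, hτs⟩ := tick_facts (Nat.lt_of_succ_le hn)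
    set τ := tick M n
    set θ := rstep M n
    set δ := mesh M
    set c := Real.sqrt (δ * (1 - θ)) with hc
    set s := Real.sqrt (1 - τ) with hs
    set σ' := Real.sqrt (tick M (n + 1) * (1 - tick M (n + 1))) with hσ'
    set S : Space d × Space d → Space d := fun q => tick M (n + 1) • q.1 + σ' • q.2 with hS
    have hSm : Measurable S := by fun_prop
    refine Measure.ext fun A hA => ?_
    have := Measure.isProbabilityMeasure_map (μ := chainLaw P M (n + 1)) measurable_fst.aemeasurable
    have := Measure.isProbabilityMeasure_map (μ := (mu P).prod (gam d)) hSm.aemeasurable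
    rw [← ENNReal.toReal_eq_toReal_iff' (measure_ne_top _ _) (measure_ne_top _ _), ← measureReal_def,
      ← measureReal_def, ← integral_indicator_one hA, ← integral_indicator_one hA]
    set f : Space d → ℝ := A.indicator 1 with hf
    have hfm : Measurable f := measurable_one.indicator hA
    have hf0 : ∀ x, 0 ≤ f x := fun x => Set.indicator_nonneg (fun _ _ => zero_le_one) x
    have hf1 : ∀ x, f x ≤ 1 := fun x => Set.indicator_le_self' (fun _ _ => zero_le_one) x
    have hfa : ∀ x, |f x| ≤ 1 := fun x => by rw [abs_of_nonneg (hf0 x)]; exact hf1 x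
    rw [integral_map measurable_fst.aemeasurable hfm.aestronglyMeasurable,
      integral_map hSm.aemeasurable hfm.aestronglyMeasurable,
      integral_prod (fun q => f (S q)) (Integrable.of_bound (hfm.comp hSm).aestronglyMeasurable 1
        (ae_of_all _ fun q => hfa _))]
    set Φ : Space d → Space d → ℝ := moveAvg θ c f with hΦ
    have hΦm : Measurable fun q : Space d × Space d => Φ q.1 q.2 := measurable_moveAvg θ c hfm
    have hΦ1 : ∀ y x, |Φ y x| ≤ 1 := fun y x => abs_integral_le_one fun ζ => hfa _
    set Ψ : Space d → ℝ := fun a => post P (1 - τ) (Φ a) a with hΨ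
    have hΨm : Measurable Ψ := measurable_postFam P _ hΦm
    rw [chain_step_fst P M n hfm hf0 hf1]
    show ∫ p, Ψ p.1 ∂chainLaw P M n = _
    have hbd : ∀ z : Space d × Space d, ‖Ψ (τ • z.1 + Real.sqrt (τ * (1 - τ)) • z.2)‖ ≤ 1 := fun z =>
      abs_post_le muBasic P (hΦ1 _) _ _
    rw [← integral_map measurable_fst.aemeasurable hΨm.aestronglyMeasurable,
      chain_fst P M n (Nat.le_of_succ_le hn), integral_map (by fun_prop) hΨm.aestronglyMeasurable,
      integral_prod (fun z => Ψ (τ • z.1 + Real.sqrt (τ * (1 - τ)) • z.2))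
        (Integrable.of_bound (hΨm.comp (by fun_prop)).aestronglyMeasurable 1
        (ae_of_all _ hbd))]
    rcases hτ0.eq_or_lt with h0 | h0
    · have hδθ : θ = δ := by rw [← h0, sub_zero, mul_one] at hθv; exact hθv
      have e2 : tick M (n + 1) = θ := by rw [hτs, ← h0, zero_add, hδθ]
      have e3 : σ' = c := by rw [hσ', hc, e2, hδθ]
      simp only [← h0, zero_mul, Real.sqrt_zero, zero_smul, add_zero, integral_const, probReal_univ,
        one_smul]
      rw [hΨ]
      beta_reduce
      rw [post_integral, ← h0, sub_zero, Real.sqrt_one, mu_aff_id]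
      simp only [hS, hΦ, moveAvg, e2, e3, one_smul, zero_add, smul_zero]
    · set σ := Real.sqrt (τ * (1 - τ)) with hσ
      have hσ2 : σ ^ 2 = τ * (1 - τ) := Real.sq_sqrt (by nlinarith)
      have hσ0 : σ ≠ 0 := (Real.sqrt_pos.2 (by nlinarith)).ne'
      have hden : τ ^ 2 + σ ^ 2 = τ := by rw [hσ2]; ring
      have hpid := posteriorId d h P τ σ hσ0 Φ hΦm ⟨1, 0, fun y x => by simpa using hΦ1 y x⟩
      rw [hden, hσ2, mul_div_cancel_left₀ _ h0.ne', div_self h0.ne'] at hpid
      simp only [one_smul] at hpid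
      refine hpid.symm.trans (integral_congr_ae (ae_of_all _ fun x => ?_))
      have hc2 : c ^ 2 = δ * (1 - θ) := Real.sq_sqrt (mul_nonneg hm0.le (by linarith))
      have e1 : ((1 - θ) * σ) ^ 2 + c ^ 2 = tick M (n + 1) * (1 - tick M (n + 1)) := by
        rw [mul_pow, hσ2, hc2, hτs, ← hθv]
        ring
      have e2 : tick M (n + 1) = (1 - θ) * τ + θ := by rw [hτs, ← hθv]; ring
      have h1 := gam_combine_avg hfm hfa ((1 - θ) * σ) c (tick M (n + 1) • x)
      rw [e1, ← hσ'] at h1
      refine Eq.trans (integral_congr_ae (ae_of_all _ fun z => ?_)) h1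
      refine integral_congr_ae (ae_of_all _ fun ζ => ?_)
      beta_reduce
      congr 1
      rw [e2]
      module

/-- Averages over the position at a grid point. -/
theorem chain_fst_sq (P : Pot d h) {M n : ℕ} (hn : n ≤ M) (hh : h ≤ 1) :
    Integrable (fun p : Space d × (Fin n → Space d) => ‖p.1‖ ^ 2) (chainLaw P M n) ∧
      ∫ p, ‖p.1‖ ^ 2 ∂chainLaw P M n ≤ 8 * d + 2 * ‖P.g 0‖ ^ 2 := by
  have := mu_prob P
  have hb : ∀ q : Space d × Space d, ‖tick M n • q.1 + Real.sqrt (tick M n * (1 - tick M n)) • q.2‖ ^ 2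
      ≤ 2 * ‖q.1‖ ^ 2 + 2 * ‖q.2‖ ^ 2 := by
    intro q
    have h0 : 0 ≤ tick M n := by rw [tick, mesh]; positivity
    have h1 : tick M n ≤ 1 := by
      rw [tick, mesh, ← div_eq_mul_inv]
      exact div_le_one_of_le₀ (by exact_mod_cast hn) (Nat.cast_nonneg M)
    have h2 : ‖tick M n • q.1 + Real.sqrt (tick M n * (1 - tick M n)) • q.2‖ ≤ ‖q.1‖ + ‖q.2‖ := by
      refine (norm_add_le _ _).trans ?_
      rw [norm_smul, norm_smul, Real.norm_eq_abs, Real.norm_eq_abs, abs_of_nonneg h0,
        abs_of_nonneg (Real.sqrt_nonneg _)]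
      exact add_le_add (mul_le_of_le_one_left (norm_nonneg _) h1)
        (mul_le_of_le_one_left (norm_nonneg _) (Real.sqrt_le_one.2 (by nlinarith)))
    nlinarith [pow_le_pow_left₀ (norm_nonneg _) h2 2, sq_nonneg (‖q.1‖ - ‖q.2‖)]
  have i1 : Integrable (fun x : Space d => ‖x‖ ^ 2) (mu P) :=
    mu_int (by fun_prop) ⟨1, 2, fun x => by
      rw [one_mul, norm_pow, norm_norm]
      exact pow_le_pow_left₀ (norm_nonneg x) (by linarith) 2⟩
  have iq : Integrable (fun q : Space d × Space d => 2 * ‖q.1‖ ^ 2 + 2 * ‖q.2‖ ^ 2)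
      ((mu P).prod (gam d)) :=
    ((i1.comp_fst _).const_mul 2).add (((integrable_gam_sq d).comp_snd _).const_mul 2)
  have hsq : Measurable fun x : Space d => ‖x‖ ^ 2 := by fun_prop
  have hi : Integrable (fun x : Space d => ‖x‖ ^ 2) ((chainLaw P M n).map Prod.fst) := by
    rw [chain_fst P M n hn]
    refine (integrable_map_measure hsq.aestronglyMeasurable (by fun_prop)).2
      (iq.mono' (by fun_prop) (ae_of_all _ fun q => ?_))
    rw [Function.comp_apply, Real.norm_eq_abs, abs_of_nonneg (sq_nonneg _)]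
    exact hb q
  refine ⟨(integrable_map_measure hsq.aestronglyMeasurable measurable_fst.aemeasurable).1 hi, ?_⟩
  rw [← integral_map measurable_fst.aemeasurable hsq.aestronglyMeasurable, chain_fst P M n hn,
    integral_map (by fun_prop) hsq.aestronglyMeasurable]
  refine (integral_mono_of_nonneg (ae_of_all _ fun _ => sq_nonneg _) iq (ae_of_all _ hb)).trans ?_
  rw [integral_add ((i1.comp_fst _).const_mul 2) (((integrable_gam_sq d).comp_snd _).const_mul 2),
    integral_const_mul, integral_const_mul, integral_fun_fst (f := fun x : Space d => ‖x‖ ^ 2),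
    integral_fun_snd (f := fun x : Space d => ‖x‖ ^ 2)]
  simp only [probReal_univ, one_smul]
  linarith [(momentMu d h P hh).1, gam_sq_le d]

end Vale.Agent.P347
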