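import Vale.Agent.P347.ExactChain

/-!
The chain stays within second order of the first-order transport of its increments.
-/

noncomputable section

open MeasureTheory ProbabilityTheory Set Filter Topology
open scoped RealInnerProductSpace ENNReal

namespace Vale.Agent.P347

variable {d : ℕ} {h : ℝ}

/-! ### Posterior means -/

/-- The posterior average of the gradient. -/
def postMean (P : Pot d h) (v : ℝ) (a : Space d) : Space d :=
  ∫ ξ, P.g (a + Real.sqrt v • ξ) ∂mu (P.aff a (Real.sqrt v))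

theorem grow_norm_affine {F : Space d → Space d} {A B : ℝ} (hA : 0 ≤ A) (hB : 0 ≤ B)
    (hb : ∀ x, ‖F x‖ ≤ A + B * ‖x‖) (k : ℕ) : Grow fun x => ‖F x‖ ^ k :=
  ⟨(A + B) ^ k, k, fun x => by
    rw [norm_pow, norm_norm, ← mul_pow]
    refine pow_le_pow_left₀ (norm_nonneg _) ((hb x).trans ?_) k
    nlinarith [norm_nonneg x]⟩

theorem mu_int_norm (Q : Pot d h) : Integrable (fun x : Space d => x) (mu Q) := by
  have hg := grow_norm_affine (F := fun x : Space d => x) le_rfl zero_le_one (by simp) 1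
  simp only [pow_one] at hg
  exact (integrable_norm_iff (by fun_prop)).1 (mu_int (by fun_prop) hg)

theorem postMean_int (P : Pot d h) (v : ℝ) (a : Space d) :
    Integrable (fun ξ => P.g (a + Real.sqrt v • ξ)) (mu (P.aff a (Real.sqrt v))) := by
  have hg : Grow fun ξ => ‖P.g (a + Real.sqrt v • ξ)‖ ^ 1 := by
    refine grow_norm_affine (A := ‖P.g 0‖ + h * ‖a‖) (B := h * Real.sqrt v)
      (by have := P.h_nonneg; positivity) (by have := P.h_nonneg; positivity) (fun x => ?_) 1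
    refine (P.norm_g_le _).trans ?_
    rw [mul_assoc h, add_assoc, ← mul_add]
    refine add_le_add le_rfl (mul_le_mul_of_nonneg_left ((norm_add_le _ _).trans ?_) P.h_nonneg)
    rw [norm_smul, Real.norm_eq_abs, abs_of_nonneg (Real.sqrt_nonneg _)]
  simp only [pow_one] at hg
  have hgm : Measurable fun ξ => P.g (a + Real.sqrt v • ξ) :=
    (P.smooth.continuous.comp (by fun_prop)).measurable
  exact (integrable_norm_iff hgm.aestronglyMeasurable).1 (mu_int hgm.norm hg)

theorem postMean_centred (P : Pot d h) (v : ℝ) (a : Space d) :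
    ∫ ξ, (ξ + Real.sqrt v • postMean P v a) ∂mu (P.aff a (Real.sqrt v)) = 0 := by
  set Q := P.aff a (Real.sqrt v)
  have := mu_prob Q
  have e : ∫ ξ, ξ ∂mu Q + Real.sqrt v • postMean P v a = ∫ ξ, (ξ + Q.g ξ) ∂mu Q := by
    rw [integral_add (mu_int_norm Q)
      (show Integrable Q.g (mu Q) from (postMean_int P v a).smul (Real.sqrt v))]
    congr 1
    exact (integral_smul _ _).symm
  rw [integral_add (mu_int_norm Q) (integrable_const _), integral_const, probReal_univ, one_smul, e]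
  refine ext_inner_left ℝ fun w => ?_
  have hi : Integrable (fun ξ => ξ + Q.g ξ) (mu Q) :=
    (mu_int_norm Q).add ((postMean_int P v a).smul (Real.sqrt v))
  rw [← integral_inner hi, inner_zero_right]
  have h1 := steinMu d _ Q (fun _ => 1) w contDiff_const ⟨0, 0, fun x => by simp⟩
  simpa using h1

theorem postMean_var (P : Pot d h) (v : ℝ) (a : Space d) :
    Integrable (fun ξ => ‖ξ + Real.sqrt v • postMean P v a‖ ^ 2) (mu (P.aff a (Real.sqrt v))) ∧
      ∫ ξ, ‖ξ + Real.sqrt v • postMean P v a‖ ^ 2 ∂mu (P.aff a (Real.sqrt v)) ≤ d := by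
  set Q := P.aff a (Real.sqrt v)
  set w := Real.sqrt v • postMean P v a with hw
  have := mu_prob Q
  have hg : Grow fun ξ => ‖ξ + w‖ ^ 2 :=
    grow_norm_affine (norm_nonneg w) zero_le_one (fun x => by
      rw [one_mul, add_comm ‖w‖]; exact norm_add_le _ _) 2
  refine ⟨mu_int (by fun_prop) hg, ?_⟩
  have hm : ∀ i, ∫ y, y i ∂mu Q = -w i := fun i => by
    have h0 := postMean_centred P v a
    rw [← hw, integral_add (mu_int_norm Q) (integrable_const _), integral_const, probReal_univ,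
      one_smul] at h0
    have h1 : ∫ y, y i ∂mu Q = (∫ y, y ∂mu Q) i :=
      ((EuclideanSpace.proj (𝕜 := ℝ) i).integral_comp_comm (mu_int_norm Q))
    rw [h1, eq_neg_of_add_eq_zero_left h0]
    rfl
  have hi : ∀ i, Integrable (fun ξ : Space d => (ξ i - ∫ y, y i ∂mu Q) ^ 2) (mu Q) := fun i => by
    refine mu_int (by fun_prop) ⟨(1 + |∫ y, y i ∂mu Q|) ^ 2, 2, fun x => ?_⟩
    rw [norm_pow, Real.norm_eq_abs, ← mul_pow]
    refine pow_le_pow_left₀ (abs_nonneg _) ((abs_sub _ _).trans ?_) 2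
    nlinarith [P245.abs_coord_le x i, norm_nonneg x, abs_nonneg (∫ y, y i ∂mu Q)]
  have e : ∀ ξ : Space d, ‖ξ + w‖ ^ 2 = ∑ i, (ξ i - ∫ y, y i ∂mu Q) ^ 2 := fun ξ => by
    rw [EuclideanSpace.real_norm_sq_eq]
    exact Finset.sum_congr rfl fun i _ => by rw [hm, sub_neg_eq_add]; rfl
  simp only [e]
  rw [integral_finsetSum _ fun i _ => hi i]
  refine (Finset.sum_le_sum (g := fun _ => (1 : ℝ)) fun i _ => ?_).trans (by simp)
  have he : ∀ x, fderiv ℝ (fun y : Space d => y i) x = EuclideanSpace.proj i := fun x =>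
    (EuclideanSpace.proj (𝕜 := ℝ) i).fderiv
  have hn : ‖(EuclideanSpace.proj i : Space d →L[ℝ] ℝ)‖ ≤ 1 :=
    ContinuousLinearMap.opNorm_le_bound _ zero_le_one fun x => by
      rw [one_mul, Real.norm_eq_abs]; exact P245.abs_coord_le x i
  refine (poincareMu d _ Q (fun y => y i) (EuclideanSpace.proj (𝕜 := ℝ) i).contDiff
    ⟨1, 0, fun x => by simpa [he] using hn⟩).trans ?_
  simp only [he, integral_const, probReal_univ, one_smul]
  exact pow_le_one₀ (norm_nonneg _) hn

theorem postMean_close (P : Pot d h) (hh : h ≤ 1) {v : ℝ} (hv1 : v ≤ 1) (a : Space d) :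
    ‖postMean P v a - gavg v P.g a‖ ≤ 3 * h * (gsize P + h * ‖a‖) := by
  have hh0 := P.h_nonneg
  set s := Real.sqrt v with hs
  set Q := P.aff a s with hQ
  have hs0 : 0 ≤ s := Real.sqrt_nonneg v
  have hs1 : s ≤ 1 := Real.sqrt_le_one.2 hv1
  set D := postMean P v a - gavg v P.g a with hD
  set f : Space d → ℝ := fun ξ => ⟪D, P.g (a + s • ξ)⟫ with hf
  have hfc : ContDiff ℝ 1 f := by
    have := P.smooth
    simp only [hf]
    exact contDiff_const.inner ℝ (by fun_prop)
  have hfl : LipschitzWith (h * s * ‖D‖).toNNReal f := LipschitzWith.of_dist_le' fun x y => by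
    rw [dist_eq_norm, dist_eq_norm, hf, ← inner_sub_right, Real.norm_eq_abs]
    refine (abs_real_inner_le_norm _ _).trans ?_
    refine (mul_le_mul_of_nonneg_left (P.lip _ _) (norm_nonneg D)).trans_eq ?_
    rw [add_sub_add_left_eq_sub, ← smul_sub, norm_smul, Real.norm_eq_abs, abs_of_nonneg hs0]
    ring
  have hfG : GradBound f (h * s * ‖D‖) := fun x => by
    simpa [Real.coe_toNNReal _ (mul_nonneg (mul_nonneg hh0 hs0) (norm_nonneg D))] using
      norm_fderiv_le_of_lipschitz ℝ hfl (x₀ := x)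
  have hQh : h * s ^ 2 ≤ 1 := by nlinarith [pow_le_one₀ hs0 hs1 (n := 2)]
  have h1 := (interpMu poincareMu d _ Q hQh).2 f _ (by positivity) hfc hfG
  have e : ∫ x, f x ∂mu Q - ∫ x, f x ∂gam d = ‖D‖ ^ 2 := by
    simp only [hf]
    rw [integral_inner (show Integrable (fun ξ => P.g (a + s • ξ)) (mu Q) from postMean_int P v a),
      integral_inner (integrable_gavg P s a), ← inner_sub_right,
      ← real_inner_self_eq_norm_sq, hD]
    rfl
  rw [e, abs_of_nonneg (sq_nonneg _)] at h1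
  have hG : gsize Q ≤ gsize P + h * ‖a‖ := by
    have e2 : Q.g 0 = s • P.g a := by
      show s • P.g (a + s • (0 : Space d)) = _
      rw [smul_zero, add_zero]
    rw [gsize, gsize, e2, norm_smul, Real.norm_eq_abs, abs_of_nonneg hs0]
    have h2 : h * s ^ 2 * Real.sqrt d ≤ h * Real.sqrt d :=
      mul_le_mul_of_nonneg_right (mul_le_of_le_one_right hh0 (pow_le_one₀ hs0 hs1)) (Real.sqrt_nonneg _)
    have h3 : s * ‖P.g a‖ ≤ ‖P.g a‖ := mul_le_of_le_one_left (norm_nonneg _) hs1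
    linarith [P.norm_g_le a]
  rcases (norm_nonneg D).eq_or_lt with hz | hpos
  · rw [← hz]
    have : 0 ≤ gsize P := by rw [gsize]; positivity
    positivity
  · refine le_of_mul_le_mul_right ?_ hpos
    calc ‖D‖ * ‖D‖ = ‖D‖ ^ 2 := (sq _).symm
      _ ≤ 3 * (h * s * ‖D‖) * gsize Q := h1
      _ ≤ 3 * (h * 1 * ‖D‖) * (gsize P + h * ‖a‖) := by
          have : 0 ≤ gsize Q := by rw [gsize]; positivity
          gcongr
      _ = 3 * h * (gsize P + h * ‖a‖) * ‖D‖ := by ring

/-! ### The deviation -/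

/-- The Brownian path of the increments at a grid point. -/
def bsum (M : ℕ) {n : ℕ} (z : Fin n → Space d) (i : ℕ) : Space d :=
  ∑ j : Fin n, (if (j : ℕ) < i then Real.sqrt (mesh M) else 0) • z j

/-- The summed averaged gradient along the path. -/
def drift (P : Pot d h) (M n : ℕ) (z : Fin n → Space d) : Space d :=
  ∑ i ∈ Finset.range n, gavg (1 - tick M i) P.g (bsum M z i)

/-- The deviation of the chain from the first-order transport of its increments. -/
def dev (P : Pot d h) (M n : ℕ) (p : Space d × (Fin n → Space d)) : Space d :=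
  p.1 - (bsum M p.2 n - mesh M • drift P M n p.2)

theorem bsum_snoc (M : ℕ) {n i : ℕ} (hi : i ≤ n) (z : Fin n → Space d) (ζ : Space d) :
    bsum M (Fin.snoc z ζ : Fin (n + 1) → Space d) i = bsum M z i := by
  rw [bsum, bsum, Fin.sum_univ_castSucc]
  simp [not_lt.2 hi]

theorem bsum_snoc_self (M : ℕ) {n : ℕ} (z : Fin n → Space d) (ζ : Space d) :
    bsum M (Fin.snoc z ζ : Fin (n + 1) → Space d) (n + 1)
      = bsum M z n + Real.sqrt (mesh M) • ζ := by
  rw [bsum, bsum, Fin.sum_univ_castSucc]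
  simp [fun j : Fin n => j.isLt, fun j : Fin n => Nat.lt_succ_of_lt j.isLt]

theorem drift_snoc (P : Pot d h) (M : ℕ) {n : ℕ} (z : Fin n → Space d) (ζ : Space d) :
    drift P M (n + 1) (Fin.snoc z ζ)
      = drift P M n z + gavg (1 - tick M n) P.g (bsum M z n) := by
  rw [drift, drift, Finset.sum_range_succ, bsum_snoc M le_rfl]
  congr 1
  exact Finset.sum_congr rfl fun i hi => by rw [bsum_snoc M (Finset.mem_range.1 hi).le]

theorem continuous_dev (P : Pot d h) (M n : ℕ) : Continuous (dev P M n) := by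
  have hb : ∀ i, Continuous fun z : Fin n → Space d => bsum M z i := fun i => by
    unfold bsum; fun_prop
  have hd : Continuous (drift P M n) :=
    continuous_finsetSum _ fun i _ => (gavg_differentiable P _).continuous.comp (hb i)
  have hd' : Continuous fun p : Space d × (Fin n → Space d) => mesh M • drift P M n p.2 :=
    (hd.comp continuous_snd).const_smul (mesh M)
  exact continuous_fst.sub (((hb n).comp continuous_snd).sub hd')

/-- The mean of a squared norm about a centred variable. -/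
theorem sq_shift {μ : Measure (Space d)} [IsProbabilityMeasure μ] {X : Space d → Space d}
    (hX : Integrable X μ) (hX2 : Integrable (fun x => ‖X x‖ ^ 2) μ) (h0 : ∫ x, X x ∂μ = 0)
    (A : Space d) (k : ℝ) :
    Integrable (fun x => ‖A + k • X x‖ ^ 2) μ ∧
      ∫ x, ‖A + k • X x‖ ^ 2 ∂μ = ‖A‖ ^ 2 + k ^ 2 * ∫ x, ‖X x‖ ^ 2 ∂μ := by
  have e : ∀ x, ‖A + k • X x‖ ^ 2 = ‖A‖ ^ 2 + 2 * k * ⟪A, X x⟫ + k ^ 2 * ‖X x‖ ^ 2 := fun x => by
    rw [norm_add_sq_real, norm_smul, mul_pow, Real.norm_eq_abs, sq_abs, real_inner_smul_right]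
    ring
  have i1 : Integrable (fun x => ‖A‖ ^ 2 + 2 * k * ⟪A, X x⟫) μ :=
    (integrable_const _).add ((hX.const_inner A).const_mul _)
  refine ⟨(i1.add (hX2.const_mul _)).congr (ae_of_all _ fun x => (e x).symm), ?_⟩
  simp only [e]
  rw [integral_add i1 (hX2.const_mul _), integral_add (integrable_const _)
    ((hX.const_inner A).const_mul _), integral_const_mul, integral_const_mul, integral_inner hX, h0]
  simp

theorem dev_move_le (P : Pot d h) {M n : ℕ} (hn : n < M) (p : Space d × (Fin n → Space d)) :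
    ∫⁻ ξ, ∫⁻ ζ, ENNReal.ofReal (‖dev P M (n + 1) (chainMove M n (p, ξ, ζ))‖ ^ 2) ∂gam d
        ∂mu (P.aff p.1 (Real.sqrt (1 - tick M n)))
      ≤ ENNReal.ofReal (‖dev P M n p - mesh M • (postMean P (1 - tick M n) p.1
          - gavg (1 - tick M n) P.g (bsum M p.2 n))‖ ^ 2 + 3 * mesh M * rstep M n * d) := by
  obtain ⟨hm0, -, hθ0, hθ1, hθv, -, hτ1, -⟩ := tick_facts hn
  set τ := tick M n with hτ
  set θ := rstep M n with hθ
  set δ := mesh M with hδ
  set s := Real.sqrt (1 - τ) with hs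
  have hs2 : s * s = 1 - τ := Real.mul_self_sqrt (by linarith)
  set u := postMean P (1 - τ) p.1 with hu
  set A := dev P M n p - δ • (u - gavg (1 - τ) P.g (bsum M p.2 n)) with hA
  set c' := Real.sqrt (δ * (1 - θ)) - Real.sqrt δ with hc'
  have := mu_prob (P.aff p.1 s)
  have hmv : ∀ ξ ζ : Space d,
      dev P M (n + 1) (chainMove M n (p, ξ, ζ)) = A + (θ * s) • (ξ + s • u) + c' • ζ := fun ξ ζ => by
    have e : (θ * s) * s = δ := by rw [mul_assoc, hs2, hθv]
    simp only [dev, chainMove, bsum_snoc_self, drift_snoc, hA, hc', ← hτ, ← hθ, ← hδ, ← hs]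
    simp only [smul_add, smul_smul, e]
    module
  simp only [hmv]
  have hz := integral_id_stdGaussian (E := Space d)
  have hin : ∀ B : Space d, ∫⁻ ζ, ENNReal.ofReal (‖B + c' • ζ‖ ^ 2) ∂gam d
      ≤ ENNReal.ofReal (‖B‖ ^ 2 + c' ^ 2 * (2 * d)) := fun B => by
    obtain ⟨hi, he⟩ := sq_shift (μ := gam d) (X := fun x => x) (IsGaussian.integrable_id)
      (integrable_gam_sq d) hz B c'
    rw [← ofReal_integral_eq_lintegral_ofReal hi (ae_of_all _ fun _ => sq_nonneg _), he]
    exact ENNReal.ofReal_le_ofReal (by nlinarith [gam_sq_le d, sq_nonneg c'])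
  refine (lintegral_mono fun ξ => hin _).trans ?_
  obtain ⟨hv, hvd⟩ := postMean_var P (1 - τ) p.1
  obtain ⟨hi, he⟩ := sq_shift (X := fun ξ => ξ + s • u)
    ((mu_int_norm _).add (integrable_const _)) hv (postMean_centred P (1 - τ) p.1) A (θ * s)
  have hi2 : Integrable (fun ξ => ‖A + (θ * s) • (ξ + s • u)‖ ^ 2 + c' ^ 2 * (2 * d))
      (mu (P.aff p.1 s)) := hi.add (integrable_const _)
  rw [← ofReal_integral_eq_lintegral_ofReal hi2 (ae_of_all _ fun _ => by positivity)]
  refine ENNReal.ofReal_le_ofReal ?_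
  rw [integral_add hi (integrable_const _), he, integral_const, probReal_univ, one_smul]
  have hc2 : c' ^ 2 ≤ δ * θ := by
    have hr0 := Real.sqrt_nonneg (1 - θ)
    have hr : Real.sqrt (1 - θ) ^ 2 = 1 - θ := Real.sq_sqrt (by linarith)
    have hr1 : Real.sqrt (1 - θ) ≤ 1 := Real.sqrt_le_one.2 (by linarith)
    have h2 : 1 - Real.sqrt (1 - θ) ≤ θ := by nlinarith
    rw [hc', Real.sqrt_mul hm0.le, show Real.sqrt δ * Real.sqrt (1 - θ) - Real.sqrt δ
      = Real.sqrt δ * -(1 - Real.sqrt (1 - θ)) by ring, mul_pow, Real.sq_sqrt hm0.le, neg_sq]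
    exact mul_le_mul_of_nonneg_left (by nlinarith) hm0.le
  have hk : (θ * s) ^ 2 = θ * δ := by rw [mul_pow, sq s, hs2, ← hθv]; ring
  rw [hk]
  nlinarith [mul_le_mul_of_nonneg_left hvd (mul_nonneg hθ0.le hm0.le),
    mul_le_mul_of_nonneg_right hc2 (Nat.cast_nonneg d : (0 : ℝ) ≤ d)]

/-- The path has bounded second moment. -/
theorem bsum_sq (P : Pot d h) {M n : ℕ} (hn : n ≤ M) (i : ℕ) :
    Integrable (fun p : Space d × (Fin n → Space d) => ‖bsum M p.2 i‖ ^ 2) (chainLaw P M n) ∧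
      ∫ p, ‖bsum M p.2 i‖ ^ 2 ∂chainLaw P M n ≤ 2 * d := by
  set c : Fin n → ℝ := fun j => if (j : ℕ) < i then Real.sqrt (mesh M) else 0
  have hc : ∑ j, c j ^ 2 ≤ 1 := by
    refine (Finset.sum_le_sum (g := fun _ => mesh M) fun j _ => ?_).trans ?_
    · simp only [c]
      split_ifs with hj
      · exact (Real.sq_sqrt (mesh_nonneg M)).le
      · simpa using mesh_nonneg M
    · rw [Finset.sum_const, Finset.card_univ, Fintype.card_fin, nsmul_eq_mul, mesh, ← div_eq_mul_inv]
      exact div_le_one_of_le₀ (by exact_mod_cast hn) (Nat.cast_nonneg M)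
  set r := Real.sqrt (∑ j, c j ^ 2)
  have hr : r ^ 2 ≤ 1 := by rw [Real.sq_sqrt (Finset.sum_nonneg fun j _ => sq_nonneg _)]; exact hc
  have hsq : Measurable fun x : Space d => ‖x‖ ^ 2 := by fun_prop
  have hL : Measurable fun z : Fin n → Space d => ∑ j, c j • z j := by fun_prop
  have hmap : (chainLaw P M n).map (fun p => bsum M p.2 i) = (gam d).map fun w => r • w := by
    rw [← gp_combine, ← chain_snd P M n, Measure.map_map hL measurable_snd]
    rfl
  have hi : Integrable (fun x : Space d => ‖x‖ ^ 2)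
      ((chainLaw P M n).map (fun p => bsum M p.2 i)) := by
    rw [hmap]
    refine (integrable_map_measure hsq.aestronglyMeasurable (by fun_prop)).2 ?_
    simpa [Function.comp_def, norm_smul, mul_pow] using (integrable_gam_sq d).const_mul (r ^ 2)
  have hbm : Measurable fun p : Space d × (Fin n → Space d) => bsum M p.2 i := hL.comp measurable_snd
  refine ⟨(integrable_map_measure hsq.aestronglyMeasurable hbm.aemeasurable).1 hi, ?_⟩
  rw [← integral_map hbm.aemeasurable hsq.aestronglyMeasurable, hmap,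
    integral_map (by fun_prop) hsq.aestronglyMeasurable]
  simp only [norm_smul, mul_pow, Real.norm_eq_abs, sq_abs, integral_const_mul]
  nlinarith [gam_sq_le d, sq_nonneg r, integral_nonneg (μ := gam d) (f := fun x : Space d => ‖x‖ ^ 2) fun x => sq_nonneg _]

/-- The bound on the deviation after one move. -/
def devBound (P : Pot d h) (M n : ℕ) (p : Space d × (Fin n → Space d)) : ℝ :=
  (1 + 3 * mesh M) * ‖dev P M n p‖ ^ 2
    + (mesh M * (108 * (h * gsize P) ^ 2 + 108 * h ^ 2 * h ^ 2 * ‖p.1‖ ^ 2)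
      + (6 * mesh M * mesh M * h ^ 2
          * ∑ i ∈ Finset.range n, (8 * gsize P ^ 2 + 2 * h ^ 2 * ‖bsum M p.2 i‖ ^ 2)
        + 3 * mesh M * rstep M n * d))

theorem gsize_nonneg' (P : Pot d h) : 0 ≤ gsize P := by
  have := P.h_nonneg
  rw [gsize]
  positivity

theorem drift_sq_le (P : Pot d h) {M n : ℕ} (hn : n ≤ M) (z : Fin n → Space d) :
    (mesh M * ‖drift P M n z‖) ^ 2
      ≤ mesh M * ∑ i ∈ Finset.range n, (8 * gsize P ^ 2 + 2 * h ^ 2 * ‖bsum M z i‖ ^ 2) := by
  have hm := mesh_nonneg M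
  have hnd : (n : ℝ) * mesh M ≤ 1 := by
    rw [mesh, ← div_eq_mul_inv]
    exact div_le_one_of_le₀ (by exact_mod_cast hn) (Nat.cast_nonneg M)
  have h1 : ‖drift P M n z‖ ≤ ∑ i ∈ Finset.range n, (2 * gsize P + h * ‖bsum M z i‖) :=
    (norm_sum_le _ _).trans (Finset.sum_le_sum fun i _ => gavg_norm_le P (by
      linarith [show (0 : ℝ) ≤ tick M i by rw [tick, mesh]; positivity]) _)
  have h2 := (pow_le_pow_left₀ (norm_nonneg _) h1 2).trans
    (sq_sum_le_card_mul_sum_sq (s := Finset.range n)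
      (f := fun i => 2 * gsize P + h * ‖bsum M z i‖))
  rw [Finset.card_range] at h2
  have h3 : ∑ i ∈ Finset.range n, (2 * gsize P + h * ‖bsum M z i‖) ^ 2
      ≤ ∑ i ∈ Finset.range n, (8 * gsize P ^ 2 + 2 * h ^ 2 * ‖bsum M z i‖ ^ 2) :=
    Finset.sum_le_sum fun i _ => by nlinarith [sq_nonneg (2 * gsize P - h * ‖bsum M z i‖)]
  calc (mesh M * ‖drift P M n z‖) ^ 2 = mesh M * mesh M * ‖drift P M n z‖ ^ 2 := by ring
    _ ≤ mesh M * mesh M * ((n : ℝ) * ∑ i ∈ Finset.range n, (2 * gsize P + h * ‖bsum M z i‖) ^ 2) :=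
        mul_le_mul_of_nonneg_left h2 (mul_self_nonneg _)
    _ = ((n : ℝ) * mesh M)
        * (mesh M * ∑ i ∈ Finset.range n, (2 * gsize P + h * ‖bsum M z i‖) ^ 2) := by ring
    _ ≤ 1 * (mesh M * ∑ i ∈ Finset.range n, (8 * gsize P ^ 2 + 2 * h ^ 2 * ‖bsum M z i‖ ^ 2)) := by
        gcongr
    _ = _ := one_mul _

theorem shifted_sq_le (P : Pot d h) (hh : h ≤ 1 / 2) {M n : ℕ} (hn : n < M)
    (p : Space d × (Fin n → Space d)) :
    ‖dev P M n p - mesh M • (postMean P (1 - tick M n) p.1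
        - gavg (1 - tick M n) P.g (bsum M p.2 n))‖ ^ 2 + 3 * mesh M * rstep M n * d
      ≤ devBound P M n p := by
  obtain ⟨hm0, hm1, -, -, -, hτ0, hτ1, -⟩ := tick_facts hn
  have hh0 := P.h_nonneg
  have hh2 : h ^ 2 ≤ 1 / 4 := by nlinarith
  set δ := mesh M
  set G := gsize P
  set D := dev P M n p with hD
  set W := ‖postMean P (1 - tick M n) p.1 - gavg (1 - tick M n) P.g p.1‖
  set r := ‖postMean P (1 - tick M n) p.1 - gavg (1 - tick M n) P.g (bsum M p.2 n)‖
  set T := ‖drift P M n p.2‖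
  have hW : W ≤ 3 * h * (G + h * ‖p.1‖) :=
    postMean_close P (hh.trans (by norm_num)) (by linarith) p.1
  have hr : r ≤ W + (h * ‖D‖ + h * (δ * T)) := by
    refine (norm_sub_le_norm_sub_add_norm_sub _ (gavg (1 - tick M n) P.g p.1) _).trans ?_
    refine add_le_add le_rfl ((gavg_lip P _ _ _).trans ?_)
    rw [← mul_add]
    refine mul_le_mul_of_nonneg_left ?_ hh0
    have e1 : p.1 - bsum M p.2 n = D - δ • drift P M n p.2 := by rw [hD, dev]; abel
    rw [e1]
    refine (norm_sub_le _ _).trans (add_le_add le_rfl ?_)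
    rw [norm_smul, Real.norm_eq_abs, abs_of_nonneg hm0.le]
  have hT := drift_sq_le P hn.le p.2
  have hr0 : 0 ≤ r := norm_nonneg _
  have hW2 : W ^ 2 ≤ 18 * h ^ 2 * (G ^ 2 + h ^ 2 * ‖p.1‖ ^ 2) := by
    refine (pow_le_pow_left₀ (norm_nonneg _) hW 2).trans ?_
    nlinarith [mul_nonneg (sq_nonneg h) (sq_nonneg (G - h * ‖p.1‖))]
  have hr2 : r ^ 2 ≤ 3 * (W ^ 2 + h ^ 2 * ‖D‖ ^ 2 + h ^ 2 * (δ * T) ^ 2) := by
    refine (pow_le_pow_left₀ hr0 hr 2).trans ?_
    nlinarith only [sq_nonneg (W - h * ‖D‖), sq_nonneg (W - h * (δ * T)),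
      sq_nonneg (h * ‖D‖ - h * (δ * T))]
  have hn2 : ‖D - δ • (postMean P (1 - tick M n) p.1 - gavg (1 - tick M n) P.g (bsum M p.2 n))‖ ^ 2
      ≤ (1 + δ) * ‖D‖ ^ 2 + 2 * δ * r ^ 2 := by
    refine (pow_le_pow_left₀ (norm_nonneg _) (norm_sub_le _ _) 2).trans ?_
    rw [norm_smul, Real.norm_eq_abs, abs_of_nonneg hm0.le]
    nlinarith only [mul_nonneg hm0.le (sq_nonneg (‖D‖ - r)),
      mul_nonneg (mul_nonneg hm0.le (sub_nonneg.2 hm1)) (sq_nonneg r)]
  rw [devBound]
  nlinarith only [hn2, mul_le_mul_of_nonneg_left hr2 hm0.le, mul_le_mul_of_nonneg_left hW2 hm0.le,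
    mul_le_mul_of_nonneg_left hT (mul_nonneg hm0.le (sq_nonneg h)),
    mul_le_mul_of_nonneg_left hh2 (mul_nonneg hm0.le (sq_nonneg ‖D‖)),
    mul_nonneg hm0.le (sq_nonneg ‖D‖)]

theorem devBound_int (P : Pot d h) (hh : h ≤ 1 / 2) {M n : ℕ} (hn : n < M)
    (hI : Integrable (fun p => ‖dev P M n p‖ ^ 2) (chainLaw P M n)) :
    Integrable (devBound P M n) (chainLaw P M n) ∧
      ∫ p, devBound P M n p ∂chainLaw P M n
        ≤ (1 + 3 * mesh M) * (∫ p, ‖dev P M n p‖ ^ 2 ∂chainLaw P M n)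
          + (1044 * mesh M * (h * gsize P) ^ 2 + 3 * mesh M * rstep M n * d) := by
  have := chainLaw_prob P M n
  obtain ⟨hm0, -, -, -, -, -, hτ1, -⟩ := tick_facts hn
  have hnd : (n : ℝ) * mesh M ≤ 1 := hτ1.le
  have hh0 := P.h_nonneg
  have hh2 : h ^ 2 ≤ 1 / 4 := by nlinarith
  set δ := mesh M
  set G := gsize P with hG
  set e := 3 * δ * rstep M n * d
  obtain ⟨iX, hX⟩ := chain_fst_sq P hn.le (hh.trans (by norm_num))
  have iA : Integrable (fun p : Space d × (Fin n → Space d) => δ * (108 * (h * G) ^ 2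
      + 108 * h ^ 2 * h ^ 2 * ‖p.1‖ ^ 2)) (chainLaw P M n) :=
    ((integrable_const _).add (iX.const_mul _)).const_mul _
  have iS : ∀ i ∈ Finset.range n, Integrable (fun p : Space d × (Fin n → Space d) =>
      8 * G ^ 2 + 2 * h ^ 2 * ‖bsum M p.2 i‖ ^ 2) (chainLaw P M n) := fun i _ =>
    (integrable_const _).add ((bsum_sq P hn.le i).1.const_mul _)
  have iB : Integrable (fun p : Space d × (Fin n → Space d) => 6 * δ * δ * h ^ 2 *
      ∑ i ∈ Finset.range n, (8 * G ^ 2 + 2 * h ^ 2 * ‖bsum M p.2 i‖ ^ 2)) (chainLaw P M n) :=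
    (integrable_finsetSum _ iS).const_mul _
  have iC : Integrable (fun p : Space d × (Fin n → Space d) => 6 * δ * δ * h ^ 2 *
      ∑ i ∈ Finset.range n, (8 * G ^ 2 + 2 * h ^ 2 * ‖bsum M p.2 i‖ ^ 2) + e) (chainLaw P M n) :=
    iB.add (integrable_const e)
  have iD : Integrable (fun p : Space d × (Fin n → Space d) => δ * (108 * (h * G) ^ 2
      + 108 * h ^ 2 * h ^ 2 * ‖p.1‖ ^ 2) + (6 * δ * δ * h ^ 2 *
      ∑ i ∈ Finset.range n, (8 * G ^ 2 + 2 * h ^ 2 * ‖bsum M p.2 i‖ ^ 2) + e)) (chainLaw P M n) :=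
    iA.add iC
  refine ⟨(hI.const_mul _).add iD, ?_⟩
  unfold devBound
  rw [integral_add (hI.const_mul _) iD, integral_add iA iC, integral_add iB (integrable_const _),
    integral_const_mul, integral_const_mul, integral_const_mul,
    integral_add (integrable_const _) (iX.const_mul _), integral_const_mul, integral_finsetSum _ iS]
  simp only [integral_const, probReal_univ, one_smul, integral_const_mul]
  have hGs : h ^ 2 * d + ‖P.g 0‖ ^ 2 ≤ G ^ 2 := by
    have hsq : Real.sqrt d ^ 2 = d := Real.sq_sqrt (Nat.cast_nonneg d)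
    rw [hG, gsize]
    nlinarith [mul_nonneg (mul_nonneg hh0 (Real.sqrt_nonneg (d : ℝ))) (norm_nonneg (P.g 0))]
  have h3 : ∀ i ∈ Finset.range n, ∫ p, (8 * G ^ 2 + 2 * h ^ 2 * ‖bsum M p.2 i‖ ^ 2) ∂chainLaw P M n
      ≤ 12 * G ^ 2 := fun i _ => by
    rw [integral_add (integrable_const _) ((bsum_sq P hn.le i).1.const_mul _)]
    simp only [integral_const, probReal_univ, one_smul, integral_const_mul]
    nlinarith only [mul_le_mul_of_nonneg_left (bsum_sq P hn.le i).2 (sq_nonneg h), hGs,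
      sq_nonneg ‖P.g 0‖]
  have h3' := Finset.sum_le_sum h3
  rw [Finset.sum_const, Finset.card_range, nsmul_eq_mul] at h3'
  have h5' : h ^ 2 * ∫ p, ‖p.1‖ ^ 2 ∂chainLaw P M n ≤ 8 * G ^ 2 := by
    refine (mul_le_mul_of_nonneg_left hX (sq_nonneg h)).trans ?_
    nlinarith only [mul_le_mul_of_nonneg_right hh2 (sq_nonneg ‖P.g 0‖), hGs, sq_nonneg ‖P.g 0‖]
  have h4 : (n : ℝ) * δ * (δ * (h * G) ^ 2) ≤ δ * (h * G) ^ 2 :=
    mul_le_of_le_one_left (by positivity) hnd
  have h6 := mul_le_mul_of_nonneg_left h3'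
    (show 0 ≤ 6 * δ * δ * h ^ 2 by positivity)
  nlinarith only [h4, h6, mul_le_mul_of_nonneg_left h5' (mul_nonneg hm0.le (sq_nonneg h)),
    mul_nonneg hm0.le (sq_nonneg (h * G))]

/-- The chain stays within second order of the transport. -/
theorem dev_sq (P : Pot d h) (hh : h ≤ 1 / 2) {M : ℕ} :
    ∀ n, n ≤ M → Integrable (fun p => ‖dev P M n p‖ ^ 2) (chainLaw P M n) ∧
      ∫ p, ‖dev P M n p‖ ^ 2 ∂chainLaw P M n ≤ (1 + 3 * mesh M) ^ n *
        ∑ i ∈ Finset.range n, (1044 * mesh M * (h * gsize P) ^ 2 + 3 * mesh M * rstep M i * d)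
  | 0, _ => by
    rw [chainLaw]
    have e : dev P M 0 ((0 : Space d), Fin.elim0) = 0 := by simp [dev, bsum, drift]
    refine ⟨integrable_dirac (by simp), ?_⟩
    rw [integral_dirac, e]
    simp
  | n + 1, hn => by
    have hn' : n < M := Nat.lt_of_succ_le hn
    obtain ⟨hI, hA⟩ := dev_sq P hh n hn'.le
    obtain ⟨hm0, -, hθ0, -, -, -, -, -⟩ := tick_facts hn'
    obtain ⟨iB, hB⟩ := devBound_int P hh hn' hI
    have hB0 : ∀ p, 0 ≤ devBound P M n p := fun p =>
      (add_nonneg (sq_nonneg _) (by positivity)).trans (shifted_sq_le P hh hn' p)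
    obtain ⟨hI', hA'⟩ := chain_step_le P M n (F := fun q => ‖dev P M (n + 1) q‖ ^ 2)
      ((continuous_dev P M (n + 1)).norm.pow 2).measurable (fun _ => sq_nonneg _) iB hB0
      (fun p => (dev_move_le P hn' p).trans (ENNReal.ofReal_le_ofReal (shifted_sq_le P hh hn' p)))
    refine ⟨hI', hA'.trans (hB.trans ?_)⟩
    rw [Finset.sum_range_succ, mul_add ((1 + 3 * mesh M) ^ (n + 1)), pow_succ' (1 + 3 * mesh M),
      mul_assoc (1 + 3 * mesh M)]
    refine add_le_add (mul_le_mul_of_nonneg_left hA (by positivity)) ?_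
    exact le_mul_of_one_le_left (by positivity)
      (by rw [← pow_succ']; exact one_le_pow₀ (by linarith))

end Vale.Agent.P347
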