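import Vale.Agent.P347.Basics
import Vale.Agent.P347.Poincare
import Vale.Agent.P347.Smooth

/-!
Linear combinations of standard Gaussian vectors, Gaussian averages of the gradient and the
regularity of the transport field.
-/

noncomputable section

open MeasureTheory ProbabilityTheory Set Filter Topology
open scoped RealInnerProductSpace

namespace Vale.Agent.P347

variable {d : ℕ} {h : ℝ}

/-! ### Linear combinations of Gaussian vectors -/

theorem gam_char (t : Space d) :
    ∫ x, Complex.exp ((⟪t, x⟫ : ℝ) * Complex.I) ∂gam d = Complex.exp (-((‖t‖ ^ 2 : ℝ) : ℂ) / 2) := by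
  have e : ∀ x : Space d, ⟪t, x⟫ = ⟪x, t⟫ := fun x => real_inner_comm _ _
  simp only [e]
  rw [← charFun_apply, charFun_stdGaussian]
  push_cast
  rfl

theorem gp_char {ι : Type} [Fintype ι] (s : ι → Space d) :
    ∫ z, Complex.exp (((∑ j, ⟪s j, z j⟫ : ℝ) : ℂ) * Complex.I) ∂gp ι d
      = Complex.exp (-((∑ j, ‖s j‖ ^ 2 : ℝ) : ℂ) / 2) := by
  push_cast
  simp only [Finset.sum_mul, Complex.exp_sum]
  rw [integral_fintype_prod_eq_prod (f := fun j x => Complex.exp ((⟪s j, x⟫ : ℝ) * Complex.I))]
  simp only [gam_char]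
  rw [← Complex.exp_sum, ← Finset.sum_neg_distrib, Finset.sum_div]
  push_cast
  rfl

/-- A combination of two independent standard vectors. -/
theorem gam_combine (p q : ℝ) :
    ((gam d).prod (gam d)).map (fun w : Space d × Space d => p • w.1 + q • w.2)
      = (gam d).map fun w => Real.sqrt (p ^ 2 + q ^ 2) • w := by
  refine Measure.ext_of_charFun (funext fun t => ?_)
  rw [charFun_apply, charFun_apply, integral_map (by fun_prop) (by fun_prop),
    integral_map (by fun_prop) (by fun_prop)]
  simp only [inner_add_left, real_inner_smul_left, Complex.ofReal_add, add_mul, Complex.exp_add]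
  rw [integral_prod_mul (fun w : Space d => Complex.exp (((p * ⟪w, t⟫ : ℝ) : ℂ) * Complex.I))
    (fun w : Space d => Complex.exp (((q * ⟪w, t⟫ : ℝ) : ℂ) * Complex.I))]
  have e : ∀ (c : ℝ) (w : Space d), c * ⟪w, t⟫ = ⟪c • t, w⟫ := fun c w => by
    rw [real_inner_smul_left, real_inner_comm]
  simp only [e, gam_char, norm_smul, mul_pow, Real.norm_eq_abs, sq_abs,
    Real.sq_sqrt (add_nonneg (sq_nonneg p) (sq_nonneg q))]
  rw [← Complex.exp_add]
  congr 1
  push_cast
  ring

/-- A combination of independent standard vectors. -/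
theorem gp_combine {ι : Type} [Fintype ι] (c : ι → ℝ) :
    (gp ι d).map (fun z : ι → Space d => ∑ j, c j • z j)
      = (gam d).map fun w => Real.sqrt (∑ j, c j ^ 2) • w := by
  refine Measure.ext_of_charFun (funext fun t => ?_)
  rw [charFun_apply, charFun_apply, integral_map (Measurable.aemeasurable (by fun_prop)) (by fun_prop),
    integral_map (Measurable.aemeasurable (by fun_prop)) (by fun_prop)]
  simp only [sum_inner, real_inner_smul_left]
  have e : ∀ (c : ℝ) (w : Space d), c * ⟪w, t⟫ = ⟪c • t, w⟫ := fun c w => by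
    rw [real_inner_smul_left, real_inner_comm]
  simp only [e, gp_char (fun j => c j • t), gam_char]
  simp only [norm_smul, mul_pow, Real.norm_eq_abs, sq_abs,
    Real.sq_sqrt (Finset.sum_nonneg fun j _ => sq_nonneg (c j)), ← Finset.sum_mul]

/-- The change of variables that exposes the sum of the increments: from the increments `z` and a
fresh vector `ζ` to an independent pair of the normalised sum and standard vectors. -/
def splitSum (M : ℕ) (r : (Fin M → Space d) × Space d) : Space d × (Fin M → Space d) :=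
  (Real.sqrt (M : ℝ)⁻¹ • ∑ j, r.1 j,
    fun i => r.1 i - (M : ℝ)⁻¹ • (∑ j, r.1 j) + Real.sqrt (M : ℝ)⁻¹ • r.2)

theorem measurable_splitSum (M : ℕ) : Measurable (splitSum (d := d) M) := by
  unfold splitSum
  fun_prop

theorem map_splitSum {M : ℕ} (hM : 0 < M) :
    ((gp (Fin M) d).prod (gam d)).map (splitSum M) = (gam d).prod (gp (Fin M) d) := by
  refine Measure.ext_of_charFunDual (funext fun L => ?_)
  obtain ⟨a, ha⟩ : ∃ a : Space d, ∀ x, L (x, 0) = ⟪a, x⟫ :=
    ⟨(InnerProductSpace.toDual ℝ (Space d)).symm (L.comp (.inl ℝ _ _)), fun x => by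
      rw [InnerProductSpace.toDual_symm_apply]; rfl⟩
  obtain ⟨b, hb⟩ : ∃ b : Fin M → Space d, ∀ i x, L (0, Pi.single i x) = ⟪b i, x⟫ :=
    ⟨fun i => (InnerProductSpace.toDual ℝ (Space d)).symm
      ((L.comp (.inr ℝ _ _)).comp (ContinuousLinearMap.single ℝ (fun _ : Fin M => Space d) i)),
      fun i x => by rw [InnerProductSpace.toDual_symm_apply]; rfl⟩
  have hL : ∀ (x : Space d) (ω : Fin M → Space d), L (x, ω) = ⟪a, x⟫ + ∑ i, ⟪b i, ω i⟫ := by
    intro x ω
    have e : (x, ω) = (x, (0 : Fin M → Space d)) + ∑ i, ((0 : Space d), Pi.single i (ω i)) := by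
      ext1
      · simp [Prod.fst_sum]
      · simp [Prod.snd_sum, Finset.univ_sum_single]
    rw [e, map_add, map_sum, ha]
    simp only [hb]
  set δ := (M : ℝ)⁻¹ with hδ
  set q := Real.sqrt δ with hq
  have hq2 : q * q = δ := Real.mul_self_sqrt (by rw [hδ]; positivity)
  set S := ∑ i, b i with hS
  set s : Fin M → Space d := fun j => q • a + b j - δ • S with hs
  have hLT : ∀ r : (Fin M → Space d) × Space d,
      L (splitSum M r) = ∑ j, ⟪s j, r.1 j⟫ + ⟪q • S, r.2⟫ := by
    intro r
    rw [splitSum, hL]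
    simp only [hs, ← hδ, ← hq, hS, inner_sub_right, inner_add_right, inner_sub_left, inner_add_left,
      real_inner_smul_left, real_inner_smul_right, sum_inner, inner_sum, Finset.sum_add_distrib,
      Finset.sum_sub_distrib, Finset.mul_sum]
    rw [Finset.sum_comm (f := fun i j => δ * ⟪b i, r.1 j⟫)]
    ring
  simp only [charFunDual_apply]
  rw [integral_map (measurable_splitSum M).aemeasurable (by fun_prop)]
  simp only [hLT]
  simp only [hL, Complex.ofReal_add, add_mul, Complex.exp_add]
  rw [integral_prod_mul (fun z : Fin M → Space d =>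
      Complex.exp (((∑ j, ⟪s j, z j⟫ : ℝ) : ℂ) * Complex.I))
    (fun w : Space d => Complex.exp (((⟪q • S, w⟫ : ℝ) : ℂ) * Complex.I)),
    integral_prod_mul (fun x : Space d => Complex.exp (((⟪a, x⟫ : ℝ) : ℂ) * Complex.I))
    (fun w : Fin M → Space d => Complex.exp (((∑ j, ⟪b j, w j⟫ : ℝ) : ℂ) * Complex.I))]
  simp only [gp_char, gam_char, ← Complex.exp_add]
  congr 1
  rw [← add_div, ← add_div, ← neg_add, ← neg_add, ← Complex.ofReal_add, ← Complex.ofReal_add]
  congr 3
  have hMd : (M : ℝ) * δ = 1 := mul_inv_cancel₀ (by exact_mod_cast hM.ne')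
  have e : ∀ j, ‖s j‖ ^ 2
      = δ * ‖a‖ ^ 2 + ‖b j‖ ^ 2 + δ * δ * ‖S‖ ^ 2 + 2 * q * ⟪a, b j⟫ - 2 * (q * δ) * ⟪a, S⟫
        - 2 * δ * ⟪b j, S⟫ := fun j => by
    simp only [hs, norm_sub_sq_real, norm_add_sq_real, norm_smul, mul_pow, Real.norm_eq_abs, sq_abs,
      inner_add_left, real_inner_smul_left, real_inner_smul_right, ← hq2]
    ring
  simp only [e, Finset.sum_add_distrib, Finset.sum_sub_distrib, ← Finset.mul_sum, ← inner_sum,
    ← sum_inner, ← hS, Finset.sum_const, Finset.card_univ, Fintype.card_fin, nsmul_eq_mul]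
  rw [norm_smul, mul_pow, Real.norm_eq_abs, sq_abs, sq q, hq2, real_inner_self_eq_norm_sq]
  simp only [← Nat.cast_smul_eq_nsmul ℝ, real_inner_smul_right]
  linear_combination (‖a‖ ^ 2 + δ * ‖S‖ ^ 2 - 2 * q * ⟪a, S⟫) * hMd

/-! ### Gaussian moments -/

theorem gam_sq_le (d : ℕ) : ∫ x, ‖x‖ ^ 2 ∂gam d ≤ 2 * d := gam_norm_sq momentMu

theorem integrable_gam_sq (d : ℕ) : Integrable (fun x : Space d => ‖x‖ ^ 2) (gam d) :=
  tame_integrable (by fun_prop) (tame_of_grow ⟨1, 2, fun x => by
    rw [one_mul, norm_pow, norm_norm]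
    exact pow_le_pow_left₀ (norm_nonneg x) (by linarith) 2⟩)

theorem gam_norm_le_sqrt (d : ℕ) : ∫ x, ‖x‖ ∂gam d ≤ 2 * Real.sqrt d := by
  rcases Nat.eq_zero_or_pos d with rfl | hd
  · have : ∀ x : Space 0, ‖x‖ = 0 := fun x => by rw [Subsingleton.elim x 0, norm_zero]
    simp [this]
  have hr : 0 < Real.sqrt d := Real.sqrt_pos.2 (by exact_mod_cast hd)
  have hs : Real.sqrt d * Real.sqrt d = d := Real.mul_self_sqrt (Nat.cast_nonneg d)
  set r := Real.sqrt d
  have hsplit : Integrable (fun x : Space d => r + ‖x‖ ^ 2 / (4 * r)) (gam d) :=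
    (integrable_const _).add ((integrable_gam_sq d).div_const _)
  refine (integral_mono integrable_norm_gam hsplit fun x => ?_).trans ?_
  · show ‖x‖ ≤ r + ‖x‖ ^ 2 / (4 * r)
    rw [← sub_le_iff_le_add', le_div_iff₀ (by positivity)]
    nlinarith [sq_nonneg (‖x‖ - 2 * r)]
  · rw [integral_add (integrable_const _) ((integrable_gam_sq d).div_const _), integral_const,
      probReal_univ, one_smul, integral_div]
    have h2 : (∫ x, ‖x‖ ^ 2 ∂gam d) / (4 * r) ≤ r / 2 := by
      rw [div_le_iff₀ (by positivity)]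
      linarith [gam_sq_le d]
    linarith

/-! ### Averages of the gradient -/

theorem Pot.norm_fderiv_g (P : Pot d h) (x : Space d) : ‖fderiv ℝ P.g x‖ ≤ h := by
  have hl : LipschitzWith h.toNNReal P.g := LipschitzWith.of_dist_le_mul fun a b => by
    rw [dist_eq_norm, dist_eq_norm, Real.coe_toNNReal _ P.h_nonneg]
    exact P.lip a b
  simpa [Real.coe_toNNReal _ P.h_nonneg] using norm_fderiv_le_of_lipschitz ℝ hl (x₀ := x)

variable {α : Type} [MeasurableSpace α] {μ : Measure α} [IsProbabilityMeasure μ]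

theorem avg_integrable (P : Pot d h) {w : α → Space d} (hw : Measurable w)
    (hwi : Integrable (fun a => ‖w a‖) μ) : Integrable (fun a => P.g (w a)) μ :=
  Integrable.mono' ((integrable_const ‖P.g 0‖).add (hwi.const_mul h))
    (P.smooth.continuous.measurable.comp hw).aestronglyMeasurable (ae_of_all _ fun _ => P.norm_g_le _)

/-- An average of the gradient along affine maps is differentiable. -/
theorem avg_differentiable (P : Pot d h) {c : α → ℝ} {w : α → Space d} (hc : Measurable c)
    (hc1 : ∀ᵐ a ∂μ, |c a| ≤ 1) (hw : Measurable w) (hwi : Integrable (fun a => ‖w a‖) μ) :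
    Differentiable ℝ fun ξ : Space d => ∫ a, P.g (c a • ξ + w a) ∂μ := by
  intro ξ₀
  set F' : Space d → α → Space d →L[ℝ] Space d := fun ξ a =>
    c a • fderiv ℝ P.g (c a • ξ + w a) with hF'
  have hm : ∀ ξ : Space d, Measurable fun a => c a • ξ + w a := fun ξ => (hc.smul_const ξ).add hw
  have hi : Integrable (fun a => P.g (c a • ξ₀ + w a)) μ := by
    refine avg_integrable P (hm ξ₀) (Integrable.mono' ((integrable_const ‖ξ₀‖).add hwi)
      (hm ξ₀).norm.aestronglyMeasurable ?_)
    filter_upwards [hc1] with a ha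
    rw [Real.norm_eq_abs, abs_norm]
    refine (norm_add_le _ _).trans (add_le_add ?_ le_rfl)
    rw [norm_smul, Real.norm_eq_abs]
    exact mul_le_of_le_one_left (norm_nonneg _) ha
  refine (hasFDerivAt_integral_of_dominated_of_fderiv_le (F' := F') (bound := fun _ => h)
    (Metric.ball_mem_nhds ξ₀ one_pos)
    (Eventually.of_forall fun ξ => (P.smooth.continuous.measurable.comp (hm ξ)).aestronglyMeasurable)
    hi ?_ ?_ (integrable_const h) (ae_of_all _ fun a ξ _ => ?_)).differentiableAt
  · exact hc.aestronglyMeasurable.smul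
      ((P.smooth.continuous_fderiv one_ne_zero).comp_aestronglyMeasurable
        (hm ξ₀).aestronglyMeasurable)
  · filter_upwards [hc1] with a ha ξ _
    rw [hF']
    beta_reduce
    rw [norm_smul, Real.norm_eq_abs]
    exact (mul_le_of_le_one_left (norm_nonneg _) ha).trans (P.norm_fderiv_g _)
  · have h1 : HasFDerivAt (fun ξ : Space d => c a • ξ + w a)
        (c a • ContinuousLinearMap.id ℝ (Space d)) ξ :=
      ((hasFDerivAt_id ξ).const_smul (c a)).add_const (w a)
    refine (((P.smooth.differentiable one_ne_zero) _).hasFDerivAt.comp ξ h1).congr_fderiv ?_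
    ext v
    simp [hF']

/-- The Gaussian average of a vector field at variance `r`. -/
def gavg (r : ℝ) (g : Space d → Space d) (b : Space d) : Space d :=
  ∫ z, g (b + Real.sqrt r • z) ∂gam d

theorem Gfun_eq_gavg (g : Space d → Space d) (t : ℝ) (ξ : Space d) :
    Gfun g t ξ = gavg (1 - t ^ 2) g (t • ξ) := rfl

theorem integrable_gavg (P : Pot d h) (s : ℝ) (b : Space d) :
    Integrable (fun z => P.g (b + s • z)) (gam d) := by
  refine avg_integrable P (by fun_prop) (Integrable.mono' ((integrable_const ‖b‖).add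
    (integrable_norm_gam.const_mul |s|)) (by fun_prop) (ae_of_all _ fun z => ?_))
  rw [Real.norm_eq_abs, abs_norm]
  refine (norm_add_le _ _).trans (add_le_add le_rfl ?_)
  rw [norm_smul, Real.norm_eq_abs]

theorem gavg_differentiable (P : Pot d h) (r : ℝ) : Differentiable ℝ (gavg r P.g) := by
  have := avg_differentiable (μ := gam d) P (c := fun _ => 1) (w := fun z => Real.sqrt r • z)
    measurable_const (by simp) (by fun_prop) (by
      simpa [norm_smul] using integrable_norm_gam.const_mul |Real.sqrt r|)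
  simp only [one_smul] at this
  exact this

theorem gavg_lip (P : Pot d h) (r : ℝ) (b b' : Space d) :
    ‖gavg r P.g b - gavg r P.g b'‖ ≤ h * ‖b - b'‖ := by
  rw [gavg, gavg, ← integral_sub (integrable_gavg P _ _) (integrable_gavg P _ _)]
  refine (norm_integral_le_of_norm_le_const (C := h * ‖b - b'‖) (ae_of_all _ fun z => ?_)).trans
    (le_of_eq (by simp))
  refine (P.lip _ _).trans_eq ?_
  rw [add_sub_add_right_eq_sub]

theorem gavg_norm_le (P : Pot d h) {r : ℝ} (hr : r ≤ 1) (b : Space d) :
    ‖gavg r P.g b‖ ≤ 2 * gsize P + h * ‖b‖ := by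
  have hh := P.h_nonneg
  have hi : Integrable (fun z : Space d => ‖P.g 0‖ + h * ‖b‖ + h * ‖z‖) (gam d) :=
    (integrable_const _).add (integrable_norm_gam.const_mul h)
  refine (norm_integral_le_of_norm_le hi (ae_of_all _ fun z => ?_)).trans ?_
  · refine (P.norm_g_le _).trans ?_
    rw [add_assoc, ← mul_add]
    refine add_le_add le_rfl (mul_le_mul_of_nonneg_left ((norm_add_le _ _).trans ?_) hh)
    refine add_le_add le_rfl ?_
    rw [norm_smul, Real.norm_eq_abs, abs_of_nonneg (Real.sqrt_nonneg _)]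
    exact mul_le_of_le_one_left (norm_nonneg _) (Real.sqrt_le_one.2 hr)
  · rw [integral_add (integrable_const _) (integrable_norm_gam.const_mul h), integral_const,
      probReal_univ, one_smul, integral_const_mul, gsize]
    nlinarith [mul_le_mul_of_nonneg_left (gam_norm_le_sqrt d) hh, norm_nonneg (P.g 0)]

/-- Smoothing composes with the average over a Gaussian argument. -/
theorem gavg_comp (P : Pot d h) {r : ℝ} (hr : 0 ≤ r) (σ : ℝ) (b : Space d) :
    ∫ w, gavg r P.g (b + σ • w) ∂gam d = gavg (σ ^ 2 + r) P.g b := by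
  have hm : AEStronglyMeasurable (fun x => P.g (b + x))
      ((gam d).map fun w => Real.sqrt (σ ^ 2 + Real.sqrt r ^ 2) • w) :=
    (P.smooth.continuous.comp (continuous_const_add b)).aestronglyMeasurable
  have h1 := gam_combine (d := d) σ (Real.sqrt r)
  rw [Real.sq_sqrt hr] at h1 hm
  have hi1 : Integrable (fun x => P.g (b + x)) ((gam d).map fun w => Real.sqrt (σ ^ 2 + r) • w) :=
    (integrable_map_measure hm (by fun_prop)).2 (integrable_gavg P _ _)
  have hi2 : Integrable (fun q : Space d × Space d => P.g (b + σ • q.1 + Real.sqrt r • q.2))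
      ((gam d).prod (gam d)) := by
    rw [← h1] at hi1
    have := (integrable_map_measure hi1.1 (by fun_prop)).1 hi1
    simpa only [Function.comp_def, ← add_assoc] using this
  calc ∫ w, gavg r P.g (b + σ • w) ∂gam d
      = ∫ q, P.g (b + σ • q.1 + Real.sqrt r • q.2) ∂(gam d).prod (gam d) := by
        rw [integral_prod _ hi2]; rfl
    _ = ∫ x, P.g (b + x) ∂((gam d).prod (gam d)).map
          (fun w : Space d × Space d => σ • w.1 + Real.sqrt r • w.2) := by
        rw [integral_map (by fun_prop) (by rw [h1]; exact hm)]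
        simp only [add_assoc]
    _ = gavg (σ ^ 2 + r) P.g b := by
        rw [h1, integral_map (by fun_prop) hm]
        rfl

theorem Gfun_lip (P : Pot d h) (t : ℝ) (ξ ξ' : Space d) :
    ‖Gfun P.g t ξ - Gfun P.g t ξ'‖ ≤ h * (|t| * ‖ξ - ξ'‖) := by
  rw [Gfun_eq_gavg, Gfun_eq_gavg]
  refine (gavg_lip P _ _ _).trans_eq ?_
  rw [← smul_sub, norm_smul, Real.norm_eq_abs]

theorem continuous_Gfun (P : Pot d h) (ξ : Space d) : Continuous fun t => Gfun P.g t ξ := by
  refine continuous_iff_continuousAt.2 fun t₀ => ?_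
  set B := |t₀| + 1 with hB
  refine continuousAt_of_dominated
    (bound := fun z => ‖P.g 0‖ + h * (B * ‖ξ‖ + ‖z‖))
    (Eventually.of_forall fun t =>
      (P.smooth.continuous.comp (by fun_prop)).aestronglyMeasurable) ?_
    ((integrable_const _).add ((((integrable_const _)).add integrable_norm_gam).const_mul h))
    (ae_of_all _ fun z => (P.smooth.continuous.comp (by fun_prop)).continuousAt)
  filter_upwards [Metric.ball_mem_nhds t₀ one_pos] with t ht
  refine ae_of_all _ fun z => (P.norm_g_le _).trans ?_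
  refine add_le_add le_rfl (mul_le_mul_of_nonneg_left ((norm_add_le _ _).trans ?_) P.h_nonneg)
  rw [norm_smul, norm_smul, Real.norm_eq_abs, Real.norm_eq_abs, abs_of_nonneg (Real.sqrt_nonneg _)]
  refine add_le_add (mul_le_mul_of_nonneg_right ?_ (norm_nonneg _))
    (mul_le_of_le_one_left (norm_nonneg _) (Real.sqrt_le_one.2 (by nlinarith [sq_nonneg t])))
  rw [Metric.mem_ball, Real.dist_eq] at ht
  linarith [abs_sub_abs_le_abs_sub t t₀]

/-- The transport field as an average over time and space. -/
theorem Gbar_eq_avg (P : Pot d h) (ξ : Space d) :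
    Gbar P.g ξ = ∫ p : ℝ × Space d, P.g (p.1 • ξ + Real.sqrt (1 - p.1 ^ 2) • p.2)
      ∂(volume.restrict (Ioc (0 : ℝ) 1)).prod (gam d) := by
  have : IsProbabilityMeasure (volume.restrict (Ioc (0 : ℝ) 1)) := ⟨by simp⟩
  have hn : Integrable (fun p : ℝ × Space d => ‖ξ‖ + ‖p.2‖)
      ((volume.restrict (Ioc (0 : ℝ) 1)).prod (gam d)) :=
    (integrable_const _).add (integrable_norm_gam.comp_snd _)
  rw [Gbar, intervalIntegral.integral_of_le zero_le_one, integral_prod]
  · rfl
  · refine avg_integrable P (by fun_prop) (Integrable.mono' hn (by fun_prop) ?_)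
    refine (Measure.quasiMeasurePreserving_fst.ae (ae_restrict_mem measurableSet_Ioc)).mono
      fun p hp => ?_
    rw [Real.norm_eq_abs, abs_norm]
    refine (norm_add_le _ _).trans ?_
    rw [norm_smul, norm_smul, Real.norm_eq_abs, Real.norm_eq_abs, abs_of_nonneg hp.1.le,
      abs_of_nonneg (Real.sqrt_nonneg _)]
    exact add_le_add (mul_le_of_le_one_left (norm_nonneg _) hp.2)
      (mul_le_of_le_one_left (norm_nonneg _) (Real.sqrt_le_one.2 (by nlinarith [sq_nonneg p.1])))

/-- Regularity of the transport field. -/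
theorem gbarReg : GbarReg := by
  intro d h P
  refine ⟨?_, fun ξ ξ' => ?_⟩
  · have : IsProbabilityMeasure (volume.restrict (Ioc (0 : ℝ) 1)) := ⟨by simp⟩
    rw [show Gbar P.g = _ from funext (Gbar_eq_avg P)]
    refine avg_differentiable P measurable_fst ?_ (by fun_prop) ?_
    · refine (Measure.quasiMeasurePreserving_fst.ae (ae_restrict_mem measurableSet_Ioc)).mono
        fun p hp => ?_
      rw [abs_of_nonneg hp.1.le]; exact hp.2
    · refine Integrable.mono' (integrable_norm_gam.comp_snd _) (by fun_prop) (ae_of_all _ fun p => ?_)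
      rw [Real.norm_eq_abs, abs_norm, norm_smul, Real.norm_eq_abs,
        abs_of_nonneg (Real.sqrt_nonneg _)]
      exact mul_le_of_le_one_left (norm_nonneg _) (Real.sqrt_le_one.2 (by nlinarith [sq_nonneg p.1]))
  · rw [Gbar, Gbar, ← intervalIntegral.integral_sub ((continuous_Gfun P ξ).intervalIntegrable _ _)
      ((continuous_Gfun P ξ').intervalIntegrable _ _)]
    refine (intervalIntegral.norm_integral_le_of_norm_le_const (C := h * ‖ξ - ξ'‖)
      fun t ht => ?_).trans_eq (by simp)
    rw [uIoc_of_le zero_le_one] at ht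
    refine (Gfun_lip P t ξ ξ').trans (mul_le_mul_of_nonneg_left ?_ P.h_nonneg)
    rw [abs_of_nonneg ht.1.le]
    exact mul_le_of_le_one_left (norm_nonneg _) ht.2

end Vale.Agent.P347
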