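import Vale.Agent.P347.LocalStep

/-!
Block H: the local sampler. The first-order bias, the bias of the mean estimator and the local
step, from the properties of the tilted Gaussian laws, the noise lemma and the exact side.
-/

noncomputable section

open MeasureTheory ProbabilityTheory
open scoped RealInnerProductSpace NNReal

namespace Vale.Agent.P347

/-- Bias of the first-order sampler against smoothed Lipschitz tests. -/
theorem firstOrderBias (hA : MuBasic) (hN : NoiseLemma) (hP : PfLip) (hE : ExactSide)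
    (hR : GbarReg) : FirstOrderBias :=
  Loc.firstOrderBias hA hN hP hE hR

/-- Bias of the mean estimator. -/
theorem meanBias (hA : MuBasic) (hM : PoincareMu) (hI : InterpMu) (hId : PosteriorId)
    (hD : PostDeriv) (hF : FirstOrderBias) : MeanBias :=
  Loc.meanBias hA hM hI hId hD hF

namespace Loc

variable {d m J M : ℕ} {h : ℝ}

/-- The exact side of the local step. -/
theorem exact_step (hA : MuBasic) (hS : SteinMu) (hR : GbarReg) {Cv : ℝ}
    (hV : ∀ (d : ℕ) (ι : Type) [Fintype ι] (A : (ι → Space d) → Space d) (L : ℝ),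
      0 ≤ L → Differentiable ℝ A → Lip2 L A →
        (∑ i, var (gp ι d) (fun ω => A ω i) ≤ Cv * L ^ 2 * d) ∧
        ∀ (H : Space d → ℝ) (B1 B2 : ℝ), ContDiff ℝ 2 H → GradBound H B1 → HessBound H B2 → 0 ≤ B2 →
          ∑ i, var (gp ι d) (fun ω => fderiv ℝ H (A ω) (ev i)) ≤ Cv * (L * B2) ^ 2)
    (P : Pot d h) {Ce : ℝ} (hCe : 0 ≤ Ce) (hh : h ≤ 1)
    {ν : Measure (Space d × (Space d × (Fin M → Space d)))}
    {Nn : Space d → (Fin M → Space d) → Space d} [IsProbabilityMeasure ν]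
    (hfst : ν.map Prod.fst = mu P) (hsnd : ν.map Prod.snd = (gam d).prod (gp (Fin M) d))
    (hmean : ∀ ξ, ∫ ω, Nn ξ ω ∂gp (Fin M) d = 0)
    (hdiff : Differentiable ℝ (fun p : Space d × (Fin M → Space d) => Nn p.1 p.2))
    (hlip : ∀ ξ ξ' ω ω', ‖Nn ξ ω - Nn ξ' ω'‖
      ≤ Ce * h * Real.sqrt (‖ξ - ξ'‖ ^ 2 + ∑ i, ‖ω i - ω' i‖ ^ 2))
    (hsq : ∫ p, ‖p.1 - (p.2.1 - Gbar P.g p.2.1 + Nn p.2.1 p.2.2)‖ ^ 2 ∂ν
      ≤ (Ce * h * gsize P) ^ 2)
    {Q : Space d → ℝ} {b1 b2 : ℝ} (hQ : ContDiff ℝ 2 Q) (hQ1 : GradBound Q b1)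
    (hQ2 : HessBound Q b2) (hb2 : 0 ≤ b2) :
    ∃ c1 : Space d, c1 = (∫ ξ, Gbar P.g ξ ∂gam d) - ∫ x, P.g x ∂mu P ∧
      |(∫ x, Q x ∂mu P) - ∫ p, Q (p.1 - Gbar P.g p.1 + c1 + Nn p.1 p.2)
          ∂(gam d).prod (gp (Fin M) d)|
        ≤ Real.sqrt |Cv| * ((2 + Ce) * b2) * (2 * (2 * (Ce * h * gsize P)))
          + b2 * (2 * (Ce * h * gsize P)) ^ 2 := by
  haveI := (hA d h P).1
  have h0 := P.h_nonneg
  have hG := gsize_nonneg P
  have hρ : M2 ((gam d).prod (gp (Fin M) d)) := m2_gam.prod m2_gp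
  have hν2 := nu_m2 hA P hρ hfst hsnd
  have hGl := gbar_lp hR P
  have hNl := exact_lp (mul_nonneg hCe h0) hlip
  have hQl := gradBound_lp (hQ.differentiable (by norm_num)) hQ1
  set B : Space d × (Fin M → Space d) → Space d := fun q => q.1 - Gbar P.g q.1 + Nn q.1 q.2
    with hB
  have hBl : Lp' B := (Lp'.fst.sub (hGl.comp Lp'.fst)).add hNl
  have hBs : Lp' (fun p : Space d × (Space d × (Fin M → Space d)) => B p.2) :=
    Lp'.comp (g := fun p : Space d × (Space d × (Fin M → Space d)) => p.2) hBl Lp'.snd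
  set D : Space d × (Space d × (Fin M → Space d)) → Space d := fun p => p.1 - B p.2 with hD
  have hDl : Lp' D := Lp'.fst.sub hBs
  set c1 := ∫ p, D p ∂ν with hc1
  have mpf : MeasurePreserving Prod.fst ν (mu P) := ⟨measurable_fst, hfst⟩
  have mps : MeasurePreserving Prod.snd ν ((gam d).prod (gp (Fin M) d)) := ⟨measurable_snd, hsnd⟩
  have ec : c1 = (∫ ξ, Gbar P.g ξ ∂gam d) - ∫ x, P.g x ∂mu P := by
    rw [hc1, hD, integral_sub (lp_int hν2 Lp'.fst) (lp_int hν2 hBs),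
      mp_integral mpf (f := fun x : Space d => x) continuous_id'.aestronglyMeasurable,
      mp_integral mps hBl.cont.aestronglyMeasurable, mu_mean hA hS P, hB,
      integral_add (lp_int hρ (Lp'.fst.sub (hGl.comp Lp'.fst))) (lp_int hρ hNl),
      integral_prod _ (lp_int hρ hNl)]
    simp only [hmean, integral_zero, add_zero]
    rw [integral_fun_fst (fun ξ : Space d => ξ - Gbar P.g ξ),
      integral_sub (lp_int m2_gam idl) (lp_int m2_gam hGl), gam_mean]
    simp only [probReal_univ, one_smul]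
    abel
  refine ⟨c1, ec, ?_⟩
  set E := Ce * h * gsize P with hE
  have hE0 : 0 ≤ E := by positivity
  -- the variance of the gradient along the transport
  have hYd : Differentiable ℝ (fun η : Option (Fin M) → Space d =>
      B (η none, fun k => η (some k)) + c1) := by
    have := (hR d h P).1
    have := hdiff
    have hr : Differentiable ℝ (fun η : Option (Fin M) → Space d =>
        ((η none, fun k => η (some k)) : Space d × (Fin M → Space d))) := by fun_prop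
    exact (((differentiable_fst.sub ((hR d h P).1.comp differentiable_fst)).add hdiff).comp hr).add
      (differentiable_const c1)
  have hYL : Lip2 (2 + Ce) (fun η : Option (Fin M) → Space d =>
      B (η none, fun k => η (some k)) + c1) := fun η η' => by
    simp only [add_sub_add_right_eq_sub, hB, Fintype.sum_option]
    rw [add_sub_add_comm, sub_sub_sub_comm]
    refine ((norm_add_le _ _).trans (add_le_add ((norm_sub_le _ _).trans
      (add_le_add le_rfl ((hR d h P).2 _ _))) (hlip _ _ _ _))).trans ?_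
    set S := Real.sqrt (‖η none - η' none‖ ^ 2 + ∑ i, ‖η (some i) - η' (some i)‖ ^ 2)
    have hS : ‖η none - η' none‖ ≤ S :=
      Real.le_sqrt_of_sq_le (le_add_of_nonneg_right (Finset.sum_nonneg fun i _ => sq_nonneg _))
    have n1 := mul_le_mul hh hS (norm_nonneg _) zero_le_one
    have n2 := mul_le_mul_of_nonneg_right (mul_le_of_le_one_right hCe hh) (Real.sqrt_nonneg
      (‖η none - η' none‖ ^ 2 + ∑ i, ‖η (some i) - η' (some i)‖ ^ 2))
    linarith
  have hv := ((hV d (Option (Fin M)) _ (2 + Ce) (by linarith) hYd hYL).2 Q b1 b2 hQ hQ1 hQ2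
    hb2).trans vv_bound
  have hfm : ∀ i : Fin d, AEStronglyMeasurable
      (fun q : Space d × (Fin M → Space d) => fderiv ℝ Q (B q + c1) (ev i))
      ((gam d).prod (gp (Fin M) d)) := fun i =>
    (((fderiv_lp hQ hQ2 hb2).comp (hBl.add (Lp'.const c1))).cont.clm_apply
      continuous_const).aestronglyMeasurable
  have hV' : ∑ i, var ν (fun p => fderiv ℝ Q (B p.2 + c1) (ev i))
      ≤ (Real.sqrt |Cv| * ((2 + Ce) * b2)) ^ 2 := by
    refine (le_of_eq (Finset.sum_congr rfl fun i _ => ?_)).trans hv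
    rw [var_comp mps (hfm i), ← var_comp option_law (hfm i)]
  have hsq' : ∫ p, ‖D p - c1‖ ^ 2 ∂ν ≤ (2 * E) ^ 2 := by
    refine (sq_center (lp_memLp hν2 hDl)).trans ?_
    calc 4 * ∫ p, ‖D p‖ ^ 2 ∂ν ≤ 4 * E ^ 2 := by gcongr
      _ = _ := by ring
  have key := shift_bound hν2 hQ hQ1 hQ2 hb2 (Y := fun p => B p.2 + c1) (δ := fun p => D p - c1)
    (hBs.add (Lp'.const c1)) (hDl.sub (Lp'.const c1)) (by positivity) (by positivity) hV' hsq'
  have hz : ∫ p, (D p - c1) ∂ν = 0 := by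
    rw [integral_sub (lp_int hν2 hDl) (integrable_const _), integral_const, probReal_univ,
      one_smul, ← hc1, sub_self]
  rw [hz, norm_zero, mul_zero, zero_add] at key
  have e1 : ∫ p, Q (B p.2 + c1 + (D p - c1)) ∂ν = ∫ x, Q x ∂mu P := by
    rw [← mp_integral mpf hQl.cont.aestronglyMeasurable]
    refine integral_congr_ae (ae_of_all _ fun p => congrArg Q ?_)
    simp only [hD]; abel
  have e2 : ∫ p, Q (B p.2 + c1) ∂ν = ∫ p, Q (p.1 - Gbar P.g p.1 + c1 + Nn p.1 p.2)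
      ∂(gam d).prod (gp (Fin M) d) := by
    rw [mp_integral mps (f := fun q => Q (B q + c1))
      (hQl.comp (hBl.add (Lp'.const c1))).cont.aestronglyMeasurable]
    refine integral_congr_ae (ae_of_all _ fun p => congrArg Q ?_)
    simp only [hB]; abel
  rwa [e1, e2] at key

/-- The two deterministic maps of the local step. -/
theorem maps_step (hR : GbarReg) {Cv : ℝ}
    (hV : ∀ (d : ℕ) (ι : Type) [Fintype ι] (A : (ι → Space d) → Space d) (L : ℝ),
      0 ≤ L → Differentiable ℝ A → Lip2 L A →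
        (∑ i, var (gp ι d) (fun ω => A ω i) ≤ Cv * L ^ 2 * d) ∧
        ∀ (H : Space d → ℝ) (B1 B2 : ℝ), ContDiff ℝ 2 H → GradBound H B1 → HessBound H B2 → 0 ≤ B2 →
          ∑ i, var (gp ι d) (fun ω => fderiv ℝ H (A ω) (ev i)) ≤ Cv * (L * B2) ^ 2)
    (N : Nodes m) (P : Pot d h) {Cw e : ℝ} (hN : N.Ok Cw e) (he : 0 ≤ e) (hh : h ≤ 1)
    {c1 : Space d} (hc1 : c1 = (∫ ξ, Gbar P.g ξ ∂gam d) - ∫ x, P.g x ∂mu P) {R : ℝ}
    (hR0 : ‖(∫ ω, meanEst (J := J) N P ω ∂gp (RI m J) d) - ∫ x, P.g x ∂mu P‖ ≤ R)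
    {Q : Space d → ℝ} {b1 b2 : ℝ} (hQ : ContDiff ℝ 2 Q) (hQ1 : GradBound Q b1)
    (hQ2 : HessBound Q b2) (hb2 : 0 ≤ b2) :
    |(∫ ξ, Q (ξ - nodeMean N P ξ + shiftMean N P J) ∂gam d)
        - ∫ ξ, Q (ξ - Gbar P.g ξ + c1) ∂gam d|
      ≤ b1 * R + Real.sqrt |Cv| * (2 * b2) * (2 * (6 * e * gsize P + 2 * R))
        + b2 * (6 * e * gsize P + 2 * R) ^ 2 := by
  have hG := gsize_nonneg P
  have hRn : 0 ≤ R := (norm_nonneg _).trans hR0
  have hGl := gbar_lp hR P
  have hMl := nodeMean_lp N P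
  set c2 := shiftMean N P J with hc2
  set M0 := ∫ x, P.g x ∂mu P
  set Y := fun ξ : Space d => ξ - Gbar P.g ξ + c1 with hY
  set δ := fun ξ : Space d => Gbar P.g ξ - nodeMean N P ξ + (c2 - c1) with hδ
  have hYl : Lp' Y := (idl.sub hGl).add (Lp'.const c1)
  have hΔ : Lp' (fun ξ : Space d => Gbar P.g ξ - nodeMean N P ξ) := hGl.sub hMl
  have hδl : Lp' δ := hΔ.add (Lp'.const _)
  have hmd : ∫ ξ, δ ξ ∂gam d = M0 - ∫ ω, meanEst (J := J) N P ω ∂gp (RI m J) d := by
    rw [hδ, integral_add (lp_int m2_gam hΔ) (integrable_const _),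
      integral_sub (lp_int m2_gam hGl) (lp_int m2_gam hMl), integral_const, probReal_univ, one_smul,
      hc2, shiftMean, hc1]
    abel
  have hYd : Differentiable ℝ (fun η : Unit → Space d => Y (η ())) :=
    ((differentiable_id.sub (hR d h P).1).add (differentiable_const c1)).comp
      (differentiable_apply ())
  have hYL : Lip2 2 (fun η : Unit → Space d => Y (η ())) := fun η η' => by
    simp only [hY, add_sub_add_right_eq_sub]
    rw [sub_sub_sub_comm]
    refine ((norm_sub_le _ _).trans (add_le_add le_rfl ((hR d h P).2 _ _))).trans ?_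
    have := le_dist2 η η' ()
    have n1 := mul_le_mul hh this (norm_nonneg _) zero_le_one
    unfold dist2 at *
    linarith
  have hv := ((hV d Unit _ 2 (by norm_num) hYd hYL).2 Q b1 b2 hQ hQ1 hQ2 hb2).trans
    vv_bound
  have hV' : ∑ i, var (gam d) (fun ξ => fderiv ℝ Q (Y ξ) (ev i))
      ≤ (Real.sqrt |Cv| * (2 * b2)) ^ 2 := by
    refine (le_of_eq (Finset.sum_congr rfl fun i _ => ?_)).trans hv
    exact (var_comp (gp_one (d := d) ()) (((fderiv_lp hQ hQ2 hb2).comp hYl).cont.clm_apply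
      continuous_const).aestronglyMeasurable).symm
  set E := 6 * e * gsize P + 2 * R with hE
  have hsq : ∫ ξ, ‖δ ξ‖ ^ 2 ∂gam d ≤ E ^ 2 := by
    have hk : ‖∫ ξ, δ ξ ∂gam d‖ ≤ R := by rwa [hmd, norm_sub_rev]
    set md := ∫ ξ, δ ξ ∂gam d
    set mΔ := ∫ ξ, (Gbar P.g ξ - nodeMean N P ξ) ∂gam d
    have hm : md = mΔ + (c2 - c1) := by
      simp only [md, hδ]
      rw [integral_add (lp_int m2_gam hΔ) (integrable_const _), integral_const, probReal_univ,
        one_smul]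
    have hc := sq_center (lp_memLp m2_gam hΔ)
    have hq : ∫ ξ, ‖Gbar P.g ξ - nodeMean N P ξ‖ ^ 2 ∂gam d ≤ (2 * e * gsize P) ^ 2 := by
      simpa only [norm_sub_rev] using (quad_err hR N P hN).2
    refine (integral_mono_of_nonneg (ae_of_all _ fun ξ => sq_nonneg _)
      (((lp_memLp m2_gam (hΔ.sub (Lp'.const mΔ))).norm.integrable_sq.const_mul 2).fun_add
        (integrable_const (2 * ‖md‖ ^ 2))) (ae_of_all _ fun ξ => ?_)).trans ?_
    · have e' : δ ξ = (Gbar P.g ξ - nodeMean N P ξ - mΔ) + md := by rw [hm, hδ]; abel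
      simp only [e']
      have := pow_le_pow_left₀ (norm_nonneg _)
        (norm_add_le (Gbar P.g ξ - nodeMean N P ξ - mΔ) md) 2
      nlinarith [sq_nonneg (‖Gbar P.g ξ - nodeMean N P ξ - mΔ‖ - ‖md‖)]
    · rw [integral_add ((lp_memLp m2_gam (hΔ.sub (Lp'.const mΔ))).norm.integrable_sq.const_mul 2)
        (integrable_const _), integral_const_mul, integral_const, probReal_univ, one_smul]
      have := pow_le_pow_left₀ (norm_nonneg md) hk 2
      nlinarith [mul_nonneg (mul_nonneg he hG) hRn]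
  have key := shift_bound m2_gam hQ hQ1 hQ2 hb2 hYl hδl (by positivity) (by positivity) hV' hsq
  rw [hmd, norm_sub_rev] at key
  have e1 : ∀ ξ, Y ξ + δ ξ = ξ - nodeMean N P ξ + c2 := fun ξ => by simp only [hY, hδ]; abel
  simp only [e1] at key
  exact key.trans (by linarith [mul_le_mul_of_nonneg_left hR0 (gradBound_nonneg hQ1)])

/-- The arithmetic of the local step. -/
theorem step_arith {Ce A V CM h e p Cw S G b1 b2 R : ℝ} (hCe : 0 ≤ Ce) (hA : 0 ≤ A) (hV : 0 ≤ V)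
    (hM : 0 ≤ CM) (hh : 0 ≤ h) (hh1 : h ≤ 1) (he : 0 ≤ e) (hp : 0 ≤ p) (hp1 : p ≤ 1) (hCw : 1 ≤ Cw)
    (hS : 0 ≤ S) (hG : 0 ≤ G) (hGS : G ≤ 2 * S) (hsm : Cw ^ 2 * (h + e) * S ≤ 1) (hb1 : 0 ≤ b1)
    (hb2 : 0 ≤ b2) (hR : R = CM * Cw ^ 2 * h * (h + e + p) * G) :
    V * ((2 + Ce) * b2) * (2 * (2 * (Ce * h * G))) + b2 * (2 * (Ce * h * G)) ^ 2
      + A * b2 * (Ce * h) ^ 2 * S / h + A * b2 * (20 * h * Cw) ^ 2 * S / h
      + (b1 * R + V * (2 * b2) * (2 * (6 * e * G + 2 * R)) + b2 * (6 * e * G + 2 * R) ^ 2)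
      ≤ (8 * V * (2 + Ce) * Ce + 16 * Ce ^ 2 + A * (Ce ^ 2 + 400) + 2 * CM
          + 4 * V * (12 + 12 * CM) + (12 + 12 * CM) ^ 2)
        * Cw ^ 4 * (b2 * (h + e) + b1 * h * (h + e + p)) * S := by
  subst hR
  have hW : 1 ≤ Cw ^ 2 := one_le_pow₀ hCw
  set W := Cw ^ 2
  rw [show Cw ^ 4 = W * W by simp only [W]; ring, show (20 * h * Cw) ^ 2 = 400 * h ^ 2 * W by
    simp only [W]; ring]
  set T := W * W * (b2 * (h + e) + b1 * h * (h + e + p)) * S with hT
  have hWW : W ≤ W * W := le_mul_of_one_le_right (by linarith) hW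
  have hTb : W * W * (b2 * (h + e)) * S ≤ T := by rw [hT]; gcongr; simp; positivity
  have hTa : W * W * (b1 * h * (h + e + p)) * S ≤ T := by
    rw [hT]; gcongr; simp; positivity
  have u1 : b2 * (h * S) ≤ T := by
    refine le_trans ?_ hTb
    calc b2 * (h * S) = 1 * (b2 * h) * S := by ring
      _ ≤ _ := by gcongr <;> nlinarith
  have u2 : b2 * (W * (h + e) * S) ≤ T := by
    refine le_trans ?_ hTb
    calc b2 * (W * (h + e) * S) = W * (b2 * (h + e)) * S := by ring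
      _ ≤ _ := by gcongr
  -- exact side
  have k1 : V * ((2 + Ce) * b2) * (2 * (2 * (Ce * h * G))) ≤ 8 * V * (2 + Ce) * Ce * T := by
    calc V * ((2 + Ce) * b2) * (2 * (2 * (Ce * h * G)))
        ≤ V * ((2 + Ce) * b2) * (2 * (2 * (Ce * h * (2 * S)))) := by gcongr
      _ = 8 * V * (2 + Ce) * Ce * (b2 * (h * S)) := by ring
      _ ≤ _ := by gcongr
  have k2 : b2 * (2 * (Ce * h * G)) ^ 2 ≤ 16 * Ce ^ 2 * T := by
    have hhS : h * S ≤ 1 := le_trans (by gcongr; nlinarith) hsm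
    calc b2 * (2 * (Ce * h * G)) ^ 2 ≤ b2 * (2 * (Ce * h * (2 * S))) ^ 2 := by gcongr
      _ = 16 * Ce ^ 2 * (b2 * (h * S)) * (h * S) := by ring
      _ ≤ 16 * Ce ^ 2 * T * 1 := by
          have : 0 ≤ T := le_trans (by positivity) u1
          gcongr
      _ = _ := mul_one _
  have k3 : A * b2 * (Ce * h) ^ 2 * S / h + A * b2 * (400 * h ^ 2 * W) * S / h
      ≤ A * (Ce ^ 2 + 400) * T := by
    have e1 : A * b2 * (Ce * h) ^ 2 * S / h = A * Ce ^ 2 * (b2 * (h * S)) := by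
      rcases eq_or_ne h 0 with rfl | hn
      · simp
      · field_simp
    have e2 : A * b2 * (400 * h ^ 2 * W) * S / h = A * 400 * (b2 * (W * h * S)) := by
      rcases eq_or_ne h 0 with rfl | hn
      · simp
      · field_simp
    rw [e1, e2, show A * (Ce ^ 2 + 400) * T = A * Ce ^ 2 * T + A * 400 * T by ring]
    gcongr
    exact le_trans (by gcongr; linarith) u2
  -- the two maps
  have hR1 : CM * W * h * (h + e + p) * G ≤ 6 * CM * (W * (h + e) * S) := by
    have : h * (h + e + p) ≤ 3 * (h + e) := by nlinarith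
    calc CM * W * h * (h + e + p) * G = CM * W * (h * (h + e + p)) * G := by ring
      _ ≤ CM * W * (3 * (h + e)) * (2 * S) := by gcongr
      _ = _ := by ring
  set U := W * (h + e) * S
  have hE : 6 * e * G + 2 * (CM * W * h * (h + e + p) * G) ≤ (12 + 12 * CM) * U := by
    have : e * G ≤ 2 * U := by
      calc e * G ≤ (W * (h + e)) * (2 * S) := by gcongr; nlinarith
        _ = _ := by simp only [U]; ring
    linarith
  have k4 : b1 * (CM * W * h * (h + e + p) * G) ≤ 2 * CM * T := by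
    calc b1 * (CM * W * h * (h + e + p) * G) ≤ b1 * (CM * W * h * (h + e + p) * (2 * S)) := by gcongr
      _ = 2 * CM * (W * (b1 * h * (h + e + p)) * S) := by ring
      _ ≤ 2 * CM * T := by
          refine mul_le_mul_of_nonneg_left (le_trans ?_ hTa) (by positivity)
          gcongr
  have hU : 0 ≤ U := by positivity
  have hE0 : 0 ≤ 6 * e * G + 2 * (CM * W * h * (h + e + p) * G) := by positivity
  have k5 : V * (2 * b2) * (2 * (6 * e * G + 2 * (CM * W * h * (h + e + p) * G)))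
      ≤ 4 * V * (12 + 12 * CM) * T := by
    calc _ ≤ V * (2 * b2) * (2 * ((12 + 12 * CM) * U)) := by gcongr
      _ = 4 * V * (12 + 12 * CM) * (b2 * U) := by ring
      _ ≤ _ := by gcongr
  have k6 : b2 * (6 * e * G + 2 * (CM * W * h * (h + e + p) * G)) ^ 2 ≤ (12 + 12 * CM) ^ 2 * T := by
    calc _ ≤ b2 * ((12 + 12 * CM) * U) ^ 2 := by gcongr
      _ = (12 + 12 * CM) ^ 2 * (b2 * U) * U := by ring
      _ ≤ (12 + 12 * CM) ^ 2 * T * 1 := by
          have : 0 ≤ T := le_trans (by positivity) u1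
          gcongr
      _ = _ := mul_one _
  linarith

end Loc

/-- The local step. -/
theorem stepTheorem (hA : MuBasic) (hS : SteinMu) (hN : NoiseLemma) (hV : VecVar) (hP : PfBound)
    (hE : ExactSide) (hR : GbarReg) (hM : MeanBias) : StepTheorem := by
  obtain ⟨Cn, cn, hcn, hn⟩ := hN
  obtain ⟨Cv, hv⟩ := hV
  obtain ⟨Ce, hCe, he'⟩ := hE
  obtain ⟨CM, cM, hcM, hm⟩ := hM
  set c := min (min cM (1 / 8)) (Real.sqrt cn / (8 * ((Ce + 20) ^ 2 + 1))) with hc_def
  have hc : 0 < c := lt_min (lt_min hcM (by norm_num)) (by positivity)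
  refine ⟨8 * Real.sqrt |Cv| * (2 + Ce) * Ce + 16 * Ce ^ 2 + |Cn| * (Ce ^ 2 + 400) + 2 * |CM|
          + 4 * Real.sqrt |Cv| * (12 + 12 * |CM|) + (12 + 12 * |CM|) ^ 2, c, hc, ?_⟩
  intro d h P m J N Cw e r b1 b2 H hd hCw hNok he he1 hh hhC hsm hgs hr hb1 hb2 hH hH1 hH2
  have hck : c * (8 * ((Ce + 20) ^ 2 + 1)) ≤ Real.sqrt cn :=
    (le_div_iff₀ (by positivity)).1 (min_le_right _ _)
  have hcM' : c ≤ cM := (min_le_left _ _).trans (min_le_left _ _)
  have hc8 : c ≤ 1 / 8 := (min_le_left _ _).trans (min_le_right _ _)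
  have hhW : h ≤ h * Cw := le_mul_of_one_le_right hh.le hCw
  have hS0 : 0 ≤ h * Real.sqrt d := by positivity
  have hhd : h ^ 2 * Cw ^ 2 * Real.sqrt d ≤ c := by
    refine le_trans ?_ hsm
    calc h ^ 2 * Cw ^ 2 * Real.sqrt d = Cw ^ 2 * h * (h * Real.sqrt d) := by ring
      _ ≤ _ := by gcongr; linarith
  obtain ⟨M, ν, Nn, hν, hfst, hsnd, hmean, hdiff, hlip, -, hsq⟩ :=
    he' d h P hd hh (hhW.trans (hhC.trans (hc8.trans (by norm_num))))
  obtain ⟨hQ, hQ1, hQ2⟩ := hP d r H b1 b2 hH hH1 hH2 hb2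
  set Q := Pf r H with hQd
  have hQl : Loc.Lp' Q := Loc.gradBound_lp (hQ.differentiable (by norm_num)) hQ1
  have hh1 : h ≤ 1 := hhW.trans (hhC.trans (hc8.trans (by norm_num)))
  obtain ⟨c1, hc1, s1⟩ :=
    Loc.exact_step hA hS hR hv P hCe hh1 hfst hsnd hmean hdiff hlip hsq hQ hQ1 hQ2 hb2
  have hr0 : 0 < r := by linarith
  have cond : ∀ K : ℝ, 0 ≤ K → K ≤ (Ce + 20) * h * Cw → K ^ 4 * d ≤ cn * r ^ 2 := fun K hK hKle =>
    (mul_le_mul_of_nonneg_right (pow_le_pow_left₀ hK hKle 4) (Nat.cast_nonneg d)).trans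
      (Loc.noise_cond (by linarith) hcn hck hr (by linarith) d hhd)
  have hCeh : 0 ≤ Ce * h := by positivity
  have hhC0 : 0 ≤ h * Cw := hh.le.trans hhW
  have s2 := Loc.fibre (b := fun ξ => ξ - Gbar P.g ξ + c1) (F := Nn) hn hH hH1 hH2 hb2 hCeh hr0
    (cond _ hCeh (by nlinarith [mul_le_mul_of_nonneg_left hhW hCe]))
    ((Loc.idl.sub (Loc.gbar_lp hR P)).add (Loc.Lp'.const c1)) (Loc.exact_lp hCeh hlip)
    (fun ξ => hdiff.comp ((differentiable_const ξ).prodMk differentiable_id))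
    (fun ξ ω ω' => (hlip ξ ξ ω ω').trans_eq (by simp)) hmean hQl
  obtain ⟨hFl, hFd, hFL, hF0⟩ := Loc.local_noise (J := J) N P hNok hCw (hhC.trans hc8)
  have h20 : 0 ≤ 20 * h * Cw := by linarith
  have s3 := Loc.fibre (b := fun ξ => ξ - Loc.nodeMean N P ξ + Loc.shiftMean N P J)
    (F := fun ξ ω => localX N P ξ ω - (ξ - Loc.nodeMean N P ξ + Loc.shiftMean N P J))
    hn hH hH1 hH2 hb2 h20 hr0 (cond _ h20 (by nlinarith [mul_nonneg hCe hhC0]))
    ((Loc.idl.sub (Loc.nodeMean_lp N P)).add (Loc.Lp'.const _)) hFl hFd hFL hF0 hQl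
  simp only [add_sub_cancel] at s3
  have hX : Integrable (fun p : Space d × (RI m J → Space d) => Q (localX N P p.1 p.2))
      ((gam d).prod (gp (RI m J) d)) := by
    refine Loc.lp_int (Loc.m2_gam.prod Loc.m2_gp) (hQl.comp ?_)
    simpa only [add_sub_cancel] using
      (((Loc.Lp'.fst.sub ((Loc.nodeMean_lp N P).comp Loc.Lp'.fst)).add
        (Loc.Lp'.const (Loc.shiftMean N P J))).add hFl)
  rw [integral_prod _ hX] at s3
  have hmb := hm d h P m J N Cw e hd hCw hNok he he1 hh (hhC.trans hcM') (hhd.trans hcM')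
  have hG := Loc.gsize_nonneg P
  have hp : (0 : ℝ) ≤ (1 / 2) ^ J := by positivity
  have hR0 := hmb.trans (show CM * Cw ^ 2 * h * (h + e + (1 / 2 : ℝ) ^ J) * gsize P
    ≤ |CM| * Cw ^ 2 * h * (h + e + (1 / 2 : ℝ) ^ J) * gsize P by gcongr; exact le_abs_self CM)
  have s4 := Loc.maps_step (J := J) hR hv N P hNok he hh1 hc1 hR0 hQ hQ1 hQ2 hb2
  have key := Loc.step_arith (A := |Cn|) (V := Real.sqrt |Cv|) (CM := |CM|) (G := gsize P)
    (p := (1 / 2 : ℝ) ^ J) hCe (abs_nonneg _) (Real.sqrt_nonneg _) (abs_nonneg _) hh.le hh1 he hp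
    (pow_le_one₀ (by norm_num) (by norm_num)) hCw hS0 hG hgs
    (hsm.trans (hc8.trans (by norm_num))) hb1 hb2 rfl
  have d1 : ∀ K : ℝ, |Cn| * b2 * K ^ 2 * (h * Real.sqrt d) / h = |Cn| * b2 * K ^ 2 * Real.sqrt d :=
    fun K => by field_simp
  rw [d1, d1] at key
  show |(∫ ξ, ∫ ω, Q (localX N P ξ ω) ∂gp (RI m J) d ∂gam d) - ∫ x, Q x ∂mu P| ≤ _
  rw [abs_le] at s1 s2 s3 s4 ⊢
  constructor <;> linarith

end Vale.Agent.P347
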