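import Vale.Agent.P347.LocalFirst

/-!
The halving chain and the bias of the mean estimator.
-/

noncomputable section

open MeasureTheory ProbabilityTheory
open scoped RealInnerProductSpace NNReal

namespace Vale.Agent.P347.Loc

variable {d m J : ℕ} {h : ℝ}

/-- Index of the seeds of one halving step. -/
abbrev KI (m : ℕ) := Bool ⊕ Fin m

/-- The three parts of a seed of one halving step. -/
def seed3 (ω : KI m → Space d) : Space d × Space d × (Fin m → Space d) :=
  (ω (.inl false), ω (.inl true), fun k => ω (.inr k))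

/-- The seeds of the first steps. -/
def chSeed (η : Fin J × KI m → Space d) (j : Fin J) : Space d × Space d × (Fin m → Space d) :=
  seed3 fun k => η (j, k)

theorem sqrt_half_pow_le (J : ℕ) : Real.sqrt ((1 / 2 : ℝ) ^ J) ≤ (3 / 4) ^ J := by
  refine Real.sqrt_le_iff.2 ⟨by positivity, ?_⟩
  rw [← pow_mul, mul_comm J 2, pow_mul]
  exact pow_le_pow_left₀ (by norm_num) (by norm_num) J

theorem sq_sqrt_half (J : ℕ) : Real.sqrt ((1 / 2 : ℝ) ^ J) ^ 2 = (1 / 2 : ℝ) ^ J :=
  Real.sq_sqrt (by positivity)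

theorem aff_g (P : Pot d h) (a : Space d) (σ : ℝ) (x : Space d) :
    (P.aff a σ).g x = σ • P.g (a + σ • x) := rfl

theorem chain_lp (N : Nodes m) (P : Pot d h) : ∀ J : ℕ,
    Lp' (fun η : Fin J × KI m → Space d => chainPt N P J (chSeed η))
  | 0 => Lp'.const 0
  | J + 1 => by
    have ha : Lp' (fun η : Fin (J + 1) × KI m → Space d =>
        chainPt N P J (fun j => chSeed η j.castSucc)) :=
      (chain_lp N P J).comp (g := fun η : Fin (J + 1) × KI m → Space d =>
        fun i : Fin J × KI m => η (i.1.castSucc, i.2)) (Lp'.pi fun i => Lp'.eval _)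
    simp only [chainPt, chainStep, nodeSum, aff_g, chSeed, seed3]
    refine ha.add ((((Lp'.eval _).sub (Lp'.sum _ fun k _ => (((pot_lp P).comp
      (ha.add (((Lp'.eval _).smul _).add ((Lp'.eval _).smul _) |>.smul _))).smul _).smul _)).add
      (Lp'.eval _)).smul _)

theorem chain_diff (N : Nodes m) (P : Pot d h) : ∀ J : ℕ,
    Differentiable ℝ (fun η : Fin J × KI m → Space d => chainPt N P J (chSeed η))
  | 0 => differentiable_const 0
  | J + 1 => by
    have hg := pot_diff P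
    have hr : Differentiable ℝ (fun η : Fin (J + 1) × KI m → Space d =>
        fun i : Fin J × KI m => η (i.1.castSucc, i.2)) := by fun_prop
    have ha : Differentiable ℝ (fun η : Fin (J + 1) × KI m → Space d =>
        chainPt N P J (fun j => chSeed η j.castSucc)) := (chain_diff N P J).comp hr
    simp only [chainPt, chainStep, nodeSum, aff_g, chSeed, seed3] at ha ⊢
    fun_prop

/-- Stability of the chain in its seeds. -/
theorem chain_sub (N : Nodes m) (P : Pot d h) {Cw e : ℝ} (hN : N.Ok Cw e) (hCw : 0 ≤ Cw)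
    (hc : h * Cw ≤ 1 / 8) {D : ℝ} (hD : 0 ≤ D) : ∀ (J : ℕ) (η η' : Fin J × KI m → Space d),
    (∀ i, ‖η i - η' i‖ ≤ D) →
      ‖chainPt N P J (chSeed η) - chainPt N P J (chSeed η')‖ ≤ 16 * (1 - (3 / 4) ^ J) * D
  | 0, _, _, _ => by simp [chainPt]
  | J + 1, η, η', hη => by
    have ih := chain_sub N P hN hCw hc hD J (fun i => η (i.1.castSucc, i.2))
      (fun i => η' (i.1.castSucc, i.2)) fun i => hη _
    have e1 : ∀ η : Fin (J + 1) × KI m → Space d, chainPt N P (J + 1) (chSeed η) =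
        chainStep N P ((1 / 2 : ℝ) ^ J) (chainPt N P J (chSeed fun i => η (i.1.castSucc, i.2)))
          (chSeed η (Fin.last J)) := fun η => rfl
    rw [e1, e1]
    set a := chainPt N P J (chSeed fun i => η (i.1.castSucc, i.2))
    set a' := chainPt N P J (chSeed fun i => η' (i.1.castSucc, i.2))
    set σ := Real.sqrt ((1 / 2 : ℝ) ^ J) with hσ
    have h0 := P.h_nonneg
    have hσ0 : 0 ≤ σ := Real.sqrt_nonneg _
    have hσle : σ ≤ (3 / 4) ^ J := sqrt_half_pow_le J
    have hσ1 : σ ≤ 1 := hσle.trans (pow_le_one₀ (by norm_num) (by norm_num))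
    set δ := ‖a - a'‖ with hδ
    have hS : ‖nodeSum N (P.aff a σ).g (η (Fin.last J, .inl false)) (fun k => η (Fin.last J, .inr k))
        - nodeSum N (P.aff a' σ).g (η' (Fin.last J, .inl false))
            (fun k => η' (Fin.last J, .inr k))‖ ≤ Cw * (σ * (h * (δ + σ * (2 * D)))) := by
      rw [nodeSum_eq, nodeSum_eq, ← Finset.sum_sub_distrib]
      refine (norm_sum_le _ _).trans ((Finset.sum_le_sum
        (g := fun k => |N.w k| * (σ * (h * (δ + σ * (2 * D))))) fun k _ => ?_).trans ?_)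
      · rw [← smul_sub, norm_smul, Real.norm_eq_abs, aff_g, aff_g, ← smul_sub, norm_smul,
          Real.norm_eq_abs, abs_of_nonneg hσ0]
        refine mul_le_mul_of_nonneg_left (mul_le_mul_of_nonneg_left ((P.lip _ _).trans
          (mul_le_mul_of_nonneg_left ?_ h0)) hσ0) (abs_nonneg _)
        rw [add_sub_add_comm, ← smul_sub, node_sub]
        refine (norm_add_le _ _).trans (add_le_add le_rfl ?_)
        rw [norm_smul, Real.norm_eq_abs, abs_of_nonneg hσ0]
        refine mul_le_mul_of_nonneg_left ((node_norm (hN.1 k) _ _).trans ?_) hσ0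
        linarith [hη (Fin.last J, .inl false), hη (Fin.last J, .inr k)]
      · rw [← Finset.sum_mul]
        exact mul_le_mul_of_nonneg_right hN.2.1 (by positivity)
    have e2 : ∀ (x y z x' y' z' : Space d),
        (a + (σ / 2) • (x - y + z)) - (a' + (σ / 2) • (x' - y' + z'))
          = (a - a') + (σ / 2) • ((x - x') - (y - y') + (z - z')) := fun x y z x' y' z' => by
      simp only [smul_add, smul_sub]; abel
    simp only [chainStep, chSeed, seed3, ← hσ, e2]
    refine (norm_add_le _ _).trans ?_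
    rw [norm_smul, Real.norm_eq_abs, abs_of_nonneg (by linarith : 0 ≤ σ / 2)]
    have h3 := ((norm_add_le _ _).trans (add_le_add ((norm_sub_le _ _).trans
      (add_le_add (hη (Fin.last J, .inl false)) hS)) (hη (Fin.last J, .inl true))))
    refine (add_le_add le_rfl (mul_le_mul_of_nonneg_left h3 (by linarith : 0 ≤ σ / 2))).trans ?_
    have hp : (0 : ℝ) ≤ (3 / 4) ^ J := by positivity
    have hδ16 : δ ≤ 16 * D := ih.trans (by nlinarith)
    have hCh : 0 ≤ Cw * h := by positivity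
    have k1 : Cw * h * (δ + σ * (2 * D)) ≤ 1 / 8 * (18 * D) :=
      mul_le_mul (by linarith) (by nlinarith) (by positivity) (by norm_num)
    rw [pow_succ]
    nlinarith [mul_le_mul_of_nonneg_left k1 (mul_nonneg hσ0 hσ0), mul_le_mul_of_nonneg_left hσle hD,
      mul_nonneg hσ0 hD, mul_nonneg (mul_nonneg hσ0 hD) (sub_nonneg.2 hσ1)]

theorem ki_law : MeasurePreserving
    (fun ω : KI m → Space d => ((ω (.inl false), fun k => ω (.inr k)), ω (.inl true)))
    (gp (KI m) d) (((gam d).prod (gp (Fin m) d)).prod (gam d)) := by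
  have h1 := gp_cons (d := d) (i := (.inl false : KI m))
    (g := fun o : Option (Fin m) => o.elim (.inl true) .inr)
    (fun a b hab => by cases a <;> cases b <;> simp_all) (fun b => by cases b <;> simp)
  have h2 : MeasurePreserving (fun η : Option (Fin m) → Space d => ((fun k => η (some k)), η none))
      (gp (Option (Fin m)) d) ((gp (Fin m) d).prod (gam d)) :=
    MeasurePreserving.comp (Measure.measurePreserving_swap (μ := gam d) (ν := gp (Fin m) d))
      option_law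
  exact ((measurePreserving_prodAssoc (gam d) (gp (Fin m) d) (gam d)).symm _).comp
    (((MeasurePreserving.id (gam d)).prod h2).comp h1)

theorem succ_law (J : ℕ) : MeasurePreserving
    (fun η : Fin (J + 1) × KI m → Space d =>
      ((fun i : Fin J × KI m => η (i.1.castSucc, i.2)), fun k : KI m => η (Fin.last J, k)))
    (gp (Fin (J + 1) × KI m) d) ((gp (Fin J × KI m) d).prod (gp (KI m) d)) :=
  gp_split (fun a b hab => by simpa [Prod.ext_iff] using hab) (fun a b hab => by simpa using hab)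
    fun a b hab => (Fin.castSucc_lt_last a.1).ne (congrArg Prod.fst hab)

/-- The size of the seeds of one step. -/
def seedSize (N : Nodes m) (P : Pot d h) (Cw : ℝ) (ω : KI m → Space d) : ℝ :=
  ‖ω (.inl false)‖ + ‖ω (.inl true)‖ + Cw * ‖P.g 0‖ + h * Cw * ‖ω (.inl false)‖
    + h * ∑ k, |N.w k| * ‖ω (.inr k)‖

theorem seedSize_int (N : Nodes m) (P : Pot d h) {Cw e : ℝ} (hN : N.Ok Cw e) (hCw : 0 ≤ Cw)
    (hc : h * Cw ≤ 1 / 8) :
    Integrable (seedSize N P Cw) (gp (KI m) d) ∧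
      ∫ ω, seedSize N P Cw ω ∂gp (KI m) d ≤ 9 / 4 * (Real.sqrt d + Cw * gsize P) := by
  have h0 := P.h_nonneg
  have i : ∀ k : KI m, Integrable (fun ω : KI m → Space d => ‖ω k‖) (gp (KI m) d) := fun k =>
    (lp_int m2_gp (Lp'.eval k)).norm
  have en : ∀ k : KI m, ∫ ω, ‖ω k‖ ∂gp (KI m) d ≤ Real.sqrt d := fun k => by
    rw [eval_integral k (f := fun z : Space d => ‖z‖) continuous_norm.aestronglyMeasurable]
    exact gam_norm
  have i1 : Integrable (fun ω : KI m → Space d => ∑ k, |N.w k| * ‖ω (.inr k)‖) (gp (KI m) d) :=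
    integrable_finsetSum _ fun k _ => (i _).const_mul _
  have j1 := (i (.inl false)).fun_add (i (.inl true))
  have j2 := j1.fun_add (integrable_const (Cw * ‖P.g 0‖))
  have j3 := j2.fun_add ((i (.inl false)).const_mul (h * Cw))
  refine ⟨j3.fun_add (i1.const_mul h), ?_⟩
  unfold seedSize
  rw [integral_add j3 (i1.const_mul h), integral_add j2 ((i _).const_mul _),
    integral_add j1 (integrable_const _), integral_add (i _) (i _), integral_const,
    integral_const_mul, integral_const_mul, integral_finsetSum _ fun k _ => (i _).const_mul _]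
  simp only [integral_const_mul, probReal_univ, one_smul]
  have es : ∑ k, |N.w k| * ∫ ω, ‖ω (.inr k)‖ ∂gp (KI m) d ≤ Cw * Real.sqrt d :=
    (Finset.sum_le_sum fun k _ => mul_le_mul_of_nonneg_left (en _) (abs_nonneg _)).trans
      (by rw [← Finset.sum_mul]; exact mul_le_mul_of_nonneg_right hN.2.1 (Real.sqrt_nonneg _))
  have b1 := mul_le_mul_of_nonneg_left (en (.inl false)) (mul_nonneg h0 hCw)
  have b2 := mul_le_mul_of_nonneg_left es h0
  have b3 := mul_le_mul_of_nonneg_right hc (Real.sqrt_nonneg (d : ℝ))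
  have b4 : Cw * ‖P.g 0‖ ≤ Cw * gsize P :=
    mul_le_mul_of_nonneg_left (le_add_of_nonneg_left (by positivity)) hCw
  linarith [en (.inl false), en (.inl true), mul_nonneg hCw (gsize_nonneg P)]

theorem step_norm (N : Nodes m) (P : Pot d h) {Cw e : ℝ} (hN : N.Ok Cw e) (hCw : 0 ≤ Cw) (J : ℕ)
    (a : Space d) (ω : KI m → Space d) :
    ‖chainStep N P ((1 / 2 : ℝ) ^ J) a (seed3 ω)‖
      ≤ ‖a‖ * (1 + Real.sqrt ((1 / 2 : ℝ) ^ J) ^ 2 * (h * Cw))
        + Real.sqrt ((1 / 2 : ℝ) ^ J) / 2 * seedSize N P Cw ω := by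
  set σ := Real.sqrt ((1 / 2 : ℝ) ^ J) with hσ
  have h0 := P.h_nonneg
  have hσ0 : 0 ≤ σ := Real.sqrt_nonneg _
  have hσ1 : σ ≤ 1 := (sqrt_half_pow_le J).trans (pow_le_one₀ (by norm_num) (by norm_num))
  set ξ := ω (.inl false)
  have hS : ‖nodeSum N (P.aff a σ).g ξ (fun k => ω (.inr k))‖
      ≤ Cw * ‖P.g 0‖ + σ * (h * Cw) * ‖a‖ + h * Cw * ‖ξ‖ + h * ∑ k, |N.w k| * ‖ω (.inr k)‖ := by
    rw [nodeSum_eq]
    refine (norm_sum_le _ _).trans ((Finset.sum_le_sum (g := fun k => |N.w k| *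
      (‖P.g 0‖ + σ * h * ‖a‖ + h * ‖ξ‖) + h * (|N.w k| * ‖ω (.inr k)‖)) fun k _ => ?_).trans ?_)
    · rw [norm_smul, Real.norm_eq_abs, aff_g, norm_smul, Real.norm_eq_abs, abs_of_nonneg hσ0]
      suffices hk : σ * ‖P.g (a + σ • node (N.t k) ξ (ω (.inr k)))‖
          ≤ ‖P.g 0‖ + σ * h * ‖a‖ + h * ‖ξ‖ + h * ‖ω (.inr k)‖ from
        (mul_le_mul_of_nonneg_left hk (abs_nonneg (N.w k))).trans_eq (by ring)
      have hn : ‖a + σ • node (N.t k) ξ (ω (.inr k))‖ ≤ ‖a‖ + (‖ξ‖ + ‖ω (.inr k)‖) := by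
        refine (norm_add_le _ _).trans (add_le_add le_rfl ?_)
        rw [norm_smul, Real.norm_eq_abs, abs_of_nonneg hσ0]
        exact (mul_le_of_le_one_left (norm_nonneg _) hσ1).trans (node_norm (hN.1 k) _ _)
      have h2 := mul_le_mul_of_nonneg_left
        ((pot_norm P _).trans (add_le_add le_rfl (mul_le_mul_of_nonneg_left hn h0))) hσ0
      refine h2.trans ?_
      nlinarith [mul_nonneg (sub_nonneg.2 hσ1) (norm_nonneg (P.g 0)),
        mul_nonneg (sub_nonneg.2 hσ1) (mul_nonneg h0 (norm_nonneg ξ)),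
        mul_nonneg (sub_nonneg.2 hσ1) (mul_nonneg h0 (norm_nonneg (ω (.inr k))))]
    · rw [Finset.sum_add_distrib, ← Finset.sum_mul, ← Finset.mul_sum]
      have := mul_le_mul_of_nonneg_right hN.2.1
        (by positivity : 0 ≤ ‖P.g 0‖ + σ * h * ‖a‖ + h * ‖ξ‖)
      linarith
  simp only [chainStep, seed3, ← hσ, seedSize]
  refine (norm_add_le _ _).trans ?_
  rw [norm_smul, Real.norm_eq_abs, abs_of_nonneg (by linarith : 0 ≤ σ / 2)]
  refine (add_le_add le_rfl (mul_le_mul_of_nonneg_left ((norm_add_le _ _).trans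
    (add_le_add ((norm_sub_le _ _).trans (add_le_add le_rfl hS)) le_rfl))
    (by linarith : 0 ≤ σ / 2))).trans ?_
  have n : 0 ≤ σ ^ 2 * (h * Cw) * ‖a‖ := by positivity
  linarith

/-- First moment of the chain. -/
theorem chain_norm (N : Nodes m) (P : Pot d h) {Cw e : ℝ} (hN : N.Ok Cw e) (hCw : 0 ≤ Cw)
    (hc : h * Cw ≤ 1 / 8) : ∀ J : ℕ,
    ∫ η, ‖chainPt N P J (chSeed η)‖ ∂gp (Fin J × KI m) d
      ≤ 16 * (1 - (3 / 4) ^ J) * (Real.sqrt d + Cw * gsize P)
  | 0 => by simp [chainPt]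
  | J + 1 => by
    have ih := chain_norm N P hN hCw hc J
    obtain ⟨hsi, hsb⟩ := seedSize_int N P hN hCw hc
    have i0 := (lp_int (m2_gp (d := d)) (chain_lp N P J)).norm
    set σ := Real.sqrt ((1 / 2 : ℝ) ^ J) with hσ
    have hσ0 : 0 ≤ σ := Real.sqrt_nonneg _
    have hσle : σ ≤ (3 / 4) ^ J := sqrt_half_pow_le J
    have hσ1 : σ ≤ 1 := hσle.trans (pow_le_one₀ (by norm_num) (by norm_num))
    have i1 := (i0.comp_fst (gp (KI m) d)).mul_const (1 + σ ^ 2 * (h * Cw))
    have i2 := (hsi.comp_snd (gp (Fin J × KI m) d)).const_mul (σ / 2)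
    calc ∫ η, ‖chainPt N P (J + 1) (chSeed η)‖ ∂gp (Fin (J + 1) × KI m) d
        ≤ ∫ η : Fin (J + 1) × KI m → Space d,
            (fun p : (Fin J × KI m → Space d) × (KI m → Space d) =>
              ‖chainPt N P J (chSeed p.1)‖ * (1 + σ ^ 2 * (h * Cw))
                + σ / 2 * seedSize N P Cw p.2)
            (fun i : Fin J × KI m => η (i.1.castSucc, i.2), fun k : KI m => η (Fin.last J, k))
            ∂gp (Fin (J + 1) × KI m) d :=
          integral_mono (lp_int m2_gp (chain_lp N P (J + 1))).norm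
            ((succ_law J).integrable_comp_of_integrable (i1.fun_add i2))
            fun η => step_norm N P hN hCw J _ fun k => η (Fin.last J, k)
      _ = _ := mp_integral (succ_law J) (i1.fun_add i2).aestronglyMeasurable
      _ ≤ _ := by
        rw [integral_add i1 i2, integral_mul_const, integral_const_mul,
          integral_fun_fst (fun η : Fin J × KI m → Space d => ‖chainPt N P J (chSeed η)‖),
          integral_fun_snd (seedSize N P Cw)]
        simp only [probReal_univ, one_smul]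
        set R := Real.sqrt (d : ℝ) + Cw * gsize P
        set p := (3 / 4 : ℝ) ^ J with hp_def
        have hR : 0 ≤ R := by have := gsize_nonneg P; positivity
        have hp : 0 ≤ p := by positivity
        have hσc : 0 ≤ σ ^ 2 * (h * Cw) := by have := P.h_nonneg; positivity
        have c1 := mul_le_mul_of_nonneg_right ih (by linarith : 0 ≤ 1 + σ ^ 2 * (h * Cw))
        have c2 := mul_le_mul_of_nonneg_left hsb (by linarith : 0 ≤ σ / 2)
        have c3 : σ ^ 2 * (h * Cw) ≤ p / 8 := by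
          calc σ ^ 2 * (h * Cw) ≤ p * (1 / 8) := mul_le_mul (by nlinarith) hc
                (mul_nonneg P.h_nonneg hCw) hp
            _ = _ := by ring
        have c4 : 16 * (1 - p) * R * (σ ^ 2 * (h * Cw)) ≤ 16 * R * (p / 8) :=
          mul_le_mul (by nlinarith) c3 hσc (by positivity)
        have c5 := mul_le_mul_of_nonneg_right hσle hR
        have c6 := mul_nonneg hp hR
        rw [show (3 / 4 : ℝ) ^ (J + 1) = p * (3 / 4) from pow_succ _ _]
        linarith

/-- The gradient along the chain. -/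
theorem chain_grad (N : Nodes m) (P : Pot d h) {Cw e : ℝ} (hN : N.Ok Cw e) (hCw : 1 ≤ Cw)
    (hc : h * Cw ≤ 1 / 8) (J : ℕ) :
    ∫ η, ‖P.g (chainPt N P J (chSeed η))‖ ∂gp (Fin J × KI m) d ≤ 19 * gsize P := by
  have h0 := P.h_nonneg
  have hG := gsize_nonneg P
  have hi := (lp_int (m2_gp (d := d)) (chain_lp N P J)).norm
  refine (integral_mono (lp_int m2_gp ((pot_lp P).comp (chain_lp N P J))).norm
    ((integrable_const ‖P.g 0‖).add (hi.const_mul h)) fun η => pot_norm P _).trans ?_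
  simp only [Pi.add_apply]
  rw [integral_add (integrable_const _) (hi.const_mul h), integral_const_mul]
  simp only [integral_const, probReal_univ, one_smul]
  have k := mul_le_mul_of_nonneg_left ((chain_norm N P hN (by linarith) hc J).trans
    (mul_le_mul_of_nonneg_right (show (16 : ℝ) * (1 - (3 / 4) ^ J) ≤ 16 by
      nlinarith [show (0 : ℝ) ≤ (3 / 4) ^ J by positivity]) (by positivity))) h0
  have : h * (Cw * gsize P) ≤ 1 / 8 * gsize P := by nlinarith
  have : h * Real.sqrt d + ‖P.g 0‖ = gsize P := rfl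
  nlinarith [norm_nonneg (P.g 0), mul_nonneg h0 (Real.sqrt_nonneg (d : ℝ))]

theorem mu_congr {h' : ℝ} {P : Pot d h} {P' : Pot d h'} (hW : ∀ x, P.W x = P'.W x) :
    mu P = mu P' := by
  unfold mu; simp only [hW]

theorem post_aff (P : Pot d h) (a y : Space d) {σ v : ℝ} (hσ : 0 ≤ σ) (hv : 0 ≤ v)
    (f : Space d → ℝ) :
    post (P.aff a σ) v (fun x => f (a + σ • x)) y = post P (σ ^ 2 * v) f (a + σ • y) := by
  have e : Real.sqrt (σ ^ 2 * v) = σ * Real.sqrt v := by
    rw [Real.sqrt_mul (sq_nonneg σ), Real.sqrt_sq hσ]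
  simp only [post, e, smul_add, smul_smul, add_assoc]
  refine congrArg (fun μ : Measure (Space d) =>
    ∫ ξ, f (a + (σ • y + (σ * Real.sqrt v) • ξ)) ∂μ) (mu_congr fun x => ?_)
  simp [Pot.aff, e, smul_add, smul_smul, add_assoc]

theorem post_one (P : Pot d h) (f : Space d → ℝ) : post P 1 f 0 = ∫ x, f x ∂mu P := by
  have e : mu (P.aff 0 (Real.sqrt 1)) = mu P := mu_congr fun x => by simp [Pot.aff]
  rw [post, e]
  simp

theorem inner_g (P : Pot d h) (w : Space d) :
    ContDiff ℝ 1 (fun x => ⟪w, P.g x⟫) ∧ GradBound (fun x => ⟪w, P.g x⟫) (h * ‖w‖) := by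
  have hl : ∀ x y, |⟪w, P.g x⟫ - ⟪w, P.g y⟫| ≤ h * ‖w‖ * ‖x - y‖ := fun x y => by
    rw [← inner_sub_right]
    refine (abs_real_inner_le_norm _ _).trans ?_
    calc ‖w‖ * ‖P.g x - P.g y‖ ≤ ‖w‖ * (h * ‖x - y‖) :=
          mul_le_mul_of_nonneg_left (P.lip x y) (norm_nonneg w)
      _ = _ := by ring
  refine ⟨contDiff_const.inner ℝ P.smooth, fun x => ?_⟩
  exact norm_fderiv_le_of_lipschitz ℝ (C := ⟨h * ‖w‖, mul_nonneg P.h_nonneg (norm_nonneg w)⟩)
    (lipschitzWith_iff_norm_sub_le.2 fun x y => hl x y)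

theorem gradBound_scale {f : Space d → ℝ} {B : ℝ} (hf : Differentiable ℝ f) (hB : GradBound f B)
    (a : Space d) {σ : ℝ} (hσ : 0 ≤ σ) : GradBound (fun x => f (a + σ • x)) (B * σ) := fun x => by
  refine norm_fderiv_le_of_lipschitz ℝ
    (C := ⟨B * σ, mul_nonneg (gradBound_nonneg hB) hσ⟩) (lipschitzWith_iff_norm_sub_le.2 fun x y => ?_)
  refine (gradBound_lip hf hB _ _).trans_eq ?_
  show _ = B * σ * ‖x - y‖
  rw [add_sub_add_left_eq_sub, ← smul_sub, norm_smul, Real.norm_eq_abs, abs_of_nonneg hσ, mul_assoc]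

theorem grow_lp {f : Space d → ℝ} (hf : Lp' f) : Grow f := by
  obtain ⟨K, hK⟩ := hf
  refine ⟨‖f 0‖ + K, 1, fun x => ?_⟩
  have h1 := hK.norm_sub_le x 0
  have h2 := norm_le_norm_add_norm_sub' (f x) (f 0)
  simp only [sub_zero] at h1
  nlinarith [norm_nonneg (f 0), norm_nonneg x, K.coe_nonneg]

theorem var_bound (hM : PoincareMu) (hA : MuBasic) (P : Pot d h) {f : Space d → ℝ} {B : ℝ}
    (hf : ContDiff ℝ 1 f) (hB : GradBound f B) : var (mu P) f ≤ B ^ 2 := by
  haveI := (hA d h P).1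
  have h0 := gradBound_nonneg hB
  refine (hM d h P f hf ⟨B, 0, fun x => by simpa using hB x⟩).trans ?_
  refine (integral_mono_of_nonneg (ae_of_all _ fun x => sq_nonneg _) (integrable_const (B ^ 2))
    (ae_of_all _ fun x => pow_le_pow_left₀ (norm_nonneg _) (hB x) 2)).trans (by simp)

theorem post_grad (hA : MuBasic) (hM : PoincareMu) (hD : PostDeriv) (P : Pot d h) {v B : ℝ}
    (hv : 0 < v) {f : Space d → ℝ} (hf : ContDiff ℝ 1 f) (hB : GradBound f B) :
    ContDiff ℝ 1 (post P v f) ∧ GradBound (post P v f) B := by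
  have h0 := gradBound_nonneg hB
  have hfd := hf.differentiable (by norm_num)
  have hl := gradBound_lp hfd hB
  obtain ⟨h2, hd', -⟩ := hD d h P v hv f hf.continuous.measurable (grow_lp hl)
  refine ⟨h2.of_le (by norm_num), fun a => ContinuousLinearMap.opNorm_le_bound _ h0 fun e => ?_⟩
  set σ := Real.sqrt v
  have hσ : 0 < σ := Real.sqrt_pos.2 hv
  rw [hd', Real.norm_eq_abs, abs_div, abs_of_pos hσ, div_le_iff₀ hσ]
  have v1 := var_bound hM hA (P.aff a σ) (hf.comp (by fun_prop)) (gradBound_scale hfd hB a hσ.le)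
  have v2 := var_bound hM hA (P.aff a σ) (f := fun ξ => ⟪e, ξ⟫) (B := ‖e‖)
    (contDiff_const.inner ℝ contDiff_id) fun x => by
      rw [show (fun ξ : Space d => ⟪e, ξ⟫) = innerSL ℝ e from rfl, ContinuousLinearMap.fderiv,
        innerSL_apply_norm]
  haveI := (hA d _ (P.aff a σ)).1
  have m1 := lp_memLp (m2_mu hA (P.aff a σ)) ((hl.comp ((Lp'.const a).add (idl.smul σ))).sub
    (Lp'.const (∫ y, f (a + σ • y) ∂mu (P.aff a σ))))
  have m2 := lp_memLp (m2_mu hA (P.aff a σ)) ((Lp'.of_clm (innerSL ℝ e)).sub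
    (Lp'.const (∫ y, ⟪e, y⟫ ∂mu (P.aff a σ))))
  refine (abs_int_mul_le m1 m2).trans ?_
  refine (mul_le_mul ((Real.sqrt_le_left (mul_nonneg h0 hσ.le)).2 v1)
    ((Real.sqrt_le_left (norm_nonneg e)).2 v2) (Real.sqrt_nonneg _) (mul_nonneg h0 hσ.le)).trans_eq
    (by ring)

/-- The exact average over one step. -/
theorem step_exact (hA : MuBasic) (hId : PosteriorId) (P : Pot d h) (J : ℕ) (a : Space d)
    {φ : Space d → ℝ} (hφ : Lp' φ) :
    ∫ x, ∫ ζ, post P ((1 / 2 : ℝ) ^ (J + 1)) φ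
        (a + (Real.sqrt ((1 / 2 : ℝ) ^ J) / 2) • (x + ζ)) ∂gam d
        ∂mu (P.aff a (Real.sqrt ((1 / 2 : ℝ) ^ J)))
      = post P ((1 / 2 : ℝ) ^ J) φ a := by
  set σ := Real.sqrt ((1 / 2 : ℝ) ^ J) with hσ
  haveI := (hA d _ (P.aff a σ)).1
  obtain ⟨K, k, hK⟩ := grow_lp (hφ.comp ((Lp'.const a).add (idl.smul σ)))
  have key := hId d _ (P.aff a σ) (1 / 2) (1 / 2) (by norm_num) (fun _ x => φ (a + σ • x))
    ((hφ.cont.comp (by fun_prop : Continuous fun x : Space d => a + σ • x)).measurable.comp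
      measurable_snd) ⟨|K|, k, fun y x => by
        refine ((Real.norm_eq_abs _).symm.trans_le (hK x)).trans ?_
        exact mul_le_mul (le_abs_self K)
          (pow_le_pow_left₀ (by positivity) (by linarith [norm_nonneg y]) k) (by positivity)
          (abs_nonneg K)⟩
  norm_num at key
  rw [show post P ((1 / 2 : ℝ) ^ J) φ a = ∫ x, φ (a + σ • x) ∂mu (P.aff a σ) from rfl, key]
  refine integral_congr_ae (ae_of_all _ fun x => integral_congr_ae (ae_of_all _ fun ζ => ?_))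
  have e : σ ^ 2 * (1 / 2) = (1 / 2 : ℝ) ^ (J + 1) := by rw [hσ, sq_sqrt_half, pow_succ]
  simp only [post_aff P a _ (σ := σ) (Real.sqrt_nonneg _) (by norm_num : (0 : ℝ) ≤ 1 / 2) φ, e]
  refine congrArg (post P _ φ) ?_
  simp only [smul_add, smul_smul]
  ring_nf

/-- The algorithmic average over one step. -/
theorem step_seeds (N : Nodes m) (P : Pot d h) (a : Space d) (v : ℝ) {u : Space d → ℝ}
    (hu : Lp' u) :
    ∫ ω, u (chainStep N P v a (seed3 ω)) ∂gp (KI m) d =
      ∫ ξ, ∫ z, ∫ ζ, u (a + (Real.sqrt v / 2) •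
        (ξ - nodeSum N (P.aff a (Real.sqrt v)).g ξ z + ζ)) ∂gam d ∂gp (Fin m) d ∂gam d := by
  have hl : Lp' (fun q : (Space d × (Fin m → Space d)) × Space d =>
      u (a + (Real.sqrt v / 2) •
        (q.1.1 - nodeSum N (P.aff a (Real.sqrt v)).g q.1.1 q.1.2 + q.2))) := by
    have h1 : Lp' (fun q : (Space d × (Fin m → Space d)) × Space d => q.1.1) :=
      Lp'.comp (g := fun q : (Space d × (Fin m → Space d)) × Space d => q.1) Lp'.fst Lp'.fst
    have h2 : ∀ k, Lp' (fun q : (Space d × (Fin m → Space d)) × Space d => q.1.2 k) := fun k =>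
      Lp'.comp (g := fun q : (Space d × (Fin m → Space d)) × Space d => q.1) (Lp'.snd_eval k) Lp'.fst
    exact hu.comp ((Lp'.const a).add (((h1.sub (nodeSum_lp N _ h1 h2)).add Lp'.snd).smul _))
  have hi := lp_int ((m2_gam.prod m2_gp).prod m2_gam) hl
  refine (mp_integral (ki_law (d := d) (m := m)) hi.aestronglyMeasurable).trans ?_
  rw [integral_prod _ hi, integral_prod _ hi.integral_prod_left]

/-- One halving step. -/
theorem step_bias (hA : MuBasic) (hM : PoincareMu) (hD : PostDeriv) (hId : PosteriorId) {C c : ℝ}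
    (hF : ∀ (d : ℕ) (h : ℝ) (P : Pot d h) (m : ℕ) (N : Nodes m) (Cw e L : ℝ)
      (ψ : Space d → ℝ), 1 ≤ d → 1 ≤ Cw → N.Ok Cw e → 0 ≤ e → e ≤ 1 → 0 < h → h * Cw ≤ c →
      h ^ 2 * Cw ^ 2 * Real.sqrt d ≤ c → 0 ≤ L → ContDiff ℝ 1 ψ → GradBound ψ L →
        |(∫ ξ, ∫ z, ∫ ζ, ψ (ξ - nodeSum N P.g ξ z + ζ) ∂gam d ∂gp (Fin m) d ∂gam d)
            - ∫ x, ∫ ζ, ψ (x + ζ) ∂gam d ∂mu P| ≤ C * Cw ^ 2 * (h + e) * gsize P * L)
    {N : Nodes m} {P : Pot d h} {Cw e : ℝ} (hd : 1 ≤ d) (hCw : 1 ≤ Cw) (hN : N.Ok Cw e)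
    (he : 0 ≤ e) (he1 : e ≤ 1) (hh : 0 < h) (hh1 : h ≤ 1) (hc : h * Cw ≤ c)
    (hcd : h ^ 2 * Cw ^ 2 * Real.sqrt d ≤ c) (J : ℕ) (a w : Space d) :
    |(∫ ω, post P ((1 / 2 : ℝ) ^ (J + 1)) (fun x => ⟪w, P.g x⟫)
        (chainStep N P ((1 / 2 : ℝ) ^ J) a (seed3 ω)) ∂gp (KI m) d)
      - post P ((1 / 2 : ℝ) ^ J) (fun x => ⟪w, P.g x⟫) a|
      ≤ |C| * Cw ^ 2 * h * (h + e) * (1 / 2 : ℝ) ^ J * ‖w‖ * (gsize P + ‖P.g a‖) := by
  set v := (1 / 2 : ℝ) ^ J with hv_def
  set σ := Real.sqrt v with hσ_def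
  set φ : Space d → ℝ := fun x => ⟪w, P.g x⟫ with hφ
  have hv : 0 < v := by positivity
  have hv1 : v ≤ 1 := pow_le_one₀ (by norm_num) (by norm_num)
  have hσ : 0 < σ := Real.sqrt_pos.2 hv
  have hσ1 : σ ≤ 1 := Real.sqrt_le_one.2 hv1
  have hσ2 : σ ^ 2 = v := Real.sq_sqrt hv.le
  obtain ⟨hφ1, hφB⟩ := inner_g P w
  obtain ⟨hu1, huB⟩ := post_grad hA hM hD P (v := (1 / 2 : ℝ) ^ (J + 1)) (by positivity) hφ1 hφB
  set u := post P ((1 / 2 : ℝ) ^ (J + 1)) φ with hu
  set ψ : Space d → ℝ := fun q => u (a + (σ / 2) • q) with hψ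
  have hud := hu1.differentiable (by norm_num)
  have hψ1 : ContDiff ℝ 1 ψ := hu1.comp (by fun_prop)
  have hψB : GradBound ψ (h * ‖w‖ * (σ / 2)) := gradBound_scale hud huB a (by positivity)
  have hψl := gradBound_lp (hψ1.differentiable (by norm_num)) hψB
  have hvh : h * σ ^ 2 ≤ h := by rw [hσ2]; exact mul_le_of_le_one_right hh.le hv1
  have hF' := hF d (h * σ ^ 2) (P.aff a σ) m N Cw e _ ψ hd hCw hN he he1 (by positivity)
    ((mul_le_mul_of_nonneg_right hvh (by linarith)).trans hc)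
    ((mul_le_mul_of_nonneg_right (mul_le_mul_of_nonneg_right
      (pow_le_pow_left₀ (by positivity) hvh 2) (sq_nonneg Cw)) (Real.sqrt_nonneg _)).trans hcd)
    (by positivity) hψ1 hψB
  have e1 := step_seeds N P a v (gradBound_lp hud huB)
  have e2 := step_exact hA hId P J a (gradBound_lp (hφ1.differentiable (by norm_num)) hφB)
  rw [← hv_def, ← hσ_def, ← hu] at e2
  rw [e1, ← e2]
  refine hF'.trans ?_
  have hg : gsize (P.aff a σ) ≤ σ * (gsize P + ‖P.g a‖) := by
    simp only [gsize, Pot.aff, smul_zero, add_zero, norm_smul, Real.norm_eq_abs, abs_of_pos hσ]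
    have : h * σ ^ 2 * Real.sqrt d ≤ σ * (h * Real.sqrt d) := by
      nlinarith [mul_nonneg (mul_nonneg hσ.le (sub_nonneg.2 hσ1))
        (mul_nonneg hh.le (Real.sqrt_nonneg (d : ℝ)))]
    nlinarith [mul_nonneg hσ.le (norm_nonneg (P.g 0))]
  have hG := gsize_nonneg (P.aff a σ)
  have hG0 := gsize_nonneg P
  calc C * Cw ^ 2 * (h * σ ^ 2 + e) * gsize (P.aff a σ) * (h * ‖w‖ * (σ / 2))
      ≤ |C| * Cw ^ 2 * (h + e) * (σ * (gsize P + ‖P.g a‖)) * (h * ‖w‖ * σ) := by
        gcongr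
        · exact le_abs_self C
        · linarith
    _ = _ := by rw [← hσ2]; ring

/-- The chain against a vector. -/
theorem chain_bias (hA : MuBasic) (hM : PoincareMu) (hD : PostDeriv) (hId : PosteriorId) {C c : ℝ}
    (hF : ∀ (d : ℕ) (h : ℝ) (P : Pot d h) (m : ℕ) (N : Nodes m) (Cw e L : ℝ)
      (ψ : Space d → ℝ), 1 ≤ d → 1 ≤ Cw → N.Ok Cw e → 0 ≤ e → e ≤ 1 → 0 < h → h * Cw ≤ c →
      h ^ 2 * Cw ^ 2 * Real.sqrt d ≤ c → 0 ≤ L → ContDiff ℝ 1 ψ → GradBound ψ L →
        |(∫ ξ, ∫ z, ∫ ζ, ψ (ξ - nodeSum N P.g ξ z + ζ) ∂gam d ∂gp (Fin m) d ∂gam d)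
            - ∫ x, ∫ ζ, ψ (x + ζ) ∂gam d ∂mu P| ≤ C * Cw ^ 2 * (h + e) * gsize P * L)
    {N : Nodes m} {P : Pot d h} {Cw e : ℝ} (hd : 1 ≤ d) (hCw : 1 ≤ Cw) (hN : N.Ok Cw e)
    (he : 0 ≤ e) (he1 : e ≤ 1) (hh : 0 < h) (hc : h * Cw ≤ c) (hc8 : h * Cw ≤ 1 / 8)
    (hcd : h ^ 2 * Cw ^ 2 * Real.sqrt d ≤ c) (w : Space d) : ∀ J : ℕ,
    |(∫ η, post P ((1 / 2 : ℝ) ^ J) (fun x => ⟪w, P.g x⟫) (chainPt N P J (chSeed η))
        ∂gp (Fin J × KI m) d) - ∫ x, ⟪w, P.g x⟫ ∂mu P|
      ≤ 40 * |C| * Cw ^ 2 * h * (h + e) * ‖w‖ * gsize P * (1 - (1 / 2 : ℝ) ^ J)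
  | 0 => by simp [chainPt, post_one]
  | J + 1 => by
    have ih := chain_bias (N := N) (P := P) hA hM hD hId hF hd hCw hN he he1 hh hc hc8 hcd w J
    have hh1 : h ≤ 1 := le_trans (le_mul_of_one_le_right hh.le hCw) (hc8.trans (by norm_num))
    obtain ⟨hφ1, hφB⟩ := inner_g P w
    obtain ⟨hu1, huB⟩ := post_grad hA hM hD P (v := (1 / 2 : ℝ) ^ (J + 1)) (by positivity) hφ1 hφB
    obtain ⟨hv1, hvB⟩ := post_grad hA hM hD P (v := (1 / 2 : ℝ) ^ J) (by positivity) hφ1 hφB
    set u := post P ((1 / 2 : ℝ) ^ (J + 1)) (fun x => ⟪w, P.g x⟫) with hu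
    have hul := gradBound_lp (hu1.differentiable (by norm_num)) huB
    have hvl := gradBound_lp (hv1.differentiable (by norm_num)) hvB
    have hal := chain_lp (d := d) N P J
    have hl : Lp' (fun p : (Fin J × KI m → Space d) × (KI m → Space d) =>
        u (chainStep N P ((1 / 2 : ℝ) ^ J) (chainPt N P J (chSeed p.1)) (seed3 p.2))) := by
      have ha : Lp' (fun p : (Fin J × KI m → Space d) × (KI m → Space d) =>
          chainPt N P J (chSeed p.1)) := hal.comp Lp'.fst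
      simp only [chainStep, nodeSum, aff_g, seed3]
      exact hul.comp (ha.add ((((Lp'.snd_eval _).sub (Lp'.sum _ fun k _ => (((pot_lp P).comp
        (ha.add ((((Lp'.snd_eval _).smul _).add ((Lp'.snd_eval _).smul _)).smul _))).smul _).smul
        _)).add (Lp'.snd_eval _)).smul _))
    have hi := lp_int ((m2_gp (d := d) (ι := Fin J × KI m)).prod (m2_gp (d := d) (ι := KI m))) hl
    have e1 : ∫ η, u (chainPt N P (J + 1) (chSeed η)) ∂gp (Fin (J + 1) × KI m) d =
        ∫ η, ∫ ω, u (chainStep N P ((1 / 2 : ℝ) ^ J) (chainPt N P J (chSeed η)) (seed3 ω))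
          ∂gp (KI m) d ∂gp (Fin J × KI m) d :=
      (mp_integral (succ_law J) hi.aestronglyMeasurable).trans (integral_prod _ hi)
    rw [e1]
    have hg := (lp_int (m2_gp (d := d)) ((pot_lp P).comp hal)).norm
    have hpt : ∀ η : Fin J × KI m → Space d,
        |(∫ ω, u (chainStep N P ((1 / 2 : ℝ) ^ J) (chainPt N P J (chSeed η)) (seed3 ω)) ∂gp (KI m) d)
          - post P ((1 / 2 : ℝ) ^ J) (fun x => ⟪w, P.g x⟫) (chainPt N P J (chSeed η))|
        ≤ |C| * Cw ^ 2 * h * (h + e) * (1 / 2 : ℝ) ^ J * ‖w‖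
          * (gsize P + ‖P.g (chainPt N P J (chSeed η))‖) := fun η =>
      step_bias (N := N) (P := P) hA hM hD hId hF hd hCw hN he he1 hh hh1 hc hcd J
        (chainPt N P J (chSeed η)) w
    have hstep := abs_int_le
      (g := fun η => post P ((1 / 2 : ℝ) ^ J) (fun x => ⟪w, P.g x⟫) (chainPt N P J (chSeed η)))
      (b := fun η => |C| * Cw ^ 2 * h * (h + e) * (1 / 2 : ℝ) ^ J * ‖w‖
          * (gsize P + ‖P.g (chainPt N P J (chSeed η))‖))
      hi.integral_prod_left (lp_int m2_gp (hvl.comp hal))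
      (((integrable_const (gsize P)).fun_add hg).const_mul _) hpt
    rw [integral_const_mul, integral_add (integrable_const _) hg] at hstep
    simp only [integral_const, probReal_univ, one_smul] at hstep
    have hK : 0 ≤ |C| * Cw ^ 2 * h * (h + e) * (1 / 2 : ℝ) ^ J * ‖w‖ := by positivity
    have h20 := mul_le_mul_of_nonneg_left
      (add_le_add (le_refl (gsize P)) (chain_grad N P hN hCw hc8 J)) hK
    rw [show (1 / 2 : ℝ) ^ (J + 1) = (1 / 2 : ℝ) ^ J * (1 / 2) from pow_succ _ _]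
    rw [abs_le] at ih hstep ⊢
    constructor <;> nlinarith

theorem meanBias (hA : MuBasic) (hM : PoincareMu) (hI : InterpMu) (hId : PosteriorId)
    (hD : PostDeriv) (hF : FirstOrderBias) : MeanBias := by
  obtain ⟨C, c, hc, hF⟩ := hF
  refine ⟨40 * |C| + 60, min c (1 / 8), lt_min hc (by norm_num), ?_⟩
  intro d h P m J N Cw e hd hCw hN he he1 hh hhC hhd
  have hhC1 := hhC.trans (min_le_left _ _)
  have hc8 := hhC.trans (min_le_right _ _)
  have hh1 : h ≤ 1 := (le_mul_of_one_le_right hh.le hCw).trans (hc8.trans (by norm_num))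
  haveI := (hA d h P).1
  set σ := Real.sqrt ((1 / 2 : ℝ) ^ J) with hσ_def
  have hσ : 0 < σ := Real.sqrt_pos.2 (by positivity)
  have hσ2 : σ ^ 2 = (1 / 2 : ℝ) ^ J := sq_sqrt_half J
  have hσ1 : σ ≤ 1 := Real.sqrt_le_one.2 (pow_le_one₀ (by norm_num) (by norm_num))
  have hG := gsize_nonneg P
  set M := ∫ x, P.g x ∂mu P
  set est := ∫ ω, meanEst (J := J) N P ω ∂gp (RI m J) d
  have hlaw : MeasurePreserving (fun ω : RI m J → Space d =>
      ((fun i : Fin J × KI m => ω (.inr (.inr (some i)))), ω (.inr (.inr none))))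
      (gp (RI m J) d) ((gp (Fin J × KI m) d).prod (gam d)) :=
    MeasurePreserving.comp (Measure.measurePreserving_swap (μ := gam d) (ν := gp (Fin J × KI m) d))
      (gp_cons (i := (.inr (.inr none) : RI m J)) (g := fun i => .inr (.inr (some i)))
        (fun a b hab => by simpa using hab) fun b => by simp)
  have hal := chain_lp (d := d) N P J
  have hEl : Lp' (fun p : (Fin J × KI m → Space d) × Space d =>
      P.g (chainPt N P J (chSeed p.1) + σ • p.2)) :=
    (pot_lp P).comp ((hal.comp Lp'.fst).add (Lp'.snd.smul σ))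
  have hEi := lp_int ((m2_gp (d := d)).prod m2_gam) hEl
  have eE : est = ∫ p, P.g (chainPt N P J (chSeed p.1) + σ • p.2)
      ∂(gp (Fin J × KI m) d).prod (gam d) :=
    mp_integral hlaw hEi.aestronglyMeasurable
  set w := est - M with hw
  have ew : ⟪w, est⟫ = ∫ η, ∫ z, ⟪w, P.g (chainPt N P J (chSeed η) + σ • z)⟫ ∂gam d
      ∂gp (Fin J × KI m) d := by
    rw [eE, ← integral_inner hEi, integral_prod _ (hEi.const_inner w)]
  have eM : ⟪w, M⟫ = ∫ x, ⟪w, P.g x⟫ ∂mu P :=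
    (integral_inner (lp_int (m2_mu hA P) (pot_lp P)) w).symm
  obtain ⟨hφ1, hφB⟩ := inner_g P w
  obtain ⟨hv1, hvB⟩ := post_grad hA hM hD P (v := (1 / 2 : ℝ) ^ J) (by positivity) hφ1 hφB
  have hφd := hφ1.differentiable (by norm_num)
  have hg := (lp_int (m2_gp (d := d)) ((pot_lp P).comp hal)).norm
  have hhJ : h * σ ^ 2 ≤ 1 := by nlinarith [pow_le_one₀ (n := 2) hσ.le hσ1]
  have hpt : ∀ a, |(∫ z, ⟪w, P.g (a + σ • z)⟫ ∂gam d)
      - post P ((1 / 2 : ℝ) ^ J) (fun x => ⟪w, P.g x⟫) a|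
      ≤ 3 * h * (1 / 2 : ℝ) ^ J * ‖w‖ * (gsize P + ‖P.g a‖) := fun a => by
    have hp := (hI d _ (P.aff a σ) hhJ).2 (fun z => ⟪w, P.g (a + σ • z)⟫)
      (h * ‖w‖ * σ) (by positivity) (hφ1.comp (by fun_prop)) (gradBound_scale hφd hφB a hσ.le)
    rw [abs_sub_comm]
    refine hp.trans ?_
    have hg : gsize (P.aff a σ) ≤ σ * (gsize P + ‖P.g a‖) := by
      simp only [gsize, Pot.aff, smul_zero, add_zero, norm_smul, Real.norm_eq_abs, abs_of_pos hσ]
      have : h * σ ^ 2 * Real.sqrt d ≤ σ * (h * Real.sqrt d) := by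
        nlinarith [mul_nonneg (mul_nonneg hσ.le (sub_nonneg.2 hσ1))
          (mul_nonneg hh.le (Real.sqrt_nonneg (d : ℝ)))]
      nlinarith [mul_nonneg hσ.le (norm_nonneg (P.g 0))]
    calc 3 * (h * ‖w‖ * σ) * gsize (P.aff a σ) ≤ 3 * (h * ‖w‖ * σ) * (σ * (gsize P + ‖P.g a‖)) :=
          mul_le_mul_of_nonneg_left hg (by positivity)
      _ = _ := by rw [← hσ2]; ring
  have hφi : Integrable (fun p : (Fin J × KI m → Space d) × Space d =>
      ⟪w, P.g (chainPt N P J (chSeed p.1) + σ • p.2)⟫) ((gp (Fin J × KI m) d).prod (gam d)) :=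
    hEi.const_inner w
  have hlast := abs_int_le
    (g := fun η => post P ((1 / 2 : ℝ) ^ J) (fun x => ⟪w, P.g x⟫) (chainPt N P J (chSeed η)))
    (b := fun η => 3 * h * (1 / 2 : ℝ) ^ J * ‖w‖ * (gsize P + ‖P.g (chainPt N P J (chSeed η))‖))
    hφi.integral_prod_left
    (lp_int m2_gp ((gradBound_lp (hv1.differentiable (by norm_num)) hvB).comp hal))
    (((integrable_const (gsize P)).fun_add hg).const_mul _) fun η => hpt (chainPt N P J (chSeed η))
  rw [integral_const_mul, integral_add (integrable_const _) hg] at hlast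
  simp only [integral_const, probReal_univ, one_smul] at hlast
  have hchain := chain_bias (N := N) (P := P) hA hM hD hId hF hd hCw hN he he1 hh hhC1 hc8
    (hhd.trans (min_le_left _ _)) w J
  have h20 := mul_le_mul_of_nonneg_left (add_le_add (le_refl (gsize P)) (chain_grad N P hN hCw hc8 J))
    (by positivity : 0 ≤ 3 * h * (1 / 2 : ℝ) ^ J * ‖w‖)
  have key : ‖w‖ * ‖w‖ ≤ ((40 * |C| + 60) * Cw ^ 2 * h * (h + e + (1 / 2 : ℝ) ^ J) * gsize P) * ‖w‖ := by
    have e0 : ‖w‖ * ‖w‖ = ⟪w, est⟫ - ⟪w, M⟫ := by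
      rw [← inner_sub_right, ← hw, real_inner_self_eq_norm_sq]; ring
    rw [e0, ew, eM]
    set p := (1 / 2 : ℝ) ^ J
    have hp : 0 ≤ p := by positivity
    have hW : 1 ≤ Cw ^ 2 := one_le_pow₀ hCw
    have n1 : 40 * |C| * Cw ^ 2 * h * (h + e) * ‖w‖ * gsize P * (1 - p)
        ≤ 40 * |C| * Cw ^ 2 * h * (h + e + p) * gsize P * ‖w‖ := by
      have : (h + e) * (1 - p) ≤ h + e + p := by nlinarith
      have := mul_le_mul_of_nonneg_left this
        (by positivity : 0 ≤ 40 * |C| * Cw ^ 2 * h * ‖w‖ * gsize P)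
      linarith
    have n2 : 60 * h * p * ‖w‖ * gsize P ≤ 60 * Cw ^ 2 * h * (h + e + p) * gsize P * ‖w‖ := by
      calc 60 * h * p * ‖w‖ * gsize P ≤ 60 * 1 * h * (h + e + p) * gsize P * ‖w‖ := by
            have := mul_le_mul_of_nonneg_left (show p ≤ h + e + p by linarith)
              (by positivity : 0 ≤ 60 * h * ‖w‖ * gsize P)
            linarith
        _ ≤ _ := by gcongr
    linarith [(abs_le.1 hlast).2, (abs_le.1 hchain).2]
  by_cases hw0 : ‖w‖ = 0
  · show ‖w‖ ≤ _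
    rw [hw0]; positivity
  · exact le_of_mul_le_mul_right key (lt_of_le_of_ne (norm_nonneg w) (Ne.symm hw0))

end Vale.Agent.P347.Loc
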