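import Vale.Agent.P347.LocalTools

/-!
Node sums, and the bias of the first-order sampler against smoothed Lipschitz tests.
-/

noncomputable section

open MeasureTheory ProbabilityTheory
open scoped RealInnerProductSpace NNReal

namespace Vale.Agent.P347.Loc

variable {d m : ℕ} {h : ℝ}

theorem pot_diff (P : Pot d h) : Differentiable ℝ P.g := P.smooth.differentiable (by norm_num)

theorem pot_lp (P : Pot d h) : Lp' P.g :=
  ⟨⟨h, P.h_nonneg⟩, lipschitzWith_iff_norm_sub_le.2 fun x y => P.lip x y⟩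

theorem idl {α : Type} [NormedAddCommGroup α] : Lp' (fun x : α => x) := ⟨1, LipschitzWith.id⟩

theorem gsize_nonneg (P : Pot d h) : 0 ≤ gsize P := by
  unfold gsize; have := P.h_nonneg; positivity

theorem pot_norm (P : Pot d h) (x : Space d) : ‖P.g x‖ ≤ ‖P.g 0‖ + h * ‖x‖ := by
  have h1 := P.lip x 0
  have h2 := norm_le_norm_add_norm_sub' (P.g x) (P.g 0)
  simp only [sub_zero] at h1
  linarith

/-- The node at correlation `t`. -/
def node (t : ℝ) (ξ z : Space d) : Space d := t • ξ + Real.sqrt (1 - t ^ 2) • z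

theorem sqrt_le_one (t : ℝ) : Real.sqrt (1 - t ^ 2) ≤ 1 :=
  Real.sqrt_le_one.2 (by nlinarith [sq_nonneg t])

theorem node_norm {t : ℝ} (ht : t ∈ Set.Icc (0 : ℝ) 1) (ξ z : Space d) :
    ‖node t ξ z‖ ≤ ‖ξ‖ + ‖z‖ := by
  refine (norm_add_le _ _).trans (add_le_add ?_ ?_)
  · rw [norm_smul, Real.norm_eq_abs, abs_of_nonneg ht.1]
    exact mul_le_of_le_one_left (norm_nonneg _) ht.2
  · rw [norm_smul, Real.norm_eq_abs, abs_of_nonneg (Real.sqrt_nonneg _)]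
    exact mul_le_of_le_one_left (norm_nonneg _) (sqrt_le_one t)

theorem node_sub (t : ℝ) (ξ ξ' z z' : Space d) :
    node t ξ z - node t ξ' z' = node t (ξ - ξ') (z - z') := by
  simp only [node, smul_sub]; abel

theorem node_lp (t : ℝ) : Lp' (fun p : Space d × Space d => node t p.1 p.2) :=
  (Lp'.fst.smul t).add (Lp'.snd.smul _)

theorem nodeSum_eq (N : Nodes m) (g : Space d → Space d) (ξ : Space d) (z : Fin m → Space d) :
    nodeSum N g ξ z = ∑ k, N.w k • g (node (N.t k) ξ (z k)) := rfl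

theorem nodeSum_sub (N : Nodes m) (P : Pot d h) {Cw e : ℝ} (hN : N.Ok Cw e) {ξ ξ' : Space d}
    {z z' : Fin m → Space d} {D : ℝ} (hD : 0 ≤ D) (hz : ∀ k, ‖z k - z' k‖ ≤ D) :
    ‖nodeSum N P.g ξ z - nodeSum N P.g ξ' z'‖ ≤ Cw * (h * (‖ξ - ξ'‖ + D)) := by
  rw [nodeSum_eq, nodeSum_eq, ← Finset.sum_sub_distrib]
  refine (norm_sum_le _ _).trans ((Finset.sum_le_sum
    (g := fun k => |N.w k| * (h * (‖ξ - ξ'‖ + D))) fun k _ => ?_).trans ?_)
  · rw [← smul_sub, norm_smul, Real.norm_eq_abs]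
    refine mul_le_mul_of_nonneg_left ((P.lip _ _).trans ?_) (abs_nonneg _)
    rw [node_sub]
    exact mul_le_mul_of_nonneg_left ((node_norm (hN.1 k) _ _).trans (by linarith [hz k]))
      P.h_nonneg
  · rw [← Finset.sum_mul]
    exact mul_le_mul_of_nonneg_right hN.2.1 (by have := P.h_nonneg; positivity)

theorem nodeSum_lp {α : Type} [NormedAddCommGroup α] (N : Nodes m) (P : Pot d h) {a : α → Space d}
    (ha : Lp' a) {z : α → Fin m → Space d} (hz : ∀ k, Lp' (fun x => z x k)) :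
    Lp' (fun x => nodeSum N P.g (a x) (z x)) :=
  Lp'.sum _ fun k _ => ((pot_lp P).comp ((ha.smul _).add ((hz k).smul _))).smul _

/-- The average of the node sum given the main seed. -/
def nodeMean (N : Nodes m) (P : Pot d h) (ξ : Space d) : Space d :=
  ∑ k, N.w k • Gfun P.g (N.t k) ξ

theorem gfun_eq (P : Pot d h) (t : ℝ) (ξ : Space d) :
    Gfun P.g t ξ = ∫ z, P.g (node t ξ z) ∂gam d := rfl

theorem gfun_lp (P : Pot d h) (t : ℝ) : Lp' (Gfun P.g t) := by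
  obtain ⟨K, hK⟩ := (pot_lp P).comp (node_lp (d := d) t)
  refine ⟨K, lipschitzWith_iff_norm_sub_le.2 fun x y => ?_⟩
  have hi : ∀ u : Space d, Integrable (fun z => P.g (node t u z)) (gam d) := fun u =>
    lp_int m2_gam ((pot_lp P).comp ((Lp'.const (t • u)).add (idl.smul _)))
  rw [gfun_eq, gfun_eq, ← integral_sub (hi x) (hi y)]
  refine (norm_integral_le_of_norm_le_const (C := K * ‖x - y‖) (ae_of_all _ fun z => ?_)).trans
    (by simp)
  simpa [Prod.norm_def] using hK.norm_sub_le (x, z) (y, z)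

theorem nodeMean_lp (N : Nodes m) (P : Pot d h) : Lp' (nodeMean N P) :=
  Lp'.sum _ fun k _ => (gfun_lp P _).smul _

theorem nodeSum_mean (N : Nodes m) (P : Pot d h) (ξ : Space d) :
    ∫ z, nodeSum N P.g ξ z ∂gp (Fin m) d = nodeMean N P ξ := by
  have hl : ∀ k, Lp' (fun z : Space d => P.g (node (N.t k) ξ z)) := fun k =>
    (pot_lp P).comp ((Lp'.const _).add (idl.smul _))
  simp only [nodeSum_eq, nodeMean]
  rw [integral_finsetSum _ fun k _ => ((lp_int m2_gp ((hl k).comp (Lp'.eval k))).fun_smul (N.w k))]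
  refine Finset.sum_congr rfl fun k _ => ?_
  rw [integral_smul, gfun_eq,
    eval_integral k (f := fun z => P.g (node (N.t k) ξ z)) (hl k).cont.aestronglyMeasurable]

theorem gam_g_sq (P : Pot d h) : ∫ ξ, ‖P.g ξ‖ ^ 2 ∂gam d ≤ (2 * gsize P) ^ 2 := by
  have h0 := P.h_nonneg
  calc ∫ ξ, ‖P.g ξ‖ ^ 2 ∂gam d ≤ ∫ ξ, (2 * ‖P.g 0‖ ^ 2 + 2 * h ^ 2 * ‖ξ‖ ^ 2) ∂gam d := by
        refine integral_mono_of_nonneg (ae_of_all _ fun ξ => by positivity) ?_ (ae_of_all _ fun ξ => ?_)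
        · exact (integrable_const _).add
            ((lp_memLp m2_gam idl).norm.integrable_sq.const_mul _)
        · have := pot_norm P ξ
          have h1 : ‖P.g ξ‖ ^ 2 ≤ (‖P.g 0‖ + h * ‖ξ‖) ^ 2 := pow_le_pow_left₀ (norm_nonneg _) this 2
          nlinarith [sq_nonneg (‖P.g 0‖ - h * ‖ξ‖)]
    _ = 2 * ‖P.g 0‖ ^ 2 + 2 * h ^ 2 * d := by
        rw [integral_add (integrable_const _)
          ((lp_memLp m2_gam idl).norm.integrable_sq.const_mul _),
          integral_const, integral_const_mul, gam_sq]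
        simp
    _ ≤ _ := by
        have hs := Real.sq_sqrt (Nat.cast_nonneg d : (0 : ℝ) ≤ d)
        have h2 : 0 ≤ h * Real.sqrt d * ‖P.g 0‖ := by positivity
        unfold gsize
        nlinarith [sq_nonneg ‖P.g 0‖, mul_nonneg (sq_nonneg h) (Real.sqrt_nonneg (d : ℝ)),
          mul_nonneg (sq_nonneg h) (Nat.cast_nonneg d : (0 : ℝ) ≤ d)]

theorem gbar_lp (hR : GbarReg) (P : Pot d h) : Lp' (Gbar P.g) :=
  ⟨⟨h, P.h_nonneg⟩, lipschitzWith_iff_norm_sub_le.2 fun x y => (hR d h P).2 x y⟩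

/-- The quadrature error in second moment. -/
theorem quad_err (hR : GbarReg) (N : Nodes m) (P : Pot d h) {Cw e : ℝ} (hN : N.Ok Cw e) :
    MemLp (fun ξ => nodeMean N P ξ - Gbar P.g ξ) 2 (gam d) ∧
      ∫ ξ, ‖nodeMean N P ξ - Gbar P.g ξ‖ ^ 2 ∂gam d ≤ (2 * e * gsize P) ^ 2 := by
  refine ⟨lp_memLp m2_gam ((nodeMean_lp N P).sub (gbar_lp hR P)), (hN.2.2 d h P).trans ?_⟩
  calc e ^ 2 * ∫ ξ, ‖P.g ξ‖ ^ 2 ∂gam d ≤ e ^ 2 * (2 * gsize P) ^ 2 :=
        mul_le_mul_of_nonneg_left (gam_g_sq P) (sq_nonneg e)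
    _ = _ := by ring

/-- The smallness condition of the noise lemma. -/
theorem noise_cond {K h Cw c cn r : ℝ} (hK : 0 ≤ K) (hcn : 0 < cn)
    (hc : c * (8 * (K ^ 2 + 1)) ≤ Real.sqrt cn) (hr : 1 / 8 ≤ r) (hC : 0 ≤ Cw) (d : ℕ)
    (hs : h ^ 2 * Cw ^ 2 * Real.sqrt d ≤ c) : (K * h * Cw) ^ 4 * d ≤ cn * r ^ 2 := by
  have hs0 : 0 ≤ h ^ 2 * Cw ^ 2 * Real.sqrt d := by positivity
  have h1 : K ^ 2 * (h ^ 2 * Cw ^ 2 * Real.sqrt d) ≤ Real.sqrt cn * r := by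
    calc K ^ 2 * (h ^ 2 * Cw ^ 2 * Real.sqrt d) ≤ (K ^ 2 + 1) * c := by
          exact mul_le_mul (by linarith) hs hs0 (by positivity)
      _ ≤ Real.sqrt cn / 8 := by linarith
      _ ≤ Real.sqrt cn * r := by nlinarith [Real.sqrt_nonneg cn]
  have h2 := pow_le_pow_left₀ (by positivity) h1 2
  calc (K * h * Cw) ^ 4 * d = (K ^ 2 * (h ^ 2 * Cw ^ 2 * Real.sqrt d)) ^ 2 := by
        rw [mul_pow (K ^ 2), mul_pow (h ^ 2 * Cw ^ 2), Real.sq_sqrt (Nat.cast_nonneg d)]; ring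
    _ ≤ _ := by rw [mul_pow (Real.sqrt cn), Real.sq_sqrt hcn.le] at h2; exact h2

theorem lip2_of_le {ι : Type} [Fintype ι] {L : ℝ} {N : (ι → Space d) → Space d}
    (h : ∀ ω ω', ‖N ω - N ω'‖ ≤ L * dist2 ω ω') : Lip2 L N := h

theorem nu_m2 (hA : MuBasic) (P : Pot d h) {α : Type} [NormedAddCommGroup α] [MeasurableSpace α]
    [BorelSpace α] [SecondCountableTopology α] {ν : Measure (Space d × α)} {ρ : Measure α}
    [IsProbabilityMeasure ν] (hρ : M2 ρ) (h1 : ν.map Prod.fst = mu P) (h2 : ν.map Prod.snd = ρ) :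
    M2 ν := by
  have hm : M2 (mu P) := by
    refine (memLp_two_iff_integrable_sq_norm continuous_id'.aestronglyMeasurable).2 ?_
    refine (hA d h P).2 _ (by fun_prop) ⟨1, 2, fun x => ?_⟩
    rw [Real.norm_eq_abs, abs_of_nonneg (sq_nonneg _), one_mul]
    exact pow_le_pow_left₀ (norm_nonneg _) (by linarith) 2
  exact memLp_prod_iff.2 ⟨hm.comp_measurePreserving ⟨measurable_fst, h1⟩,
    hρ.comp_measurePreserving ⟨measurable_snd, h2⟩⟩

theorem m2_mu (hA : MuBasic) (P : Pot d h) : M2 (mu P) := by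
  refine (memLp_two_iff_integrable_sq_norm continuous_id'.aestronglyMeasurable).2 ?_
  refine (hA d h P).2 _ (by fun_prop) ⟨1, 2, fun x => ?_⟩
  rw [Real.norm_eq_abs, abs_of_nonneg (sq_nonneg _), one_mul]
  exact pow_le_pow_left₀ (norm_nonneg _) (by linarith) 2

theorem pf_comp {ψ : Space d → ℝ} (hψ : Lp' ψ) (y : Space d) :
    Pf (1 / 2) (Pf (1 / 2) ψ) y = ∫ ζ, ψ (y + ζ) ∂gam d := by
  have hl : Lp' (fun p : Space d × Space d =>
      ψ (y + (Real.sqrt (1 / 2) • p.1 + Real.sqrt (1 / 2) • p.2))) :=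
    hψ.comp ((Lp'.const y).add ((Lp'.fst.smul _).add (Lp'.snd.smul _)))
  have e := integral_prod _ (lp_int (m2_gam.prod m2_gam) hl)
  simp only [← add_assoc] at e hl
  unfold Pf
  rw [← e]
  have hc : Continuous fun z => ψ (y + z) := hψ.cont.comp (by fun_prop)
  simp only [add_assoc]
  rw [← integral_map (φ := fun p : Space d × Space d =>
    Real.sqrt (1 / 2) • p.1 + Real.sqrt (1 / 2) • p.2) (f := fun z => ψ (y + z)) (by fun_prop)
    hc.aestronglyMeasurable, gam_add, integral_map (by fun_prop) hc.aestronglyMeasurable]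
  norm_num [Real.sq_sqrt]

theorem abs_int_le {α : Type} [MeasurableSpace α] {μ : Measure α} {f g b : α → ℝ}
    (hf : Integrable f μ) (hg : Integrable g μ) (hb : Integrable b μ)
    (h : ∀ x, |f x - g x| ≤ b x) : |(∫ x, f x ∂μ) - ∫ x, g x ∂μ| ≤ ∫ x, b x ∂μ := by
  rw [← integral_sub hf hg]
  exact norm_integral_le_of_norm_le hb (ae_of_all μ fun x => (Real.norm_eq_abs _).trans_le (h x))

theorem abs_int_const {α : Type} [MeasurableSpace α] {μ : Measure α} [IsProbabilityMeasure μ]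
    {f g : α → ℝ} {b : ℝ} (hf : Integrable f μ) (hg : Integrable g μ)
    (h : ∀ x, |f x - g x| ≤ b) : |(∫ x, f x ∂μ) - ∫ x, g x ∂μ| ≤ b := by
  simpa using abs_int_le hf hg (integrable_const b) h

/-- Mean-zero noise in every fibre. -/
theorem fibre {Cn cn r B1 B2 K : ℝ} {H : Space d → ℝ} {ι : Type} [Fintype ι]
    (hn : ∀ (d : ℕ) (ι : Type) [Fintype ι] (N : (ι → Space d) → Space d)
      (H : Space d → ℝ) (B1 B2 L r : ℝ) (b : Space d),
      ContDiff ℝ 2 H → GradBound H B1 → HessBound H B2 → 0 ≤ B2 → 0 ≤ L → Differentiable ℝ N →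
      Lip2 L N → ∫ ω, N ω ∂gp ι d = 0 → 0 < r → L ^ 4 * d ≤ cn * r ^ 2 →
        |(∫ ω, ∫ z, H (b + N ω + Real.sqrt r • z) ∂gam d ∂gp ι d)
            - ∫ z, H (b + Real.sqrt r • z) ∂gam d| ≤ Cn * B2 * L ^ 2 * Real.sqrt d)
    (hH : ContDiff ℝ 2 H) (hH1 : GradBound H B1) (hH2 : HessBound H B2) (hB2 : 0 ≤ B2)
    (hK : 0 ≤ K) (hr : 0 < r) (hcond : K ^ 4 * d ≤ cn * r ^ 2) {b : Space d → Space d}
    (hb : Lp' b) {F : Space d → (ι → Space d) → Space d}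
    (hFl : Lp' (fun p : Space d × (ι → Space d) => F p.1 p.2))
    (hFd : ∀ ξ, Differentiable ℝ (F ξ)) (hFL : ∀ ξ, Lip2 K (F ξ))
    (hF0 : ∀ ξ, ∫ ω, F ξ ω ∂gp ι d = 0) (hQ : Lp' (Pf r H)) :
    |(∫ p, Pf r H (b p.1 + F p.1 p.2) ∂(gam d).prod (gp ι d)) - ∫ ξ, Pf r H (b ξ) ∂gam d|
      ≤ |Cn| * B2 * K ^ 2 * Real.sqrt d := by
  have hl := lp_int (m2_gam.prod m2_gp) (hQ.comp ((hb.comp Lp'.fst).add hFl))
  rw [integral_prod _ hl]
  refine abs_int_const hl.integral_prod_left (lp_int m2_gam (hQ.comp hb)) fun ξ => ?_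
  exact (hn d ι (F ξ) H B1 B2 K r (b ξ) hH hH1 hH2 hB2 hK (hFd ξ) (hFL ξ) (hF0 ξ) hr hcond).trans
    (mul_le_mul_of_nonneg_right (mul_le_mul_of_nonneg_right
      (mul_le_mul_of_nonneg_right (le_abs_self Cn) hB2) (sq_nonneg K)) (Real.sqrt_nonneg _))

theorem exact_lp {M : ℕ} {K : ℝ} (hK : 0 ≤ K) {N : Space d → (Fin M → Space d) → Space d}
    (h : ∀ ξ ξ' ω ω', ‖N ξ ω - N ξ' ω'‖
      ≤ K * Real.sqrt (‖ξ - ξ'‖ ^ 2 + ∑ i, ‖ω i - ω' i‖ ^ 2)) :
    Lp' (fun p : Space d × (Fin M → Space d) => N p.1 p.2) := by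
  refine ⟨⟨K * Real.sqrt (1 + M), by positivity⟩, lipschitzWith_iff_norm_sub_le.2
    fun p q => (h _ _ _ _).trans ?_⟩
  show _ ≤ K * Real.sqrt (1 + M) * ‖p - q‖
  rw [mul_assoc K]
  refine mul_le_mul_of_nonneg_left ?_ hK
  rw [← Real.sqrt_sq (norm_nonneg (p - q)), ← Real.sqrt_mul (by positivity)]
  refine Real.sqrt_le_sqrt ?_
  have hz : ∀ i, ‖p.2 i - q.2 i‖ ^ 2 ≤ ‖p - q‖ ^ 2 := fun i =>
    pow_le_pow_left₀ (norm_nonneg _) ((norm_le_pi_norm (p.2 - q.2) i).trans (le_max_right _ _)) 2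
  have hx : ‖p.1 - q.1‖ ^ 2 ≤ ‖p - q‖ ^ 2 :=
    pow_le_pow_left₀ (norm_nonneg _) (le_max_left _ _) 2
  have := Finset.sum_le_card_nsmul Finset.univ _ _ fun i _ => hz i
  simp only [Finset.card_univ, Fintype.card_fin, nsmul_eq_mul] at this
  linarith

/-- The exact side against a Lipschitz test. -/
theorem exact_push {α : Type} [NormedAddCommGroup α] [MeasurableSpace α] [BorelSpace α]
    [SecondCountableTopology α] (hA : MuBasic) (P : Pot d h) {ν : Measure (Space d × α)}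
    {ρ : Measure α} [IsProbabilityMeasure ν] (hρ : M2 ρ) (hfst : ν.map Prod.fst = mu P)
    (hsnd : ν.map Prod.snd = ρ) {B : α → Space d} (hB : Lp' B) {Q : Space d → ℝ} {L E : ℝ}
    (hL : 0 ≤ L) (hQ : ∀ x y, |Q x - Q y| ≤ L * ‖x - y‖) (hE : 0 ≤ E)
    (hsq : ∫ p, ‖p.1 - B p.2‖ ^ 2 ∂ν ≤ E ^ 2) :
    |(∫ x, Q x ∂mu P) - ∫ p, Q (B p) ∂ρ| ≤ L * E := by
  have hν2 := nu_m2 hA P hρ hfst hsnd
  have hQl : Lp' Q := ⟨⟨L, hL⟩, lipschitzWith_iff_norm_sub_le.2 fun x y => hQ x y⟩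
  rw [← hfst, ← hsnd, integral_map (by fun_prop) hQl.cont.aestronglyMeasurable,
    integral_map (f := fun p => Q (B p)) (by fun_prop) (hQl.comp hB).cont.aestronglyMeasurable]
  have hD : Lp' (fun p : Space d × α => p.1 - B p.2) := Lp'.fst.sub (hB.comp Lp'.snd)
  refine (abs_int_le (lp_int hν2 (hQl.comp Lp'.fst)) (lp_int hν2 ((hQl.comp hB).comp Lp'.snd))
    ((lp_int hν2 hD).norm.const_mul L) fun p => hQ _ _).trans ?_
  rw [integral_const_mul]
  exact mul_le_mul_of_nonneg_left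
    ((int_norm_le (lp_memLp hν2 hD)).trans ((Real.sqrt_le_left hE).2 hsq)) hL

/-- The first-order map with quadrature in place of the transport field. -/
theorem quad_push (hR : GbarReg) (N : Nodes m) (P : Pot d h) {Cw e L : ℝ} (hN : N.Ok Cw e)
    (he : 0 ≤ e) (hL : 0 ≤ L) {Q : Space d → ℝ} (hQ : ∀ x y, |Q x - Q y| ≤ L * ‖x - y‖) :
    |(∫ ξ, Q (ξ - Gbar P.g ξ) ∂gam d) - ∫ ξ, Q (ξ - nodeMean N P ξ) ∂gam d|
      ≤ L * (2 * e * gsize P) := by
  have hQl : Lp' Q := ⟨⟨L, hL⟩, lipschitzWith_iff_norm_sub_le.2 fun x y => hQ x y⟩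
  obtain ⟨hm, hb⟩ := quad_err hR N P hN
  refine (abs_int_le (lp_int m2_gam (hQl.comp (idl.sub (gbar_lp hR P))))
    (lp_int m2_gam (hQl.comp (idl.sub (nodeMean_lp N P))))
    ((hm.integrable one_le_two).norm.const_mul L) fun ξ => (hQ _ _).trans_eq (by simp)).trans ?_
  rw [integral_const_mul]
  refine mul_le_mul_of_nonneg_left ((int_norm_le hm).trans ?_) hL
  exact (Real.sqrt_le_left (by have := gsize_nonneg P; positivity)).2 hb

theorem node_noise (N : Nodes m) (P : Pot d h) {Cw e : ℝ} (hN : N.Ok Cw e) :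
    Lp' (fun p : Space d × (Fin m → Space d) => nodeMean N P p.1 - nodeSum N P.g p.1 p.2) ∧
    (∀ ξ, Differentiable ℝ fun z => nodeMean N P ξ - nodeSum N P.g ξ z) ∧
    (∀ ξ, Lip2 (h * Cw) fun z => nodeMean N P ξ - nodeSum N P.g ξ z) ∧
    ∀ ξ, ∫ z, (nodeMean N P ξ - nodeSum N P.g ξ z) ∂gp (Fin m) d = 0 := by
  refine ⟨((nodeMean_lp N P).comp Lp'.fst).sub
    (nodeSum_lp N P Lp'.fst fun k => Lp'.snd_eval k), fun ξ => ?_, fun ξ z z' => ?_,
    fun ξ => ?_⟩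
  · have := pot_diff P
    unfold nodeSum
    fun_prop
  · rw [sub_sub_sub_cancel_left, norm_sub_rev]
    refine (nodeSum_sub N P hN (dist2_nonneg z z') (le_dist2 z z')).trans_eq ?_
    simp only [sub_self, norm_zero, zero_add, dist2]
    ring
  · rw [integral_sub (integrable_const _) (lp_int m2_gp (nodeSum_lp N P (Lp'.const ξ) Lp'.eval)),
      nodeSum_mean]
    simp

theorem pf_lip {ψ : Space d → ℝ} {L : ℝ} (hψ : ContDiff ℝ 1 ψ) (hψL : GradBound ψ L)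
    (x y : Space d) :
    |Pf (1 / 2) (Pf (1 / 2) ψ) x - Pf (1 / 2) (Pf (1 / 2) ψ) y| ≤ L * ‖x - y‖ := by
  have hl : Lp' ψ := gradBound_lp (hψ.differentiable (by norm_num)) hψL
  rw [pf_comp hl, pf_comp hl]
  refine abs_int_const (lp_int m2_gam (hl.comp ((Lp'.const x).add idl)))
    (lp_int m2_gam (hl.comp ((Lp'.const y).add idl))) fun ζ => ?_
  exact (gradBound_lip (hψ.differentiable (by norm_num)) hψL _ _).trans_eq (by simp)

theorem first_arith {Ce A B2 Cp L h e Cw G sd : ℝ} (hCe : 0 ≤ Ce) (hA : 0 ≤ A) (hB : B2 = 2 * Cp * L)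
    (hCp : 0 ≤ Cp) (hL : 0 ≤ L) (hh : 0 ≤ h) (he : 0 ≤ e) (hCw : 1 ≤ Cw) (hG : 0 ≤ G) (hd : 0 ≤ sd)
    (hS : h * sd ≤ G) :
    A * B2 * (Ce * h) ^ 2 * sd + A * B2 * (h * Cw) ^ 2 * sd + L * (Ce * h * G) + L * (2 * e * G)
      ≤ (Ce + 2 + 2 * A * Cp * (Ce ^ 2 + 1)) * Cw ^ 2 * (h + e) * G * L := by
  subst hB
  have hW : 1 ≤ Cw ^ 2 := one_le_pow₀ hCw
  have a1 : A * (2 * Cp * L) * (Ce ^ 2 + Cw ^ 2) * h * (h * sd)
      ≤ A * (2 * Cp * L) * ((Ce ^ 2 + 1) * Cw ^ 2) * (h + e) * G := by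
    gcongr ?_ * ?_ * ?_
    · exact mul_le_mul_of_nonneg_left (by nlinarith [sq_nonneg Ce]) (by positivity)
    · linarith
  have a2 : L * ((Ce * h + 2 * e) * G) ≤ L * (((Ce + 2) * Cw ^ 2 * (h + e)) * G) := by
    gcongr
    nlinarith [mul_nonneg hCe he, mul_nonneg (mul_nonneg (add_nonneg hCe zero_le_two)
      (sub_nonneg.2 hW)) (add_nonneg hh he)]
  linarith

theorem firstOrderBias (hA : MuBasic) (hN : NoiseLemma) (hP : PfLip) (hE : ExactSide)
    (hR : GbarReg) : FirstOrderBias := by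
  obtain ⟨Cn, cn, hcn, hn⟩ := hN
  obtain ⟨Cp, hp⟩ := hP
  obtain ⟨Ce, hCe, he'⟩ := hE
  set c := min (1 / 2) (Real.sqrt cn / (8 * ((Ce + 1) ^ 2 + 1))) with hc_def
  have hc : 0 < c := lt_min (by norm_num) (by positivity)
  refine ⟨Ce + 2 + 2 * |Cn| * |Cp| * (Ce ^ 2 + 1), c, hc, ?_⟩
  intro d h P m N Cw e L ψ hd hCw hN he he1 hh hhC hhd hL hψ hψL
  have hck : c * (8 * ((Ce + 1) ^ 2 + 1)) ≤ Real.sqrt cn :=
    (le_div_iff₀ (by positivity)).1 (min_le_right _ _)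
  have hhW : h ≤ h * Cw := le_mul_of_one_le_right hh.le hCw
  have hh2 : h ≤ 1 / 2 := hhW.trans (hhC.trans (min_le_left _ _))
  obtain ⟨M, ν, Nn, hν, hfst, hsnd, hmean, hdiff, hlip, -, hsq⟩ := he' d h P hd hh hh2
  obtain ⟨hH2, hH1, hHH⟩ := hp d (1 / 2) ψ L (by norm_num) hL hψ hψL
  have hB2n : 0 ≤ 2 * |Cp| * L := by positivity
  have hHB : HessBound (Pf (1 / 2) ψ) (2 * |Cp| * L) := fun x => (hHH x).trans (sq_le_sq.2 (by
    rw [abs_div, abs_mul, abs_of_nonneg hL, abs_of_pos (Real.sqrt_pos.2 (by norm_num)),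
      abs_of_nonneg hB2n, div_le_iff₀ (Real.sqrt_pos.2 (by norm_num))]
    have : 1 / 2 ≤ Real.sqrt (1 / 2 : ℝ) := Real.le_sqrt_of_sq_le (by norm_num)
    nlinarith [mul_nonneg (abs_nonneg Cp) hL]))
  simp only [← pf_comp (gradBound_lp (hψ.differentiable (by norm_num)) hψL)]
  set Q := Pf (1 / 2) (Pf (1 / 2) ψ) with hQ_def
  have hQL : ∀ x y, |Q x - Q y| ≤ L * ‖x - y‖ := pf_lip hψ hψL
  have hQl : Lp' Q := ⟨⟨L, hL⟩, lipschitzWith_iff_norm_sub_le.2 fun x y => hQL x y⟩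
  have cond : ∀ K : ℝ, 0 ≤ K → K ≤ (Ce + 1) * h * Cw → K ^ 4 * d ≤ cn * (1 / 2 : ℝ) ^ 2 :=
    fun K hK hKle => (mul_le_mul_of_nonneg_right (pow_le_pow_left₀ hK hKle 4)
      (Nat.cast_nonneg d)).trans
        (noise_cond (by linarith) hcn hck (by norm_num) (by linarith) d hhd)
  have hNl := exact_lp (by positivity) hlip
  have hG := gsize_nonneg P
  have hCeh : 0 ≤ Ce * h := by positivity
  have s1 := exact_push hA P (m2_gam.prod m2_gp) hfst hsnd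
    ((Lp'.fst.sub ((gbar_lp hR P).comp Lp'.fst)).add hNl) hL hQL (mul_nonneg hCeh hG) hsq
  have s2 := fibre (b := fun ξ => ξ - Gbar P.g ξ) (F := Nn) hn hH2 hH1 hHB hB2n hCeh (by norm_num)
    (cond _ hCeh (by nlinarith [mul_le_mul_of_nonneg_left hhW hCe]))
    (idl.sub (gbar_lp hR P)) hNl
    (fun ξ => hdiff.comp ((differentiable_const ξ).prodMk differentiable_id))
    (fun ξ ω ω' => (hlip ξ ξ ω ω').trans_eq (by simp)) hmean hQl
  have s3 := quad_push hR N P hN he hL hQL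
  obtain ⟨hFl, hFd, hFL, hF0⟩ := node_noise N P hN
  have hhC0 : 0 ≤ h * Cw := hh.le.trans hhW
  have s4 := fibre (b := fun ξ => ξ - nodeMean N P ξ)
    (F := fun ξ z => nodeMean N P ξ - nodeSum N P.g ξ z) hn hH2 hH1 hHB hB2n hhC0 (by norm_num)
    (cond _ hhC0 (by nlinarith [mul_nonneg hCe hhC0]))
    (idl.sub (nodeMean_lp N P)) hFl hFd hFL hF0 hQl
  simp only [sub_add_sub_cancel] at s4
  rw [integral_prod (fun p : Space d × (Fin m → Space d) => Q (p.1 - nodeSum N P.g p.1 p.2))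
    (lp_int (m2_gam.prod m2_gp) (hQl.comp
      (Lp'.fst.sub (nodeSum_lp N P Lp'.fst fun k => Lp'.snd_eval k))))] at s4
  have key := first_arith hCe (abs_nonneg Cn) rfl (abs_nonneg Cp) hL hh.le he hCw hG
    (Real.sqrt_nonneg (d : ℝ)) (show h * Real.sqrt d ≤ gsize P by simp [gsize])
  rw [abs_le] at s1 s2 s3 s4 ⊢
  constructor <;> linarith

end Vale.Agent.P347.Loc
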