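import Vale.Agent.P347.LocalChain

/-!
Second-order comparison of two laws, and the parts of the local step.
-/

noncomputable section

open MeasureTheory ProbabilityTheory
open scoped RealInnerProductSpace NNReal

namespace Vale.Agent.P347.Loc

variable {d m J M : ℕ} {h : ℝ}

/-- The gradient of a test function as a vector. -/
def gradVec (Q : Space d → ℝ) (x : Space d) : Space d :=
  (InnerProductSpace.toDual ℝ (Space d)).symm (fderiv ℝ Q x)

theorem gradVec_inner (Q : Space d → ℝ) (x v : Space d) :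
    ⟪gradVec Q x, v⟫ = fderiv ℝ Q x v := InnerProductSpace.toDual_symm_apply

theorem gradVec_apply (Q : Space d → ℝ) (x : Space d) (i : Fin d) :
    gradVec Q x i = fderiv ℝ Q x (ev i) := by
  rw [← gradVec_inner, real_inner_comm]
  simp [ev, EuclideanSpace.inner_single_left]

theorem fderiv_lp {Q : Space d → ℝ} {b2 : ℝ} (hQ : ContDiff ℝ 2 Q) (hb : HessBound Q b2)
    (hb0 : 0 ≤ b2) : Lp' (fderiv ℝ Q) :=
  ⟨⟨b2, hb0⟩, lipschitzWith_iff_norm_sub_le.2 fun x y =>
    Convex.norm_image_sub_le_of_norm_fderiv_le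
      (fun w _ => ((hQ.fderiv_right (m := 1) (by norm_num)).differentiable (by norm_num)) w)
      (fun w _ => hess_op hb0 hb w) convex_univ (Set.mem_univ y) (Set.mem_univ x)⟩

theorem gradVec_lp {Q : Space d → ℝ} {b2 : ℝ} (hQ : ContDiff ℝ 2 Q) (hb : HessBound Q b2)
    (hb0 : 0 ≤ b2) : Lp' (gradVec Q) :=
  Lp'.comp (f := fun L : Space d →L[ℝ] ℝ => (InnerProductSpace.toDual ℝ (Space d)).symm L)
    (g := fderiv ℝ Q) ⟨1, (InnerProductSpace.toDual ℝ (Space d)).symm.lipschitz⟩ (fderiv_lp hQ hb hb0)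

theorem sq_center {α E : Type} [MeasurableSpace α] [NormedAddCommGroup E] [NormedSpace ℝ E]
    {μ : Measure α} [IsProbabilityMeasure μ] {f : α → E} (hf : MemLp f 2 μ) :
    ∫ x, ‖f x - ∫ y, f y ∂μ‖ ^ 2 ∂μ ≤ 4 * ∫ x, ‖f x‖ ^ 2 ∂μ := by
  set c := ∫ y, f y ∂μ
  have h1 : ‖c‖ ≤ Real.sqrt (∫ x, ‖f x‖ ^ 2 ∂μ) :=
    (norm_integral_le_integral_norm f).trans (int_norm_le hf)
  have h2 : ‖c‖ ^ 2 ≤ ∫ x, ‖f x‖ ^ 2 ∂μ := (pow_le_pow_left₀ (norm_nonneg c) h1 2).trans_eq
    (Real.sq_sqrt (integral_nonneg fun _ => sq_nonneg _))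
  refine (integral_mono_of_nonneg (ae_of_all _ fun x => sq_nonneg _)
    ((hf.norm.integrable_sq.const_mul 2).fun_add (integrable_const (2 * ‖c‖ ^ 2)))
    (ae_of_all _ fun x => ?_)).trans ?_
  · have h3 := pow_le_pow_left₀ (norm_nonneg _) (norm_sub_le (f x) c) 2
    simp only
    nlinarith [sq_nonneg (‖f x‖ - ‖c‖)]
  · rw [integral_add (hf.norm.integrable_sq.const_mul 2) (integrable_const _), integral_const_mul,
      integral_const]
    simp only [probReal_univ, one_smul]
    linarith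

/-- Moving a Lipschitz point by a small vector. -/
theorem shift_bound {α : Type} [NormedAddCommGroup α] [MeasurableSpace α] [BorelSpace α]
    [SecondCountableTopology α] {μ : Measure α} [IsProbabilityMeasure μ] (hμ : M2 μ)
    {Q : Space d → ℝ} {b1 b2 V E : ℝ} (hQ : ContDiff ℝ 2 Q) (hQ1 : GradBound Q b1)
    (hQ2 : HessBound Q b2) (hb2 : 0 ≤ b2) {Y δ : α → Space d} (hY : Lp' Y) (hδ : Lp' δ)
    (hV0 : 0 ≤ V) (hE0 : 0 ≤ E)
    (hV : ∑ i, var μ (fun p => fderiv ℝ Q (Y p) (ev i)) ≤ V ^ 2)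
    (hE : ∫ p, ‖δ p‖ ^ 2 ∂μ ≤ E ^ 2) :
    |(∫ p, Q (Y p + δ p) ∂μ) - ∫ p, Q (Y p) ∂μ|
      ≤ b1 * ‖∫ p, δ p ∂μ‖ + V * (2 * E) + b2 * E ^ 2 := by
  have hd := hQ.differentiable (by norm_num)
  have hQl := gradBound_lp hd hQ1
  set A := fun p => gradVec Q (Y p) with hA
  have hAl : Lp' A := (gradVec_lp hQ hQ2 hb2).comp hY
  set mA := ∫ p, A p ∂μ
  set md := ∫ p, δ p ∂μ
  have ha := lp_memLp hμ (hAl.sub (Lp'.const mA))
  have hb := lp_memLp hμ (hδ.sub (Lp'.const md))
  have hAi := lp_int hμ hAl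
  have hδi := lp_int hμ hδ
  have iad : Integrable (fun p => ⟪A p, δ p⟫) μ := by
    refine (hδi.norm.const_mul b1).mono'
      (hAl.cont.inner hδ.cont).aestronglyMeasurable (ae_of_all _ fun p => ?_)
    rw [gradVec_inner, Real.norm_eq_abs]
    exact (ContinuousLinearMap.le_opNorm _ _).trans
      (mul_le_mul_of_nonneg_right (hQ1 _) (norm_nonneg _))
  have icc : Integrable (fun p => ⟪A p - mA, δ p - md⟫) μ :=
    (ha.norm.integrable_mul hb.norm).mono' ((ha.1).inner hb.1)
      (ae_of_all _ fun p => (Real.norm_eq_abs _).trans_le (abs_real_inner_le_norm _ _))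
  -- remainder
  have r1 : |(∫ p, Q (Y p + δ p) ∂μ) - ∫ p, (Q (Y p) + ⟪A p, δ p⟫) ∂μ| ≤ b2 * E ^ 2 := by
    refine (abs_int_le (lp_int hμ (hQl.comp (hY.add hδ)))
      ((lp_int hμ (hQl.comp hY)).fun_add iad)
      ((lp_memLp hμ hδ).norm.integrable_sq.const_mul b2) fun p => ?_).trans ?_
    · rw [gradVec_inner, ← sub_sub]
      exact taylor hb2 hQ hQ2 _ _
    · rw [integral_const_mul]
      exact mul_le_mul_of_nonneg_left hE hb2
  -- first order
  have e1 : ∫ p, ⟪A p, δ p⟫ ∂μ = ⟪mA, md⟫ + ∫ p, ⟪A p - mA, δ p - md⟫ ∂μ := by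
    have e : ∀ p, ⟪A p, δ p⟫ = ⟪A p - mA, δ p - md⟫ + (⟪A p, md⟫ + ⟪mA, δ p⟫ - ⟪mA, md⟫) := fun p => by
      simp only [inner_sub_left, inner_sub_right]; ring
    simp only [e]
    have i1 : Integrable (fun p => ⟪A p, md⟫) μ := hAi.inner_const md
    have i2 : Integrable (fun p => ⟪mA, δ p⟫) μ := hδi.const_inner mA
    rw [integral_add icc ((i1.fun_add i2).sub' (integrable_const _)),
      integral_sub (i1.fun_add i2) (integrable_const _), integral_add i1 i2, integral_inner hδi mA]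
    have e3 : ∫ p, ⟪A p, md⟫ ∂μ = ⟪mA, md⟫ := by
      rw [real_inner_comm, ← integral_inner hAi md]
      exact integral_congr_ae (ae_of_all _ fun p => real_inner_comm _ _)
    rw [e3]
    simp only [integral_const, probReal_univ, one_smul]
    ring
  have r2 : |⟪mA, md⟫| ≤ b1 * ‖md‖ := by
    refine (abs_real_inner_le_norm _ _).trans (mul_le_mul_of_nonneg_right ?_ (norm_nonneg _))
    refine (norm_integral_le_of_norm_le_const (C := b1) (ae_of_all _ fun p => ?_)).trans (by simp)
    simpa [hA, gradVec] using hQ1 (Y p)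
  have hsum : ∫ p, ‖A p - mA‖ ^ 2 ∂μ ≤ V ^ 2 := by
    refine le_trans (le_of_eq ?_) hV
    simp only [EuclideanSpace.real_norm_sq_eq]
    rw [integral_finsetSum _ fun i _ => show Integrable (fun p => (A p - mA) i ^ 2) μ from
      (lp_memLp hμ ((Lp'.of_clm (EuclideanSpace.proj i : Space d →L[ℝ] ℝ)).comp
        (hAl.sub (Lp'.const mA)))).integrable_sq]
    refine Finset.sum_congr rfl fun i _ => ?_
    have hm : mA i = ∫ p, A p i ∂μ :=
      ((EuclideanSpace.proj i : Space d →L[ℝ] ℝ).integral_comp_comm hAi).symm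
    simp only [var, PiLp.sub_apply, hm, hA, gradVec_apply]
  have r3 : |∫ p, ⟪A p - mA, δ p - md⟫ ∂μ| ≤ V * (2 * E) := by
    refine (abs_integral_le_integral_abs.trans (integral_mono icc.abs
      (ha.norm.integrable_mul hb.norm) fun p => abs_real_inner_le_norm _ _)).trans ?_
    refine (le_abs_self _).trans ((abs_int_mul_le ha.norm hb.norm).trans ?_)
    refine mul_le_mul ((Real.sqrt_le_left hV0).2 hsum) ((Real.sqrt_le_left (by linarith)).2 ?_)
      (Real.sqrt_nonneg _) hV0
    have := sq_center (lp_memLp hμ hδ)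
    nlinarith
  rw [integral_add (lp_int hμ (hQl.comp hY)) iad, e1] at r1
  rw [abs_le] at r1 r2 r3 ⊢
  constructor <;> linarith

theorem var_comp {α β : Type} [MeasurableSpace α] [MeasurableSpace β] {μ : Measure α}
    {ν : Measure β} {T : α → β} (hT : MeasurePreserving T μ ν) {f : β → ℝ}
    (hf : AEStronglyMeasurable f ν) : var μ (fun x => f (T x)) = var ν f := by
  unfold var
  rw [mp_integral hT hf]
  exact mp_integral hT ((continuous_pow 2).comp_aestronglyMeasurable (hf.sub aestronglyMeasurable_const))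

theorem vv_bound {Cv L b2 : ℝ} :
    Cv * (L * b2) ^ 2 ≤ (Real.sqrt |Cv| * (L * b2)) ^ 2 := by
  rw [mul_pow (Real.sqrt |Cv|), Real.sq_sqrt (abs_nonneg _)]
  exact mul_le_mul_of_nonneg_right (le_abs_self Cv) (sq_nonneg _)

theorem gam_mean : ∫ x, x ∂gam d = 0 := integral_id_stdGaussian

theorem mu_mean (hA : MuBasic) (hS : SteinMu) (P : Pot d h) :
    ∫ x, x ∂mu P = -∫ x, P.g x ∂mu P := by
  haveI := (hA d h P).1
  have i1 := lp_int (m2_mu hA P) idl
  have i2 := lp_int (m2_mu hA P) (pot_lp P)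
  refine ext_inner_left ℝ fun e => ?_
  have key := hS d h P (fun _ => (1 : ℝ)) e contDiff_const ⟨0, 0, fun x => by simp⟩
  simp only [mul_one, fderiv_fun_const, Pi.zero_apply, ContinuousLinearMap.zero_apply,
    integral_zero, inner_add_right] at key
  rw [integral_add (i1.const_inner e) (i2.const_inner e), integral_inner i1, integral_inner i2] at key
  rw [inner_neg_right]
  linarith

/-- The seed of the second node sum. -/
theorem second_law : MeasurePreserving (fun ω : RI m J → Space d =>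
    (ω (.inr (.inl none)), fun k => ω (.inr (.inl (some k))))) (gp (RI m J) d)
    ((gam d).prod (gp (Fin m) d)) :=
  gp_cons (i := (.inr (.inl none) : RI m J)) (g := fun k => .inr (.inl (some k)))
    (fun a b hab => by simpa using hab) fun b => by simp

theorem meanEst_lp (N : Nodes m) (P : Pot d h) :
    Lp' (fun ω : RI m J → Space d => meanEst N P ω) :=
  (pot_lp P).comp ((Lp'.comp (g := fun (ω : RI m J → Space d) (i : Fin J × KI m) =>
      ω (.inr (.inr (some i)))) (chain_lp N P J) (Lp'.pi fun i => Lp'.eval _)).add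
    ((Lp'.eval _).smul _))

theorem meanEst_sub (N : Nodes m) (P : Pot d h) {Cw e : ℝ} (hN : N.Ok Cw e) (hCw : 0 ≤ Cw)
    (hc : h * Cw ≤ 1 / 8) (ω ω' : RI m J → Space d) :
    ‖meanEst N P ω - meanEst N P ω'‖ ≤ 17 * h * dist2 ω ω' := by
  set D := dist2 ω ω'
  have hD : 0 ≤ D := dist2_nonneg _ _
  have h1 := chain_sub N P hN hCw hc hD J (fun i => ω (.inr (.inr (some i))))
    (fun i => ω' (.inr (.inr (some i)))) fun i => le_dist2 ω ω' _
  have hp : (0 : ℝ) ≤ (3 / 4) ^ J := by positivity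
  have hσ : Real.sqrt ((1 / 2 : ℝ) ^ J) ≤ 1 :=
    (sqrt_half_pow_le J).trans (pow_le_one₀ (by norm_num) (by norm_num))
  refine ((P.lip _ _).trans (mul_le_mul_of_nonneg_left ?_ P.h_nonneg)).trans_eq
    (show h * (17 * D) = 17 * h * D by ring)
  rw [add_sub_add_comm, ← smul_sub]
  refine (norm_add_le _ _).trans ?_
  rw [norm_smul, Real.norm_eq_abs, abs_of_nonneg (Real.sqrt_nonneg _)]
  have h2 := mul_le_mul hσ (le_dist2 ω ω' (.inr (.inr none))) (norm_nonneg _) zero_le_one
  have h3 : (16 : ℝ) * (1 - (3 / 4) ^ J) * D ≤ 16 * D := by nlinarith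
  calc _ ≤ 16 * (1 - (3 / 4) ^ J) * D + 1 * D := add_le_add h1 h2
    _ ≤ _ := by linarith

/-- The mean of the part of the local sampler that does not see the main seed. -/
def shiftMean (N : Nodes m) (P : Pot d h) (J : ℕ) : Space d :=
  (∫ ξ, nodeMean N P ξ ∂gam d) - ∫ ω, meanEst (J := J) N P ω ∂gp (RI m J) d

theorem local_noise (N : Nodes m) (P : Pot d h) {Cw e : ℝ} (hN : N.Ok Cw e) (hCw : 1 ≤ Cw)
    (hc : h * Cw ≤ 1 / 8) :
    Lp' (fun p : Space d × (RI m J → Space d) =>
        localX N P p.1 p.2 - (p.1 - nodeMean N P p.1 + shiftMean N P J)) ∧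
    (∀ ξ, Differentiable ℝ fun ω : RI m J → Space d =>
        localX N P ξ ω - (ξ - nodeMean N P ξ + shiftMean N P J)) ∧
    (∀ ξ, Lip2 (20 * h * Cw) fun ω : RI m J → Space d =>
        localX N P ξ ω - (ξ - nodeMean N P ξ + shiftMean N P J)) ∧
    ∀ ξ, ∫ ω, (localX N P ξ ω - (ξ - nodeMean N P ξ + shiftMean N P J)) ∂gp (RI m J) d = 0 := by
  have h0 := P.h_nonneg
  refine ⟨?_, fun ξ => ?_, fun ξ ω ω' => ?_, fun ξ => ?_⟩
  · refine Lp'.sub ?_ ((Lp'.fst.sub ((nodeMean_lp N P).comp Lp'.fst)).add (Lp'.const _))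
    refine ((Lp'.fst.sub (nodeSum_lp N P Lp'.fst fun k => Lp'.snd_eval _)).add
      (nodeSum_lp N P (Lp'.snd_eval _) fun k => Lp'.snd_eval _)).sub ?_
    exact Lp'.comp (g := fun p : Space d × (RI m J → Space d) => p.2) (meanEst_lp N P) Lp'.snd
  · have hg := pot_diff P
    have hr : Differentiable ℝ (fun (ω : RI m J → Space d) (i : Fin J × KI m) =>
        ω (.inr (.inr (some i)))) := by fun_prop
    have ha : Differentiable ℝ (fun ω : RI m J → Space d => chainPt N P J (chainSeed ω)) :=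
      (chain_diff N P J).comp hr
    unfold localX meanEst nodeSum
    fun_prop
  · have hD := dist2_nonneg ω ω'
    have a1 := nodeSum_sub N P hN (ξ := ξ) (ξ' := ξ) (z := fun k => ω (.inl k))
      (z' := fun k => ω' (.inl k)) hD fun k => le_dist2 ω ω' _
    have a2 := nodeSum_sub N P hN (ξ := ω (.inr (.inl none))) (ξ' := ω' (.inr (.inl none)))
      (z := fun k => ω (.inr (.inl (some k)))) (z' := fun k => ω' (.inr (.inl (some k)))) hD
      fun k => le_dist2 ω ω' _
    have a3 := meanEst_sub N P hN (by linarith) hc ω ω'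
    simp only [sub_self, norm_zero, zero_add] at a1
    simp only [localX]
    set p1 := nodeSum N P.g ξ fun k => ω (.inl k)
    set p2 := nodeSum N P.g ξ fun k => ω' (.inl k)
    set q1 := nodeSum N P.g (ω (.inr (.inl none))) fun k => ω (.inr (.inl (some k)))
    set q2 := nodeSum N P.g (ω' (.inr (.inl none))) fun k => ω' (.inr (.inl (some k)))
    set c := ξ - nodeMean N P ξ + shiftMean N P J
    rw [show ξ - p1 + q1 - meanEst N P ω - c - (ξ - p2 + q2 - meanEst N P ω' - c)
      = -(p1 - p2) + (q1 - q2) - (meanEst N P ω - meanEst N P ω') by abel]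
    refine ((norm_sub_le _ _).trans (add_le_add (norm_add_le _ _) le_rfl)).trans ?_
    rw [norm_neg]
    show _ ≤ 20 * h * Cw * dist2 ω ω'
    have n1 : ‖ω (.inr (.inl none)) - ω' (.inr (.inl none))‖ ≤ dist2 ω ω' := le_dist2 ω ω' _
    have n2 := mul_le_mul_of_nonneg_left (mul_le_mul_of_nonneg_left
      (add_le_add n1 (le_refl (dist2 ω ω'))) h0) (zero_le_one.trans hCw)
    have n3 := mul_le_mul_of_nonneg_left hCw (mul_nonneg h0 hD)
    linarith
  · have l1 : Lp' (fun ω : RI m J → Space d => nodeSum N P.g ξ fun k => ω (.inl k)) :=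
      nodeSum_lp N P (Lp'.const ξ) fun k => Lp'.eval _
    have l2 : Lp' (fun ω : RI m J → Space d =>
        nodeSum N P.g (ω (.inr (.inl none))) fun k => ω (.inr (.inl (some k)))) :=
      nodeSum_lp N P (Lp'.eval _) fun k => Lp'.eval _
    have i1 := lp_int (m2_gp (d := d)) l1
    have i2 := lp_int (m2_gp (d := d)) l2
    have i3 := lp_int (m2_gp (d := d)) (meanEst_lp (J := J) N P)
    have l4 : Lp' (fun p : Space d × (Fin m → Space d) => nodeSum N P.g p.1 p.2) :=
      nodeSum_lp N P Lp'.fst fun k => Lp'.snd_eval k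
    have i4 := lp_int (m2_gam.prod m2_gp) l4
    have e1 : ∫ ω : RI m J → Space d, nodeSum N P.g ξ (fun k => ω (.inl k)) ∂gp (RI m J) d
        = nodeMean N P ξ := by
      rw [mp_integral (gp_comp Sum.inl_injective)
        (nodeSum_lp N P (Lp'.const ξ) fun k => Lp'.eval k).cont.aestronglyMeasurable, nodeSum_mean]
    have e2 : ∫ ω : RI m J → Space d, nodeSum N P.g (ω (.inr (.inl none)))
        (fun k => ω (.inr (.inl (some k)))) ∂gp (RI m J) d = ∫ x, nodeMean N P x ∂gam d := by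
      refine (mp_integral second_law i4.aestronglyMeasurable).trans ?_
      rw [integral_prod _ i4]
      simp only [nodeSum_mean]
    simp only [localX]
    rw [integral_sub ((((integrable_const ξ).sub' i1).fun_add i2).sub' i3) (integrable_const _),
      integral_sub (((integrable_const ξ).sub' i1).fun_add i2) i3,
      integral_add ((integrable_const ξ).sub' i1) i2, integral_sub (integrable_const ξ) i1,
      integral_const, integral_const, e1, e2]
    simp only [probReal_univ, one_smul, shiftMean]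
    abel

end Vale.Agent.P347.Loc
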