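import Vale.Agent.P347.Pins

/-!
Tools for the local sampler: sub-families of Gaussian seeds, Lipschitz integrands, second-order
Taylor bounds.
-/

noncomputable section

open MeasureTheory ProbabilityTheory
open scoped RealInnerProductSpace NNReal

namespace Vale.Agent.P347.Loc

variable {d : ℕ} {ι κ κ₁ κ₂ : Type} [Fintype ι] [Fintype κ] [Fintype κ₁] [Fintype κ₂]

/-! ### Sub-families of seeds -/

theorem gp_comp {f : κ → ι} (hf : Function.Injective f) :
    MeasurePreserving (fun (ω : ι → Space d) k => ω (f k)) (gp ι d) (gp κ d) := by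
  refine ⟨by fun_prop, ?_⟩
  have h := (iIndepFun_pi (μ := fun _ : ι => gam d) (X := fun _ => id)
    fun _ => aemeasurable_id).precomp hf
  rw [iIndepFun_iff_map_fun_eq_pi_map (fun i => (by fun_prop : Measurable _).aemeasurable)] at h
  simp only [id_eq] at h
  rw [h]
  congr 1
  funext k
  exact (measurePreserving_eval (fun _ : ι => gam d) (f k)).map_eq

theorem gp_one (i : ι) : MeasurePreserving (fun ω : ι → Space d => ω i) (gp ι d) (gam d) :=
  measurePreserving_eval (fun _ : ι => gam d) i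

theorem gp_split {f : κ₁ → ι} {g : κ₂ → ι} (hf : Function.Injective f) (hg : Function.Injective g)
    (hd : ∀ a b, f a ≠ g b) :
    MeasurePreserving (fun ω : ι → Space d => ((fun a => ω (f a)), fun b => ω (g b))) (gp ι d)
      ((gp κ₁ d).prod (gp κ₂ d)) := by
  have h1 := gp_comp (d := d) (hf.sumElim hg hd)
  exact (measurePreserving_sumPiEquivProdPi (fun _ : κ₁ ⊕ κ₂ => gam d)).comp h1

theorem gp_cons {i : ι} {g : κ → ι} (hg : Function.Injective g) (hd : ∀ b, i ≠ g b) :
    MeasurePreserving (fun ω : ι → Space d => (ω i, fun b => ω (g b))) (gp ι d)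
      ((gam d).prod (gp κ d)) := by
  have h1 := gp_split (d := d) (f := fun _ : Unit => i) (fun _ _ _ => rfl) hg fun _ => hd
  exact ((gp_one (d := d) ()).prod (MeasurePreserving.id (gp κ d))).comp h1

theorem option_law : MeasurePreserving
    (fun η : Option κ → Space d => (η none, fun b => η (some b))) (gp (Option κ) d)
    ((gam d).prod (gp κ d)) :=
  gp_cons (Option.some_injective κ) fun b => by simp

theorem mp_integral {α β E : Type} [MeasurableSpace α] [MeasurableSpace β] [NormedAddCommGroup E]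
    [NormedSpace ℝ E] {μ : Measure α} {ν : Measure β} {T : α → β} (hT : MeasurePreserving T μ ν)
    {f : β → E} (hf : AEStronglyMeasurable f ν) : ∫ x, f (T x) ∂μ = ∫ y, f y ∂ν := by
  rw [← hT.map_eq, integral_map hT.measurable.aemeasurable (hT.map_eq ▸ hf)]

theorem eval_integral {E : Type} [NormedAddCommGroup E] [NormedSpace ℝ E] (i : ι)
    {f : Space d → E} (hf : AEStronglyMeasurable f (gam d)) :
    ∫ ω, f (ω i) ∂gp ι d = ∫ z, f z ∂gam d :=
  mp_integral (gp_one i) hf

/-- The Euclidean size of a family of vectors. -/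
def dist2 (ω ω' : ι → Space d) : ℝ := Real.sqrt (∑ i, ‖ω i - ω' i‖ ^ 2)

theorem dist2_nonneg (ω ω' : ι → Space d) : 0 ≤ dist2 ω ω' := Real.sqrt_nonneg _

theorem le_dist2 (ω ω' : ι → Space d) (i : ι) : ‖ω i - ω' i‖ ≤ dist2 ω ω' :=
  Real.le_sqrt_of_sq_le (Finset.single_le_sum (f := fun j => ‖ω j - ω' j‖ ^ 2)
    (fun j _ => sq_nonneg _) (Finset.mem_univ i))

/-! ### Lipschitz functions -/

/-- Lipschitz with some constant. -/
def Lp' {α β : Type} [PseudoEMetricSpace α] [PseudoEMetricSpace β] (f : α → β) : Prop :=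
  ∃ K, LipschitzWith K f

section lip

variable {α β γ : Type} [NormedAddCommGroup α] [NormedAddCommGroup β] [NormedAddCommGroup γ]

theorem Lp'.cont {f : α → β} (hf : Lp' f) : Continuous f := hf.choose_spec.continuous

theorem Lp'.comp {f : β → γ} {g : α → β} (hf : Lp' f) (hg : Lp' g) : Lp' (fun x => f (g x)) :=
  ⟨_, hf.choose_spec.comp hg.choose_spec⟩

theorem Lp'.add {f g : α → β} (hf : Lp' f) (hg : Lp' g) : Lp' (fun x => f x + g x) :=
  ⟨_, hf.choose_spec.add hg.choose_spec⟩

theorem Lp'.sub {f g : α → β} (hf : Lp' f) (hg : Lp' g) : Lp' (fun x => f x - g x) :=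
  ⟨_, hf.choose_spec.sub hg.choose_spec⟩

theorem Lp'.const (c : β) : Lp' (fun _ : α => c) := ⟨0, LipschitzWith.const c⟩

theorem Lp'.sum {ι : Type} (s : Finset ι) {f : ι → α → β} (hf : ∀ i ∈ s, Lp' (f i)) :
    Lp' (fun x => ∑ i ∈ s, f i x) := by
  classical
  induction s using Finset.induction_on with
  | empty => simpa using Lp'.const (0 : β)
  | @insert a s ha ih =>
    simp only [Finset.sum_insert ha]
    exact (hf a (Finset.mem_insert_self a s)).add
      (ih fun i hi => hf i (Finset.mem_insert_of_mem hi))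

theorem Lp'.smul [NormedSpace ℝ β] (c : ℝ) {f : α → β} (hf : Lp' f) : Lp' (fun x => c • f x) :=
  ⟨_, (lipschitzWith_smul c).comp hf.choose_spec⟩

theorem Lp'.of_clm [NormedSpace ℝ α] [NormedSpace ℝ β] (L : α →L[ℝ] β) : Lp' (fun x => L x) :=
  ⟨_, L.lipschitz⟩

theorem Lp'.fst : Lp' (fun p : α × β => p.1) := ⟨1, LipschitzWith.prod_fst⟩

theorem Lp'.snd : Lp' (fun p : α × β => p.2) := ⟨1, LipschitzWith.prod_snd⟩

theorem Lp'.eval {ι : Type} [Fintype ι] (i : ι) : Lp' (fun ω : ι → β => ω i) :=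
  ⟨1, LipschitzWith.eval i⟩

theorem Lp'.snd_eval {ι : Type} [Fintype ι] (i : ι) : Lp' (fun p : α × (ι → β) => p.2 i) :=
  Lp'.comp (f := fun ω : ι → β => ω i) (g := fun p : α × (ι → β) => p.2) (Lp'.eval i) Lp'.snd

theorem Lp'.pair {f : α → β} {g : α → γ} (hf : Lp' f) (hg : Lp' g) :
    Lp' (fun x => (f x, g x)) :=
  ⟨_, hf.choose_spec.prodMk hg.choose_spec⟩

theorem Lp'.pi {ι : Type} [Fintype ι] {f : α → ι → β} (hf : ∀ i, Lp' (fun x => f x i)) :
    Lp' f := by
  refine ⟨∑ i, (hf i).choose, lipschitzWith_iff_norm_sub_le.2 fun x y => ?_⟩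
  refine (pi_norm_le_iff_of_nonneg (by positivity)).2 fun i => ?_
  refine ((hf i).choose_spec.norm_sub_le x y).trans
    (mul_le_mul_of_nonneg_right ?_ (norm_nonneg _))
  exact_mod_cast Finset.single_le_sum (f := fun j => (hf j).choose) (fun j _ => bot_le)
    (Finset.mem_univ i)

end lip

/-- A finite measure with a second moment. -/
def M2 {α : Type} [NormedAddCommGroup α] [MeasurableSpace α] (μ : Measure α) : Prop :=
  MemLp (fun x : α => x) 2 μ

theorem m2_gam : M2 (gam d) := IsGaussian.memLp_two_id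

theorem m2_gp : M2 (gp ι d) :=
  MemLp.of_eval fun i => m2_gam.comp_measurePreserving (gp_one i)

section moments

variable {α β γ : Type} [NormedAddCommGroup α] [MeasurableSpace α] [BorelSpace α]
  [NormedAddCommGroup β] [MeasurableSpace β] [BorelSpace β] [NormedAddCommGroup γ]

theorem M2.prod {μ : Measure α} {ν : Measure β} [IsProbabilityMeasure μ] [IsProbabilityMeasure ν]
    (hμ : M2 μ) (hν : M2 ν) : M2 (μ.prod ν) :=
  memLp_prod_iff.2 ⟨hμ.comp_fst ν, hν.comp_snd μ⟩

theorem lp_memLp [SecondCountableTopology α] {μ : Measure α} [IsFiniteMeasure μ] (hμ : M2 μ)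
    {f : α → γ} (hf : Lp' f) : MemLp f 2 μ := by
  obtain ⟨K, hK⟩ := hf
  refine MemLp.mono' ((hμ.norm.const_mul (K : ℝ)).add (memLp_const ‖f 0‖))
    hK.continuous.aestronglyMeasurable (ae_of_all _ fun x => ?_)
  have h := hK.norm_sub_le x 0
  have h2 := norm_le_norm_add_norm_sub' (f x) (f 0)
  simp only [sub_zero] at h
  simp only [Pi.add_apply]
  linarith

theorem lp_int [SecondCountableTopology α] {μ : Measure α} [IsFiniteMeasure μ] (hμ : M2 μ)
    {f : α → γ} (hf : Lp' f) : Integrable f μ :=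
  (lp_memLp hμ hf).integrable one_le_two

end moments

/-- Cauchy-Schwarz. -/
theorem abs_int_mul_le {α : Type} [MeasurableSpace α] {μ : Measure α} {f g : α → ℝ}
    (hf : MemLp f 2 μ) (hg : MemLp g 2 μ) :
    |∫ x, f x * g x ∂μ| ≤ Real.sqrt (∫ x, f x ^ 2 ∂μ) * Real.sqrt (∫ x, g x ^ 2 ∂μ) := by
  refine abs_integral_le_integral_abs.trans ?_
  simp only [abs_mul]
  have h := integral_mul_le_Lp_mul_Lq_of_nonneg Real.HolderConjugate.two_two (μ := μ)
    (ae_of_all _ fun x => abs_nonneg (f x)) (ae_of_all _ fun x => abs_nonneg (g x))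
    (by simpa [← Real.norm_eq_abs] using hf.norm)
    (by simpa [← Real.norm_eq_abs] using hg.norm)
  simpa [Real.sqrt_eq_rpow, sq_abs] using h

theorem int_norm_le {α E : Type} [MeasurableSpace α] [NormedAddCommGroup E] {μ : Measure α}
    [IsProbabilityMeasure μ] {f : α → E} (hf : MemLp f 2 μ) :
    ∫ x, ‖f x‖ ∂μ ≤ Real.sqrt (∫ x, ‖f x‖ ^ 2 ∂μ) := by
  have h := abs_int_mul_le hf.norm (memLp_const (1 : ℝ))
  simp only [mul_one, one_pow, integral_const, probReal_univ, smul_eq_mul, Real.sqrt_one] at h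
  exact (le_abs_self _).trans h

/-! ### Gaussian facts -/

theorem gam_sq : ∫ z, ‖z‖ ^ 2 ∂gam d = d := by
  have hc : ∀ i : Fin d, ∫ z, z i ^ 2 ∂gam d = 1 := fun i => by
    have hv := variance_dual_stdGaussian (E := Space d) (innerSL ℝ (ev i))
    rw [variance_of_integral_eq_zero (by fun_prop) (integral_strongDual_stdGaussian _)] at hv
    simpa [ev, EuclideanSpace.inner_single_left] using hv
  simp only [EuclideanSpace.real_norm_sq_eq]
  rw [integral_finsetSum _ fun i _ => show Integrable (fun z : Space d => z i ^ 2) (gam d) from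
    (lp_memLp m2_gam (Lp'.of_clm (EuclideanSpace.proj i : Space d →L[ℝ] ℝ))).integrable_sq]
  simp [hc]

theorem gam_norm : ∫ z, ‖z‖ ∂gam d ≤ Real.sqrt d := gam_sq (d := d) ▸ int_norm_le m2_gam

theorem gam_add (a b : ℝ) :
    ((gam d).prod (gam d)).map (fun p => a • p.1 + b • p.2)
      = (gam d).map (fun z => Real.sqrt (a ^ 2 + b ^ 2) • z) := by
  refine Measure.ext_of_charFun (funext fun t => ?_)
  rw [charFun_map_smul, charFun_stdGaussian, charFun_apply, integral_map (by fun_prop) (by fun_prop)]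
  have e : ∀ p : Space d × Space d, Complex.exp (⟪a • p.1 + b • p.2, t⟫ * Complex.I)
      = Complex.exp (⟪p.1, a • t⟫ * Complex.I) * Complex.exp (⟪p.2, b • t⟫ * Complex.I) := fun p => by
    rw [← Complex.exp_add, inner_add_left, real_inner_smul_left, real_inner_smul_left,
      real_inner_smul_right, real_inner_smul_right]
    push_cast
    ring_nf
  simp only [e]
  rw [integral_prod_mul (fun x : Space d => Complex.exp (⟪x, a • t⟫ * Complex.I))
    (fun x : Space d => Complex.exp (⟪x, b • t⟫ * Complex.I)), ← charFun_apply, ← charFun_apply, charFun_stdGaussian, charFun_stdGaussian,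
    ← Complex.exp_add]
  congr 1
  simp only [norm_smul, Real.norm_eq_abs, mul_pow, sq_abs, Real.sq_sqrt (by positivity :
    0 ≤ a ^ 2 + b ^ 2), Complex.ofReal_mul, Complex.ofReal_pow]
  norm_cast
  push_cast
  rw [sq_abs, sq_abs, sq_abs, Real.sq_sqrt (by positivity : 0 ≤ a ^ 2 + b ^ 2)]
  push_cast
  ring

/-! ### Second-order Taylor bound -/

theorem hess_op {H : Space d → ℝ} {B : ℝ} (hB : 0 ≤ B) (h : HessBound H B) (x : Space d) :
    ‖fderiv ℝ (fderiv ℝ H) x‖ ≤ B := by
  set T := fderiv ℝ (fderiv ℝ H) x with hT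
  refine ContinuousLinearMap.opNorm_le_bound _ hB fun u => ?_
  refine ContinuousLinearMap.opNorm_le_bound _ (by positivity) fun w => ?_
  have expand : ∀ v : Space d, v = ∑ i, v i • ev i := fun v => by
    simpa [ev] using ((EuclideanSpace.basisFun (Fin d) ℝ).sum_repr v).symm
  have e : T u w = ∑ p : Fin d × Fin d, (u p.1 * w p.2) * T (ev p.1) (ev p.2) := by
    conv_lhs => rw [expand u, expand w]
    simp only [map_sum, map_smul, ContinuousLinearMap.sum_apply, ContinuousLinearMap.smul_apply,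
      smul_eq_mul, Finset.mul_sum, Fintype.sum_prod_type]
    rw [Finset.sum_comm]
    exact Finset.sum_congr rfl fun i _ => Finset.sum_congr rfl fun j _ => by ring
  have cs := Finset.sum_mul_sq_le_sq_mul_sq Finset.univ
    (fun p : Fin d × Fin d => u p.1 * w p.2) (fun p => T (ev p.1) (ev p.2))
  rw [Real.norm_eq_abs]
  refine abs_le_of_sq_le_sq ?_ (by positivity)
  rw [e]
  refine cs.trans ?_
  have h1 : ∑ p : Fin d × Fin d, (u p.1 * w p.2) ^ 2 = ‖u‖ ^ 2 * ‖w‖ ^ 2 := by
    simp only [EuclideanSpace.real_norm_sq_eq, mul_pow, Fintype.sum_prod_type]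
    rw [Finset.sum_mul_sum]
  have h2 := h x
  rw [← Fintype.sum_prod_type (f := fun p : Fin d × Fin d => T (ev p.1) (ev p.2) ^ 2)] at h2
  rw [h1]
  calc ‖u‖ ^ 2 * ‖w‖ ^ 2 * ∑ p : Fin d × Fin d, T (ev p.1) (ev p.2) ^ 2
      ≤ ‖u‖ ^ 2 * ‖w‖ ^ 2 * B ^ 2 := mul_le_mul_of_nonneg_left h2 (by positivity)
    _ = (B * ‖u‖ * ‖w‖) ^ 2 := by ring

theorem taylor {H : Space d → ℝ} {B : ℝ} (hB : 0 ≤ B) (hH : ContDiff ℝ 2 H) (h : HessBound H B)
    (y δ : Space d) : |H (y + δ) - H y - fderiv ℝ H y δ| ≤ B * ‖δ‖ ^ 2 := by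
  have hd : Differentiable ℝ H := hH.differentiable (by norm_num)
  have hd2 : Differentiable ℝ (fderiv ℝ H) :=
    (hH.fderiv_right (m := 1) (by norm_num)).differentiable (by norm_num)
  have key := Convex.norm_image_sub_le_of_norm_fderiv_le' (f := H) (φ := fderiv ℝ H y)
    (C := B * ‖δ‖) (s := Metric.closedBall y ‖δ‖) (x := y) (y := y + δ) (fun z _ => hd z)
    (fun z hz => ?_) (convex_closedBall y ‖δ‖) (Metric.mem_closedBall_self (norm_nonneg δ))
    (by simp)
  · simpa [Real.norm_eq_abs, pow_two, mul_assoc] using key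
  · refine ((convex_univ.norm_image_sub_le_of_norm_fderiv_le (fun w _ => hd2 w)
      (fun w _ => hess_op hB h w) (Set.mem_univ y) (Set.mem_univ z))).trans ?_
    exact mul_le_mul_of_nonneg_left (by simpa [Metric.mem_closedBall, dist_eq_norm] using hz) hB

theorem gradBound_lip {H : Space d → ℝ} {B : ℝ} (hH : Differentiable ℝ H) (h : GradBound H B)
    (x y : Space d) : |H x - H y| ≤ B * ‖x - y‖ :=
  Convex.norm_image_sub_le_of_norm_fderiv_le (fun z _ => hH z) (fun z _ => h z) convex_univ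
    (Set.mem_univ y) (Set.mem_univ x)

theorem gradBound_nonneg {H : Space d → ℝ} {B : ℝ} (h : GradBound H B) : 0 ≤ B :=
  (norm_nonneg _).trans (h 0)

theorem gradBound_lp {H : Space d → ℝ} {B : ℝ} (hH : Differentiable ℝ H) (h : GradBound H B) :
    Lp' H :=
  ⟨⟨B, gradBound_nonneg h⟩, lipschitzWith_iff_norm_sub_le.2 fun x y => gradBound_lip hH h x y⟩

end Vale.Agent.P347.Loc
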