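import Vale.Agent.P347.Model

/-!
The choice of parameters of the sampler.
-/

noncomputable section

open Filter

namespace Vale.Agent.P347

/-- The main step size. -/
def eta (a : ℝ) (d : ℕ) : ℝ := (d : ℝ) ^ (-(1 / 4 + a) : ℝ)

/-- The weight bound. -/
def wbound (C a : ℝ) (d : ℕ) : ℝ := max 1 (C * (1 + Real.log (1 / eta a d)))

/-- For large `d` all the parameters can be chosen. -/
def Numeric : Prop :=
  ∀ (C c a : ℝ) (k : ℕ), 1 ≤ C → 0 < c → 0 < a → a ≤ 1 / 16 → 1 ≤ (k : ℝ) * a →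
    ∀ᶠ d : ℕ in atTop, ∀ m : ℕ,
      (m : ℝ) ≤ C * eta a d ^ (-(1 : ℝ) / k) * (1 + Real.log (1 / eta a d)) →
      ∃ (n J K : ℕ) (R : ℝ),
        1 ≤ d ∧ 0 < eta a d ∧ eta a d ≤ 1 / 2 ∧ 2 ≤ n ∧ 1 ≤ 2 ^ J * eta a d ∧ 0 < R ∧
        eta a d * wbound C a d ≤ c ∧
        2 * wbound C a d ^ 2 * eta a d * (eta a d * Real.sqrt d) ≤ c ∧
        eta a d * wbound C a d ≤ 1 ∧
        eta a d ^ K * R ≤ eta a d / 4 ∧
        C * wbound C a d ^ 4 * (eta a d ^ 2 * Real.sqrt d * (2 + Real.log n)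
            + n * eta a d ^ 3 * Real.sqrt d + J * eta a d ^ 2 * Real.sqrt d)
          + 6 * eta a d ^ 2 * Real.sqrt d ≤ 1 / 30 ∧
        4 * d * C / Real.sqrt (eta a d) * ((1 + eta a d)⁻¹) ^ (n - 1) ≤ 1 / 30 ∧
        ((n + J : ℕ) + 1 : ℝ) * (2 / R * ((1 + 8 * 2 ^ J * wbound C a d * eta a d ^ K) ^ (n + J)
          * ((n + J : ℕ) * (9 * 2 ^ J * (((m : ℝ) + (m + 1) + (J * (2 + m) + 1) + 2) * (2 * d))))))
          ≤ 1 / 30 ∧
        (((n + J) * (K + 1 + (m + m + (J * m + 1))) + (K + 1) : ℕ) : ℝ)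
          ≤ (d : ℝ) ^ (1 / 4 + 5 * a : ℝ)

end Vale.Agent.P347
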