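import Vale.Agent.P347.Schedule
import Vale.Agent.P347.NumericPin

/-!
Assembly: the sampler reaches total variation `1/10` with `d^(1/4+ε)` queries.
-/

noncomputable section

open MeasureTheory ProbabilityTheory Filter
open scoped RealInnerProductSpace

namespace Vale.Agent.P347

variable {d m J : ℕ} {V : Space d → ℝ}

theorem Nodes.Ok.mono {N : Nodes m} {Cw Cw' e : ℝ} (h : N.Ok Cw e) (hle : Cw ≤ Cw') :
    N.Ok Cw' e :=
  ⟨h.1, h.2.1.trans hle, h.2.2⟩

theorem integrable_norm_mu (hB : MuBasic) {h : ℝ} (P : Pot d h) :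
    Integrable (fun x : Space d => ‖x‖) (mu P) :=
  (hB d h P).2 _ measurable_norm ⟨1, 1, fun x => by rw [norm_norm, pow_one, one_mul]; linarith⟩

theorem mu_norm_le (hB : MuBasic) (hM : MomentMu) (hd : 1 ≤ d) (hV : InClass V) :
    ∫ x, ‖x‖ ∂mu hV.pot ≤ 2 * d := by
  have := (hB d 1 hV.pot).1
  have h2 : Integrable (fun x : Space d => ‖x‖ ^ 2) (mu hV.pot) :=
    (hB d 1 hV.pot).2 _ (by fun_prop) ⟨1, 2, fun x => by
      rw [one_mul, Real.norm_eq_abs, abs_of_nonneg (sq_nonneg _)]
      nlinarith [norm_nonneg x]⟩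
  refine (integral_mono (integrable_norm_mu hB _) ((integrable_const (1 / 2 : ℝ)).add (h2.div_const 2))
    fun x => norm_le_sq x).trans ?_
  rw [integral_add' (integrable_const _) (h2.div_const 2), integral_const, probReal_univ, one_smul,
    integral_div]
  have h3 := (hM d 1 hV.pot le_rfl).1
  rw [hV.pot_g_zero, norm_zero] at h3
  have : (1 : ℝ) ≤ d := by exact_mod_cast hd
  linarith

theorem qop_iter_grad (hK : ChainContract) (P : Pot d 1) {η B : ℝ} (hη : 0 < η) {U : Space d → ℝ}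
    (hU : ContDiff ℝ 1 U) (hg : GradBound U B) :
    ∀ q, ContDiff ℝ 1 ((Qop P η)^[q] U) ∧ GradBound ((Qop P η)^[q] U) (B * ((1 + η)⁻¹) ^ q)
  | 0 => by simpa using ⟨hU, hg⟩
  | q + 1 => by
    obtain ⟨a, b⟩ := qop_iter_grad hK P hη hU hg q
    rw [Function.iterate_succ_apply', pow_succ, ← mul_assoc, ← div_eq_mul_inv]
    exact hK d 1 P η _ _ hη a b

/-- The exact chain forgets the origin. -/
theorem init_bias (hB : MuBasic) (hD : PostDeriv) (hM : MomentMu) (hPI : PosteriorId)
    (hK : ChainContract) {C2 : ℝ} (hC2 : ChainConst C2) (hC20 : 0 ≤ C2) (hV : InClass V)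
    (hd : 1 ≤ d) {η : ℝ} (hη : 0 < η) (hη1 : η ≤ 1) {n : ℕ} (hn : 1 ≤ n) {f : Space d → ℝ}
    (hf : Measurable f) (h1 : ∀ x, |f x| ≤ 1) :
    |tailVal hV.pot (sched η n) f (n + J) 0 0 - ∫ x, f x ∂mu hV.pot|
      ≤ 4 * d * C2 / Real.sqrt η * ((1 + η)⁻¹) ^ (n - 1) := by
  have := (hB d 1 hV.pot).1
  obtain ⟨hm, hb⟩ := tailVal_meas hV.pot hB hD (sched_pos hη n) hf h1 J n
  obtain ⟨hm0, hb0⟩ := tailVal_meas hV.pot hB hD (sched_pos hη n) hf h1 (n + J) 0
  set U := tailVal hV.pot (sched η n) f J n with hU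
  set L := C2 / Real.sqrt η * ((1 + η)⁻¹) ^ (n - 1) with hL
  obtain ⟨ha, hb1, -⟩ := hC2 d 1 hV.pot η 1 U le_rfl hη hη1 le_rfl hm hb
  rw [Nat.cast_one, one_mul, Function.iterate_one] at hb1
  rw [Function.iterate_one] at ha
  obtain ⟨hc, hg⟩ := qop_iter_grad hK hV.pot hη (ha.of_le (by norm_num)) hb1 (n - 1)
  have e : (Qop hV.pot η)^[n - 1] (Qop hV.pot η U) = tailVal hV.pot (sched η n) f (n + J) 0 := by
    rw [← Function.iterate_succ_apply, show (n - 1).succ = n by omega, hU, ← tail_main n le_rfl,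
      Nat.sub_self, add_comm J n]
  rw [e] at hc hg
  set F := tailVal hV.pot (sched η n) f (n + J) 0
  have hL0 : 0 ≤ L := by rw [hL]; positivity
  have hlip : ∀ y, |F y - F 0| ≤ L * ‖y‖ := fun y => by
    have := convex_univ.norm_image_sub_le_of_norm_fderiv_le (f := F) (x := 0) (y := y)
      (fun z _ => (hc.differentiable one_ne_zero) z) (fun z _ => hg z) (Set.mem_univ _) (Set.mem_univ _)
    rwa [sub_zero, Real.norm_eq_abs] at this
  have hst := tailVal_stationary hV.pot hB hD hPI (sched_pos hη n) hf h1 (n + J) 0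
  rw [sched_main (Nat.zero_le n)] at hst
  rw [← hst]
  have hin : ∀ x : Space d, |(∫ z, F (x + Real.sqrt η • z) ∂gam d) - F 0|
      ≤ L * (‖x‖ + 2 * d) := by
    intro x
    have hi : Integrable (fun z => F (x + Real.sqrt η • z)) (gam d) :=
      integrable_of_le_one (hm0.comp (by fun_prop)) fun z => hb0 _
    have hi2 : Integrable (fun z => F (x + Real.sqrt η • z) - F 0) (gam d) :=
      hi.sub (integrable_const _)
    have hdom : ∀ z, |F (x + Real.sqrt η • z) - F 0| ≤ L * (‖x‖ + ‖z‖) := fun z => by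
      refine (hlip _).trans (mul_le_mul_of_nonneg_left ((norm_add_le _ _).trans ?_) hL0)
      refine add_le_add le_rfl ?_
      rw [norm_smul, Real.norm_eq_abs, abs_of_nonneg (Real.sqrt_nonneg _)]
      exact mul_le_of_le_one_left (norm_nonneg _) (Real.sqrt_le_one.2 hη1)
    have i3 : Integrable (fun z : Space d => L * (‖x‖ + ‖z‖)) (gam d) :=
      ((integrable_const _).add integrable_norm_gam).const_mul L
    rw [show (∫ z, F (x + Real.sqrt η • z) ∂gam d) - F 0
        = ∫ z, (F (x + Real.sqrt η • z) - F 0) ∂gam d by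
      rw [integral_sub hi (integrable_const _), integral_const, probReal_univ, one_smul]]
    refine abs_integral_le_integral_abs.trans ((integral_mono hi2.abs i3 hdom).trans ?_)
    rw [integral_const_mul, integral_add (integrable_const _) integrable_norm_gam, integral_const,
      probReal_univ, one_smul]
    exact mul_le_mul_of_nonneg_left (by linarith [gam_norm_le hB hM hd]) hL0
  set G := fun x => ∫ z, F (x + Real.sqrt η • z) ∂gam d with hG
  have hGm : Measurable G := measurable_Pf hm0 η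
  have hiG : Integrable G (mu hV.pot) := integrable_of_le_one hGm (abs_Pf_le hb0 η)
  have hiN := integrable_norm_mu hB hV.pot
  rw [abs_sub_comm, show (∫ x, G x ∂mu hV.pot) - F 0 = ∫ x, (G x - F 0) ∂mu hV.pot by
    rw [integral_sub hiG (integrable_const _), integral_const, probReal_univ, one_smul]]
  have i4 : Integrable (fun x : Space d => L * (‖x‖ + 2 * d)) (mu hV.pot) :=
    (hiN.add (integrable_const _)).const_mul L
  have i5 : Integrable (fun x => G x - F 0) (mu hV.pot) := hiG.sub (integrable_const _)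
  refine abs_integral_le_integral_abs.trans ((integral_mono i5.abs i4 hin).trans ?_)
  rw [integral_const_mul, integral_add hiN (integrable_const _), integral_const, probReal_univ,
    one_smul, show 4 * (d : ℝ) * C2 / Real.sqrt η * ((1 + η)⁻¹) ^ (n - 1) = L * (4 * d) by
      rw [hL]; ring]
  exact mul_le_mul_of_nonneg_left (by linarith [mu_norm_le hB hM hd hV]) hL0

/-- The main theorem, from the blocks. -/
theorem quarterBound_of (hB : MuBasic) (hM : MomentMu) (hI : InterpMu) (hPI : PosteriorId)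
    (hS : PostShift) (hD : PostDeriv) (hPf : PfBound) (hQ : Quadrature) (hST : StepTheorem)
    (hCB : ChainBounds) (hK : ChainContract) (hNum : Numeric) : QuarterBound := by
  intro ε hε
  obtain ⟨C1, c, hc, hst⟩ := hST
  obtain ⟨C2₀, hC2₀⟩ := hCB
  set C := max C1 1 with hC
  have hC0 : 1 ≤ C := le_max_right _ _
  have hstep : StepConst C c := by
    refine ⟨hc, fun d h P m J N Cw e r b1 b2 H a1 a2 a3 a4 a5 a6 a7 a8 a9 a10 a11 a12 a13 a14 a15 =>
      (hst d h P m J N Cw e r b1 b2 H a1 a2 a3 a4 a5 a6 a7 a8 a9 a10 a11 a12 a13 a14 a15).trans ?_⟩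
    have : C1 ≤ C := le_max_left _ _
    gcongr
  set C2 := max C2₀ 2 with hC2
  have hC2' : ChainConst C2 := by
    intro d h P η m f a1 a2 a3 a4 a5 a6
    obtain ⟨x, y, z⟩ := hC2₀ d h P η m f a1 a2 a3 a4 a5 a6
    have hle : C2₀ ≤ C2 := le_max_left _ _
    refine ⟨x, fun u => (y u).trans (div_le_div_of_nonneg_right hle (Real.sqrt_nonneg _)),
      fun u => (z u).trans ?_⟩
    have h0 : 0 ≤ C2₀ := by
      by_contra hneg
      push Not at hneg
      have hp : C2₀ / Real.sqrt (m * η) < 0 := div_neg_of_neg_of_pos hneg (Real.sqrt_pos.2 (by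
        have : (0 : ℝ) < m := by exact_mod_cast a4
        positivity))
      linarith [y u, norm_nonneg (fderiv ℝ ((Qop P η)^[m] f) u)]
    have : 0 ≤ 1 / ((m : ℝ) * η) + 1 := by positivity
    exact pow_le_pow_left₀ (mul_nonneg h0 this) (mul_le_mul_of_nonneg_right hle this) 2
  set a := min (ε / 5) (1 / 16) with ha
  have ha0 : 0 < a := lt_min (by linarith) (by norm_num)
  have ha1 : a ≤ 1 / 16 := min_le_right _ _
  have ha5 : 1 / 4 + 5 * a ≤ 1 / 4 + ε := by linarith [min_le_left (ε / 5) (1 / 16 : ℝ)]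
  set k := ⌈1 / a⌉₊ with hk
  have hk0 : 0 < k := Nat.ceil_pos.2 (by positivity)
  have hka : 1 ≤ (k : ℝ) * a := by
    have := Nat.le_ceil (1 / a)
    rw [← hk, div_le_iff₀ ha0] at this
    exact this
  obtain ⟨Cq, hCq⟩ := hQ k hk0
  set A := max (max 1 Cq) (max (16 * C * C2) (max C2 1)) with hA
  have hA1 : 1 ≤ A := (le_max_left _ _).trans (le_max_left _ _)
  have hAq : Cq ≤ A := (le_max_right _ _).trans (le_max_left _ _)
  have hAS : 16 * C * C2 ≤ A := (le_max_left _ _).trans (le_max_right _ _)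
  have hA2 : C2 ≤ A := ((le_max_left _ _).trans (le_max_right _ _)).trans (le_max_right _ _)
  obtain ⟨d₀, hd₀⟩ := eventually_atTop.1 (hNum A c a k hA1 hc ha0 ha1 hka)
  refine ⟨max d₀ 1, fun d hd => ?_⟩
  have hd1 : 1 ≤ d := (le_max_right _ _).trans hd
  set η := eta a d with hη
  have hη0 : 0 < η := Real.rpow_pos_of_pos (by exact_mod_cast hd1) _
  have hη1 : η ≤ 1 := Real.rpow_le_one_of_one_le_of_nonpos (by exact_mod_cast hd1) (by linarith)
  have hlog : 0 ≤ 1 + Real.log (1 / η) := by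
    have := Real.log_nonneg ((one_le_div₀ hη0).2 hη1)
    linarith
  have key : ∀ m : ℕ, (m : ℝ) ≤ A * η ^ (-(1 : ℝ) / k) * (1 + Real.log (1 / η)) → _ :=
    fun m hm => hd₀ d ((le_max_left _ _).trans hd) m hm
  have hη2 : η ≤ 1 / 2 := by
    obtain ⟨n, J, K, R, -, -, h, -⟩ := key 0 (by push_cast; positivity)
    exact h
  obtain ⟨m, N, hm, hN⟩ := hCq η hη0 hη2
  set Cw := wbound A a d with hCw
  have hCw1 : 1 ≤ Cw := le_max_left _ _
  have hN' : N.Ok Cw η :=
    hN.mono ((mul_le_mul_of_nonneg_right hAq hlog).trans (le_max_right _ _))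
  obtain ⟨n, J₀, K, R, -, -, -, hn, hJ₀, hR0, hc1, hc2, hC1', hR, hsum, hinit, hmom, hq⟩ :=
    key m (hm.trans (mul_le_mul_of_nonneg_right (mul_le_mul_of_nonneg_right hAq (by positivity)) hlog))
  classical
  have hex : ∃ J : ℕ, 1 ≤ (2 : ℝ) ^ J * η := ⟨J₀, hJ₀⟩
  set J := Nat.find hex with hJdef
  have hJ : 1 ≤ (2 : ℝ) ^ J * η := Nat.find_spec hex
  have hJle : J ≤ J₀ := Nat.find_le hJ₀
  have hJ' : (2 : ℝ) ^ J * η ≤ 2 := by
    rcases Nat.eq_zero_or_pos J with h | h
    · rw [h, pow_zero, one_mul]; linarith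
    · have := Nat.find_min hex (m := J - 1) (by omega)
      rw [show J = J - 1 + 1 by omega, pow_succ]
      linarith
  set sch := sched η n with hsch
  set q := (n + J) * (K + 1 + (m + m + (J * m + 1))) + (K + 1) with hqdef
  obtain ⟨Alg, hAlg⟩ := exists_algorithm (d := d) (J := J) N K (n + J) sch
  refine ⟨q, ?_, Alg, fun V hV B hBm => ?_⟩
  · refine le_trans ?_ (hq.trans (Real.rpow_le_rpow_of_exponent_le (by exact_mod_cast hd1) ha5))
    rw [hqdef]
    exact_mod_cast by gcongr
  have := (hB d 1 hV.pot).1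
  rw [hAlg V hV.contDiff_gradient.continuous, hV.target_eq]
  set f : Space d → ℝ := fun x => B.indicator (fun _ => (2 : ℝ)) x - 1 with hf
  have hfm : Measurable f := (measurable_const.indicator hBm).sub_const 1
  have hf1 : ∀ x, |f x| ≤ 1 := fun x => by
    by_cases hx : x ∈ B <;> simp [hf, hx] <;> norm_num
  have hint : ∀ μ : Measure (Space d), IsProbabilityMeasure μ → ∫ x, f x ∂μ = 2 * μ.real B - 1 := by
    intro μ _
    simp only [hf]
    rw [integral_sub ((integrable_const 2).indicator hBm) (integrable_const _),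
      integral_indicator_const _ hBm, integral_const, probReal_univ]
    simp [mul_comm]
  set ν := (Measure.pi fun _ : Fin (n + J) => seedLaw d m J).prod (gam d) with hν
  have hsm : Measurable (sampler (J := J) N K (n + J) sch (grd V)) :=
    (computes_sampler (Ω := (Fin (n + J) → Seed d m J) × Space d) N K (n + J) sch
      measurable_id).measurable hV.contDiff_gradient.continuous.measurable
  set κ := 8 * 2 ^ J * Cw * η ^ K with hκ
  have hκ0 : 0 ≤ κ := by positivity
  have hscoef : ∀ i, sch i / (1 + sch i) ≤ η := fun i =>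
    (coef_pos (sched_pos hη0 n i)).2.2.trans (sched_le hη0 n i)
  have H : Hybrid hV N J K (n + J) sch f (stepErr (16 * C * C2 * Cw ^ 4) η d n)
      (6 * η ^ 2 * Real.sqrt d) κ (9 * 2 ^ J) R := by
    refine ⟨sched_pos hη0 n, hfm, hf1, fun i hi y hy => ?_, fun y hy => ?_, fun i _ y S => ?_,
      stepErr_nonneg (by positivity) hη0 d n, by positivity, hκ0, by positivity, hR0⟩
    · exact sched_bias hB hS hD hPf hstep (by linarith) hC2' (le_max_right _ _) hV N hd1 hη0 hη2
        hCw1 hN' hJ hJ' hc1 hc2 hR hfm hf1 hi hy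
    · refine (last_bias hS hI hV (sched_pos hη0 n _) hfm hf1
        (norm_small hη0 hη2 (sched_pos hη0 n _) (sched_le hη0 n _)
          (sched_low hη0 le_rfl hJ') hd1 hR hy)).trans ?_
      have hT : sch (n + J) ≤ η ^ 2 := by
        rw [hsch, sched, Nat.add_sub_cancel_left, sq, one_div, inv_pow]
        refine mul_le_mul_of_nonneg_left ?_ hη0.le
        rw [inv_le_iff_one_le_mul₀ (by positivity), mul_comm]
        exact hJ
      gcongr
    · refine (norm_outStep_le hV N (sched_pos hη0 n i) ((sched_le hη0 n _).trans hη1) hN'.1 hN'.2.1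
        hCw1 ((mul_le_mul_of_nonneg_right (hscoef i) (by linarith)).trans hC1') y S).trans ?_
      rw [hκ]
      have h0 := (coef_pos (sched_pos hη0 n i)).1.le
      gcongr
      exact hscoef i
  have hres := H.result hB hM hD hd1
  have hini := init_bias (J := J) hB hD hM hPI hK hC2' (le_trans zero_le_two (le_max_right _ _))
    hV hd1 hη0 hη1 (n := n) (by omega) hfm hf1
  have e1 := sum_stepErr_le (A := 16 * C * C2 * Cw ^ 4) (by positivity) hη0 d n J
  have hbound1 : (∑ i ∈ Finset.range (n + J), stepErr (16 * C * C2 * Cw ^ 4) η d n i)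
      + 6 * η ^ 2 * Real.sqrt d ≤ 1 / 30 := by
    refine le_trans (add_le_add (e1.trans ?_) le_rfl) hsum
    have hl : 0 ≤ Real.log n := Real.log_natCast_nonneg n
    gcongr
  have hbound2 : ((n + J : ℕ) + 1 : ℝ)
      * (2 / R * momBound d m J (n + J) κ (9 * 2 ^ J)) ≤ 1 / 30 := by
    refine le_trans ?_ hmom
    obtain ⟨hti, hI⟩ := integral_seedTot (d := d) (m := m) (J := J) hB hM hd1
    rw [card_RI] at hI
    have hI0 : 0 ≤ ∫ S, seedTot S ∂seedLaw d m J := integral_nonneg fun S => by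
      unfold seedTot; positivity
    have h2J : (2 : ℝ) ^ J ≤ 2 ^ J₀ := pow_le_pow_right₀ one_le_two hJle
    have hnJ : n + J ≤ n + J₀ := by omega
    have hnJ' : ((n + J : ℕ) : ℝ) ≤ ((n + J₀ : ℕ) : ℝ) := by exact_mod_cast hnJ
    have hκle : κ ≤ 8 * 2 ^ J₀ * Cw * η ^ K := by rw [hκ]; gcongr
    have hbase : 1 ≤ 1 + 8 * 2 ^ J₀ * Cw * η ^ K := by linarith
    have hJr : (J : ℝ) ≤ J₀ := by exact_mod_cast hJle
    have hp : (1 + κ) ^ (n + J) ≤ (1 + 8 * 2 ^ J₀ * Cw * η ^ K) ^ (n + J₀) :=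
      (pow_le_pow_left₀ (by linarith) (by linarith) _).trans (pow_le_pow_right₀ hbase hnJ)
    unfold momBound
    gcongr
    refine hI.trans ?_
    gcongr
  have hbound3 : 4 * (d : ℝ) * C2 / Real.sqrt η * ((1 + η)⁻¹) ^ (n - 1) ≤ 1 / 30 := by
    refine le_trans ?_ hinit
    gcongr
  have hfinal : |(∫ x, f x ∂(ν.map (sampler N K (n + J) sch (grd V)))) - ∫ x, f x ∂mu hV.pot|
      ≤ 1 / 5 := by
    rw [integral_map hsm.aemeasurable hfm.aestronglyMeasurable]
    have := abs_sub_le (∫ S, f (sampler N K (n + J) sch (grd V) S) ∂ν)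
      (tailVal hV.pot sch f (n + J) 0 0) (∫ x, f x ∂mu hV.pot)
    linarith
  rw [hint _ (Measure.isProbabilityMeasure_map hsm.aemeasurable), hint _ inferInstance] at hfinal
  rw [abs_le] at hfinal ⊢
  constructor <;> linarith [hfinal.1, hfinal.2]

end Vale.Agent.P347
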