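import Vale.Agent.P347.MainStep

/-!
The hybrid argument along the schedule.
-/

noncomputable section

open MeasureTheory ProbabilityTheory
open scoped RealInnerProductSpace

namespace Vale.Agent.P347

variable {d m J : ℕ} {h : ℝ} {V : Space d → ℝ}

/-- Value of a test after `k` exact steps of the schedule started at index `i`. -/
def tailVal (P : Pot d h) (η : ℕ → ℝ) (f : Space d → ℝ) : ℕ → ℕ → Space d → ℝ
  | 0, i, y => post P (η i / (1 + η i)) f ((1 + η i)⁻¹ • y)
  | k + 1, i, y =>
      post P (η i / (1 + η i)) (Pf (η (i + 1)) (tailVal P η f k (i + 1))) ((1 + η i)⁻¹ • y)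

variable (P : Pot d h) {η : ℕ → ℝ} {f : Space d → ℝ}

theorem tailVal_meas (hB : MuBasic) (hD : PostDeriv) (hη : ∀ i, 0 < η i) (hf : Measurable f)
    (h1 : ∀ x, |f x| ≤ 1) :
    ∀ k i, Measurable (tailVal P η f k i) ∧ ∀ y, |tailVal P η f k i y| ≤ 1
  | 0, i => ⟨(measurable_post hD P hf h1 (coef_pos (hη i)).1).comp (by fun_prop),
      fun _ => abs_post_le hB P h1 _ _⟩
  | k + 1, i => by
    obtain ⟨hm, hb⟩ := tailVal_meas hB hD hη hf h1 k (i + 1)
    exact ⟨(measurable_post hD P (measurable_Pf hm _) (abs_Pf_le hb _) (coef_pos (hη i)).1).comp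
      (by fun_prop), fun _ => abs_post_le hB P (abs_Pf_le hb _) _ _⟩

theorem prox_invariant (hPI : PosteriorId) {a : ℝ} (ha : 0 < a) {φ : Space d → ℝ}
    (hφ : Measurable φ) (h1 : ∀ x, |φ x| ≤ 1) :
    ∫ x, ∫ z, post P (a / (1 + a)) φ ((1 + a)⁻¹ • (x + Real.sqrt a • z)) ∂gam d ∂mu P
      = ∫ x, φ x ∂mu P := by
  have h := hPI d h P 1 (Real.sqrt a) (Real.sqrt_ne_zero'.2 ha) (fun _ x => φ x)
    (hφ.comp measurable_snd) ⟨1, 0, fun _ x => by simpa using h1 x⟩
  simp only [one_smul, Real.sq_sqrt ha.le, one_pow, one_div, integral_const, probReal_univ] at h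
  exact h.symm

theorem tailVal_stationary (hB : MuBasic) (hD : PostDeriv) (hPI : PosteriorId)
    (hη : ∀ i, 0 < η i) (hf : Measurable f) (h1 : ∀ x, |f x| ≤ 1) :
    ∀ k i, ∫ x, ∫ z, tailVal P η f k i (x + Real.sqrt (η i) • z) ∂gam d ∂mu P = ∫ x, f x ∂mu P
  | 0, i => prox_invariant P hPI (hη i) hf h1
  | k + 1, i => by
    obtain ⟨hm, hb⟩ := tailVal_meas P hB hD hη hf h1 k (i + 1)
    exact (prox_invariant P hPI (hη i) (measurable_Pf hm _) (abs_Pf_le hb _)).trans
      (tailVal_stationary hB hD hPI hη hf h1 k (i + 1))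

/-- The hypotheses of the hybrid argument. -/
structure Hybrid (hV : InClass V) (N : Nodes m) (J K T : ℕ) (η : ℕ → ℝ) (f : Space d → ℝ)
    (e : ℕ → ℝ) (eL κ D R : ℝ) : Prop where
  pos : ∀ i, 0 < η i
  meas : Measurable f
  le_one : ∀ x, |f x| ≤ 1
  bias : ∀ i < T, ∀ y : Space d, ‖y‖ ≤ R →
    |(∫ S, tailVal hV.pot η f (T - (i + 1)) (i + 1)
        (outStep (J := J) N K (η i) (η (i + 1)) (grd V) y S) ∂seedLaw d m J)
      - tailVal hV.pot η f (T - i) i y| ≤ e i
  last : ∀ y : Space d, ‖y‖ ≤ R →
    |(∫ ξ, f (lastStep K (η T) (grd V) y ξ) ∂gam d) - tailVal hV.pot η f 0 T y| ≤ eL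
  step : ∀ i < T, ∀ (y : Space d) (S : Seed d m J),
    ‖outStep (J := J) N K (η i) (η (i + 1)) (grd V) y S‖ ≤ (1 + κ) * ‖y‖ + D * seedTot S
  e_nonneg : ∀ i, 0 ≤ e i
  eL_nonneg : 0 ≤ eL
  κ_nonneg : 0 ≤ κ
  D_nonneg : 0 ≤ D
  R_pos : 0 < R

theorem measurable_outChain (hV : InClass V) (N : Nodes m) (K : ℕ) (η : ℕ → ℝ) (n : ℕ) :
    Measurable fun S : Fin n → Seed d m J => outChain N K η (grd V) n S :=
  (computes_outChain (Ω := Fin n → Seed d m J) N K η measurable_id).measurable
    hV.contDiff_gradient.continuous.measurable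

theorem abs_bound_split {X e r R : ℝ} (he : 0 ≤ e) (hr : 0 ≤ r) (hR : 0 < R)
    (h1 : r ≤ R → |X| ≤ e) (h2 : |X| ≤ 2) : |X| ≤ e + 2 / R * r := by
  rcases le_or_gt r R with hc | hc
  · have : 0 ≤ 2 / R * r := by positivity
    linarith [h1 hc]
  · have : 2 ≤ 2 / R * r := by rw [div_mul_eq_mul_div, le_div_iff₀ hR]; linarith
    linarith

variable {N : Nodes m} {K T : ℕ} {e : ℕ → ℝ} {eL κ D R : ℝ}

theorem Hybrid.moment (hB : MuBasic) (hM : MomentMu) (hd : 1 ≤ d) {hV : InClass V}
    (H : Hybrid hV N J K T η f e eL κ D R) :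
    ∀ n, n ≤ T →
      Integrable (fun S : Fin n → Seed d m J => ‖outChain N K η (grd V) n S‖)
        (Measure.pi fun _ : Fin n => seedLaw d m J) ∧
      ∫ S, ‖outChain N K η (grd V) n S‖ ∂(Measure.pi fun _ : Fin n => seedLaw d m J)
        ≤ (1 + κ) ^ n * (n * (D * ∫ S, seedTot S ∂seedLaw d m J))
  | 0, _ => by simp [outChain]
  | n + 1, hn => by
    obtain ⟨hi, hb⟩ := Hybrid.moment hB hM hd H n (Nat.le_of_succ_le hn)
    obtain ⟨hti, -⟩ := integral_seedTot (m := m) (J := J) hB hM hd
    set μ := seedLaw d m J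
    set I := ∫ S, seedTot S ∂μ with hIdef
    have hI : 0 ≤ I := integral_nonneg fun S => by
      unfold seedTot; positivity
    have mp := measurePreserving_piFinSuccAbove (α := fun _ : Fin (n + 1) => Seed d m J)
      (fun _ => μ) (Fin.last n)
    have hl : Integrable (fun S : Fin (n + 1) → Seed d m J => seedTot (S (Fin.last n)))
        (Measure.pi fun _ : Fin (n + 1) => μ) :=
      ((measurePreserving_eval (fun _ : Fin (n + 1) => μ) (Fin.last n)).integrable_comp_of_integrable
        hti)
    have hp : Integrable (fun S : Fin (n + 1) → Seed d m J =>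
        ‖outChain N K η (grd V) n fun i => S i.castSucc‖) (Measure.pi fun _ : Fin (n + 1) => μ) := by
      have h2 : Integrable (fun p : Seed d m J × (Fin n → Seed d m J) =>
          ‖outChain N K η (grd V) n p.2‖) (μ.prod (Measure.pi fun _ : Fin n => μ)) := by
        simpa using (integrable_const (1 : ℝ) (μ := μ)).mul_prod hi
      refine (mp.integrable_comp_of_integrable h2).congr (ae_of_all _ fun S => ?_)
      simp [MeasurableEquiv.piFinSuccAbove, Fin.snocEquiv, Fin.init_def]
    have hpt : ∀ S : Fin (n + 1) → Seed d m J, ‖outChain N K η (grd V) (n + 1) S‖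
        ≤ (1 + κ) * ‖outChain N K η (grd V) n fun i => S i.castSucc‖
          + D * seedTot (S (Fin.last n)) := fun S => H.step n hn _ _
    have hint := (hp.const_mul (1 + κ)).add (hl.const_mul D)
    have hi' : Integrable (fun S : Fin (n + 1) → Seed d m J => ‖outChain N K η (grd V) (n + 1) S‖)
        (Measure.pi fun _ : Fin (n + 1) => μ) :=
      hint.mono' (measurable_outChain hV N K η (n + 1)).norm.aestronglyMeasurable
        (ae_of_all _ fun S => by rw [Real.norm_eq_abs, abs_norm]; exact hpt S)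
    refine ⟨hi', ?_⟩
    rw [integral_snoc _ hi']
    have hinner : ∀ S : Fin n → Seed d m J, ∫ s, ‖outChain N K η (grd V) (n + 1) (Fin.snoc S s)‖ ∂μ
        ≤ (1 + κ) * ‖outChain N K η (grd V) n S‖ + D * I := by
      intro S
      have e1 : ∀ s, ‖outChain N K η (grd V) (n + 1) (Fin.snoc S s)‖
          ≤ (1 + κ) * ‖outChain N K η (grd V) n S‖ + D * seedTot s := fun s => by
        simpa using hpt (Fin.snoc S s)
      refine (integral_mono_of_nonneg (ae_of_all _ fun s => norm_nonneg _)
        ((integrable_const _).add (hti.const_mul D)) (ae_of_all _ e1)).trans_eq ?_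
      rw [integral_add' (integrable_const _) (hti.const_mul D), integral_const, probReal_univ,
        one_smul, integral_const_mul]
    refine (integral_mono_of_nonneg (ae_of_all _ fun S => integral_nonneg fun s => norm_nonneg _)
      ((hi.const_mul (1 + κ)).add (integrable_const _)) (ae_of_all _ hinner)).trans ?_
    rw [integral_add' (hi.const_mul _) (integrable_const _), integral_const_mul, integral_const,
      probReal_univ, one_smul]
    have hk : (1 : ℝ) ≤ (1 + κ) ^ (n + 1) := one_le_pow₀ (by linarith [H.κ_nonneg])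
    have hDI := mul_le_mul_of_nonneg_right hk (mul_nonneg H.D_nonneg hI)
    have h5 := mul_le_mul_of_nonneg_left hb (show 0 ≤ 1 + κ by linarith [H.κ_nonneg])
    rw [← mul_assoc, ← pow_succ'] at h5
    push_cast
    linarith

/-- The mean of the value function along the algorithm. -/
def chainMean (hV : InClass V) (N : Nodes m) (J K T : ℕ) (η : ℕ → ℝ) (f : Space d → ℝ) (n : ℕ) : ℝ :=
  ∫ S : Fin n → Seed d m J, tailVal hV.pot η f (T - n) n (outChain N K η (grd V) n S)
    ∂(Measure.pi fun _ : Fin n => seedLaw d m J)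

/-- The moment bound used throughout. -/
def momBound (d m J T : ℕ) (κ D : ℝ) : ℝ :=
  (1 + κ) ^ T * (T * (D * ∫ S, seedTot S ∂seedLaw d m J))

theorem Hybrid.moment_le (hB : MuBasic) (hM : MomentMu) (hd : 1 ≤ d) {hV : InClass V}
    (H : Hybrid hV N J K T η f e eL κ D R) {n : ℕ} (hn : n ≤ T) :
    ∫ S, ‖outChain N K η (grd V) n S‖ ∂(Measure.pi fun _ : Fin n => seedLaw d m J)
      ≤ momBound d m J T κ D := by
  have hI : 0 ≤ ∫ S, seedTot S ∂seedLaw d m J := integral_nonneg fun S => by unfold seedTot; positivity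
  unfold momBound
  refine (H.moment hB hM hd n hn).2.trans ?_
  have h1 : (1 + κ) ^ n ≤ (1 + κ) ^ T := pow_le_pow_right₀ (by linarith [H.κ_nonneg]) hn
  have h2 : (n : ℝ) ≤ T := by exact_mod_cast hn
  have := H.D_nonneg
  have := H.κ_nonneg
  gcongr

theorem Hybrid.step_le (hB : MuBasic) (hM : MomentMu) (hD : PostDeriv) (hd : 1 ≤ d) {hV : InClass V}
    (H : Hybrid hV N J K T η f e eL κ D R) {n : ℕ} (hn : n < T) :
    |chainMean hV N J K T η f (n + 1) - chainMean hV N J K T η f n|
      ≤ e n + 2 / R * momBound d m J T κ D := by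
  set μ := seedLaw d m J with hμ
  set U := fun i => tailVal hV.pot η f (T - i) i with hU
  have hUm := fun i => tailVal_meas hV.pot hB hD H.pos H.meas H.le_one (T - i) i
  have hm := (hUm (n + 1)).1
  have hb := (hUm (n + 1)).2
  have hi1 : Integrable (fun S => U (n + 1) (outChain N K η (grd V) (n + 1) S))
      (Measure.pi fun _ : Fin (n + 1) => μ) :=
    Integrable.of_bound (hm.comp (measurable_outChain hV N K η (n + 1))).aestronglyMeasurable 1
      (ae_of_all _ fun S => (Real.norm_eq_abs _).trans_le (hb _))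
  have hi0 : Integrable (fun S => U n (outChain N K η (grd V) n S))
      (Measure.pi fun _ : Fin n => μ) :=
    Integrable.of_bound ((hUm n).1.comp (measurable_outChain hV N K η n)).aestronglyMeasurable 1
      (ae_of_all _ fun S => (Real.norm_eq_abs _).trans_le ((hUm n).2 _))
  set Φ := fun S : Fin n → Seed d m J =>
    ∫ s, U (n + 1) (outChain N K η (grd V) (n + 1) (Fin.snoc S s)) ∂μ with hΦ
  have hΦm : Measurable Φ := by
    have : Measurable fun p : (Fin n → Seed d m J) × Seed d m J =>
        U (n + 1) (outChain N K η (grd V) (n + 1) (Fin.snoc p.1 p.2)) := by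
      refine hm.comp ((measurable_outChain hV N K η (n + 1)).comp ?_)
      refine measurable_pi_lambda _ fun i => ?_
      refine Fin.lastCases ?_ (fun j => ?_) i
      · simp only [Fin.snoc_last]; exact measurable_snd
      · simp only [Fin.snoc_castSucc]; exact (measurable_pi_apply j).comp measurable_fst
    exact (this.stronglyMeasurable.integral_prod_right' (ν := μ)).measurable
  have hiΦ : Integrable Φ (Measure.pi fun _ : Fin n => μ) :=
    Integrable.of_bound hΦm.aestronglyMeasurable 1
      (ae_of_all _ fun S => (Real.norm_eq_abs _).trans_le (abs_integral_le_one fun s => hb _))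
  have hpt : ∀ S, |Φ S - U n (outChain N K η (grd V) n S)|
      ≤ e n + 2 / R * ‖outChain N K η (grd V) n S‖ := by
    intro S
    refine abs_bound_split (H.e_nonneg n) (norm_nonneg _) H.R_pos (fun hy => ?_) ?_
    · have e1 : Φ S = ∫ s, U (n + 1) (outStep N K (η n) (η (n + 1)) (grd V)
          (outChain N K η (grd V) n S) s) ∂μ := by
        simp only [hΦ, outChain, Fin.snoc_castSucc, Fin.snoc_last]
      rw [e1]
      exact H.bias n hn _ hy
    · have h1 : |Φ S| ≤ 1 := abs_integral_le_one fun s => hb _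
      exact (abs_sub _ _).trans (by linarith [(hUm n).2 (outChain N K η (grd V) n S)])
  simp only [chainMean]
  rw [integral_snoc _ hi1, ← integral_sub hiΦ hi0]
  refine (abs_integral_le_integral_abs).trans ?_
  have hmi := (H.moment hB hM hd n hn.le).1
  refine (integral_mono (hiΦ.sub hi0).abs ((integrable_const (e n)).add (hmi.const_mul (2 / R)))
    hpt).trans ?_
  rw [integral_add' (integrable_const _) (hmi.const_mul _), integral_const, probReal_univ, one_smul,
    integral_const_mul]
  have h2R : 0 ≤ 2 / R := (div_nonneg zero_le_two H.R_pos.le)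
  linarith [mul_le_mul_of_nonneg_left (H.moment_le hB hM hd hn.le) h2R]

theorem Hybrid.last_le (hB : MuBasic) (hM : MomentMu) (hD : PostDeriv) (hd : 1 ≤ d) {hV : InClass V}
    (H : Hybrid hV N J K T η f e eL κ D R) :
    |(∫ S, f (sampler N K T η (grd V) S) ∂((Measure.pi fun _ : Fin T => seedLaw d m J).prod (gam d)))
      - chainMean hV N J K T η f T| ≤ eL + 2 / R * momBound d m J T κ D := by
  set μ := seedLaw d m J with hμ
  set U := fun i => tailVal hV.pot η f (T - i) i with hU
  have hUm := fun i => tailVal_meas hV.pot hB hD H.pos H.meas H.le_one (T - i) i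
  have hcm := measurable_outChain (J := J) hV N K η T
  have hs : Measurable fun p : (Fin T → Seed d m J) × Space d =>
      f (sampler N K T η (grd V) p) :=
    H.meas.comp ((computes_sampler (Ω := (Fin T → Seed d m J) × Space d) N K T η
      measurable_id).measurable hV.contDiff_gradient.continuous.measurable)
  set Ψ := fun S : Fin T → Seed d m J => ∫ ξ, f (sampler N K T η (grd V) (S, ξ)) ∂gam d with hΨ
  have hiΨ : Integrable Ψ (Measure.pi fun _ : Fin T => μ) :=
    Integrable.of_bound (hs.stronglyMeasurable.integral_prod_right' (ν := gam d)).aestronglyMeasurable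
      1 (ae_of_all _ fun S => (Real.norm_eq_abs _).trans_le (abs_integral_le_one fun ξ => H.le_one _))
  have hiT : Integrable (fun S => U T (outChain N K η (grd V) T S))
      (Measure.pi fun _ : Fin T => μ) :=
    Integrable.of_bound ((hUm T).1.comp hcm).aestronglyMeasurable 1
      (ae_of_all _ fun S => (Real.norm_eq_abs _).trans_le ((hUm T).2 _))
  rw [integral_prod _ (Integrable.of_bound hs.aestronglyMeasurable 1
      (ae_of_all _ fun p => (Real.norm_eq_abs _).trans_le (H.le_one _)))]
  simp only [chainMean]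
  rw [← integral_sub hiΨ hiT]
  refine (abs_integral_le_integral_abs).trans ?_
  have hmi := (H.moment hB hM hd T le_rfl).1
  refine (integral_mono (hiΨ.sub hiT).abs ((integrable_const eL).add (hmi.const_mul (2 / R)))
    fun S => ?_).trans ?_
  · refine abs_bound_split H.eL_nonneg (norm_nonneg _) H.R_pos (fun hy => ?_) ?_
    · simp only [hU, hΨ, Nat.sub_self, sampler, Pi.sub_apply]
      exact H.last _ hy
    · have h1 : |Ψ S| ≤ 1 := abs_integral_le_one fun ξ => H.le_one _
      exact (abs_sub _ _).trans (by linarith [(hUm T).2 (outChain N K η (grd V) T S)])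
  · rw [integral_add' (integrable_const _) (hmi.const_mul _), integral_const, probReal_univ,
      one_smul, integral_const_mul]
    have h2R : 0 ≤ 2 / R := (div_nonneg zero_le_two H.R_pos.le)
    linarith [mul_le_mul_of_nonneg_left (H.moment_le hB hM hd le_rfl) h2R]

/-- The hybrid bound. -/
theorem Hybrid.result (hB : MuBasic) (hM : MomentMu) (hD : PostDeriv) (hd : 1 ≤ d) {hV : InClass V}
    (H : Hybrid hV N J K T η f e eL κ D R) :
    |(∫ S, f (sampler N K T η (grd V) S) ∂((Measure.pi fun _ : Fin T => seedLaw d m J).prod (gam d)))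
        - tailVal hV.pot η f T 0 0|
      ≤ (∑ i ∈ Finset.range T, e i) + eL + (T + 1) * (2 / R * momBound d m J T κ D) := by
  set F := chainMean hV N J K T η f with hF
  have htel : |F T - F 0| ≤ (∑ i ∈ Finset.range T, e i) + T * (2 / R * momBound d m J T κ D) := by
    rw [← Finset.sum_range_sub F T]
    refine (Finset.abs_sum_le_sum_abs _ _).trans ((Finset.sum_le_sum fun i hi =>
      H.step_le hB hM hD hd (Finset.mem_range.1 hi)).trans_eq ?_)
    rw [Finset.sum_add_distrib, Finset.sum_const, Finset.card_range, nsmul_eq_mul]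
  have hF0 : F 0 = tailVal hV.pot η f T 0 0 := by
    simp [hF, chainMean, outChain]
  have hlast := H.last_le hB hM hD hd
  rw [← hF0]
  have h4 := abs_sub_le (∫ S, f (sampler N K T η (grd V) S) ∂((Measure.pi fun _ : Fin T => seedLaw d m J).prod (gam d))) (F T) (F 0)
  linarith

end Vale.Agent.P347
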