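import Vale.Agent.P347.Algo

/-!
The seed laws are images of independent standard Gaussian reals; splitting off the last seed.
-/

noncomputable section

open MeasureTheory ProbabilityTheory

namespace Vale.Agent.P347

variable {d : ℕ} {α β : Type} [MeasurableSpace α] [MeasurableSpace β]

/-- Images of finitely many independent standard Gaussian reals. -/
def FromReals (μ : Measure α) : Prop :=
  ∃ (r : ℕ) (f : (Fin r → ℝ) → α),
    MeasurePreserving f (Measure.pi fun _ : Fin r => gaussianReal 0 1) μ

theorem fromReals_gam (d : ℕ) : FromReals (gam d) :=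
  ⟨d, WithLp.toLp 2, by fun_prop, map_pi_eq_stdGaussian⟩

theorem FromReals.prod {μ : Measure α} {ν : Measure β} [SFinite μ] [SFinite ν] (hμ : FromReals μ)
    (hν : FromReals ν) : FromReals (μ.prod ν) := by
  obtain ⟨r, f, hf⟩ := hμ
  obtain ⟨r', g, hg⟩ := hν
  have h1 := measurePreserving_piCongrLeft (α := fun _ : Fin r ⊕ Fin r' => ℝ)
    (fun _ => gaussianReal 0 1) (finSumFinEquiv (m := r) (n := r')).symm
  have h2 := measurePreserving_sumPiEquivProdPi (X := fun _ : Fin r ⊕ Fin r' => ℝ)
    (fun _ => gaussianReal 0 1)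
  exact ⟨r + r', _, (hf.prod hg).comp (h2.comp h1)⟩

theorem fromReals_pi {μ : Measure α} [IsProbabilityMeasure μ] (hμ : FromReals μ) (ι : Type)
    [Fintype ι] : FromReals (Measure.pi fun _ : ι => μ) := by
  suffices h : ∀ n : ℕ, FromReals (Measure.pi fun _ : Fin n => μ) by
    obtain ⟨r, f, hf⟩ := h (Fintype.card ι)
    exact ⟨r, _, (measurePreserving_piCongrLeft (α := fun _ : ι => α) (fun _ => μ)
      (Fintype.equivFin ι).symm).comp hf⟩
  intro n
  induction n with
  | zero =>
    refine ⟨0, fun _ => fun i : Fin 0 => i.elim0, by fun_prop, ?_⟩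
    rw [Measure.pi_of_empty, Measure.pi_of_empty, Measure.map_dirac' (by fun_prop)]
    congr 1
  | succ n ih =>
    obtain ⟨r, f, hf⟩ := hμ.prod ih
    exact ⟨r, _, ((measurePreserving_piFinSuccAbove (α := fun _ : Fin (n + 1) => α) (fun _ => μ)
      (Fin.last n)).symm _).comp hf⟩

/-- The law of the seeds of one step. -/
abbrev seedLaw (d m J : ℕ) : Measure (Seed d m J) := (gam d).prod ((gp (RI m J) d).prod (gam d))

theorem fromReals_sampler (d m J T : ℕ) :
    FromReals ((Measure.pi fun _ : Fin T => seedLaw d m J).prod (gam d)) :=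
  (fromReals_pi ((fromReals_gam d).prod ((fromReals_pi (fromReals_gam d) _).prod (fromReals_gam d)))
    _).prod (fromReals_gam d)

/-- The sampler as an algorithm with its output law. -/
theorem exists_algorithm {m J : ℕ} (N : Nodes m) (K T : ℕ) (η : ℕ → ℝ) :
    ∃ A : Algorithm d (T * (K + 1 + (m + m + (J * m + 1))) + (K + 1)),
      ∀ V : Space d → ℝ, Continuous (fun x => gradient V x) → A.law V
        = ((Measure.pi fun _ : Fin T => seedLaw d m J).prod (gam d)).map
            (sampler N K T η fun x => gradient V x) := by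
  obtain ⟨r, f, hf⟩ := fromReals_sampler d m J T
  obtain ⟨A, hA⟩ := (computes_sampler N K T η hf.measurable).algorithm
  refine ⟨A, fun V hV => ?_⟩
  have hm : Measurable (sampler (d := d) (m := m) (J := J) N K T η fun x => gradient V x) :=
    (computes_sampler (Ω := (Fin T → Seed d m J) × Space d) N K T η measurable_id).measurable
      hV.measurable
  rw [hA, ← hf.map_eq, Measure.map_map hm hf.measurable]
  rfl

/-- Splitting off the last seed. -/
theorem integral_snoc {μ : Measure α} [IsProbabilityMeasure μ] {n : ℕ} (F : (Fin (n + 1) → α) → ℝ)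
    (hF : Integrable F (Measure.pi fun _ : Fin (n + 1) => μ)) :
    ∫ S, F S ∂Measure.pi (fun _ : Fin (n + 1) => μ)
      = ∫ S, ∫ s, F (Fin.snoc S s) ∂μ ∂Measure.pi (fun _ : Fin n => μ) := by
  have h := (measurePreserving_piFinSuccAbove (α := fun _ : Fin (n + 1) => α) (fun _ => μ)
    (Fin.last n)).symm (MeasurableEquiv.piFinSuccAbove (fun _ : Fin (n + 1) => α) (Fin.last n))
  set e := MeasurableEquiv.piFinSuccAbove (fun _ : Fin (n + 1) => α) (Fin.last n)
  have hi : Integrable (fun p => F (e.symm p)) (μ.prod (Measure.pi fun _ : Fin n => μ)) :=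
    (h.integrable_comp_emb e.symm.measurableEmbedding).2 hF
  rw [← h.integral_comp e.symm.measurableEmbedding F, integral_prod_symm _ hi]
  refine integral_congr_ae (ae_of_all _ fun S => integral_congr_ae (ae_of_all _ fun s => ?_))
  simp [e, MeasurableEquiv.piFinSuccAbove, Fin.snocEquiv]

end Vale.Agent.P347
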