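import Vale.Agent.P347.Centre
import Vale.Agent.P347.Seeds

/-!
One step of the outer chain: bias against a test function and growth of the first moment.
-/

noncomputable section

open MeasureTheory ProbabilityTheory
open scoped RealInnerProductSpace

namespace Vale.Agent.P347

variable {d m J : ℕ} {V : Space d → ℝ}

/-- The constants of the local step theorem, unfolded. -/
def StepConst (C c : ℝ) : Prop :=
  0 < c ∧ ∀ (d : ℕ) (h : ℝ) (P : Pot d h) (m J : ℕ) (N : Nodes m)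
    (Cw e r b1 b2 : ℝ) (H : Space d → ℝ),
    1 ≤ d → 1 ≤ Cw → N.Ok Cw e → 0 ≤ e → e ≤ 1 → 0 < h → h * Cw ≤ c →
    Cw ^ 2 * (h + e) * (h * Real.sqrt d) ≤ c → gsize P ≤ 2 * (h * Real.sqrt d) → 1 / 8 ≤ r →
    0 ≤ b1 → 0 ≤ b2 → ContDiff ℝ 2 H → GradBound H b1 → HessBound H b2 →
      |(∫ ξ, ∫ ω, ∫ z, H (localX (J := J) N P ξ ω + Real.sqrt r • z) ∂gam d ∂gp (RI m J) d ∂gam d)
          - ∫ x, ∫ z, H (x + Real.sqrt r • z) ∂gam d ∂mu P|
        ≤ C * Cw ^ 4 * (b2 * (h + e) + b1 * h * (h + e + (1 / 2 : ℝ) ^ J)) * (h * Real.sqrt d)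

theorem fderiv_scale {H : Space d → ℝ} (hH : Differentiable ℝ H) (c : Space d) (σ : ℝ) :
    fderiv ℝ (fun x => H (c + σ • x)) = fun x => σ • fderiv ℝ H (c + σ • x) := by
  funext x
  have h1 : HasFDerivAt (fun z : Space d => c + σ • z) (σ • ContinuousLinearMap.id ℝ (Space d)) x :=
    ((hasFDerivAt_id x).const_smul σ).const_add c
  refine (((hH (c + σ • x)).hasFDerivAt.comp x h1).congr_fderiv ?_).fderiv
  ext v
  simp

theorem scale_bounds {H : Space d → ℝ} {B1 B2 : ℝ} (hH : ContDiff ℝ 2 H) (h1 : GradBound H B1)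
    (h2 : HessBound H B2) (c : Space d) {σ : ℝ} (hσ : 0 ≤ σ) :
    ContDiff ℝ 2 (fun x => H (c + σ • x)) ∧ GradBound (fun x => H (c + σ • x)) (σ * B1) ∧
      HessBound (fun x => H (c + σ • x)) (σ ^ 2 * B2) := by
  have hd := hH.differentiable (by norm_num)
  refine ⟨hH.comp (by fun_prop), fun x => ?_, fun x => ?_⟩
  · rw [fderiv_scale hd, norm_smul, Real.norm_eq_abs, abs_of_nonneg hσ]
    exact mul_le_mul_of_nonneg_left (h1 _) hσ
  · have hd2 : Differentiable ℝ (fderiv ℝ H) :=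
      (hH.fderiv_right (m := 1) (by norm_num)).differentiable one_ne_zero
    have h3 : HasFDerivAt (fun z : Space d => c + σ • z) (σ • ContinuousLinearMap.id ℝ (Space d)) x :=
      ((hasFDerivAt_id x).const_smul σ).const_add c
    have h4 := (((hd2 (c + σ • x)).hasFDerivAt.comp x h3).const_smul σ).fderiv
    simp only [fderiv_scale hd]
    rw [show fderiv ℝ (fun x => σ • fderiv ℝ H (c + σ • x)) x = _ from h4, mul_pow,
      show (σ ^ 2) ^ 2 * B2 ^ 2 = (σ * σ) ^ 2 * B2 ^ 2 by ring]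
    refine le_trans (le_of_eq ?_) (mul_le_mul_of_nonneg_left (h2 (c + σ • x)) (sq_nonneg (σ * σ)))
    simp only [Finset.mul_sum]
    refine Finset.sum_congr rfl fun i _ => Finset.sum_congr rfl fun j _ => ?_
    simp [smul_eq_mul]
    ring

theorem continuous_nodeSum (N : Nodes m) {g : Space d → Space d} (hg : Continuous g) :
    Continuous fun p : Space d × (Fin m → Space d) => nodeSum N g p.1 p.2 := by
  unfold nodeSum
  fun_prop

theorem continuous_chainPt (N : Nodes m) {h : ℝ} (P : Pot d h) :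
    ∀ J : ℕ, Continuous fun s : Fin J → Space d × Space d × (Fin m → Space d) => chainPt N P J s
  | 0 => continuous_const
  | J + 1 => by
    have ih := (continuous_chainPt N P J).comp
      (f := fun s : Fin (J + 1) → Space d × Space d × (Fin m → Space d) => fun j => s j.castSucc)
      (by fun_prop)
    have := P.smooth.continuous
    simp only [chainPt, chainStep, Pot.aff, nodeSum]
    fun_prop

theorem continuous_localX (N : Nodes m) {h : ℝ} (P : Pot d h) :
    Continuous fun p : Space d × (RI m J → Space d) => localX N P p.1 p.2 := by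
  have hg := P.smooth.continuous
  have hc := (continuous_chainPt N P J).comp
    (f := fun p : Space d × (RI m J → Space d) => chainSeed p.2)
    (by unfold chainSeed; fun_prop)
  simp only [localX, meanEst, nodeSum]
  fun_prop

theorem measurable_localPath (N : Nodes m) {h : ℝ} (P : Pot d h) {U : Space d → ℝ} (hU : Measurable U)
    (c : Space d) (σ u : ℝ) (ξ : Space d) :
    Measurable fun p : (RI m J → Space d) × Space d => U (c + σ • localX N P ξ p.1 + u • p.2) := by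
  have hl : Measurable fun p : (RI m J → Space d) × Space d => localX N P ξ p.1 :=
    ((continuous_localX (J := J) N P).comp (continuous_const.prodMk continuous_fst)).measurable
  exact hU.comp (((measurable_const.add (hl.const_smul σ))).add (measurable_snd.const_smul u))

/-- Bias of one step against a bounded test. -/
theorem step_bias (hB : MuBasic) (hS : PostShift) {C c : ℝ} (hC : StepConst C c) (hV : InClass V)
    (N : Nodes m) {K : ℕ} {η η' Cw e B1 B2 : ℝ} (hd : 1 ≤ d) (hη : 0 < η) (hη' : η / 2 ≤ η')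
    (hCw : 1 ≤ Cw) (hN : N.Ok Cw e) (he : 0 ≤ e) (he1 : e ≤ 1) (hc1 : η / (1 + η) * Cw ≤ c)
    (hc2 : Cw ^ 2 * (η / (1 + η) + e) * (η / (1 + η) * Real.sqrt d) ≤ c) (hB1 : 0 ≤ B1)
    (hB2 : 0 ≤ B2) {U : Space d → ℝ} (hU : Measurable U) (hU1 : ∀ x, |U x| ≤ 1)
    (hH : ContDiff ℝ 2 (Pf (η' / 2) U)) (hG1 : GradBound (Pf (η' / 2) U) B1)
    (hG2 : HessBound (Pf (η' / 2) U) B2) {y : Space d}
    (hy : (η / (1 + η)) ^ K * ‖y‖ ≤ Real.sqrt (η / (1 + η)) * Real.sqrt d) :
    |(∫ S, U (outStep (J := J) N K η η' (grd V) y S) ∂seedLaw d m J)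
        - post hV.pot (η / (1 + η)) (Pf η' U) ((1 + η)⁻¹ • y)|
      ≤ C * Cw ^ 4 * (η / (1 + η) * B2 * (η / (1 + η) + e) + Real.sqrt (η / (1 + η)) * B1
          * (η / (1 + η)) * (η / (1 + η) + e + (1 / 2 : ℝ) ^ J)) * (η / (1 + η) * Real.sqrt d) := by
  obtain ⟨hs0, hs1, hsη⟩ := coef_pos hη
  set s := η / (1 + η) with hs
  set σ := Real.sqrt s with hσ
  have hσ0 : 0 < σ := Real.sqrt_pos.2 hs0
  have hη'0 : 0 < η' := by linarith
  set cc := cen (grd V) K η y with hcc
  set P := hV.loc K η y with hP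
  set H := fun x => Pf (η' / 2) U (cc + σ • x) with hHdef
  set r := η' / (2 * s) with hr
  have hsq : Real.sqrt (η' / 2) = σ * Real.sqrt r := by
    rw [hσ, ← Real.sqrt_mul hs0.le, hr]
    congr 1
    field_simp
  obtain ⟨hH2, hHg, hHh⟩ := scale_bounds hH hG1 hG2 cc hσ0.le
  have hσ2 : σ ^ 2 = s := Real.sq_sqrt hs0.le
  have hrb : 1 / 8 ≤ r := by
    rw [hr, le_div_iff₀ (by positivity)]; linarith
  have hgs : gsize P ≤ 2 * (1 * σ ^ 2 * Real.sqrt d) := by
    have h1 := loc_g_zero hV hη K y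
    have h2 := mul_le_mul_of_nonneg_left hy hσ0.le
    have h3 : σ * (σ * Real.sqrt d) = s * Real.sqrt d := by rw [← mul_assoc, ← sq, hσ2]
    have h4 : 1 * σ ^ 2 * Real.sqrt d = s * Real.sqrt d := by rw [one_mul, hσ2]
    unfold gsize
    linarith
  have key := hC.2 d _ P m J N Cw e r (σ * B1) (σ ^ 2 * B2) H hd hCw hN he he1
    (by rw [one_mul, hσ2]; exact hs0) (by rw [one_mul, hσ2]; exact hc1)
    (by rw [one_mul, hσ2]; exact hc2) hgs hrb (mul_nonneg hσ0.le hB1)
    (mul_nonneg (sq_nonneg _) hB2) hH2 hHg hHh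
  simp only [one_mul, ← hs, ← hσ, hσ2] at key
  have hadd : Pf η' U = Pf (η' / 2) (Pf (η' / 2) U) := by
    rw [← Pf_add hU hU1 (by linarith) (by linarith), add_halves]
  have hin : ∀ v : Space d, Pf η' U (cc + σ • v) = ∫ z, H (v + Real.sqrt r • z) ∂gam d := fun v => by
    rw [hadd]
    refine integral_congr_ae (ae_of_all _ fun z => ?_)
    simp only [hHdef]
    rw [hsq, smul_add, smul_smul, add_assoc]
  have hexact : post hV.pot s (Pf η' U) ((1 + η)⁻¹ • y)
      = ∫ x, ∫ z, H (x + Real.sqrt r • z) ∂gam d ∂mu P := by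
    rw [post_loc hS hV hη K y (measurable_Pf hU η') (grow_of_le_one (abs_Pf_le hU1 η'))]
    exact integral_congr_ae (ae_of_all _ fun v => hin v)
  have halg : (∫ S, U (outStep (J := J) N K η η' (grd V) y S) ∂seedLaw d m J)
      = ∫ ξ, ∫ ω, ∫ z, H (localX (J := J) N P ξ ω + Real.sqrt r • z) ∂gam d ∂gp (RI m J) d
          ∂gam d := by
    have hmeas : Measurable fun S : Seed d m J =>
        U (cc + σ • localX N P S.1 S.2.1 + Real.sqrt η' • S.2.2) := by
      refine hU.comp ?_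
      have := ((continuous_localX (J := J) N P).comp
        (f := fun S : Seed d m J => (S.1, S.2.1)) (by fun_prop)).measurable
      fun_prop
    have hb : ∀ S : Seed d m J, ‖U (cc + σ • localX N P S.1 S.2.1 + Real.sqrt η' • S.2.2)‖ ≤ 1 :=
      fun S => (Real.norm_eq_abs _).trans_le (hU1 _)
    simp only [outStep_eq hV]
    rw [integral_prod _ (Integrable.of_bound hmeas.aestronglyMeasurable 1 (ae_of_all _ hb))]
    refine integral_congr_ae (ae_of_all _ fun ξ => ?_)
    simp only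
    have hm2 := measurable_localPath (J := J) N P hU cc σ (Real.sqrt η') ξ
    rw [integral_prod _ (Integrable.of_bound hm2.aestronglyMeasurable 1
      (ae_of_all _ fun p => hb (ξ, p)))]
    exact integral_congr_ae (ae_of_all _ fun ω => hin (localX N P ξ ω))
  rw [halg, hexact]
  exact key

theorem integral_sum_norm_gp (hB : MuBasic) (hM : MomentMu) (hd : 1 ≤ d) (ι : Type) [Fintype ι] :
    Integrable (fun ω : ι → Space d => ∑ i, ‖ω i‖) (gp ι d) ∧
      ∫ ω, ∑ i, ‖ω i‖ ∂gp ι d ≤ Fintype.card ι * (2 * d) := by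
  have hi : ∀ i : ι, Integrable (fun ω : ι → Space d => ‖ω i‖) (gp ι d) := fun i =>
    (measurePreserving_eval (fun _ : ι => gam d) i).integrable_comp_of_integrable integrable_norm_gam
  refine ⟨integrable_finsetSum _ fun i _ => hi i, ?_⟩
  rw [integral_finsetSum _ fun i _ => hi i]
  refine (Finset.sum_le_sum (g := fun _ => 2 * (d : ℝ)) fun i _ => ?_).trans_eq ?_
  · have h := integral_map (μ := gp ι d) (φ := fun ω : ι → Space d => ω i) (measurable_pi_apply i).aemeasurable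
      (f := fun x : Space d => ‖x‖) (by fun_prop)
    rw [(measurePreserving_eval (fun _ : ι => gam d) i).map_eq] at h
    exact h.symm.trans_le (gam_norm_le hB hM hd)
  · simp

theorem card_RI : (Fintype.card (RI m J) : ℝ) = m + (m + 1) + (J * (2 + m) + 1) := by
  simp only [RI, Fintype.card_sum, Fintype.card_option, Fintype.card_prod, Fintype.card_fin,
    Fintype.card_bool]
  push_cast
  ring

/-- The size of the seeds of a step. -/
def seedTot (S : Seed d m J) : ℝ := ‖S.1‖ + ∑ i, ‖S.2.1 i‖ + ‖S.2.2‖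

theorem integral_seedTot (hB : MuBasic) (hM : MomentMu) (hd : 1 ≤ d) :
    Integrable (seedTot : Seed d m J → ℝ) (seedLaw d m J) ∧
      ∫ S, seedTot S ∂seedLaw d m J ≤ (Fintype.card (RI m J) + 2) * (2 * d) := by
  obtain ⟨h2, h2'⟩ := integral_sum_norm_gp hB hM hd (RI m J)
  have hg := integrable_norm_gam (d := d)
  have hm1 : MeasurePreserving (fun S : Seed d m J => S.1) (seedLaw d m J) (gam d) :=
    measurePreserving_fst
  have hm2 : MeasurePreserving (fun S : Seed d m J => S.2.1) (seedLaw d m J) (gp (RI m J) d) :=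
    (measurePreserving_fst (μ := gp (RI m J) d) (ν := gam d)).comp measurePreserving_snd
  have hm3 : MeasurePreserving (fun S : Seed d m J => S.2.2) (seedLaw d m J) (gam d) :=
    (measurePreserving_snd (μ := gp (RI m J) d) (ν := gam d)).comp measurePreserving_snd
  have i1 := hm1.integrable_comp_of_integrable hg
  have i2 := hm2.integrable_comp_of_integrable h2
  have i3 := hm3.integrable_comp_of_integrable hg
  have e : ∀ {α : Type} [MeasurableSpace α] {f : Seed d m J → α} {ν : Measure α},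
      MeasurePreserving f (seedLaw d m J) ν → ∀ {g : α → ℝ}, AEStronglyMeasurable g ν →
        ∫ S, g (f S) ∂seedLaw d m J = ∫ x, g x ∂ν := fun {α} _ {f ν} hf {g} hg' => by
    rw [← hf.map_eq, integral_map hf.aemeasurable (hf.map_eq.symm ▸ hg')]
  have e1 := e hm1 hg.aestronglyMeasurable
  have e2 := e hm2 h2.aestronglyMeasurable
  have e3 := e hm3 hg.aestronglyMeasurable
  simp only [Function.comp_def] at i1 i2 i3
  refine ⟨(i1.add i2).add i3, ?_⟩
  show ∫ S : Seed d m J, ‖S.1‖ + ∑ i, ‖S.2.1 i‖ + ‖S.2.2‖ ∂seedLaw d m J ≤ _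
  have i12 : Integrable (fun S : Seed d m J => ‖S.1‖ + ∑ i, ‖S.2.1 i‖) (seedLaw d m J) := i1.add i2
  rw [integral_add i12 i3, integral_add i1 i2, e1, e2, e3]
  have := gam_norm_le hB hM hd
  linarith

theorem growth_arith {c x z : Space d} {σ u Cw g A Y T S0 : ℝ} (hc : ‖c‖ ≤ Y) (hσ : 0 ≤ σ)
    (hσ1 : σ ≤ 1) (hu : 0 ≤ u) (hu1 : u ≤ 1) {v : Space d} (hx : ‖x‖ ≤ 8 * T * (Cw * g + ‖v‖ + S0))
    (hg : g ≤ A * Y) (hC : 0 ≤ Cw) (hT : 1 ≤ T) (hS : 0 ≤ S0) :
    ‖c + σ • x + u • z‖ ≤ (1 + 8 * T * Cw * A) * Y + 9 * T * (‖v‖ + S0 + ‖z‖) := by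
  refine (norm_add_le _ _).trans ((add_le_add (norm_add_le _ _) le_rfl).trans ?_)
  rw [norm_smul, norm_smul, Real.norm_eq_abs, Real.norm_eq_abs, abs_of_nonneg hσ, abs_of_nonneg hu]
  have h2 := mul_le_of_le_one_left (norm_nonneg x) hσ1
  have h3 := (mul_le_of_le_one_left (norm_nonneg z) hu1).trans
    (le_mul_of_one_le_left (norm_nonneg z) hT)
  have h4 := mul_le_mul_of_nonneg_left hg (show (0 : ℝ) ≤ 8 * T * Cw by positivity)
  have h9 : 0 ≤ T * ‖v‖ := by positivity
  have h10 : 0 ≤ T * S0 := by positivity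
  have h11 : 0 ≤ T * ‖z‖ := by positivity
  linarith

/-- One step grows the norm little. -/
theorem norm_outStep_le (hV : InClass V) (N : Nodes m) {K : ℕ} {η η' Cw : ℝ} (hη : 0 < η)
    (hη' : η' ≤ 1) (ht : ∀ k, N.t k ∈ Set.Icc (0 : ℝ) 1) (hw : ∑ k, |N.w k| ≤ Cw) (hC : 1 ≤ Cw)
    (hC1 : η / (1 + η) * Cw ≤ 1) (y : Space d) (S : Seed d m J) :
    ‖outStep N K η η' (grd V) y S‖
      ≤ (1 + 8 * 2 ^ J * Cw * (η / (1 + η)) ^ K) * ‖y‖ + 9 * 2 ^ J * seedTot S := by
  obtain ⟨hs0, hs1, hsη⟩ := coef_pos hη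
  set s := η / (1 + η) with hs
  have hσ0 : 0 ≤ Real.sqrt s := Real.sqrt_nonneg _
  have hσ1 : Real.sqrt s ≤ 1 := Real.sqrt_le_one.2 hs1.le
  have hC2 : 1 * Real.sqrt s ^ 2 * Cw ≤ 1 := by rw [one_mul, Real.sq_sqrt hs0.le]; exact hC1
  have hX := norm_localX_le (J := J) N (hV.loc K η y) ht hw hC hC2 S.1 S.2.1
  have hg : ‖(hV.loc K η y).g 0‖ ≤ s ^ K * ‖y‖ :=
    (loc_g_zero hV hη K y).trans (mul_le_of_le_one_left (by positivity) hσ1)
  have h5 : seedTot S = ‖S.1‖ + ∑ i, ‖S.2.1 i‖ + ‖S.2.2‖ := rfl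
  have h7 : 0 ≤ ∑ i, ‖S.2.1 i‖ := Finset.sum_nonneg fun i _ => norm_nonneg _
  rw [outStep_eq hV, h5]
  exact growth_arith (norm_cen_le hV hη K y) hσ0 hσ1 (Real.sqrt_nonneg _) (Real.sqrt_le_one.2 hη')
    hX hg (by linarith) (one_le_pow₀ one_le_two) h7

/-- Bias of the last, Gaussian, approximation. -/
theorem last_bias (hS : PostShift) (hI : InterpMu) (hV : InClass V) {K : ℕ} {η : ℝ} (hη : 0 < η)
    {f : Space d → ℝ} (hf : Measurable f) (h1 : ∀ x, |f x| ≤ 1) {y : Space d}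
    (hy : (η / (1 + η)) ^ K * ‖y‖ ≤ Real.sqrt (η / (1 + η)) * Real.sqrt d) :
    |(∫ ξ, f (lastStep K η (grd V) y ξ) ∂gam d)
        - post hV.pot (η / (1 + η)) f ((1 + η)⁻¹ • y)| ≤ 6 * η * Real.sqrt d := by
  obtain ⟨hs0, hs1, hsη⟩ := coef_pos hη
  set s := η / (1 + η) with hs
  set cc := cen (grd V) K η y
  have hf' : Measurable fun ξ : Space d => f (cc + Real.sqrt s • ξ) := hf.comp (by fun_prop)
  have hle : 1 * Real.sqrt s ^ 2 ≤ 1 := by rw [loc_coef hη]; exact hs1.le
  have key := (hI d _ (hV.loc K η y) hle).1 _ hf' fun ξ => h1 _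
  rw [post_loc hS hV hη K y hf (grow_of_le_one h1), abs_sub_comm]
  refine key.trans ?_
  have h2 := loc_g_zero hV hη K y
  have h3 := mul_le_mul_of_nonneg_left hy (Real.sqrt_nonneg s)
  have h4 : Real.sqrt s * (Real.sqrt s * Real.sqrt d) = s * Real.sqrt d := by
    rw [← mul_assoc, Real.mul_self_sqrt hs0.le]
  have h5 : 1 * Real.sqrt s ^ 2 * Real.sqrt d = s * Real.sqrt d := by
    rw [one_mul, Real.sq_sqrt hs0.le]
  unfold gsize
  have := mul_le_mul_of_nonneg_right hsη (Real.sqrt_nonneg (d : ℝ))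
  linarith

end Vale.Agent.P347
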