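import Mathlib

/-!
# Query complexity of well-conditioned log-concave sampling: the oracle model

The potentials of the problem, their Gibbs laws, adaptive randomized first-order algorithms with a
worst-case query budget, and the predicate that a budget suffices.
-/

noncomputable section

open MeasureTheory ProbabilityTheory

namespace Vale.Agent.P347

/-- Euclidean space of dimension `d`. -/
abbrev Space (d : ℕ) := EuclideanSpace ℝ (Fin d)

/-- The second derivative of `V` at `x` in the direction `v`, twice. -/
def hess2 {d : ℕ} (V : Space d → ℝ) (x v : Space d) : ℝ := iteratedFDeriv ℝ 2 V x ![v, v]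

/-- `V` is twice continuously differentiable, vanishes with its gradient at the origin and
`I ≤ ∇²V(x) ≤ 2 I` everywhere. -/
def InClass {d : ℕ} (V : Space d → ℝ) : Prop :=
  ContDiff ℝ 2 V ∧ V 0 = 0 ∧ gradient V 0 = 0 ∧
    ∀ x v : Space d, ‖v‖ ^ 2 ≤ hess2 V x v ∧ hess2 V x v ≤ 2 * ‖v‖ ^ 2

/-- The Gibbs law with density proportional to `exp (-V)`. -/
def target {d : ℕ} (V : Space d → ℝ) : Measure (Space d) :=
  (volume : Measure (Space d)).tilted fun x => -V x

/-- An adaptive randomized algorithm making at most `q` first-order queries. The `i`-th query point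
is a measurable function of the random reals and the previous `i` answers, the output is a
measurable function of the random reals and all answers. -/
structure Algorithm (d q : ℕ) where
  /-- The number of random reals. -/
  reals : ℕ
  /-- The query points. -/
  query : (i : Fin q) → (Fin reals → ℝ) → (Fin i.val → ℝ × Space d) → Space d
  /-- The output. -/
  output : (Fin reals → ℝ) → (Fin q → ℝ × Space d) → Space d
  measurable_query : ∀ i, Measurable fun p : (Fin reals → ℝ) × (Fin i.val → ℝ × Space d) =>
    query i p.1 p.2
  measurable_output : Measurable fun p : (Fin reals → ℝ) × (Fin q → ℝ × Space d) =>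
    output p.1 p.2

variable {d q : ℕ}

/-- The exact first-order oracle: the value and the gradient. -/
def oracle (V : Space d → ℝ) (x : Space d) : ℝ × Space d := (V x, gradient V x)

/-- The answers received by `A` against `V`. -/
def Algorithm.answers (A : Algorithm d q) (V : Space d → ℝ) (s : Fin A.reals → ℝ) :
    (n : ℕ) → n ≤ q → Fin n → ℝ × Space d
  | 0, _ => Fin.elim0
  | n + 1, h => Fin.snoc (A.answers V s n (Nat.le_of_succ_le h))
      (oracle V (A.query ⟨n, h⟩ s (A.answers V s n (Nat.le_of_succ_le h))))

/-- The law of the output of `A` against `V`, the random reals being independent standard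
Gaussians. -/
def Algorithm.law (A : Algorithm d q) (V : Space d → ℝ) : Measure (Space d) :=
  (Measure.pi fun _ : Fin A.reals => gaussianReal 0 1).map
    fun s => A.output s (A.answers V s q le_rfl)

/-- Some algorithm with `q` queries samples every potential of the class within total variation
`1/10`. -/
def CanSample (d q : ℕ) : Prop :=
  ∃ A : Algorithm d q, ∀ V : Space d → ℝ, InClass V →
    ∀ B : Set (Space d), MeasurableSet B → |(A.law V).real B - (target V).real B| ≤ 1 / 10

/-- The exponent `1/4` suffices: `Q(d) ≤ d^(1/4+ε)` for all large `d`. -/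
def QuarterBound : Prop :=
  ∀ ε : ℝ, 0 < ε → ∃ d₀ : ℕ, ∀ d : ℕ, d₀ ≤ d →
    ∃ q : ℕ, (q : ℝ) ≤ (d : ℝ) ^ (1 / 4 + ε : ℝ) ∧ CanSample d q

end Vale.Agent.P347
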