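import Vale.Agent.P347.NumericPin

/-!
The parameters of the sampler exist for all large dimensions.
-/

noncomputable section

open Filter Topology

namespace Vale.Agent.P347

theorem num_eta_w {C c L ε D η W : ℝ} (hC : 1 ≤ C) (hεc : 20000 * C ^ 5 * ε ≤ c) (hε0 : 0 < ε)
    (hL1 : 1 ≤ L) (hld : L ^ 5 ≤ ε * D) (hη0 : 0 < η) (hηD : η * D ≤ 1) (hW2 : W ≤ 2 * C * L) :
    η * W ≤ c := by
  have hC0 : 0 < C := by linarith
  have hC5 : C ≤ C ^ 5 := le_self_pow₀ hC (by norm_num)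
  have hL5 : L ≤ L ^ 5 := le_self_pow₀ hL1 (by norm_num)
  calc η * W ≤ η * (2 * C * L) := mul_le_mul_of_nonneg_left hW2 hη0.le
    _ ≤ c := by
      have h0 : η * (20000 * C ^ 5 * L ^ 5) ≤ 20000 * C ^ 5 * ε := by
        have h := mul_le_mul_of_nonneg_left
          (mul_le_mul_of_nonneg_left hld (show 0 ≤ 20000 * C ^ 5 by positivity)) hη0.le
        have h' := mul_le_mul_of_nonneg_left hηD (show 0 ≤ 20000 * C ^ 5 * ε by positivity)
        linarith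
      have h1 := mul_le_mul_of_nonneg_left
        (mul_le_mul (show 2 * C ≤ 20000 * C ^ 5 by linarith) hL5 (by linarith) (by positivity))
        hη0.le
      linarith

theorem num_w_sq {C c L ε D η W : ℝ} {d : ℕ} (hC : 1 ≤ C) (hεc : 20000 * C ^ 5 * ε ≤ c) (hε0 : 0 < ε)
    (hL1 : 1 ≤ L) (hld : L ^ 5 ≤ ε * D) (hη0 : 0 < η) (hsd : η ^ 2 * Real.sqrt d * D ≤ 1)
    (hW1 : 1 ≤ W) (hW2 : W ≤ 2 * C * L) : 2 * W ^ 2 * η * (η * Real.sqrt d) ≤ c := by
  have hC0 : 0 < C := by linarith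
  have h1 : W ^ 2 ≤ 4 * C ^ 5 * L ^ 5 := by
    calc W ^ 2 ≤ (2 * C * L) ^ 2 := pow_le_pow_left₀ (by linarith) hW2 2
      _ = 4 * C ^ 2 * L ^ 2 := by ring
      _ ≤ _ := by
        gcongr 4 * ?_ * ?_
        · exact pow_le_pow_right₀ hC (by norm_num)
        · exact pow_le_pow_right₀ hL1 (by norm_num)
  have h2 := mul_le_mul_of_nonneg_left (h1.trans (mul_le_mul_of_nonneg_left hld (by positivity)))
    (show 0 ≤ η ^ 2 * Real.sqrt d by positivity)
  have h3 := mul_le_mul_of_nonneg_left hsd (show 0 ≤ 4 * C ^ 5 * ε by positivity)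
  have : 0 ≤ C ^ 5 * ε := by positivity
  linarith

theorem num_eta_w_one {C L D η W : ℝ} (hC : 1 ≤ C) (hL1 : 1 ≤ L) (hCL : 20000 * C * L ≤ D) (hη0 : 0 < η)
    (hηD : η * D ≤ 1) (hW2 : W ≤ 2 * C * L) : η * W ≤ 1 := by
  calc η * W ≤ η * D := mul_le_mul_of_nonneg_left (hW2.trans (by nlinarith)) hη0.le
    _ ≤ 1 := hηD

theorem num_trunc {η : ℝ} {d : ℕ} (hd : (1000 : ℝ) ≤ d) (hη0 : 0 < η) (hη4 : η ≤ (d : ℝ) ^ (-(1 / 4) : ℝ)) :
    η ^ 60 * (d : ℝ) ^ (10 : ℕ) ≤ η / 4 := by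
  have hd0 : (0 : ℝ) < d := by linarith
  have hd1 : (1 : ℝ) ≤ d := by linarith
  have h1 : η ^ 59 * (d : ℝ) ^ (10 : ℕ) ≤ 1 / 4 := by
    have h2 : η ^ 59 ≤ (d : ℝ) ^ (-(59 / 4) : ℝ) := by
      refine (pow_le_pow_left₀ hη0.le hη4 59).trans_eq ?_
      rw [← Real.rpow_natCast, ← Real.rpow_mul hd0.le]
      norm_num
    refine (mul_le_mul_of_nonneg_right h2 (by positivity)).trans ?_
    rw [← Real.rpow_natCast (d : ℝ) 10, ← Real.rpow_add hd0]
    refine (Real.rpow_le_rpow_of_exponent_le hd1 (show _ ≤ (-1 : ℝ) by norm_num)).trans ?_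
    rw [Real.rpow_neg_one, one_div]
    exact inv_anti₀ (by norm_num) (by linarith)
  calc η ^ 60 * (d : ℝ) ^ (10 : ℕ) = η * (η ^ 59 * (d : ℝ) ^ (10 : ℕ)) := by ring
    _ ≤ η * (1 / 4) := mul_le_mul_of_nonneg_left h1 hη0.le
    _ = _ := by ring

theorem num_error {C a ε L D η W x : ℝ} {d n J : ℕ} (hd : (1000 : ℝ) ≤ d) (hC : 1 ≤ C)
    (hε0 : 0 < ε) (hε1 : 20000 * C ^ 5 * ε ≤ 1) (hL : L = Real.log d) (hL1 : 1 ≤ L)
    (hD : D = (d : ℝ) ^ a) (hD0 : 0 < D) (hld : L ^ 5 ≤ ε * D) (hη : η = eta a d) (hη0 : 0 < η)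
    (hsd : η ^ 2 * Real.sqrt d * D ≤ 1) (hx : x = (d : ℝ) ^ (1 / 4 + 2 * a)) (hxd : x ≤ d)
    (hn2 : 2 ≤ n) (hn2x : (n : ℝ) ≤ 2 * x) (hηx : η * x = D) (hJL : (J : ℝ) ≤ 5 * L) (hW1 : 1 ≤ W)
    (hW2 : W ≤ 2 * C * L) :
    C * W ^ 4 * (η ^ 2 * Real.sqrt d * (2 + Real.log n) + n * η ^ 3 * Real.sqrt d
      + J * η ^ 2 * Real.sqrt d) + 6 * η ^ 2 * Real.sqrt d ≤ 1 / 30 := by
  have hd0 : (0 : ℝ) < d := by linarith
  have hC0 : 0 < C := by linarith
  have hC5 : C ≤ C ^ 5 := le_self_pow₀ hC (by norm_num)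
  have hE0 : 0 ≤ η ^ 2 * Real.sqrt d := by positivity
  have hlogn : 2 + Real.log n ≤ 5 * L := by
    have h1 := Real.log_le_log (by positivity : (0 : ℝ) < n) (hn2x.trans (by linarith : 2 * x ≤ 2 * d))
    rw [Real.log_mul two_ne_zero hd0.ne'] at h1
    linarith [Real.log_le_sub_one_of_pos two_pos]
  have hne : (n : ℝ) * η ≤ 2 * D := by
    have := mul_le_mul_of_nonneg_right hn2x hη0.le
    linarith
  have hW4 : W ^ 4 ≤ 16 * C ^ 4 * L ^ 4 :=
    (pow_le_pow_left₀ (by linarith) hW2 4).trans_eq (by ring)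
  -- express everything through `η ^ 2 * √d * D`
  set S := η ^ 2 * Real.sqrt d with hS
  have hSD : S * D ≤ 1 := hsd
  have hSε : S * L ^ 5 ≤ ε := by
    have h1 := mul_le_mul_of_nonneg_left hld hE0
    have h2 := mul_le_mul_of_nonneg_left hSD hε0.le
    linarith
  have hcube : L ^ 4 * (n * η ^ 3 * Real.sqrt d) ≤ 2 * ε := by
    -- `n η³ √d ≤ 2 d ^ (-a)`
    have h1 : n * η ^ 3 * Real.sqrt d * D ≤ 2 := by
      have e : x * η ^ 3 * Real.sqrt d * D = 1 := by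
        rw [hx, hη, eta, hD, Real.sqrt_eq_rpow, ← Real.rpow_natCast ((d : ℝ) ^ (-(1 / 4 + a) : ℝ)) 3,
          ← Real.rpow_mul hd0.le, ← Real.rpow_add hd0, ← Real.rpow_add hd0, ← Real.rpow_add hd0]
        convert Real.rpow_zero (d : ℝ) using 2
        push_cast; ring
      have := mul_le_mul_of_nonneg_right hn2x (show 0 ≤ η ^ 3 * Real.sqrt d * D by positivity)
      linarith
    have h2 : L ^ 4 ≤ ε * D := le_trans (pow_le_pow_right₀ hL1 (by norm_num)) hld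
    have h3 := mul_le_mul_of_nonneg_left h1 hε0.le
    have h4 := mul_le_mul_of_nonneg_right h2 (show 0 ≤ n * η ^ 3 * Real.sqrt d by positivity)
    linarith
  have hmain : C * W ^ 4 * (η ^ 2 * Real.sqrt d * (2 + Real.log n) + n * η ^ 3 * Real.sqrt d
      + J * η ^ 2 * Real.sqrt d) ≤ 16 * C ^ 5 * (10 * ε + 2 * ε) := by
    have h1 : η ^ 2 * Real.sqrt d * (2 + Real.log n) + n * η ^ 3 * Real.sqrt d
        + J * η ^ 2 * Real.sqrt d ≤ S * (10 * L) + n * η ^ 3 * Real.sqrt d := by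
      have h1 := mul_le_mul_of_nonneg_left hlogn hE0
      have h2 := mul_le_mul_of_nonneg_left hJL hE0
      rw [hS]; linarith
    refine (mul_le_mul (mul_le_mul_of_nonneg_left hW4 hC0.le) h1 ?_ (by positivity)).trans ?_
    · have hl : 0 ≤ Real.log n := Real.log_natCast_nonneg n
      positivity
    · have h5 : 10 * (S * L ^ 5) + L ^ 4 * (n * η ^ 3 * Real.sqrt d) ≤ 10 * ε + 2 * ε := by linarith
      have h6 := mul_le_mul_of_nonneg_left h5 (show 0 ≤ 16 * C ^ 5 by positivity)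
      refine le_trans (le_of_eq ?_) h6
      ring
  have hS6 : 6 * η ^ 2 * Real.sqrt d ≤ 6 * ε := by
    have := le_mul_of_one_le_right hE0 (one_le_pow₀ hL1 (n := 5))
    linarith
  have : 6 * ε ≤ 6 * C ^ 5 * ε := by
    have := mul_le_mul_of_nonneg_right (show (1 : ℝ) ≤ C ^ 5 by linarith) hε0.le
    linarith
  linarith

theorem num_contract {C L D η x : ℝ} {d n : ℕ} (hd : (1000 : ℝ) ≤ d) (hC : 1 ≤ C) (hL : L = Real.log d)
    (hL1 : 1 ≤ L) (hCL : 20000 * C * L ≤ D) (hη0 : 0 < η) (hη2 : η ≤ 1 / 2) (hηd : 1 / η ≤ d)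
    (hn2 : 2 ≤ n) (hnx : x ≤ n) (hηx : η * x = D) :
    4 * d * C / Real.sqrt η * ((1 + η)⁻¹) ^ (n - 1) ≤ 1 / 30 := by
  have hd0 : (0 : ℝ) < d := by linarith
  have hC0 : 0 < C := by linarith
  -- the contraction
  have h1 : ((1 + η)⁻¹) ^ (n - 1) ≤ Real.exp (-(η / 2)) ^ (n - 1) := by
    refine pow_le_pow_left₀ (by positivity) ?_ _
    rw [Real.exp_neg]
    refine inv_anti₀ (Real.exp_pos _) ?_
    have h := Real.add_one_le_exp (-(η / 2))
    have h' : Real.exp (η / 2) * Real.exp (-(η / 2)) = 1 := by rw [← Real.exp_add]; simp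
    have h'' := mul_le_mul_of_nonneg_left h (Real.exp_pos (η / 2)).le
    nlinarith [Real.exp_pos (η / 2)]
  rw [← Real.exp_nat_mul, Nat.cast_sub (by omega)] at h1
  have hexp : ((1 + η)⁻¹) ^ (n - 1) ≤ Real.exp (-(2 * L + 120 * C)) := by
    refine h1.trans (Real.exp_le_exp.2 ?_)
    have h2 := mul_le_mul_of_nonneg_right hnx hη0.le
    have h3 : 2 * L + 120 * C + 1 ≤ D / 2 := by nlinarith
    push_cast
    nlinarith
  have h4 : Real.exp (-(2 * L + 120 * C)) ≤ 1 / ((d : ℝ) ^ 2 * (120 * C)) := by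
    rw [one_div, Real.exp_neg, Real.exp_add]
    refine inv_anti₀ (by positivity) ?_
    rw [show (2 : ℝ) * L = ((2 : ℕ) : ℝ) * L by norm_num, Real.exp_nat_mul, hL, Real.exp_log hd0]
    exact mul_le_mul_of_nonneg_left (by linarith [Real.add_one_le_exp (120 * C)]) (by positivity)
  have h5 : 1 / Real.sqrt η ≤ d := by
    refine le_trans ?_ hηd
    refine one_div_le_one_div_of_le hη0 ?_
    exact Real.le_sqrt_of_sq_le (by nlinarith)
  calc 4 * d * C / Real.sqrt η * ((1 + η)⁻¹) ^ (n - 1)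
      = 4 * d * C * (1 / Real.sqrt η) * ((1 + η)⁻¹) ^ (n - 1) := by ring
    _ ≤ 4 * d * C * d * (1 / ((d : ℝ) ^ 2 * (120 * C))) :=
        mul_le_mul (mul_le_mul_of_nonneg_left h5 (by positivity)) (hexp.trans h4) (by positivity)
          (by positivity)
    _ = 1 / 30 := by field_simp; ring

theorem num_moment {C L D η W x : ℝ} {d n J m : ℕ} (hd : (1000 : ℝ) ≤ d)
    (hCL : 20000 * C * L ≤ D) (hDd : D ≤ d) (hη0 : 0 < η) (hη4 : η ≤ (d : ℝ) ^ (-(1 / 4) : ℝ))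
    (h2Jd : (2 : ℝ) ^ J ≤ 2 * d) (hW1 : 1 ≤ W) (hW2 : W ≤ 2 * C * L) (hxd : x ≤ d)
    (hn2x : (n : ℝ) ≤ 2 * x) (hJd : (J : ℝ) ≤ d) (hmd : (m : ℝ) ≤ d) :
    ((n + J : ℕ) + 1 : ℝ) * (2 / (d : ℝ) ^ (10 : ℕ) * ((1 + 8 * 2 ^ J * W * η ^ 60) ^ (n + J)
      * ((n + J : ℕ) * (9 * 2 ^ J * (((m : ℝ) + (m + 1) + (J * (2 + m) + 1) + 2) * (2 * d))))))
      ≤ 1 / 30 := by
  have hd0 : (0 : ℝ) < d := by linarith
  have hd1 : (1 : ℝ) ≤ d := by linarith
  have hm0 : (0 : ℝ) ≤ m := Nat.cast_nonneg m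
  -- the moments
  have hN : ((n + J : ℕ) : ℝ) ≤ 3 * d := by push_cast; linarith
  have hη60 : η ^ 60 ≤ 1 / (d : ℝ) ^ (15 : ℕ) := by
    refine (pow_le_pow_left₀ hη0.le hη4 60).trans_eq ?_
    rw [← Real.rpow_natCast _ 60, ← Real.rpow_mul hd0.le, one_div ((d : ℝ) ^ (15 : ℕ)),
      ← Real.rpow_natCast _ 15,
      ← Real.rpow_neg hd0.le]
    norm_num
  have hWd : W ≤ d := hW2.trans (le_trans (by nlinarith) hDd)
  have hy0 : 0 ≤ 8 * (2 : ℝ) ^ J * W * η ^ 60 := by positivity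
  have hy : ((n + J : ℕ) : ℝ) * (8 * (2 : ℝ) ^ J * W * η ^ 60) ≤ 1 := by
    have h1 : ((n + J : ℕ) : ℝ) * (8 * (2 : ℝ) ^ J * W * η ^ 60)
        ≤ 3 * d * (8 * (2 * d) * d * (1 / (d : ℝ) ^ (15 : ℕ))) :=
      mul_le_mul hN (mul_le_mul (mul_le_mul (mul_le_mul_of_nonneg_left h2Jd (by norm_num)) hWd
        (by linarith) (by positivity)) hη60 (by positivity) (by positivity)) hy0 (by positivity)
    refine h1.trans ?_
    rw [show 3 * (d : ℝ) * (8 * (2 * d) * d * (1 / (d : ℝ) ^ (15 : ℕ))) = 48 / (d : ℝ) ^ (12 : ℕ) by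
      field_simp; ring, div_le_one (by positivity)]
    exact le_trans (by linarith) (le_self_pow₀ hd1 (by norm_num))
  have hpow : (1 + 8 * (2 : ℝ) ^ J * W * η ^ 60) ^ (n + J) ≤ 3 := by
    refine (pow_le_pow_left₀ (by linarith) (by linarith [Real.add_one_le_exp (8 * (2 : ℝ) ^ J * W * η ^ 60)] :
      1 + 8 * (2 : ℝ) ^ J * W * η ^ 60 ≤ Real.exp (8 * (2 : ℝ) ^ J * W * η ^ 60)) _).trans ?_
    rw [← Real.exp_nat_mul]
    exact (Real.exp_le_exp.2 hy).trans (by linarith [Real.exp_one_lt_d9])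
  have hstuff : (m : ℝ) + (m + 1) + (J * (2 + m) + 1) + 2 ≤ 9 * (d : ℝ) ^ 2 := by
    have h1 := mul_le_mul hJd (show (2 : ℝ) + m ≤ 3 * d by linarith) (by linarith) hd0.le
    nlinarith
  calc ((n + J : ℕ) + 1 : ℝ) * (2 / (d : ℝ) ^ (10 : ℕ) * ((1 + 8 * (2 : ℝ) ^ J * W * η ^ 60) ^ (n + J)
        * ((n + J : ℕ) * (9 * (2 : ℝ) ^ J * (((m : ℝ) + (m + 1) + (J * (2 + m) + 1) + 2) * (2 * d))))))
      ≤ (4 * d) * (2 / (d : ℝ) ^ (10 : ℕ) * (3 * (3 * d * (9 * (2 * d) * (9 * (d : ℝ) ^ 2 * (2 * d)))))) := by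
        refine mul_le_mul (by linarith) (mul_le_mul_of_nonneg_left (mul_le_mul hpow
          (mul_le_mul hN (mul_le_mul (mul_le_mul_of_nonneg_left h2Jd (by norm_num))
            (mul_le_mul_of_nonneg_right hstuff (by positivity)) (by positivity) (by positivity))
            (by positivity) (by positivity)) (by positivity) (by norm_num)) (by positivity))
          (by positivity) (by positivity)
    _ = 23328 / (d : ℝ) ^ (4 : ℕ) := by field_simp; ring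
    _ ≤ 1 / 30 := by
        rw [div_le_div_iff₀ (by positivity) (by norm_num)]
        linarith [pow_le_pow_left₀ (by norm_num) hd 4]

theorem num_queries {C a L D x : ℝ} {d n J m : ℕ} (hd : (1000 : ℝ) ≤ d) (hC : 1 ≤ C) (ha : 0 < a) (hL1 : 1 ≤ L)
    (hD : D = (d : ℝ) ^ a) (hbig : 20000 * C ^ 5 * L ^ 5 ≤ D) (hx : x = (d : ℝ) ^ (1 / 4 + 2 * a))
    (hx1 : 1 ≤ x) (hn2x : (n : ℝ) ≤ 2 * x) (hJL : (J : ℝ) ≤ 5 * L) (hJx : (J : ℝ) ≤ x)
    (hmD : (m : ℝ) ≤ 2 * C * L * (d : ℝ) ^ (a / 2)) :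
    (((n + J) * (60 + 1 + (m + m + (J * m + 1))) + (60 + 1) : ℕ) : ℝ)
      ≤ (d : ℝ) ^ (1 / 4 + 5 * a : ℝ) := by
  have hd0 : (0 : ℝ) < d := by linarith
  have hd1 : (1 : ℝ) ≤ d := by linarith
  have hC0 : 0 < C := by linarith
  have hC5 : C ≤ C ^ 5 := le_self_pow₀ hC (by norm_num)
  have hm0 : (0 : ℝ) ≤ m := Nat.cast_nonneg m
  have hJ0 : (0 : ℝ) ≤ J := Nat.cast_nonneg J
  -- the queries
  push_cast
  have hN : (n : ℝ) + J ≤ 3 * x := by linarith
  have hh : (1 : ℝ) ≤ (d : ℝ) ^ (a / 2) := Real.one_le_rpow hd1 (by linarith)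
  have hin : (60 : ℝ) + 1 + ((m : ℝ) + m + (J * m + 1)) ≤ 76 * C * L ^ 2 * (d : ℝ) ^ (a / 2) := by
    have h1 := mul_le_mul hJL hmD hm0 (by positivity)
    have h3 : L ≤ L ^ 2 := le_self_pow₀ hL1 two_ne_zero
    have h2 : (1 : ℝ) ≤ C * L ^ 2 * (d : ℝ) ^ (a / 2) :=
      one_le_mul_of_one_le_of_one_le (one_le_mul_of_one_le_of_one_le hC (one_le_pow₀ hL1)) hh
    have h4 := mul_le_mul_of_nonneg_left h3 (show 0 ≤ C * (d : ℝ) ^ (a / 2) by positivity)
    linarith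
  have hB := mul_le_mul hN hin (by positivity) (by positivity)
  have hK : (60 : ℝ) + 1 ≤ 61 * (C * L ^ 2 * (d : ℝ) ^ (a / 2) * x) := by
    have : (1 : ℝ) ≤ C * L ^ 2 * (d : ℝ) ^ (a / 2) * x :=
      one_le_mul_of_one_le_of_one_le (one_le_mul_of_one_le_of_one_le
        (one_le_mul_of_one_le_of_one_le hC (one_le_pow₀ hL1)) hh) hx1
    linarith
  have hCL2 : 289 * C * L ^ 2 ≤ D := le_trans
    (mul_le_mul (by linarith) (pow_le_pow_right₀ hL1 (by norm_num)) (by positivity) (by positivity)) hbig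
  have hfin : D * ((d : ℝ) ^ (a / 2) * x) ≤ (d : ℝ) ^ (1 / 4 + 5 * a : ℝ) := by
    rw [hD, hx, ← Real.rpow_add hd0, ← Real.rpow_add hd0]
    exact Real.rpow_le_rpow_of_exponent_le hd1 (by linarith)
  have h5 := mul_le_mul_of_nonneg_right hCL2 (show 0 ≤ (d : ℝ) ^ (a / 2) * x by positivity)
  linarith

/-- For large `d` all the parameters can be chosen. -/
theorem numeric : Numeric := by
  intro C c a k hC hc ha ha16 hka
  set ε : ℝ := min c 1 / (20000 * C ^ 5) with hε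
  have hC5 : C ≤ C ^ 5 := le_self_pow₀ hC (by norm_num)
  have hC0 : 0 < C := by linarith
  have hε0 : 0 < ε := div_pos (lt_min hc one_pos) (by positivity)
  have hεc : 20000 * C ^ 5 * ε ≤ c := by
    rw [hε, mul_div_cancel₀ _ (by positivity)]; exact min_le_left _ _
  have hε1 : 20000 * C ^ 5 * ε ≤ 1 := by
    rw [hε, mul_div_cancel₀ _ (by positivity)]; exact min_le_right _ _
  have hlim : ∀ᶠ x : ℝ in atTop, Real.log x ^ (5 : ℕ) ≤ ε * x ^ a := by
    have h1 := ((isLittleO_log_rpow_rpow_atTop 5 ha).bound hε0)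
    filter_upwards [h1, eventually_ge_atTop 1] with x hx hx1
    rw [Real.norm_eq_abs, Real.norm_eq_abs, show (5 : ℝ) = ((5 : ℕ) : ℝ) by norm_num,
      Real.rpow_natCast] at hx
    exact (le_abs_self _).trans (hx.trans_eq (by
      rw [abs_of_nonneg (Real.rpow_nonneg (by linarith) a)]))
  filter_upwards [eventually_ge_atTop 1000, tendsto_natCast_atTop_atTop.eventually hlim]
    with d hdn hld m hm
  have hd : (1000 : ℝ) ≤ d := by exact_mod_cast hdn
  have hd0 : (0 : ℝ) < d := by linarith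
  have hd1 : (1 : ℝ) ≤ d := by linarith
  set L := Real.log d with hL
  have hL1 : 1 ≤ L := by
    rw [hL, Real.le_log_iff_exp_le hd0]
    linarith [Real.exp_one_lt_d9]
  set D := (d : ℝ) ^ a with hD
  have hD0 : 0 < D := Real.rpow_pos_of_pos hd0 a
  -- consequences of the single limit
  have hL5 : L ≤ L ^ 5 := le_self_pow₀ hL1 (by norm_num)
  have hbig : 20000 * C ^ 5 * L ^ 5 ≤ D := by
    have h := mul_le_mul_of_nonneg_left hld (show 0 ≤ 20000 * C ^ 5 by positivity)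
    have := mul_le_mul_of_nonneg_right hε1 hD0.le
    linarith
  have hCL : 20000 * C * L ≤ D := le_trans
    (mul_le_mul (by linarith) hL5 (by linarith) (by positivity)) hbig
  have hDd : D ≤ (d : ℝ) := by
    rw [hD]
    exact (Real.rpow_le_rpow_of_exponent_le hd1 (by linarith : a ≤ 1)).trans_eq (Real.rpow_one _)
  have hLC : L ≤ C * L := le_mul_of_one_le_left (by linarith) hC
  have hD2 : (2 : ℝ) ≤ D := by linarith
  -- the step size
  set η := eta a d with hη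
  have hη0 : 0 < η := Real.rpow_pos_of_pos hd0 _
  have hηinv : 1 / η = (d : ℝ) ^ (1 / 4 + a) := by
    rw [hη, eta, Real.rpow_neg hd0.le, one_div, inv_inv]
  have hηD : η * D ≤ 1 := by
    rw [hη, eta, hD, ← Real.rpow_add hd0]
    exact Real.rpow_le_one_of_one_le_of_nonpos hd1 (by linarith)
  have hη2 : η ≤ 1 / 2 := by
    have h1 := mul_le_mul_of_nonneg_left hD2 hη0.le
    linarith
  have hη4 : η ≤ (d : ℝ) ^ (-(1 / 4) : ℝ) :=
    Real.rpow_le_rpow_of_exponent_le hd1 (by linarith)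
  have hlog : Real.log (1 / η) = (1 / 4 + a) * L := by rw [hηinv, Real.log_rpow hd0]
  have hlog1 : 1 + Real.log (1 / η) ≤ 2 * L := by
    rw [hlog]
    have := mul_le_mul_of_nonneg_right (show 1 / 4 + a ≤ 1 by linarith) (show 0 ≤ L by linarith)
    linarith
  have hlog0 : 0 ≤ Real.log (1 / η) := by rw [hlog]; positivity
  set W := wbound C a d with hW
  have hW1 : 1 ≤ W := le_max_left _ _
  have hW2 : W ≤ 2 * C * L := by
    refine max_le (by linarith) ?_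
    rw [← hη]
    exact (mul_le_mul_of_nonneg_left hlog1 hC0.le).trans_eq (by ring)
  -- the number of steps
  set x : ℝ := (d : ℝ) ^ (1 / 4 + 2 * a) with hx
  have hx1 : 1 ≤ x := Real.one_le_rpow hd1 (by linarith)
  have hDx : D ≤ x := Real.rpow_le_rpow_of_exponent_le hd1 (by linarith)
  have hxd : x ≤ d := by
    rw [hx]
    exact (Real.rpow_le_rpow_of_exponent_le hd1 (by linarith)).trans_eq (Real.rpow_one _)
  have hηx : η * x = D := by
    rw [hη, eta, hx, hD, ← Real.rpow_add hd0]; congr 1; ring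
  set n := ⌈x⌉₊ with hn
  have hnx : x ≤ n := Nat.le_ceil x
  have hn2x : (n : ℝ) ≤ 2 * x := by linarith [Nat.ceil_lt_add_one (show 0 ≤ x by linarith)]
  have hn2 : 2 ≤ n := by
    have : (2 : ℝ) ≤ n := by linarith
    exact_mod_cast this
  -- the halving steps
  obtain ⟨j, hj1, hj2⟩ := exists_nat_pow_near (show (1 : ℝ) ≤ 1 / η by
    rw [le_div_iff₀ hη0]; linarith) (one_lt_two : (1 : ℝ) < 2)
  set J := j + 1 with hJ
  have hJη : 1 ≤ (2 : ℝ) ^ J * η := by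
    have := mul_le_mul_of_nonneg_right hj2.le hη0.le
    rwa [one_div_mul_cancel hη0.ne'] at this
  have h2J : (2 : ℝ) ^ J ≤ 2 / η := by
    rw [hJ, pow_succ]
    exact (mul_le_mul_of_nonneg_right hj1 two_pos.le).trans_eq (by ring)
  have hηd : 1 / η ≤ d := by
    rw [hηinv]
    exact (Real.rpow_le_rpow_of_exponent_le hd1 (by linarith)).trans_eq (Real.rpow_one _)
  have h2Jd : (2 : ℝ) ^ J ≤ 2 * d := h2J.trans (by rw [div_eq_mul_one_div]; linarith)
  have hJL : (J : ℝ) ≤ 5 * L := by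
    have h := Real.log_le_log (by positivity) hj1
    rw [Real.log_pow] at h
    have h2 := mul_le_mul_of_nonneg_left Real.log_two_gt_d9.le (Nat.cast_nonneg (α := ℝ) j)
    rw [hJ]; push_cast
    linarith
  have hJ0 : (0 : ℝ) ≤ J := Nat.cast_nonneg J
  have hJx : (J : ℝ) ≤ x := by linarith
  have hJd : (J : ℝ) ≤ d := hJx.trans hxd
  -- the nodes
  have hm0 : (0 : ℝ) ≤ m := Nat.cast_nonneg m
  have hmD : (m : ℝ) ≤ 2 * C * L * (d : ℝ) ^ (a / 2) := by
    refine hm.trans ?_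
    have hk : (0 : ℝ) < k := pos_of_mul_pos_left (lt_of_lt_of_le one_pos hka) ha.le
    have h1 : η ^ (-(1 : ℝ) / k) ≤ (d : ℝ) ^ (a / 2) := by
      rw [hη, eta, ← Real.rpow_mul hd0.le]
      refine Real.rpow_le_rpow_of_exponent_le hd1 ?_
      rw [neg_div, neg_mul_neg, mul_one_div, div_le_iff₀ hk]
      linarith
    exact (mul_le_mul (mul_le_mul_of_nonneg_left h1 hC0.le) hlog1 (by linarith) (by positivity)).trans_eq
      (by ring)
  have hDh : (d : ℝ) ^ (a / 2) ≤ D := Real.rpow_le_rpow_of_exponent_le hd1 (by linarith)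
  have hmd : (m : ℝ) ≤ d := by
    have h1 : D * D ≤ d := by
      rw [hD, ← Real.rpow_add hd0]
      exact (Real.rpow_le_rpow_of_exponent_le hd1 (by linarith)).trans_eq (Real.rpow_one _)
    have h2 := mul_le_mul (show 2 * C * L ≤ D by linarith) hDh (by positivity) hD0.le
    linarith
  have hsd : η ^ 2 * Real.sqrt d * D ≤ 1 := by
    rw [hη, eta, hD, Real.sqrt_eq_rpow, ← Real.rpow_natCast ((d : ℝ) ^ (-(1 / 4 + a) : ℝ)) 2,
      ← Real.rpow_mul hd0.le, ← Real.rpow_add hd0, ← Real.rpow_add hd0]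
    refine Real.rpow_le_one_of_one_le_of_nonpos hd1 ?_
    push_cast
    linarith
  refine ⟨n, J, 60, (d : ℝ) ^ (10 : ℕ), by omega, hη0, hη2, hn2, hJη, by positivity,
    num_eta_w hC hεc hε0 hL1 hld hη0 hηD hW2,
    num_w_sq hC hεc hε0 hL1 hld hη0 hsd hW1 hW2, num_eta_w_one hC hL1 hCL hη0 hηD hW2,
    num_trunc hd hη0 hη4,
    num_error hd hC hε0 hε1 hL hL1 hD hD0 hld hη hη0 hsd hx hxd hn2 hn2x hηx hJL hW1 hW2,
    num_contract hd hC hL hL1 hCL hη0 hη2 hηd hn2 hnx hηx,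
    num_moment hd hCL hDd hη0 hη4 h2Jd hW1 hW2 hxd hn2x hJd hmd,
    num_queries hd hC ha hL1 hD hbig hx hx1 hn2x hJL hJx hmD⟩

end Vale.Agent.P347
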