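import Vale.Agent.P347.Defs

/-!
Interfaces of the blocks of the quarter-exponent bound. Each is a proposition, proved in a later file.
-/

noncomputable section

open MeasureTheory ProbabilityTheory
open scoped RealInnerProductSpace

namespace Vale.Agent.P347

/-! ### Block A: the tilted Gaussian laws -/

/-- Probability and integrability. -/
def MuBasic : Prop :=
  ∀ (d : ℕ) (h : ℝ) (P : Pot d h), IsProbabilityMeasure (mu P) ∧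
    ∀ f : Space d → ℝ, Measurable f → Grow f → Integrable f (mu P)

/-- The Poincare inequality with constant one. -/
def PoincareMu : Prop :=
  ∀ (d : ℕ) (h : ℝ) (P : Pot d h) (f : Space d → ℝ), ContDiff ℝ 1 f →
    Grow (fun x => fderiv ℝ f x) → var (mu P) f ≤ ∫ x, ‖fderiv ℝ f x‖ ^ 2 ∂mu P

/-- Stein's identity. -/
def SteinMu : Prop :=
  ∀ (d : ℕ) (h : ℝ) (P : Pot d h) (f : Space d → ℝ) (e : Space d), ContDiff ℝ 1 f →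
    Grow (fun x => fderiv ℝ f x) →
      ∫ x, ⟪e, x + P.g x⟫ * f x ∂mu P = ∫ x, fderiv ℝ f x e ∂mu P

/-- Second moments. -/
def MomentMu : Prop :=
  ∀ (d : ℕ) (h : ℝ) (P : Pot d h), h ≤ 1 →
    ∫ x, ‖x‖ ^ 2 ∂mu P ≤ 2 * d + ‖P.g 0‖ ^ 2 ∧ ∫ x, ‖P.g x‖ ^ 2 ∂mu P ≤ 6 * gsize P ^ 2

/-- Distance of the tilted law from the Gaussian law. -/
def InterpMu : Prop :=
  ∀ (d : ℕ) (h : ℝ) (P : Pot d h), h ≤ 1 →
    (∀ f : Space d → ℝ, Measurable f → (∀ x, |f x| ≤ 1) →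
      |∫ x, f x ∂mu P - ∫ x, f x ∂gam d| ≤ 3 * gsize P) ∧
    ∀ (f : Space d → ℝ) (L : ℝ), 0 ≤ L → ContDiff ℝ 1 f → GradBound f L →
      |∫ x, f x ∂mu P - ∫ x, f x ∂gam d| ≤ 3 * L * gsize P

/-- The posterior identity. -/
def PosteriorId : Prop :=
  ∀ (d : ℕ) (h : ℝ) (P : Pot d h) (α β : ℝ), β ≠ 0 →
    ∀ Φ : Space d → Space d → ℝ, Measurable (fun p : Space d × Space d => Φ p.1 p.2) →
      (∃ (C : ℝ) (k : ℕ), ∀ y x, |Φ y x| ≤ C * (1 + ‖y‖ + ‖x‖) ^ k) →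
        ∫ x, ∫ z, Φ (α • x + β • z) x ∂gam d ∂mu P
          = ∫ x, ∫ z, post P (β ^ 2 / (α ^ 2 + β ^ 2)) (Φ (α • x + β • z))
              ((α / (α ^ 2 + β ^ 2)) • (α • x + β • z)) ∂gam d ∂mu P

/-- Absorbing a linear form into the centre. -/
def PostShift : Prop :=
  ∀ (d : ℕ) (h : ℝ) (P : Pot d h) (b : Space d) (v : ℝ), 0 < v →
    ∀ f : Space d → ℝ, Measurable f → Grow f →
      ∀ a, post (P.lin b) v f a = post P v f (a + v • b)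

/-- Derivatives of a posterior average in its centre. -/
def PostDeriv : Prop :=
  ∀ (d : ℕ) (h : ℝ) (P : Pot d h) (v : ℝ), 0 < v →
    ∀ f : Space d → ℝ, Measurable f → Grow f →
      ContDiff ℝ 2 (post P v f) ∧
      (∀ a e : Space d, fderiv ℝ (post P v f) a e
        = cov (mu (P.aff a (Real.sqrt v))) (fun ξ => f (a + Real.sqrt v • ξ)) (fun ξ => ⟪e, ξ⟫)
            / Real.sqrt v) ∧
      ∀ a, ∑ i, ∑ j, fderiv ℝ (fderiv ℝ (post P v f)) a (ev i) (ev j) ^ 2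
        ≤ (2 / v) ^ 2 * var (mu (P.aff a (Real.sqrt v))) (fun ξ => f (a + Real.sqrt v • ξ))

/-! ### Block B: Gaussian noise -/

/-- Mean-zero Lipschitz noise seen through Gaussian smoothing. -/
def NoiseLemma : Prop :=
  ∃ C c : ℝ, 0 < c ∧ ∀ (d : ℕ) (ι : Type) [Fintype ι] (N : (ι → Space d) → Space d)
    (H : Space d → ℝ) (B1 B2 L r : ℝ) (b : Space d),
    ContDiff ℝ 2 H → GradBound H B1 → HessBound H B2 → 0 ≤ B2 → 0 ≤ L → Differentiable ℝ N →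
    Lip2 L N → ∫ ω, N ω ∂gp ι d = 0 → 0 < r → L ^ 4 * d ≤ c * r ^ 2 →
      |(∫ ω, ∫ z, H (b + N ω + Real.sqrt r • z) ∂gam d ∂gp ι d)
          - ∫ z, H (b + Real.sqrt r • z) ∂gam d| ≤ C * B2 * L ^ 2 * Real.sqrt d

/-- Variance of a Lipschitz vector function of Gaussian vectors, and of a gradient along it. -/
def VecVar : Prop :=
  ∃ C : ℝ, ∀ (d : ℕ) (ι : Type) [Fintype ι] (A : (ι → Space d) → Space d) (L : ℝ),
    0 ≤ L → Differentiable ℝ A → Lip2 L A →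
      (∑ i, var (gp ι d) (fun ω => A ω i) ≤ C * L ^ 2 * d) ∧
      ∀ (H : Space d → ℝ) (B1 B2 : ℝ), ContDiff ℝ 2 H → GradBound H B1 → HessBound H B2 → 0 ≤ B2 →
        ∑ i, var (gp ι d) (fun ω => fderiv ℝ H (A ω) (ev i)) ≤ C * (L * B2) ^ 2

/-- Smoothing preserves derivative bounds. -/
def PfBound : Prop :=
  ∀ (d : ℕ) (r : ℝ) (H : Space d → ℝ) (B1 B2 : ℝ), ContDiff ℝ 2 H → GradBound H B1 →
    HessBound H B2 → 0 ≤ B2 →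
      ContDiff ℝ 2 (Pf r H) ∧ GradBound (Pf r H) B1 ∧ HessBound (Pf r H) B2

/-- Smoothing a Lipschitz function. -/
def PfLip : Prop :=
  ∃ C : ℝ, ∀ (d : ℕ) (r : ℝ) (ψ : Space d → ℝ) (L : ℝ), 0 < r → 0 ≤ L → ContDiff ℝ 1 ψ →
    GradBound ψ L →
      ContDiff ℝ 2 (Pf r ψ) ∧ GradBound (Pf r ψ) L ∧ HessBound (Pf r ψ) (C * L / Real.sqrt r)

/-! ### Block C: the exact side -/

/-- The tilted law is, up to second order, the transport plus mean-zero Lipschitz noise. -/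
def ExactSide : Prop :=
  ∃ C : ℝ, 0 ≤ C ∧ ∀ (d : ℕ) (h : ℝ) (P : Pot d h), 1 ≤ d → 0 < h → h ≤ 1 / 2 →
    ∃ (M : ℕ) (ν : Measure (Space d × (Space d × (Fin M → Space d))))
      (N : Space d → (Fin M → Space d) → Space d),
      IsProbabilityMeasure ν ∧ ν.map Prod.fst = mu P ∧
      ν.map Prod.snd = (gam d).prod (gp (Fin M) d) ∧
      (∀ ξ, ∫ ω, N ξ ω ∂gp (Fin M) d = 0) ∧
      Differentiable ℝ (fun p : Space d × (Fin M → Space d) => N p.1 p.2) ∧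
      (∀ ξ ξ' ω ω', ‖N ξ ω - N ξ' ω'‖
        ≤ C * h * Real.sqrt (‖ξ - ξ'‖ ^ 2 + ∑ i, ‖ω i - ω' i‖ ^ 2)) ∧
      Integrable (fun p => ‖p.1 - (p.2.1 - Gbar P.g p.2.1 + N p.2.1 p.2.2)‖ ^ 2) ν ∧
      ∫ p, ‖p.1 - (p.2.1 - Gbar P.g p.2.1 + N p.2.1 p.2.2)‖ ^ 2 ∂ν ≤ (C * h * gsize P) ^ 2

/-- Regularity of the transport field. -/
def GbarReg : Prop :=
  ∀ (d : ℕ) (h : ℝ) (P : Pot d h),
    Differentiable ℝ (Gbar P.g) ∧ ∀ ξ ξ', ‖Gbar P.g ξ - Gbar P.g ξ'‖ ≤ h * ‖ξ - ξ'‖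

/-! ### Block F: quadrature -/

/-- Few nodes integrate the transport field of every potential. -/
def Quadrature : Prop :=
  ∀ k : ℕ, 0 < k → ∃ C : ℝ, ∀ e : ℝ, 0 < e → e ≤ 1 / 2 → ∃ (m : ℕ) (N : Nodes m),
    (m : ℝ) ≤ C * e ^ (-(1 : ℝ) / k) * (1 + Real.log (1 / e)) ∧
      N.Ok (C * (1 + Real.log (1 / e))) e

/-! ### Block H: the local sampler -/

/-- Bias of the first-order sampler against smoothed Lipschitz tests. -/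
def FirstOrderBias : Prop :=
  ∃ C c : ℝ, 0 < c ∧ ∀ (d : ℕ) (h : ℝ) (P : Pot d h) (m : ℕ) (N : Nodes m) (Cw e L : ℝ)
    (ψ : Space d → ℝ), 1 ≤ d → 1 ≤ Cw → N.Ok Cw e → 0 ≤ e → e ≤ 1 → 0 < h → h * Cw ≤ c →
    h ^ 2 * Cw ^ 2 * Real.sqrt d ≤ c → 0 ≤ L → ContDiff ℝ 1 ψ → GradBound ψ L →
      |(∫ ξ, ∫ z, ∫ ζ, ψ (ξ - nodeSum N P.g ξ z + ζ) ∂gam d ∂gp (Fin m) d ∂gam d)
          - ∫ x, ∫ ζ, ψ (x + ζ) ∂gam d ∂mu P| ≤ C * Cw ^ 2 * (h + e) * gsize P * L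

/-- Bias of the mean estimator. -/
def MeanBias : Prop :=
  ∃ C c : ℝ, 0 < c ∧ ∀ (d : ℕ) (h : ℝ) (P : Pot d h) (m J : ℕ) (N : Nodes m) (Cw e : ℝ),
    1 ≤ d → 1 ≤ Cw → N.Ok Cw e → 0 ≤ e → e ≤ 1 → 0 < h → h * Cw ≤ c →
    h ^ 2 * Cw ^ 2 * Real.sqrt d ≤ c →
      ‖(∫ ω, meanEst (J := J) N P ω ∂gp (RI m J) d) - ∫ x, P.g x ∂mu P‖
        ≤ C * Cw ^ 2 * h * (h + e + (1 / 2 : ℝ) ^ J) * gsize P

/-- The local step. -/
def StepTheorem : Prop :=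
  ∃ C c : ℝ, 0 < c ∧ ∀ (d : ℕ) (h : ℝ) (P : Pot d h) (m J : ℕ) (N : Nodes m)
    (Cw e r b1 b2 : ℝ) (H : Space d → ℝ),
    1 ≤ d → 1 ≤ Cw → N.Ok Cw e → 0 ≤ e → e ≤ 1 → 0 < h → h * Cw ≤ c →
    Cw ^ 2 * (h + e) * (h * Real.sqrt d) ≤ c → gsize P ≤ 2 * (h * Real.sqrt d) → 1 / 8 ≤ r →
    0 ≤ b1 → 0 ≤ b2 → ContDiff ℝ 2 H → GradBound H b1 → HessBound H b2 →
      |(∫ ξ, ∫ ω, ∫ z, H (localX (J := J) N P ξ ω + Real.sqrt r • z) ∂gam d ∂gp (RI m J) d ∂gam d)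
          - ∫ x, ∫ z, H (x + Real.sqrt r • z) ∂gam d ∂mu P|
        ≤ C * Cw ^ 4 * (b2 * (h + e) + b1 * h * (h + e + (1 / 2 : ℝ) ^ J)) * (h * Real.sqrt d)

/-! ### Block G: the proximal chain -/

/-- Derivative bounds after `m` steps. -/
def ChainBounds : Prop :=
  ∃ C : ℝ, ∀ (d : ℕ) (h : ℝ) (P : Pot d h) (η : ℝ) (m : ℕ) (f : Space d → ℝ),
    h ≤ 1 → 0 < η → η ≤ 1 → 1 ≤ m → Measurable f → (∀ x, |f x| ≤ 1) →
      ContDiff ℝ 2 ((Qop P η)^[m] f) ∧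
      GradBound ((Qop P η)^[m] f) (C / Real.sqrt (m * η)) ∧
      HessBound ((Qop P η)^[m] f) (C * (1 / (m * η) + 1))

/-- One step contracts the gradient. -/
def ChainContract : Prop :=
  ∀ (d : ℕ) (h : ℝ) (P : Pot d h) (η : ℝ) (f : Space d → ℝ) (B : ℝ), 0 < η →
    ContDiff ℝ 1 f → GradBound f B →
      ContDiff ℝ 1 (Qop P η f) ∧ GradBound (Qop P η f) (B / (1 + η))

end Vale.Agent.P347
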