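import Vale.Agent.P347.Defs

/-!
Split of the quadrature block into a scalar half and an operator half.
-/

noncomputable section

open MeasureTheory ProbabilityTheory

namespace Vale.Agent.P347

/-- Exponential sums for `1 / (1 + l)`. -/
def QuadScalar : Prop :=
  ∀ k : ℕ, 0 < k → ∃ C : ℝ, ∀ e : ℝ, 0 < e → e ≤ 1 / 2 → ∃ (m : ℕ) (N : Nodes m),
    (m : ℝ) ≤ C * e ^ (-(1 : ℝ) / k) * (1 + Real.log (1 / e)) ∧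
      (∀ j, N.t j ∈ Set.Ioc (0 : ℝ) 1) ∧ ∑ j, |N.w j| ≤ C * (1 + Real.log (1 / e)) ∧
      ∀ l : ℝ, 0 ≤ l → |(∑ j, N.w j * N.t j ^ l) - 1 / (1 + l)| ≤ e

/-- A scalar bound gives the bound for every transport field. -/
def QuadOperator : Prop :=
  ∀ (m : ℕ) (N : Nodes m) (e : ℝ), 0 ≤ e → (∀ j, N.t j ∈ Set.Ioc (0 : ℝ) 1) →
    (∀ l : ℝ, 0 ≤ l → |(∑ j, N.w j * N.t j ^ l) - 1 / (1 + l)| ≤ e) →
      ∀ (d : ℕ) (h : ℝ) (P : Pot d h),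
        ∫ ξ, ‖(∑ j, N.w j • Gfun P.g (N.t j) ξ) - Gbar P.g ξ‖ ^ 2 ∂gam d
          ≤ e ^ 2 * ∫ ξ, ‖P.g ξ‖ ^ 2 ∂gam d

theorem quadrature_of_halves_aux (hS : QuadScalar) (hO : QuadOperator) :
    ∀ k : ℕ, 0 < k → ∃ C : ℝ, ∀ e : ℝ, 0 < e → e ≤ 1 / 2 → ∃ (m : ℕ) (N : Nodes m),
      (m : ℝ) ≤ C * e ^ (-(1 : ℝ) / k) * (1 + Real.log (1 / e)) ∧
        N.Ok (C * (1 + Real.log (1 / e))) e := by
  intro k hk
  obtain ⟨C, hC⟩ := hS k hk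
  refine ⟨C, fun e h1 h2 => ?_⟩
  obtain ⟨m, N, a, b, c, f⟩ := hC e h1 h2
  exact ⟨m, N, a, fun j => Set.Ioc_subset_Icc_self (b j), c, hO m N e h1.le b f⟩

end Vale.Agent.P347
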