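import Vale.Agent.P347.Basics
import Vale.Agent.P347.QuadPins

/-!
The operator half of the quadrature: a scalar bound on exponential sums gives a bound in mean
square for every transport field.
-/

noncomputable section

open MeasureTheory ProbabilityTheory Set Filter Topology
open scoped RealInnerProductSpace

namespace Vale.Agent.P347

namespace Qo

variable {d : ℕ}

/-- Continuous fields of at most linear growth. -/
def LinG (g : Space d → Space d) : Prop := Continuous g ∧ ∃ A, ∀ x, ‖g x‖ ≤ A * (1 + ‖x‖)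

theorem int_pow (k : ℕ) : Integrable (fun x : Space d => (1 + ‖x‖) ^ k) (gam d) :=
  tame_integrable (by fun_prop) (tame_of_grow ⟨1, k, fun x => by
    rw [one_mul, Real.norm_eq_abs, abs_of_nonneg (by positivity)]⟩)

theorem int_one : Integrable (fun x : Space d => 1 + ‖x‖) (gam d) := by
  simpa using int_pow (d := d) 1

theorem LinG.bound {g : Space d → Space d} (hg : LinG g) :
    ∃ A, 0 ≤ A ∧ ∀ x, ‖g x‖ ≤ A * (1 + ‖x‖) := by
  obtain ⟨A, hA⟩ := hg.2
  exact ⟨max A 0, le_max_right _ _, fun x =>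
    (hA x).trans (mul_le_mul_of_nonneg_right (le_max_left _ _) (by positivity))⟩

/-- The size of the argument of the average. -/
theorem arg_le (t : ℝ) (x z : Space d) :
    1 + ‖t • x + Real.sqrt (1 - t ^ 2) • z‖ ≤ (1 + |t|) * ((1 + ‖z‖) + ‖x‖) := by
  have h1 : Real.sqrt (1 - t ^ 2) ≤ 1 := Real.sqrt_le_one.2 (by nlinarith [sq_nonneg t])
  have h2 := norm_add_le (t • x) (Real.sqrt (1 - t ^ 2) • z)
  rw [norm_smul, norm_smul, Real.norm_eq_abs, Real.norm_eq_abs,
    abs_of_nonneg (Real.sqrt_nonneg _)] at h2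
  have h3 := mul_le_mul_of_nonneg_right h1 (norm_nonneg z)
  nlinarith [abs_nonneg t, norm_nonneg x, norm_nonneg z, mul_nonneg (abs_nonneg t) (norm_nonneg z)]

theorem int_inner_arg {g : Space d → Space d} (hg : LinG g) (t : ℝ) (x : Space d) :
    Integrable (fun z => g (t • x + Real.sqrt (1 - t ^ 2) • z)) (gam d) := by
  obtain ⟨A, hA0, hA⟩ := hg.bound
  refine Integrable.mono' ((int_one.add (integrable_const ‖x‖)).const_mul (A * (1 + |t|)))
    (hg.1.comp (by fun_prop)).aestronglyMeasurable (ae_of_all _ fun z => (hA _).trans ?_)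
  rw [mul_assoc]
  exact mul_le_mul_of_nonneg_left (arg_le t x z) hA0

theorem Gfun_bound {g : Space d → Space d} (hg : LinG g) :
    ∃ B, 0 ≤ B ∧ ∀ t x, |t| ≤ 1 → ‖Gfun g t x‖ ≤ B * (1 + ‖x‖) := by
  obtain ⟨A, hA0, hA⟩ := hg.bound
  set E := ∫ z, (1 + ‖z‖) ∂gam d with hE
  have hE0 : 0 ≤ E := integral_nonneg fun z => by positivity
  refine ⟨2 * A * (E + 1), by positivity, fun t x ht => ?_⟩
  refine (norm_integral_le_of_norm_le ((int_one.add (integrable_const ‖x‖)).const_mul (2 * A))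
    (ae_of_all _ fun z => (hA _).trans ?_)).trans ?_
  · show A * (1 + ‖t • x + Real.sqrt (1 - t ^ 2) • z‖) ≤ 2 * A * ((1 + ‖z‖) + ‖x‖)
    rw [show 2 * A * ((1 + ‖z‖) + ‖x‖) = A * (2 * ((1 + ‖z‖) + ‖x‖)) by ring]
    exact mul_le_mul_of_nonneg_left ((arg_le t x z).trans
      (mul_le_mul_of_nonneg_right (by linarith) (by positivity))) hA0
  · simp only [Pi.add_apply]
    rw [integral_const_mul, integral_add int_one (integrable_const _), integral_const,
      probReal_univ, one_smul, ← hE, mul_assoc]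
    have h1 : E + ‖x‖ ≤ (E + 1) * (1 + ‖x‖) := by
      linarith [mul_nonneg hE0 (norm_nonneg x)]
    rw [mul_assoc, mul_assoc]
    exact mul_le_mul_of_nonneg_left (mul_le_mul_of_nonneg_left h1 hA0) zero_le_two

theorem continuous_Gfun {g : Space d → Space d} (hg : LinG g) :
    Continuous fun p : ℝ × Space d => Gfun g p.1 p.2 := by
  obtain ⟨A, hA0, hA⟩ := hg.bound
  refine continuous_iff_continuousAt.2 fun p => ?_
  unfold Gfun
  refine continuousAt_of_dominated
    (bound := fun z => A * ((2 + |p.1|) * ((1 + ‖z‖) + (‖p.2‖ + 1))))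
    (Eventually.of_forall fun q => (hg.1.comp (by fun_prop)).aestronglyMeasurable) ?_
    (((int_one.add (integrable_const _)).const_mul _).const_mul _)
    (ae_of_all _ fun z => (hg.1.comp (by fun_prop : Continuous fun q : ℝ × Space d =>
      q.1 • q.2 + Real.sqrt (1 - q.1 ^ 2) • z)).continuousAt)
  filter_upwards [Metric.ball_mem_nhds p one_pos] with q hq
  rw [Metric.mem_ball, Prod.dist_eq, max_lt_iff, dist_eq_norm, dist_eq_norm] at hq
  have h1 : |q.1| ≤ |p.1| + 1 := by
    have := norm_le_norm_add_norm_sub' q.1 p.1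
    simp only [Real.norm_eq_abs] at this hq
    linarith [hq.1]
  have h2 : ‖q.2‖ ≤ ‖p.2‖ + 1 := by linarith [norm_le_norm_add_norm_sub' q.2 p.2, hq.2]
  refine ae_of_all _ fun z => (hA _).trans (mul_le_mul_of_nonneg_left ?_ hA0)
  refine (arg_le q.1 q.2 z).trans (mul_le_mul (by linarith) ?_ (by positivity) (by positivity))
  linarith

theorem linG_Gfun {g : Space d → Space d} (hg : LinG g) {t : ℝ} (ht : |t| ≤ 1) :
    LinG (Gfun g t) := by
  obtain ⟨B, -, hB⟩ := Gfun_bound hg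
  exact ⟨(continuous_Gfun hg).comp (by fun_prop : Continuous fun x : Space d => (t, x)),
    B, fun x => hB t x ht⟩

theorem abs_le_one {t : ℝ} (ht : t ∈ Icc (0 : ℝ) 1) : |t| ≤ 1 := by
  rw [abs_of_nonneg ht.1]; exact ht.2

/-- A pair of independent vectors projected on a unit direction. -/
theorem marg {E : Type} [NormedAddCommGroup E] [NormedSpace ℝ E]
    {φ : Space d → E} (hc : Continuous φ) (hi : Integrable φ (gam d)) {p r : ℝ} (hr : 0 ≤ r)
    (hpr : p ^ 2 + r ^ 2 = 1) :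
    Integrable (fun q : Space d × Space d => φ (p • q.1 + r • q.2)) ((gam d).prod (gam d)) ∧
      ∫ x, ∫ z, φ (p • x + r • z) ∂gam d ∂gam d = ∫ x, φ x ∂gam d := by
  have hT := rot_preserves (d := d) hr hpr (Or.inl rfl : (1 : ℝ) = 1 ∨ (1 : ℝ) = -1)
  set T := fun q : Space d × Space d => (p • q.1 + r • q.2, (1 : ℝ) • (-r • q.1 + p • q.2))
  have hm : AEStronglyMeasurable (fun q : Space d × Space d => φ q.1) ((gam d).prod (gam d)) :=
    (hc.comp continuous_fst).aestronglyMeasurable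
  have h1 : Integrable (fun q : Space d × Space d => φ (p • q.1 + r • q.2))
      ((gam d).prod (gam d)) := (hT.integrable_comp hm).2 (hi.comp_fst (gam d))
  refine ⟨h1, ?_⟩
  have h2 := integral_map (μ := (gam d).prod (gam d)) hT.measurable.aemeasurable
    (f := fun q : Space d × Space d => φ q.1) (hc.comp continuous_fst).aestronglyMeasurable
  rw [hT.map_eq, integral_fun_fst, probReal_univ, one_smul] at h2
  rw [← integral_prod _ h1]
  exact h2.symm

theorem unit_sq {t : ℝ} (ht : t ∈ Icc (0 : ℝ) 1) : t ^ 2 + Real.sqrt (1 - t ^ 2) ^ 2 = 1 := by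
  rw [Real.sq_sqrt (by nlinarith [ht.1, ht.2])]; ring

theorem int_lin {g : Space d → Space d} (hg : LinG g) : Integrable g (gam d) := by
  obtain ⟨A, -, hA⟩ := hg.bound
  exact Integrable.mono' (int_one.const_mul A) hg.1.aestronglyMeasurable (ae_of_all _ hA)

/-- The semigroup law. -/
theorem Gfun_Gfun {g : Space d → Space d} (hg : LinG g) {r s : ℝ} (hr : r ∈ Icc (0 : ℝ) 1)
    (hs : s ∈ Icc (0 : ℝ) 1) (x : Space d) : Gfun (Gfun g s) r x = Gfun g (r * s) x := by
  set a := s * Real.sqrt (1 - r ^ 2) with ha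
  set b := Real.sqrt (1 - s ^ 2) with hb
  have ha0 : 0 ≤ a := mul_nonneg hs.1 (Real.sqrt_nonneg _)
  have hb0 : 0 ≤ b := Real.sqrt_nonneg _
  have hr1 : r ^ 2 ≤ 1 := pow_le_one₀ hr.1 hr.2
  have hs1 : s ^ 2 ≤ 1 := pow_le_one₀ hs.1 hs.2
  have hab : a ^ 2 + b ^ 2 = 1 - (r * s) ^ 2 := by
    rw [ha, hb, mul_pow, Real.sq_sqrt (by linarith), Real.sq_sqrt (by linarith)]; ring
  set c := Real.sqrt (1 - (r * s) ^ 2) with hc
  have e1 : Gfun (Gfun g s) r x = ∫ w, ∫ z, g ((r * s) • x + (a • w + b • z)) ∂gam d ∂gam d := by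
    unfold Gfun
    refine integral_congr_ae (ae_of_all _ fun w => ?_)
    refine integral_congr_ae (ae_of_all _ fun z => ?_)
    simp only [ha, hb, smul_add, smul_smul, mul_comm r s, add_assoc]
  rw [e1]
  rcases (Real.sqrt_nonneg (1 - (r * s) ^ 2)).eq_or_lt with h0 | hpos
  · rw [← hc] at h0
    have hz : 1 - (r * s) ^ 2 ≤ 0 := Real.sqrt_eq_zero'.1 h0.symm
    have ha' : a = 0 := pow_eq_zero_iff two_ne_zero |>.1 (by nlinarith [sq_nonneg a, sq_nonneg b])
    have hb' : b = 0 := pow_eq_zero_iff two_ne_zero |>.1 (by nlinarith [sq_nonneg a, sq_nonneg b])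
    simp [Gfun, ← hc, ← h0, ha', hb']
  · have hcs : c ^ 2 = a ^ 2 + b ^ 2 := by
      rw [hab, hc, Real.sq_sqrt]; nlinarith [sq_nonneg a, sq_nonneg b]
    obtain ⟨B, hB0, hB⟩ := hg.bound
    have hi : Integrable (fun u => g ((r * s) • x + c • u)) (gam d) := int_inner_arg hg (r * s) x
    have := (marg (p := a / c) (r := b / c)
      (hg.1.comp (by fun_prop : Continuous fun u : Space d => (r * s) • x + c • u)) hi
      (div_nonneg hb0 hpos.le)
      (by rw [div_pow, div_pow, ← add_div, ← hcs, div_self (pow_ne_zero 2 hpos.ne')])).2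
    refine Eq.trans ?_ this
    have hc0 : c ≠ 0 := hpos.ne'
    simp only [Function.comp_apply, smul_add, smul_smul, mul_div_cancel₀ _ hc0]

/-- Symmetry. -/
theorem Gfun_symm {g H : Space d → Space d} (hg : LinG g) (hH : LinG H) {r : ℝ}
    (hr : r ∈ Icc (0 : ℝ) 1) :
    ∫ x, ⟪Gfun g r x, H x⟫ ∂gam d = ∫ x, ⟪g x, Gfun H r x⟫ ∂gam d := by
  obtain ⟨A, hA0, hA⟩ := hg.bound
  obtain ⟨B, hB0, hB⟩ := hH.bound
  set r' := Real.sqrt (1 - r ^ 2) with hr'
  have hT := rot_preserves (d := d) (Real.sqrt_nonneg _) (unit_sq hr)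
    (Or.inr rfl : (-1 : ℝ) = 1 ∨ (-1 : ℝ) = -1)
  rw [← hr'] at hT
  set T := fun q : Space d × Space d => (r • q.1 + r' • q.2, (-1 : ℝ) • (-r' • q.1 + r • q.2))
    with hTdef
  set Φ : Space d × Space d → ℝ := fun q => ⟪g (r • q.1 + r' • q.2), H q.1⟫ with hΦ
  have hΦc : Continuous Φ := (hg.1.comp (by fun_prop)).inner (hH.1.comp continuous_fst)
  have hΦi : Integrable Φ ((gam d).prod (gam d)) := by
    refine Integrable.mono' (((int_pow 2).comp_fst (gam d)).add
      ((int_pow 2).comp_snd (gam d)) |>.const_mul (4 * (A * B))) hΦc.aestronglyMeasurable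
      (ae_of_all _ fun q => ?_)
    refine (abs_real_inner_le_norm _ _).trans ((mul_le_mul (hA _) (hB _) (norm_nonneg _)
      (by positivity)).trans ?_)
    simp only [Pi.add_apply]
    have h1 := arg_le r q.1 q.2
    rw [← hr'] at h1
    have h2 : (1 + |r|) * ((1 + ‖q.2‖) + ‖q.1‖) ≤ 2 * ((1 + ‖q.2‖) + (1 + ‖q.1‖)) :=
      mul_le_mul (by linarith [abs_le_one hr]) (by linarith) (by positivity) (by norm_num)
    have h3 := mul_le_mul_of_nonneg_left (h1.trans h2) (show 0 ≤ A * B * (1 + ‖q.1‖) by positivity)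
    linarith [mul_nonneg (mul_nonneg hA0 hB0) (sq_nonneg ((1 + ‖q.1‖) - (1 + ‖q.2‖))),
      mul_nonneg (mul_nonneg hA0 hB0) (sq_nonneg (1 + ‖q.1‖)),
      mul_nonneg (mul_nonneg hA0 hB0) (sq_nonneg (1 + ‖q.2‖))]
  have e1 : ∫ x, ⟪Gfun g r x, H x⟫ ∂gam d = ∫ x, ∫ z, Φ (x, z) ∂gam d ∂gam d := by
    refine integral_congr_ae (ae_of_all _ fun x => ?_)
    simp only [hΦ, Gfun, hr']
    rw [real_inner_comm, ← integral_inner (int_inner_arg hg r x) (H x)]
    simp only [real_inner_comm (H x)]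
  have hpt : ∀ q, Φ (T q) = ⟪g q.1, H (r • q.1 + r' • q.2)⟫ := fun q => by
    have hrr : r * r + r' * r' = 1 := by have := unit_sq hr; rw [← hr'] at this; linarith
    simp only [hΦ, hTdef]
    congr 2
    calc r • (r • q.1 + r' • q.2) + r' • ((-1 : ℝ) • (-r' • q.1 + r • q.2))
        = (r * r + r' * r') • q.1 := by module
      _ = q.1 := by rw [hrr, one_smul]
  have h2 := integral_map (μ := (gam d).prod (gam d)) hT.measurable.aemeasurable
    (f := Φ) hΦc.aestronglyMeasurable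
  rw [hT.map_eq] at h2
  rw [e1, ← integral_prod _ hΦi, h2,
    integral_prod (fun q => Φ (T q)) ((hT.integrable_comp hΦc.aestronglyMeasurable).2 hΦi)]
  refine integral_congr_ae (ae_of_all _ fun x => ?_)
  simp only [hpt]
  rw [integral_inner (int_inner_arg hH r x) (g x)]
  rfl

/-- The correlation of a field along the semigroup. -/
def corr (g : Space d → Space d) (s : ℝ) : ℝ := ∫ x, ⟪g x, Gfun g s x⟫ ∂gam d

theorem gram {g : Space d → Space d} (hg : LinG g) {r s : ℝ} (hr : r ∈ Icc (0 : ℝ) 1)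
    (hs : s ∈ Icc (0 : ℝ) 1) :
    ∫ x, ⟪Gfun g r x, Gfun g s x⟫ ∂gam d = corr g (r * s) := by
  rw [Gfun_symm hg (linG_Gfun hg (abs_le_one hs)) hr]
  exact integral_congr_ae (ae_of_all _ fun x => by simp only [Gfun_Gfun hg hr hs])

theorem continuous_corr {g : Space d → Space d} (hg : LinG g) : ContinuousOn (corr g) (Icc 0 1) := by
  obtain ⟨A, hA0, hA⟩ := hg.bound
  obtain ⟨B, hB0, hB⟩ := Gfun_bound hg
  unfold corr
  refine continuousOn_of_dominated (bound := fun x => A * B * (1 + ‖x‖) ^ 2)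
    (fun t ht => (hg.1.inner (linG_Gfun hg (abs_le_one ht)).1).aestronglyMeasurable)
    (fun t ht => ae_of_all _ fun x => ?_) ((int_pow 2).const_mul _)
    (ae_of_all _ fun x => (continuous_const.inner ((continuous_Gfun hg).comp
      (by fun_prop : Continuous fun t : ℝ => (t, x)))).continuousOn)
  refine (abs_real_inner_le_norm _ _).trans ((mul_le_mul (hA x) (hB t x (abs_le_one ht))
    (norm_nonneg _) (by positivity)).trans_eq ?_)
  ring

variable {ι : Type} [Fintype ι]

/-- A combination of averages. -/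
def comb (g : Space d → Space d) (c r : ι → ℝ) (x : Space d) : Space d :=
  ∑ i, c i • Gfun g (r i) x

/-- Its squared size. -/
def gramSum (g : Space d → Space d) (c r : ι → ℝ) : ℝ := ∑ i, ∑ j, c i * c j * corr g (r i * r j)

theorem linG_comb {g : Space d → Space d} (hg : LinG g) (c : ι → ℝ) {r : ι → ℝ}
    (hr : ∀ i, r i ∈ Icc (0 : ℝ) 1) : LinG (comb g c r) := by
  obtain ⟨B, -, hB⟩ := Gfun_bound hg
  refine ⟨continuous_finsetSum _ fun i _ =>
    ((linG_Gfun hg (abs_le_one (hr i))).1).const_smul (c i), (∑ i, |c i|) * B, fun x => ?_⟩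
  refine (norm_sum_le _ _).trans ?_
  rw [mul_assoc, Finset.sum_mul]
  refine Finset.sum_le_sum fun i _ => ?_
  rw [norm_smul, Real.norm_eq_abs]
  exact mul_le_mul_of_nonneg_left (hB _ x (abs_le_one (hr i))) (abs_nonneg _)

theorem int_sq {g : Space d → Space d} (hg : LinG g) :
    Integrable (fun x => ‖g x‖ ^ 2) (gam d) := by
  obtain ⟨A, -, hA⟩ := hg.bound
  refine Integrable.mono' ((int_pow 2).const_mul (A ^ 2)) (hg.1.norm.pow 2).aestronglyMeasurable
    (ae_of_all _ fun x => ?_)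
  rw [Real.norm_eq_abs, abs_of_nonneg (sq_nonneg _), ← mul_pow]
  exact pow_le_pow_left₀ (norm_nonneg _) (hA x) 2

theorem int_pair {g H : Space d → Space d} (hg : LinG g) (hH : LinG H) :
    Integrable (fun x => ⟪g x, H x⟫) (gam d) := by
  obtain ⟨A, hA0, hA⟩ := hg.bound
  obtain ⟨B, -, hB⟩ := hH.bound
  refine Integrable.mono' ((int_pow 2).const_mul (A * B)) (hg.1.inner hH.1).aestronglyMeasurable
    (ae_of_all _ fun x => (abs_real_inner_le_norm _ _).trans ((mul_le_mul (hA x) (hB x)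
      (norm_nonneg _) (by positivity)).trans_eq ?_))
  ring

theorem gramSum_eq {g : Space d → Space d} (hg : LinG g) (c : ι → ℝ) {r : ι → ℝ}
    (hr : ∀ i, r i ∈ Icc (0 : ℝ) 1) :
    ∫ x, ‖comb g c r x‖ ^ 2 ∂gam d = gramSum g c r := by
  have hij : ∀ i j, Integrable (fun x => c i * c j * ⟪Gfun g (r i) x, Gfun g (r j) x⟫) (gam d) :=
    fun i j => (int_pair (linG_Gfun hg (abs_le_one (hr i)))
      (linG_Gfun hg (abs_le_one (hr j)))).const_mul _
  have e : ∀ x, ‖comb g c r x‖ ^ 2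
      = ∑ i, ∑ j, c i * c j * ⟪Gfun g (r i) x, Gfun g (r j) x⟫ := fun x => by
    rw [← real_inner_self_eq_norm_sq]
    simp only [comb, sum_inner, inner_sum, real_inner_smul_left, real_inner_smul_right]
    rw [Finset.sum_comm]
    refine Finset.sum_congr rfl fun i _ => Finset.sum_congr rfl fun j _ => by ring
  simp only [e]
  rw [integral_finsetSum _ fun i _ => integrable_finsetSum _ fun j _ => hij i j]
  refine Finset.sum_congr rfl fun i _ => ?_
  rw [integral_finsetSum _ fun j _ => hij i j]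
  refine Finset.sum_congr rfl fun j _ => ?_
  rw [integral_const_mul, gram hg (hr i) (hr j)]

theorem gramSum_nonneg {g : Space d → Space d} (hg : LinG g) (c : ι → ℝ) {r : ι → ℝ}
    (hr : ∀ i, r i ∈ Icc (0 : ℝ) 1) : 0 ≤ gramSum g c r := by
  rw [← gramSum_eq hg c hr]; exact integral_nonneg fun x => sq_nonneg _

theorem norm_integral_sq_le {F : Space d → Space d} (hF : Integrable F (gam d))
    (h2 : Integrable (fun z => ‖F z‖ ^ 2) (gam d)) :
    ‖∫ z, F z ∂gam d‖ ^ 2 ≤ ∫ z, ‖F z‖ ^ 2 ∂gam d := by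
  set m := ∫ z, ‖F z‖ ∂gam d with hm
  have h1 : ‖∫ z, F z ∂gam d‖ ^ 2 ≤ m ^ 2 :=
    pow_le_pow_left₀ (norm_nonneg _) (norm_integral_le_integral_norm _) 2
  have h3 : 0 ≤ ∫ z, (‖F z‖ - m) ^ 2 ∂gam d := integral_nonneg fun z => sq_nonneg _
  have i2 : Integrable (fun z => 2 * m * ‖F z‖ - m ^ 2) (gam d) :=
    (hF.norm.const_mul _).sub (integrable_const _)
  have e : (fun z => (‖F z‖ - m) ^ 2) = fun z => ‖F z‖ ^ 2 - (2 * m * ‖F z‖ - m ^ 2) := by
    funext z; ring
  rw [e, integral_sub h2 i2, integral_sub (hF.norm.const_mul _) (integrable_const _),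
    integral_const_mul, integral_const, probReal_univ, one_smul, ← hm] at h3
  linarith

/-- Contraction. -/
theorem gramSum_shrink {g : Space d → Space d} (hg : LinG g) (c : ι → ℝ) {r : ι → ℝ}
    (hr : ∀ i, r i ∈ Icc (0 : ℝ) 1) {p : ℝ} (hp : p ∈ Icc (0 : ℝ) 1) :
    gramSum g c (fun i => p * r i) ≤ gramSum g c r := by
  have hpr : ∀ i, p * r i ∈ Icc (0 : ℝ) 1 := fun i =>
    ⟨mul_nonneg hp.1 (hr i).1, mul_le_one₀ hp.2 (hr i).1 (hr i).2⟩
  set U := comb g c r with hU
  have hUL : LinG U := linG_comb hg c hr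
  have e : ∀ x, comb g c (fun i => p * r i) x = Gfun U p x := fun x => by
    simp only [hU, comb]
    conv_rhs => rw [Gfun]
    simp only [comb]
    rw [integral_finsetSum _ fun i _ => ?_]
    · refine Finset.sum_congr rfl fun i _ => ?_
      rw [integral_smul, ← Gfun_Gfun hg hp (hr i) x]
      rfl
    · exact (int_inner_arg (linG_Gfun hg (abs_le_one (hr i))) p x).smul (c i)
  rw [← gramSum_eq hg c hpr, ← gramSum_eq hg c hr]
  simp only [e]
  have hm := marg (φ := fun x => ‖U x‖ ^ 2) (hUL.1.norm.pow 2) (int_sq hUL) (Real.sqrt_nonneg _) (unit_sq hp)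
  rw [← hm.2]
  refine integral_mono_ae (int_sq (linG_Gfun hUL (abs_le_one hp))) hm.1.integral_prod_left ?_
  filter_upwards [hm.1.prod_right_ae] with x hx
  exact norm_integral_sq_le (int_inner_arg hUL p x) hx

/-! ### The moment functional -/

open Polynomial in
/-- The linear functional sending `X ^ i` to `a i`. -/
def mom (a : ℕ → ℝ) : ℝ[X] →ₗ[ℝ] ℝ := (Polynomial.basisMonomials ℝ).constr ℝ a

open Polynomial in
theorem mom_C_mul_X_pow (a : ℕ → ℝ) (c : ℝ) (k : ℕ) : mom a (C c * X ^ k) = c * a k := by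
  have h := (Polynomial.basisMonomials ℝ).constr_basis ℝ a k
  rw [Polynomial.coe_basisMonomials] at h
  rw [← Polynomial.smul_eq_C_mul, map_smul, Polynomial.X_pow_eq_monomial, mom, h, smul_eq_mul]

open Polynomial in
theorem mom_X_pow (a : ℕ → ℝ) (k : ℕ) : mom a (X ^ k) = a k := by
  simpa using mom_C_mul_X_pow a 1 k

open Polynomial in
/-- The Bernstein weight. -/
def wgt (a : ℕ → ℝ) (n k : ℕ) : ℝ := (n.choose k : ℝ) * mom a (X ^ k * (1 - X) ^ (n - k))

open Polynomial in
theorem sum_wgt_shift (a : ℕ → ℝ) (n r : ℕ) :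
    ∑ k ∈ Finset.range (n + 1), (n.choose k : ℝ) * mom a (X ^ (k + r) * (1 - X) ^ (n - k)) = a r := by
  have e : (X : ℝ[X]) ^ r
      = ∑ k ∈ Finset.range (n + 1), (n.choose k : ℝ) • (X ^ (k + r) * (1 - X) ^ (n - k)) := by
    have h := add_pow (X : ℝ[X]) (1 - X) n
    rw [add_sub_cancel, one_pow] at h
    calc (X : ℝ[X]) ^ r
        = X ^ r * ∑ k ∈ Finset.range (n + 1), X ^ k * (1 - X) ^ (n - k) * (n.choose k : ℝ[X]) := by
          rw [← h, mul_one]
      _ = _ := by
        rw [Finset.mul_sum]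
        refine Finset.sum_congr rfl fun k _ => ?_
        rw [Polynomial.smul_eq_C_mul, map_natCast, pow_add]
        ring
  calc _ = mom a (X ^ r) := by
        rw [e, map_sum]
        simp only [map_smul, smul_eq_mul]
    _ = a r := mom_X_pow a r

theorem sum_wgt_desc (a : ℕ → ℝ) (n r : ℕ) (hr : r ≤ n) :
    ∑ k ∈ Finset.range (n + 1), wgt a n k * k.descFactorial r = n.descFactorial r * a r := by
  rw [← sum_wgt_shift a (n - r) r, Finset.mul_sum]
  rw [show n + 1 = r + (n - r + 1) by omega, Finset.sum_range_add, Finset.sum_eq_zero fun k hk => ?_,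
    zero_add]
  · refine Finset.sum_congr rfl fun k hk => ?_
    rw [Finset.mem_range] at hk
    have hn : n.choose (r + k) * (r + k).descFactorial r
        = n.descFactorial r * (n - r).choose k := by
      rw [Nat.descFactorial_eq_factorial_mul_choose, Nat.descFactorial_eq_factorial_mul_choose,
        mul_left_comm, Nat.choose_mul (Nat.le_add_right r k), Nat.add_sub_cancel_left, mul_assoc]
    have hn' : (n.choose (r + k) : ℝ) * (r + k).descFactorial r
        = n.descFactorial r * (n - r).choose k := by exact_mod_cast hn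
    rw [wgt, show n - (r + k) = n - r - k by omega, add_comm k r, mul_right_comm, hn']
    ring
  · rw [Nat.descFactorial_eq_zero_iff_lt.2 (Finset.mem_range.1 hk)]
    simp

theorem desc_gap : ∀ (r k n : ℕ), k ≤ n →
    (k : ℝ) ^ r - (k.descFactorial r : ℝ) ≤ r ^ 2 * (n : ℝ) ^ (r - 1) := by
  intro r
  induction r with
  | zero => intro k n _; simp
  | succ r ih =>
    intro k n hk
    have hkn : (k : ℝ) ≤ n := by exact_mod_cast hk
    have hD : (k.descFactorial r : ℝ) ≤ (k : ℝ) ^ r := by exact_mod_cast Nat.descFactorial_le_pow k r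
    have hD0 : (0 : ℝ) ≤ (k.descFactorial r : ℝ) := Nat.cast_nonneg _
    have hstep : (k : ℝ) ^ (r + 1) - (k.descFactorial (r + 1) : ℝ)
        ≤ n * ((k : ℝ) ^ r - k.descFactorial r) + r * k.descFactorial r := by
      rw [Nat.descFactorial_succ, Nat.cast_mul, pow_succ]
      have h1 := mul_le_mul_of_nonneg_right hkn (sub_nonneg.2 hD)
      have h2 : (k : ℝ) - r ≤ ((k - r : ℕ) : ℝ) := by
        rcases le_or_gt r k with h | h
        · rw [Nat.cast_sub h]
        · have : (k : ℝ) < r := by exact_mod_cast h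
          linarith [(Nat.cast_nonneg (k - r) : (0 : ℝ) ≤ _)]
      have h3 := mul_le_mul_of_nonneg_right h2 hD0
      linarith
    refine hstep.trans ?_
    have h1 := mul_le_mul_of_nonneg_left (ih k n hk) (Nat.cast_nonneg (α := ℝ) n)
    have h2 : (k.descFactorial r : ℝ) ≤ (n : ℝ) ^ r :=
      hD.trans (pow_le_pow_left₀ (Nat.cast_nonneg k) hkn r)
    have h2' := mul_le_mul_of_nonneg_left h2 (Nat.cast_nonneg (α := ℝ) r)
    rw [add_tsub_cancel_right]
    push_cast
    rcases Nat.eq_zero_or_pos r with rfl | hr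
    · simp at h1 h2' ⊢
    · have e : (n : ℝ) * ((r : ℝ) ^ 2 * (n : ℝ) ^ (r - 1)) = (r : ℝ) ^ 2 * (n : ℝ) ^ r := by
        conv_rhs => rw [show r = (r - 1) + 1 by omega, pow_succ]
        rw [show ((r - 1 + 1 : ℕ) : ℝ) = r by rw [Nat.sub_add_cancel hr]]
        ring
      have hr0 : 0 ≤ ((r : ℝ) + 1) * (n : ℝ) ^ r := by positivity
      linarith

/-- Moments as limits of atomic measures. -/
theorem mom_limit (a : ℕ → ℝ)
    (hpos : ∀ i j : ℕ, 0 ≤ mom a (Polynomial.X ^ i * (1 - Polynomial.X) ^ j)) (r : ℕ) :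
    Tendsto (fun n : ℕ => ∑ k ∈ Finset.range (n + 1), wgt a n k * ((k : ℝ) / n) ^ r) atTop
      (𝓝 (a r)) := by
  have hw : ∀ n k, 0 ≤ wgt a n k := fun n k => mul_nonneg (Nat.cast_nonneg _) (hpos _ _)
  have h0 : ∀ n, ∑ k ∈ Finset.range (n + 1), wgt a n k = a 0 := fun n => by
    simpa [wgt] using sum_wgt_shift a n 0
  have hmom : ∀ i, 0 ≤ a i := fun i =>
    le_of_le_of_eq (hpos i 0) (by rw [pow_zero (1 - Polynomial.X), mul_one, mom_X_pow])
  have ha0 : 0 ≤ a 0 := hmom 0
  have har : 0 ≤ a r := hmom r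
  refine tendsto_iff_norm_sub_tendsto_zero.2 (squeeze_zero' (Eventually.of_forall fun n =>
    norm_nonneg _) ?_ (tendsto_const_div_atTop_nhds_zero_nat (2 * (r : ℝ) ^ 2 * (a 0 + a r))))
  filter_upwards [eventually_ge_atTop (r + 1)] with n hn
  have hn0 : (0 : ℝ) < n := by exact_mod_cast (show 0 < n by omega)
  set S := ∑ k ∈ Finset.range (n + 1), wgt a n k * (k : ℝ) ^ r with hS
  have hlo : (n.descFactorial r : ℝ) * a r ≤ S := by
    rw [← sum_wgt_desc a n r (by omega), hS]
    exact Finset.sum_le_sum fun k _ => mul_le_mul_of_nonneg_left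
      (by exact_mod_cast Nat.descFactorial_le_pow k r) (hw n k)
  have hhi : S - n.descFactorial r * a r ≤ r ^ 2 * (n : ℝ) ^ (r - 1) * a 0 := by
    rw [← sum_wgt_desc a n r (by omega), hS, ← Finset.sum_sub_distrib, ← h0 n, Finset.mul_sum]
    refine Finset.sum_le_sum fun k hk => ?_
    rw [← mul_sub, mul_comm _ (wgt a n k)]
    exact mul_le_mul_of_nonneg_left (desc_gap r k n (Finset.mem_range_succ_iff.1 hk)) (hw n k)
  have hnd := mul_le_mul_of_nonneg_right (desc_gap r n n le_rfl) har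
  have hnd' := mul_le_mul_of_nonneg_right
    (show (n.descFactorial r : ℝ) ≤ (n : ℝ) ^ r by exact_mod_cast Nat.descFactorial_le_pow n r) har
  have hp : 0 < (n : ℝ) ^ r := by positivity
  have hmain : |S - (n : ℝ) ^ r * a r| ≤ 2 * r ^ 2 * (n : ℝ) ^ (r - 1) * (a 0 + a r) := by
    have : 0 ≤ (r : ℝ) ^ 2 * (n : ℝ) ^ (r - 1) * a 0 := by positivity
    have : 0 ≤ (r : ℝ) ^ 2 * (n : ℝ) ^ (r - 1) * a r := by positivity
    rw [abs_le]; constructor <;> linarith
  have e : ∑ k ∈ Finset.range (n + 1), wgt a n k * ((k : ℝ) / n) ^ r - a r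
      = (S - (n : ℝ) ^ r * a r) / (n : ℝ) ^ r := by
    rw [sub_div, hS, Finset.sum_div, mul_div_cancel_left₀ _ hp.ne']
    simp only [div_pow, mul_div_assoc]
  rw [e, norm_div, Real.norm_eq_abs, Real.norm_eq_abs, abs_of_pos hp, div_le_iff₀ hp]
  refine hmain.trans (le_of_eq ?_)
  rcases Nat.eq_zero_or_pos r with rfl | hr
  · simp
  · conv_rhs => rw [show (n : ℝ) ^ r = (n : ℝ) ^ (r - 1) * n by
      rw [← pow_succ, Nat.sub_add_cancel hr]]
    field_simp

/-- The square of a polynomial bounded on the unit interval. -/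
theorem mom_sq_le (a : ℕ → ℝ)
    (hpos : ∀ i j : ℕ, 0 ≤ mom a (Polynomial.X ^ i * (1 - Polynomial.X) ^ j)) (c : ι → ℝ)
    (n : ι → ℕ) {E : ℝ} (hE : ∀ u ∈ Icc (0 : ℝ) 1, |∑ i, c i * u ^ n i| ≤ E) :
    ∑ i, ∑ j, c i * c j * a (n i + n j) ≤ E ^ 2 * a 0 := by
  have ht : Tendsto (fun N : ℕ => ∑ k ∈ Finset.range (N + 1),
      wgt a N k * (∑ i, c i * ((k : ℝ) / N) ^ n i) ^ 2) atTop
      (𝓝 (∑ i, ∑ j, c i * c j * a (n i + n j))) := by
    refine (tendsto_finsetSum Finset.univ fun i _ => tendsto_finsetSum Finset.univ fun j _ =>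
      (mom_limit a hpos (n i + n j)).const_mul (c i * c j)).congr fun N => ?_
    simp only [sq, Finset.sum_mul, Finset.mul_sum, pow_add]
    rw [Finset.sum_comm]
    conv_lhs => arg 2; ext k; rw [Finset.sum_comm]
    rw [Finset.sum_comm]
    refine Finset.sum_congr rfl fun k _ => Finset.sum_congr rfl fun i _ =>
      Finset.sum_congr rfl fun j _ => ?_
    ring
  refine le_of_tendsto' ht fun N => ?_
  have h0 : ∑ k ∈ Finset.range (N + 1), wgt a N k = a 0 := by
    simpa [wgt] using sum_wgt_shift a N 0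
  rw [← h0, Finset.mul_sum]
  refine Finset.sum_le_sum fun k hk => ?_
  rw [mul_comm (E ^ 2)]
  refine mul_le_mul_of_nonneg_left ?_ (mul_nonneg (Nat.cast_nonneg _) (hpos _ _))
  have hk' : (k : ℝ) / N ∈ Icc (0 : ℝ) 1 :=
    ⟨by positivity, div_le_one_of_le₀ (by exact_mod_cast Finset.mem_range_succ_iff.1 hk)
      (Nat.cast_nonneg N)⟩
  rw [← sq_abs]
  exact pow_le_pow_left₀ (abs_nonneg _) (hE _ hk') 2

open Polynomial in
/-- The correlations along a geometric sequence are moments. -/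
theorem corr_mom_nonneg {g : Space d → Space d} (hg : LinG g) {q : ℝ} (hq : q ∈ Icc (0 : ℝ) 1)
    (i j : ℕ) : 0 ≤ mom (fun k => corr g (q ^ k)) (X ^ i * (1 - X) ^ j) := by
  have hsq : ∀ (p : ℝ[X]) (i : ℕ), mom (fun k => corr g (q ^ k)) (X ^ i * (p * p))
      = gramSum g (fun u : Fin (p.natDegree + 1) => p.coeff u)
          (fun u => Real.sqrt q ^ i * q ^ (u : ℕ)) := by
    intro p i
    have hp : p = ∑ u : Fin (p.natDegree + 1), Polynomial.C (p.coeff u) * X ^ (u : ℕ) := by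
      rw [Fin.sum_univ_eq_sum_range (fun u => Polynomial.C (p.coeff u) * X ^ u)]
      exact p.as_sum_range_C_mul_X_pow
    conv_lhs => rw [hp]
    simp only [Finset.mul_sum, Finset.sum_mul, map_sum, gramSum]
    rw [Finset.sum_comm]
    refine Finset.sum_congr rfl fun u _ => Finset.sum_congr rfl fun v _ => ?_
    have e : (X : ℝ[X]) ^ i * (Polynomial.C (p.coeff u) * X ^ (u : ℕ)
        * (Polynomial.C (p.coeff v) * X ^ (v : ℕ)))
        = Polynomial.C (p.coeff u * p.coeff v) * X ^ (i + u + v) := by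
      rw [map_mul, pow_add, pow_add]; ring
    rw [e, mom_C_mul_X_pow]
    congr 2
    rw [mul_mul_mul_comm, ← mul_pow, Real.mul_self_sqrt hq.1, pow_add, pow_add, mul_assoc]
  have hsr : Real.sqrt q ∈ Icc (0 : ℝ) 1 := ⟨Real.sqrt_nonneg _, Real.sqrt_le_one.2 hq.2⟩
  have hmem : ∀ u : ℕ, Real.sqrt q ^ i * q ^ u ∈ Icc (0 : ℝ) 1 := fun u =>
    ⟨by have := hq.1; positivity, mul_le_one₀ (pow_le_one₀ hsr.1 hsr.2) (pow_nonneg hq.1 u)
      (pow_le_one₀ hq.1 hq.2)⟩
  rcases Nat.even_or_odd' j with ⟨m, rfl | rfl⟩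
  · rw [two_mul, pow_add, hsq]
    exact gramSum_nonneg hg _ fun u => hmem u
  · have e : (X : ℝ[X]) ^ i * (1 - X) ^ (2 * m + 1)
        = X ^ i * ((1 - X) ^ m * (1 - X) ^ m) - X ^ (i + 1) * ((1 - X) ^ m * (1 - X) ^ m) := by
      ring
    rw [e, map_sub, hsq, hsq, sub_nonneg]
    refine le_of_eq_of_le ?_ (gramSum_shrink hg _
      (r := fun u : Fin (((1 - X : ℝ[X]) ^ m).natDegree + 1) => Real.sqrt q ^ i * q ^ (u : ℕ))
      (fun u => hmem _) hsr)
    congr 1
    funext u
    ring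

theorem exp_gap {x x' δ l : ℝ} (h1 : x' ≤ x) (h2 : x ≤ x' + δ) (h0 : 0 ≤ x') (hl : 0 ≤ l)
    (hδ : 0 < δ) : |Real.exp (-(x' * l)) - Real.exp (-(x * l))| ≤ 2 * δ / x := by
  rcases (h0.trans h1).eq_or_lt with hx | hx
  · have : x' = 0 := by linarith
    subst this; rw [← hx]; simp
  have hle : Real.exp (-(x * l)) ≤ Real.exp (-(x' * l)) := Real.exp_le_exp.2 (by
    have := mul_le_mul_of_nonneg_right h1 hl; linarith)
  rw [abs_of_nonneg (sub_nonneg.2 hle)]
  have hle1 : Real.exp (-(x' * l)) ≤ 1 := Real.exp_le_one_iff.2 (by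
    have := mul_nonneg h0 hl; linarith)
  rcases le_or_gt x (2 * δ) with hc | hc
  · have : 1 ≤ 2 * δ / x := by rw [le_div_iff₀ hx]; linarith
    linarith [Real.exp_pos (-(x * l))]
  · have hx' : x / 2 ≤ x' := by linarith
    have h3 : Real.exp (-(x' * l)) - Real.exp (-(x * l)) ≤ Real.exp (-(x' * l)) * (δ * l) := by
      have h4 : Real.exp (-(x * l)) = Real.exp (-(x' * l)) * Real.exp (-((x - x') * l)) := by
        rw [← Real.exp_add]; ring_nf
      have h5 := Real.add_one_le_exp (-((x - x') * l))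
      have h6 := mul_le_mul_of_nonneg_right (show x - x' ≤ δ by linarith) hl
      rw [h4]
      have h7 := mul_le_mul_of_nonneg_left
        (show 1 - Real.exp (-((x - x') * l)) ≤ δ * l by linarith) (Real.exp_pos (-(x' * l))).le
      linarith
    refine h3.trans ?_
    rw [le_div_iff₀ hx]
    have h8 : Real.exp (-(x' * l)) * (x' * l) ≤ 1 := by
      have := Real.add_one_le_exp (x' * l)
      rw [Real.exp_neg, inv_mul_le_iff₀ (Real.exp_pos _), mul_one]
      linarith
    have h9 := mul_le_mul_of_nonneg_left hx'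
      (show 0 ≤ 2 * δ * (Real.exp (-(x' * l)) * l) by positivity)
    have h10 := mul_le_mul_of_nonneg_left h8 (show 0 ≤ 2 * δ by positivity)
    linarith

/-- The bound for a finite combination. -/
theorem gram_le {g : Space d → Space d} (hg : LinG g) (c : ι → ℝ) {r : ι → ℝ}
    (hr : ∀ i, r i ∈ Ioc (0 : ℝ) 1) {E : ℝ}
    (hE : ∀ l : ℝ, 0 ≤ l → |∑ i, c i * r i ^ l| ≤ E) : gramSum g c r ≤ E ^ 2 * corr g 1 := by
  set x : ι → ℝ := fun i => -Real.log (r i) with hx
  have hx0 : ∀ i, 0 ≤ x i := fun i => neg_nonneg.2 (Real.log_nonpos (hr i).1.le (hr i).2)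
  set δ : ℕ → ℝ := fun N => 1 / ((N : ℝ) + 1) with hδ
  have hδ0 : ∀ N, 0 < δ N := fun N => by positivity
  set e : ℕ → ι → ℕ := fun N i => ⌊x i / δ N⌋₊ with he
  set q : ℕ → ℝ := fun N => Real.exp (-δ N) with hq
  have hqI : ∀ N, q N ∈ Icc (0 : ℝ) 1 := fun N =>
    ⟨(Real.exp_pos _).le, Real.exp_le_one_iff.2 (by linarith [hδ0 N])⟩
  have hqe : ∀ N i, q N ^ e N i = Real.exp (-(δ N * e N i)) := fun N i => by
    rw [hq, ← Real.exp_nat_mul]; ring_nf
  have hlo : ∀ N i, δ N * e N i ≤ x i := fun N i => by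
    have := Nat.floor_le (div_nonneg (hx0 i) (hδ0 N).le)
    rw [le_div_iff₀ (hδ0 N)] at this
    linarith
  have hhi : ∀ N i, x i ≤ δ N * e N i + δ N := fun N i => by
    have := Nat.lt_floor_add_one (x i / δ N)
    rw [div_lt_iff₀ (hδ0 N)] at this
    linarith
  have hδt : Tendsto δ atTop (𝓝 0) := tendsto_one_div_add_atTop_nhds_zero_nat
  have hqt : ∀ i, Tendsto (fun N => q N ^ e N i) atTop (𝓝 (r i)) := fun i => by
    have h1 : Tendsto (fun N => δ N * e N i) atTop (𝓝 (x i)) :=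
      tendsto_of_tendsto_of_tendsto_of_le_of_le (by simpa using hδt.const_sub (x i))
        tendsto_const_nhds (fun N => by linarith [hhi N i]) (fun N => hlo N i)
    have h2 := (Real.continuous_exp.tendsto (-(x i))).comp h1.neg
    rw [show Real.exp (-(x i)) = r i by rw [hx, neg_neg, Real.exp_log (hr i).1]] at h2
    exact h2.congr fun N => (hqe N i).symm
  have hlim : Tendsto (fun N => gramSum g c (fun i => q N ^ e N i)) atTop (𝓝 (gramSum g c r)) := by
    refine tendsto_finsetSum _ fun i _ => tendsto_finsetSum _ fun j _ => Tendsto.const_mul _ ?_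
    refine ((continuous_corr hg).continuousWithinAt (show r i * r j ∈ Icc (0 : ℝ) 1 from
      ⟨mul_nonneg (hr i).1.le (hr j).1.le, mul_le_one₀ (hr i).2 (hr j).1.le (hr j).2⟩)).tendsto.comp
      (tendsto_nhdsWithin_iff.2 ⟨(hqt i).mul (hqt j), Eventually.of_forall fun N =>
        ⟨mul_nonneg (pow_nonneg (hqI N).1 _) (pow_nonneg (hqI N).1 _),
          mul_le_one₀ (pow_le_one₀ (hqI N).1 (hqI N).2) (pow_nonneg (hqI N).1 _)
            (pow_le_one₀ (hqI N).1 (hqI N).2)⟩⟩)
  have hb : ∀ N, gramSum g c (fun i => q N ^ e N i)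
      ≤ (E + δ N * ∑ i, |c i| * (2 / x i)) ^ 2 * corr g 1 := by
    intro N
    have hbd : ∀ u ∈ Icc (0 : ℝ) 1,
        |∑ i, c i * u ^ e N i| ≤ E + δ N * ∑ i, |c i| * (2 / x i) := by
      have hpos : ∀ u ∈ Ioc (0 : ℝ) 1,
          |∑ i, c i * u ^ e N i| ≤ E + δ N * ∑ i, |c i| * (2 / x i) := by
        intro u hu
        set l := -Real.log u / δ N with hl
        have hl0 : 0 ≤ l := div_nonneg (neg_nonneg.2 (Real.log_nonpos hu.1.le hu.2)) (hδ0 N).le
        have e1 : ∀ i, u ^ e N i = Real.exp (-(δ N * e N i * l)) := fun i => by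
          rw [show -(δ N * e N i * l) = e N i * Real.log u by
            rw [hl]; field_simp [(hδ0 N).ne'], Real.exp_nat_mul, Real.exp_log hu.1]
        have e2 : ∀ i, r i ^ l = Real.exp (-(x i * l)) := fun i => by
          rw [Real.rpow_def_of_pos (hr i).1, hx]; ring_nf
        have e3 : ∑ i, c i * u ^ e N i = ∑ i, c i * r i ^ l
            + ∑ i, c i * (Real.exp (-(δ N * e N i * l)) - Real.exp (-(x i * l))) := by
          rw [← Finset.sum_add_distrib]
          exact Finset.sum_congr rfl fun i _ => by rw [e1, e2]; ring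
        rw [e3]
        refine (abs_add_le _ _).trans (add_le_add (hE l hl0) ?_)
        refine (Finset.abs_sum_le_sum_abs _ _).trans ?_
        rw [Finset.mul_sum]
        refine Finset.sum_le_sum fun i _ => ?_
        rw [abs_mul]
        refine (mul_le_mul_of_nonneg_left (exp_gap (hlo N i) (hhi N i)
          (mul_nonneg (hδ0 N).le (Nat.cast_nonneg _)) hl0 (hδ0 N)) (abs_nonneg _)).trans_eq ?_
        ring
      intro u hu
      rcases hu.1.eq_or_lt with rfl | h
      · have hcont : Continuous fun u : ℝ => |∑ i, c i * u ^ e N i| := by fun_prop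
        refine le_of_tendsto ((hcont.tendsto 0).mono_left (nhdsWithin_le_nhds (s := Ioi 0))) ?_
        filter_upwards [Ioc_mem_nhdsGT zero_lt_one] with v hv
        exact hpos v hv
      · exact hpos u ⟨h, hu.2⟩
    have h := mom_sq_le (fun k => corr g (q N ^ k)) (fun i j => corr_mom_nonneg hg (hqI N) i j)
      c (e N) hbd
    simpa [gramSum, pow_add] using h
  refine le_of_tendsto_of_tendsto' hlim ?_ hb
  simpa using ((hδt.mul_const (∑ i, |c i| * (2 / x i))).const_add E |>.pow 2).mul_const (corr g 1)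

theorem riemann_rpow (M : ℕ) (hM : 0 < M) {l : ℝ} (hl : 0 ≤ l) :
    |(∑ k : Fin M, 1 / (M : ℝ) * ((((k : ℕ) : ℝ) + 1) / M) ^ l) - 1 / (1 + l)| ≤ 1 / M := by
  have hM' : (0 : ℝ) < M := by exact_mod_cast hM
  set u : ℕ → ℝ := fun k => (k : ℝ) / M with hu
  have hc : Continuous fun t : ℝ => t ^ l := Real.continuous_rpow_const hl
  have hsum : ∑ k ∈ Finset.range M, ∫ t in u k..u (k + 1), t ^ l = 1 / (1 + l) := by
    rw [intervalIntegral.sum_integral_adjacent_intervals fun k _ => hc.intervalIntegrable _ _]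
    simp only [hu, Nat.cast_zero, zero_div, div_self hM'.ne']
    rw [integral_rpow (Or.inl (by linarith)), Real.one_rpow, Real.zero_rpow (by linarith), sub_zero,
      add_comm]
  have hlen : ∀ k, u (k + 1) - u k = 1 / M := fun k => by simp only [hu]; push_cast; ring
  have hle : ∀ k, u k ≤ u (k + 1) := fun k => by
    have := hlen k; have : (0 : ℝ) < 1 / M := by positivity
    linarith
  have hlo : ∀ k, 1 / (M : ℝ) * u k ^ l ≤ ∫ t in u k..u (k + 1), t ^ l := fun k => by
    have := intervalIntegral.integral_mono_on (μ := volume) (hle k)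
      intervalIntegrable_const
      (hc.intervalIntegrable _ _) fun t ht => Real.rpow_le_rpow (by positivity) ht.1 hl
    rwa [intervalIntegral.integral_const, hlen, smul_eq_mul] at this
  have hhi : ∀ k, ∫ t in u k..u (k + 1), t ^ l ≤ 1 / (M : ℝ) * u (k + 1) ^ l := fun k => by
    have := intervalIntegral.integral_mono_on (μ := volume) (hle k) (hc.intervalIntegrable _ _)
      intervalIntegrable_const
      fun t ht => Real.rpow_le_rpow (le_trans (by positivity) ht.1) ht.2 hl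
    rwa [intervalIntegral.integral_const, hlen, smul_eq_mul] at this
  have h1 := Finset.sum_le_sum (s := Finset.range M) fun k _ => hlo k
  have h2 := Finset.sum_le_sum (s := Finset.range M) fun k _ => hhi k
  rw [hsum] at h1 h2
  have htel : ∑ k ∈ Finset.range M, 1 / (M : ℝ) * u (k + 1) ^ l
      - ∑ k ∈ Finset.range M, 1 / (M : ℝ) * u k ^ l ≤ 1 / M := by
    rw [← Finset.sum_sub_distrib, Finset.sum_range_sub fun k => 1 / (M : ℝ) * u k ^ l]
    have e : u M ^ l = 1 := by simp only [hu]; rw [div_self hM'.ne', Real.one_rpow]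
    have : 0 ≤ 1 / (M : ℝ) * u 0 ^ l := by positivity
    rw [e]; linarith
  have e : ∑ k : Fin M, 1 / (M : ℝ) * ((((k : ℕ) : ℝ) + 1) / M) ^ l
      = ∑ k ∈ Finset.range M, 1 / (M : ℝ) * u (k + 1) ^ l := by
    rw [← Fin.sum_univ_eq_sum_range (fun k => 1 / (M : ℝ) * u (k + 1) ^ l)]
    simp [hu]
  rw [e, abs_le]
  constructor <;> linarith [h1, h2, htel, (by positivity : (0 : ℝ) ≤ 1 / M)]

theorem riemann_tendsto {φ : ℝ → Space d} (hφ : Continuous φ) :
    Tendsto (fun M : ℕ => ∑ k : Fin (M + 1), (1 / ((M : ℝ) + 1)) •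
      φ ((((k : ℕ) : ℝ) + 1) / ((M : ℝ) + 1))) atTop (𝓝 (∫ t in (0 : ℝ)..1, φ t)) := by
  rw [Metric.tendsto_atTop]
  intro ε hε
  obtain ⟨δ, hδ, hu⟩ := Metric.uniformContinuousOn_iff.1
    ((isCompact_Icc (a := (0 : ℝ)) (b := 1)).uniformContinuousOn_of_continuous hφ.continuousOn)
    (ε / 2) (by positivity)
  obtain ⟨N, hN⟩ := exists_nat_one_div_lt hδ
  refine ⟨N, fun M hM => ?_⟩
  set L : ℝ := (M : ℝ) + 1 with hL
  have hL0 : 0 < L := by positivity
  have hLδ : 1 / L < δ := lt_of_le_of_lt (one_div_le_one_div_of_le (by positivity) (by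
    rw [hL]; gcongr)) hN
  set u : ℕ → ℝ := fun k => (k : ℝ) / L with hu'
  have hsum : ∫ t in (0 : ℝ)..1, φ t = ∑ k : Fin (M + 1), ∫ t in u k..u (k + 1), φ t := by
    rw [Fin.sum_univ_eq_sum_range (fun k => ∫ t in u k..u (k + 1), φ t),
      intervalIntegral.sum_integral_adjacent_intervals fun k _ => hφ.intervalIntegrable _ _]
    simp only [hu', hL, Nat.cast_zero, zero_div, Nat.cast_add, Nat.cast_one]
    rw [div_self (by positivity)]
  rw [dist_eq_norm, hsum, ← Finset.sum_sub_distrib]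
  refine lt_of_le_of_lt ((norm_sum_le _ _).trans (Finset.sum_le_sum (g := fun _ => ε / 2 * (1 / L))
    fun k _ => ?_)) ?_
  · have hlen : u ((k : ℕ) + 1) - u k = 1 / L := by simp only [hu']; push_cast; ring
    have hk1 : u ((k : ℕ) + 1) ≤ 1 := by
      simp only [hu']
      rw [div_le_one hL0, hL]
      exact_mod_cast (Nat.succ_le_of_lt k.isLt)
    have hk0 : 0 ≤ u k := by simp only [hu']; positivity
    have hle : u k ≤ u ((k : ℕ) + 1) := by
      have : 0 < 1 / L := by positivity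
      linarith
    have e : (1 / L) • φ ((((k : ℕ) : ℝ) + 1) / L)
        = ∫ _ in u k..u ((k : ℕ) + 1), φ ((((k : ℕ) : ℝ) + 1) / L) := by
      rw [intervalIntegral.integral_const, hlen]
    rw [e, ← intervalIntegral.integral_sub intervalIntegrable_const (hφ.intervalIntegrable _ _)]
    refine (intervalIntegral.norm_integral_le_of_norm_le_const (C := ε / 2) fun t ht => ?_).trans
      (le_of_eq (by rw [hlen, abs_of_pos (by positivity)]))
    rw [uIoc_of_le hle] at ht
    have hmem : ((((k : ℕ) : ℝ) + 1) / L) = u ((k : ℕ) + 1) := by simp only [hu']; push_cast; ring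
    rw [hmem, ← dist_eq_norm]
    refine (hu _ ⟨hk0.trans hle, hk1⟩ t ⟨hk0.trans ht.1.le, ht.2.trans hk1⟩ ?_).le
    rw [Real.dist_eq, abs_of_nonneg (by linarith [ht.2])]
    linarith [ht.1]
  · simp only [Finset.sum_const, Finset.card_univ, Fintype.card_fin, nsmul_eq_mul]
    push_cast
    rw [← hL, show L * (ε / 2 * (1 / L)) = ε / 2 by field_simp]
    linarith

end Qo

open Qo in
/-- A scalar bound gives the bound for every transport field. -/
theorem quadOperator : QuadOperator := by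
  intro m N e _ ht hscal d h P
  have hg : LinG P.g := ⟨P.smooth.continuous, ‖P.g 0‖ + h, fun x => by
    refine (P.norm_g_le x).trans ?_
    nlinarith [norm_nonneg x, norm_nonneg (P.g 0), P.h_nonneg,
      mul_nonneg (norm_nonneg (P.g 0)) (norm_nonneg x)]⟩
  have h1 : corr P.g 1 = ∫ ξ, ‖P.g ξ‖ ^ 2 ∂gam d := by
    refine integral_congr_ae (ae_of_all _ fun ξ => ?_)
    simp [Gfun]
  rw [← h1]
  obtain ⟨B, hB0, hB⟩ := Gfun_bound hg
  set c : (M : ℕ) → Fin m ⊕ Fin (M + 1) → ℝ := fun M => Sum.elim N.w fun _ => -(1 / ((M : ℝ) + 1))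
    with hc
  set r : (M : ℕ) → Fin m ⊕ Fin (M + 1) → ℝ :=
    fun M => Sum.elim N.t fun k => (((k : ℕ) : ℝ) + 1) / ((M : ℝ) + 1) with hrdef
  have hr : ∀ M i, r M i ∈ Ioc (0 : ℝ) 1 := by
    intro M i
    rcases i with i | i
    · exact ht i
    · simp only [hrdef, Sum.elim_inr]
      refine ⟨by positivity, (div_le_one (by positivity)).2 ?_⟩
      exact_mod_cast Nat.succ_le_of_lt i.isLt
  have hcomb : ∀ M ξ, comb P.g (c M) (r M) ξ = (∑ k, N.w k • Gfun P.g (N.t k) ξ)
      - ∑ k : Fin (M + 1), (1 / ((M : ℝ) + 1)) •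
          Gfun P.g ((((k : ℕ) : ℝ) + 1) / ((M : ℝ) + 1)) ξ := fun M ξ => by
    simp [comb, hc, hrdef, Fintype.sum_sum_type, Finset.sum_neg_distrib, sub_eq_add_neg]
  have hpt : ∀ ξ, Tendsto (fun M => ‖comb P.g (c M) (r M) ξ‖ ^ 2) atTop
      (𝓝 (‖(∑ k, N.w k • Gfun P.g (N.t k) ξ) - Gbar P.g ξ‖ ^ 2)) := fun ξ => by
    simp only [hcomb]
    exact ((riemann_tendsto ((continuous_Gfun hg).comp
      (by fun_prop : Continuous fun t : ℝ => (t, ξ)))).const_sub _).norm.pow 2
  have hbound : ∀ M ξ, ‖comb P.g (c M) (r M) ξ‖ ^ 2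
      ≤ ((∑ k, |N.w k|) + 1) ^ 2 * B ^ 2 * (1 + ‖ξ‖) ^ 2 := by
    intro M ξ
    rw [← mul_pow, ← mul_pow, mul_assoc]
    refine pow_le_pow_left₀ (norm_nonneg _) ?_ 2
    refine (norm_sum_le _ _).trans ?_
    have hcsum : ∑ i, |c M i| = (∑ k, |N.w k|) + 1 := by
      simp [hc, Fintype.sum_sum_type, abs_of_pos (show (0 : ℝ) < (M : ℝ) + 1 by positivity)]
      field_simp
    rw [← hcsum, Finset.sum_mul]
    refine Finset.sum_le_sum fun i _ => ?_
    rw [norm_smul, Real.norm_eq_abs]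
    exact mul_le_mul_of_nonneg_left
      (hB _ _ (abs_le_one (Ioc_subset_Icc_self (hr M i)))) (abs_nonneg _)
  have hlim := tendsto_integral_of_dominated_convergence
    (fun ξ => ((∑ k, |N.w k|) + 1) ^ 2 * B ^ 2 * (1 + ‖ξ‖) ^ 2)
    (fun M => ((linG_comb hg (c M) fun i => Ioc_subset_Icc_self (hr M i)).1.norm.pow
      2).aestronglyMeasurable) ((int_pow (d := d) 2).const_mul _)
    (fun M => ae_of_all _ fun ξ => by
      rw [Real.norm_eq_abs, abs_of_nonneg (sq_nonneg _)]; exact hbound M ξ)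
    (ae_of_all _ hpt)
  have hlimr : Tendsto (fun M : ℕ => (e + 1 / ((M : ℝ) + 1)) ^ 2 * corr P.g 1) atTop
      (𝓝 (e ^ 2 * corr P.g 1)) := by
    simpa using ((tendsto_one_div_add_atTop_nhds_zero_nat.const_add e).pow 2).mul_const (corr P.g 1)
  refine le_of_tendsto_of_tendsto' hlim hlimr fun M => ?_
  refine le_of_eq_of_le (gramSum_eq hg (c M) fun i => Ioc_subset_Icc_self (hr M i)) ?_
  refine gram_le hg (c M) (hr M) fun l hl => ?_
  have h2 := riemann_rpow (M + 1) (Nat.succ_pos M) hl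
  push_cast at h2
  have h3 := hscal l hl
  rw [Fintype.sum_sum_type]
  simp only [hc, hrdef, Sum.elim_inl, Sum.elim_inr, neg_mul, Finset.sum_neg_distrib]
  rw [abs_le] at h2 h3 ⊢
  constructor <;> linarith

end Vale.Agent.P347
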