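import Vale.Agent.P347.QuadPins

/-!
Exponential sums for `1 / (1 + l)`: composite interpolatory quadrature on dyadic blocks.
-/

noncomputable section

open Finset Polynomial

namespace Vale.Agent.P347

theorem exists_coeff (k : ℕ) :
    ∃ c : Fin k → ℝ, ∀ p < k, ∑ i, c i * ((i : ℝ) / k) ^ p = 1 / (p + 1) := by
  set v : Fin k → ℝ := fun i => (i : ℝ) / k with hv
  have hinj : Set.InjOn v (↑(univ : Finset (Fin k))) := fun i _ j _ h => by
    have hk : (k : ℝ) ≠ 0 := by
      have := i.pos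
      positivity
    simp only [hv, div_left_inj' hk, Nat.cast_inj] at h
    exact Fin.ext h
  refine ⟨fun i => ∫ x in (0 : ℝ)..1, (Lagrange.basis univ v i).eval x, fun p hp => ?_⟩
  have hdeg : (X ^ p : ℝ[X]).degree < ((univ : Finset (Fin k)).card : WithBot ℕ) := by
    rw [degree_X_pow, card_univ, Fintype.card_fin]
    exact_mod_cast hp
  have hx := Lagrange.eq_interpolate (s := univ) hinj hdeg
  have he : ∀ x : ℝ, x ^ p = ∑ i, v i ^ p * (Lagrange.basis univ v i).eval x := fun x => by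
    have := congrArg (Polynomial.eval x) hx
    rw [Lagrange.interpolate_apply, eval_finsetSum, eval_pow, eval_X] at this
    rw [this]
    exact sum_congr rfl fun i _ => by rw [eval_mul, eval_C, eval_pow, eval_X]
  have hint : ∫ x in (0 : ℝ)..1, x ^ p = 1 / (p + 1) := by simp [integral_pow]
  rw [← hint]
  rw [show (fun x : ℝ => x ^ p) = fun x => ∑ i, v i ^ p * (Lagrange.basis univ v i).eval x from funext he]
  rw [intervalIntegral.integral_finsetSum fun i _ =>
    ((Lagrange.basis univ v i).continuous.const_mul (v i ^ p)).intervalIntegrable 0 1]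
  exact sum_congr rfl fun i _ => by rw [intervalIntegral.integral_const_mul]; ring

theorem exp_remainder (k : ℕ) (hk : 0 < k) {y : ℝ} (hy : 0 ≤ y) :
    |Real.exp (-y) - ∑ p ∈ range k, (-y) ^ p / p.factorial| ≤ (2 * k + 2) * y ^ k := by
  rcases le_or_gt y 1 with h1 | h1
  · have h := Real.exp_bound (x := -y) (by rwa [abs_neg, abs_of_nonneg hy]) hk
    rw [abs_neg, abs_of_nonneg hy] at h
    refine h.trans (le_of_le_of_eq (mul_le_mul_of_nonneg_left ?_ (pow_nonneg hy k)) (mul_comm _ _))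
    rw [div_le_iff₀ (by positivity)]
    have h2 : (1 : ℝ) ≤ (k.factorial : ℝ) * k := by
      have : 1 ≤ k.factorial * k := Nat.one_le_iff_ne_zero.2 (by positivity)
      exact_mod_cast this
    push_cast
    have hk0 : (0 : ℝ) ≤ k := Nat.cast_nonneg k
    nlinarith
  · refine (abs_sub _ _).trans ?_
    have h2 : |Real.exp (-y)| ≤ 1 * y ^ k := by
      rw [abs_of_pos (Real.exp_pos _), one_mul]
      exact (Real.exp_le_one_iff.2 (by linarith)).trans (one_le_pow₀ h1.le)
    have h3 : |∑ p ∈ range k, (-y) ^ p / p.factorial| ≤ k * y ^ k := by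
      refine (abs_sum_le_sum_abs _ _).trans ((sum_le_card_nsmul _ _ (y ^ k) fun p hp => ?_).trans_eq ?_)
      · rw [abs_div, abs_pow, abs_neg, abs_of_nonneg hy, Nat.abs_cast]
        exact (div_le_self (by positivity) (by exact_mod_cast p.factorial_pos)).trans (pow_le_pow_right₀ h1.le (mem_range.1 hp).le)
      · rw [card_range, nsmul_eq_mul]
    have : 0 ≤ y ^ k := by positivity
    have : 0 ≤ (k : ℝ) * y ^ k := by positivity
    linarith

/-- Interpolatory quadrature of a decaying exponential. -/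
theorem piece_bound {k : ℕ} (hk : 0 < k) {c : Fin k → ℝ}
    (hc : ∀ p < k, ∑ i, c i * ((i : ℝ) / k) ^ p = 1 / (p + 1)) {y : ℝ} (hy : 0 < y) :
    |(∑ i, c i * Real.exp (-(y * ((i : ℝ) / k)))) - (1 - Real.exp (-y)) / y|
      ≤ (1 + ∑ i, |c i|) * (2 * k + 4) * y ^ k := by
  set T : ℝ → ℝ := fun x => ∑ p ∈ range k, (-(y * x)) ^ p / p.factorial with hT
  have h1 : ∑ i, c i * T ((i : ℝ) / k) = ∑ p ∈ range k, (-y) ^ p / (p + 1).factorial := by
    simp only [hT, mul_sum]
    rw [sum_comm]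
    refine sum_congr rfl fun p hp => ?_
    have e : ∀ i : Fin k, c i * ((-(y * ((i : ℝ) / k))) ^ p / p.factorial)
        = (-y) ^ p / p.factorial * (c i * ((i : ℝ) / k) ^ p) := fun i => by
      rw [← neg_mul, mul_pow]; ring
    rw [sum_congr rfl fun i _ => e i, ← mul_sum, hc p (mem_range.1 hp), Nat.factorial_succ]
    push_cast
    have : (p.factorial : ℝ) ≠ 0 := by positivity
    field_simp
  have h2 : |(∑ p ∈ range k, (-y) ^ p / (p + 1).factorial) - (1 - Real.exp (-y)) / y|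
      ≤ (2 * k + 4) * y ^ k := by
    have h := exp_remainder (k + 1) k.succ_pos hy.le
    rw [sum_range_succ'] at h
    have e : ∑ p ∈ range k, (-y) ^ (p + 1) / (p + 1).factorial
        = -y * ∑ p ∈ range k, (-y) ^ p / (p + 1).factorial := by
      rw [mul_sum]; exact sum_congr rfl fun p _ => by ring
    rw [e] at h
    simp only [pow_zero, Nat.factorial_zero, Nat.cast_one, div_one, Nat.cast_add] at h
    set S := ∑ p ∈ range k, (-y) ^ p / (p + 1).factorial
    rw [show S - (1 - Real.exp (-y)) / y = (Real.exp (-y) - (-y * S + 1)) / y by field_simp; ring,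
      abs_div, abs_of_pos hy, div_le_iff₀ hy]
    refine h.trans (le_of_eq ?_)
    ring
  have h3 : ∀ i : Fin k,
      |Real.exp (-(y * ((i : ℝ) / k))) - T ((i : ℝ) / k)| ≤ (2 * k + 4) * y ^ k := fun i => by
    have hx0 : (0 : ℝ) ≤ (i : ℝ) / k := by positivity
    have hx1 : (i : ℝ) / k ≤ 1 := by
      rw [div_le_one (by exact_mod_cast hk)]; exact_mod_cast i.2.le
    refine (exp_remainder k hk (mul_nonneg hy.le hx0)).trans ?_
    have := pow_le_pow_left₀ (mul_nonneg hy.le hx0) (mul_le_of_le_one_right hy.le hx1) k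
    have : 0 ≤ (y * ((i : ℝ) / k)) ^ k := by positivity
    have hk0 : (0 : ℝ) ≤ k := Nat.cast_nonneg k
    nlinarith
  have e : (∑ i, c i * Real.exp (-(y * ((i : ℝ) / k)))) - (1 - Real.exp (-y)) / y
      = (∑ i, c i * (Real.exp (-(y * ((i : ℝ) / k))) - T ((i : ℝ) / k)))
        + ((∑ p ∈ range k, (-y) ^ p / (p + 1).factorial) - (1 - Real.exp (-y)) / y) := by
    simp only [mul_sub, sum_sub_distrib, h1]
    ring
  rw [e]
  refine (abs_add_le _ _).trans ?_
  have h4 : |∑ i, c i * (Real.exp (-(y * ((i : ℝ) / k))) - T ((i : ℝ) / k))|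
      ≤ (∑ i, |c i|) * ((2 * k + 4) * y ^ k) := by
    refine (abs_sum_le_sum_abs _ _).trans ?_
    rw [sum_mul]
    exact sum_le_sum fun i _ => by
      rw [abs_mul]; exact mul_le_mul_of_nonneg_left (h3 i) (abs_nonneg _)
  linarith

theorem pow_exp_le (n : ℕ) {y : ℝ} (hy : 0 ≤ y) : y ^ n * Real.exp (-y) ≤ n.factorial := by
  have h := Real.pow_div_factorial_le_exp y hy n
  rw [div_le_iff₀ (by positivity)] at h
  rw [Real.exp_neg, mul_inv_le_iff₀ (Real.exp_pos y)]
  linarith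

theorem dyadic_bound (k : ℕ) {y : ℝ} (hy : 0 < y) :
    y ^ (k + 1) * Real.exp (-y)
      ≤ (k.factorial + 3 * (k + 1).factorial + 2 * (k + 2).factorial) * (2 * y / (1 + 2 * y) - y / (1 + y)) := by
  have e : 2 * y / (1 + 2 * y) - y / (1 + y) = y / ((1 + y) * (1 + 2 * y)) := by field_simp; ring
  rw [e, mul_div_assoc', le_div_iff₀ (by positivity)]
  have a := pow_exp_le k hy.le
  have b := pow_exp_le (k + 1) hy.le
  have c := pow_exp_le (k + 2) hy.le
  calc y ^ (k + 1) * Real.exp (-y) * ((1 + y) * (1 + 2 * y))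
      = (y ^ k * Real.exp (-y) + 3 * (y ^ (k + 1) * Real.exp (-y))
          + 2 * (y ^ (k + 2) * Real.exp (-y))) * y := by ring
    _ ≤ _ := mul_le_mul_of_nonneg_right (by linarith) hy.le

/-- The composite sum on dyadic blocks. -/
def expSum (k : ℕ) (c : Fin k → ℝ) (a : ℝ) (L I : ℕ) (μ : ℝ) : ℝ :=
  ∑ i : Fin I, ∑ j : Fin L, ∑ r : Fin k,
    a * 2 ^ (i : ℕ) / L * c r * Real.exp (-(μ * (a * 2 ^ (i : ℕ) * (1 + ((j : ℝ) + (r : ℝ) / k) / L))))

theorem expSum_bound {k : ℕ} (hk : 0 < k) {c : Fin k → ℝ}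
    (hc : ∀ p < k, ∑ i, c i * ((i : ℝ) / k) ^ p = 1 / (p + 1)) {a μ : ℝ} (ha : 0 < a) (hμ : 1 ≤ μ)
    {L : ℕ} (hL : 0 < L) (I : ℕ) :
    |expSum k c a L I μ - (Real.exp (-(μ * a)) - Real.exp (-(μ * (a * 2 ^ I)))) / μ|
      ≤ (1 + ∑ i, |c i|) * (2 * k + 4) * (k.factorial + 3 * (k + 1).factorial + 2 * (k + 2).factorial) / (L : ℝ) ^ k := by
  have hμ0 : 0 < μ := by linarith
  set K := (1 + ∑ i, |c i|) * (2 * k + 4)
  set F : ℝ := k.factorial + 3 * (k + 1).factorial + 2 * (k + 2).factorial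
  have hK : 0 ≤ K := by positivity
  have hF : 0 ≤ F := by positivity
  set φ : ℕ → ℝ := fun i => μ * a * 2 ^ i / (1 + μ * a * 2 ^ i) with hφ
  have hblock : ∀ i : ℕ,
      |(∑ j : Fin L, ∑ r : Fin k, a * 2 ^ i / L * c r
          * Real.exp (-(μ * (a * 2 ^ i * (1 + ((j : ℝ) + (r : ℝ) / k) / L)))))
        - (Real.exp (-(μ * (a * 2 ^ i))) - Real.exp (-(μ * (a * 2 ^ (i + 1))))) / μ|
      ≤ K * F / (L : ℝ) ^ k * (φ (i + 1) - φ i) := by
    intro i
    set A := a * 2 ^ i with hA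
    have hA0 : 0 < A := by positivity
    have hL0 : (0 : ℝ) < L := by exact_mod_cast hL
    set ℓ := A / L with hℓ
    have hℓ0 : 0 < ℓ := by positivity
    have etel : (Real.exp (-(μ * A)) - Real.exp (-(μ * (a * 2 ^ (i + 1))))) / μ
        = ∑ j : Fin L, (Real.exp (-(μ * (A + j * ℓ))) - Real.exp (-(μ * (A + ((j : ℕ) + 1 : ℕ) * ℓ)))) / μ := by
      rw [Fin.sum_univ_eq_sum_range (fun j =>
          (Real.exp (-(μ * (A + j * ℓ))) - Real.exp (-(μ * (A + ((j + 1 : ℕ) : ℝ) * ℓ)))) / μ),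
        ← sum_div, sum_range_sub' (fun j : ℕ => Real.exp (-(μ * (A + j * ℓ))))]
      have : A + L * ℓ = a * 2 ^ (i + 1) := by
        rw [hℓ, mul_div_cancel₀ _ hL0.ne', hA, pow_succ]; ring
      simp [this]
    have hpiece : ∀ j : Fin L,
        |(∑ r : Fin k, A / L * c r * Real.exp (-(μ * (A * (1 + ((j : ℝ) + (r : ℝ) / k) / L)))))
          - (Real.exp (-(μ * (A + j * ℓ))) - Real.exp (-(μ * (A + ((j : ℕ) + 1 : ℕ) * ℓ)))) / μ|
          ≤ ℓ * Real.exp (-(μ * A)) * (K * (μ * ℓ) ^ k) := by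
      intro j
      have e1 : ∀ r : Fin k, A / L * c r * Real.exp (-(μ * (A * (1 + ((j : ℝ) + (r : ℝ) / k) / L))))
          = ℓ * Real.exp (-(μ * (A + j * ℓ))) * (c r * Real.exp (-(μ * ℓ * ((r : ℝ) / k)))) :=
        fun r => by
          rw [show -(μ * (A * (1 + ((j : ℝ) + (r : ℝ) / k) / L)))
              = -(μ * (A + j * ℓ)) + -(μ * ℓ * ((r : ℝ) / k)) by rw [hℓ]; field_simp; ring,
            Real.exp_add, hℓ]
          ring
      have e2 : (Real.exp (-(μ * (A + j * ℓ))) - Real.exp (-(μ * (A + ((j : ℕ) + 1 : ℕ) * ℓ)))) / μ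
          = ℓ * Real.exp (-(μ * (A + j * ℓ))) * ((1 - Real.exp (-(μ * ℓ))) / (μ * ℓ)) := by
        rw [show -(μ * (A + ((j : ℕ) + 1 : ℕ) * ℓ)) = -(μ * (A + j * ℓ)) + -(μ * ℓ) by push_cast; ring,
          Real.exp_add]
        field_simp
      rw [sum_congr rfl fun r _ => e1 r, ← mul_sum, e2, ← mul_sub, abs_mul,
        abs_of_pos (mul_pos hℓ0 (Real.exp_pos _))]
      refine mul_le_mul (mul_le_mul_of_nonneg_left (Real.exp_le_exp.2 ?_) hℓ0.le)
        (piece_bound hk hc (mul_pos hμ0 hℓ0)) (abs_nonneg _) (by positivity)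
      have : 0 ≤ μ * (j * ℓ) := by positivity
      linarith
    rw [etel, ← sum_sub_distrib]
    refine (abs_sum_le_sum_abs _ _).trans ((sum_le_sum fun j _ => hpiece j).trans ?_)
    rw [sum_const, card_univ, Fintype.card_fin, nsmul_eq_mul,
      show (L : ℝ) * (ℓ * Real.exp (-(μ * A)) * (K * (μ * ℓ) ^ k))
        = K / (L : ℝ) ^ k * ((μ * A) ^ (k + 1) * Real.exp (-(μ * A))) / μ by
          rw [hℓ, ← mul_div_assoc μ, div_pow]; field_simp; ring]
    have e3 : φ (i + 1) - φ i = 2 * (μ * A) / (1 + 2 * (μ * A)) - μ * A / (1 + μ * A) := by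
      simp only [hφ, hA, pow_succ]; ring_nf
    rw [e3, show K * F / (L : ℝ) ^ k * (2 * (μ * A) / (1 + 2 * (μ * A)) - μ * A / (1 + μ * A))
        = K / (L : ℝ) ^ k * (F * (2 * (μ * A) / (1 + 2 * (μ * A)) - μ * A / (1 + μ * A))) by ring]
    refine (div_le_self (by positivity) hμ).trans ?_
    exact mul_le_mul_of_nonneg_left (dyadic_bound k (mul_pos hμ0 hA0)) (by positivity)
  have etot : (Real.exp (-(μ * a)) - Real.exp (-(μ * (a * 2 ^ I)))) / μ
      = ∑ i : Fin I, (Real.exp (-(μ * (a * 2 ^ (i : ℕ)))) - Real.exp (-(μ * (a * 2 ^ ((i : ℕ) + 1))))) / μ := by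
    rw [Fin.sum_univ_eq_sum_range (fun i =>
      (Real.exp (-(μ * (a * 2 ^ i))) - Real.exp (-(μ * (a * 2 ^ (i + 1))))) / μ), ← sum_div,
      sum_range_sub' (fun i : ℕ => Real.exp (-(μ * (a * 2 ^ i))))]
    simp
  rw [expSum, etot, ← sum_sub_distrib]
  refine (abs_sum_le_sum_abs _ _).trans
    (((sum_le_sum (g := fun i : Fin I => K * F / (L : ℝ) ^ k * (φ ((i : ℕ) + 1) - φ i))
      fun i _ => hblock i)).trans ?_)
  rw [← mul_sum, Fin.sum_univ_eq_sum_range (fun i => φ (i + 1) - φ i), sum_range_sub]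
  refine mul_le_of_le_one_right (by positivity) ?_
  have h1 : φ I ≤ 1 := (div_le_one (by positivity)).2 (by linarith)
  have h2 : 0 ≤ φ 0 := by positivity
  linarith

theorem quadScalar : QuadScalar := by
  intro k hk
  obtain ⟨c, hc⟩ := exists_coeff k
  set K := (1 + ∑ i, |c i|) * (2 * k + 4) * (k.factorial + 3 * (k + 1).factorial + 2 * (k + 2).factorial) with hK
  have hK0 : 0 < K := by positivity
  set D := (4 * K) ^ ((1 : ℝ) / k) + 1 with hD
  have hD1 : 1 ≤ D := by
    have : 0 ≤ (4 * K) ^ ((1 : ℝ) / k) := Real.rpow_nonneg (by positivity) _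
    linarith
  refine ⟨9 * (D * k + ∑ i, |c i|), fun e he he2 => ?_⟩
  have he1 : (1 : ℝ) ≤ 1 / e := (one_le_div₀ he).2 (by linarith)
  set Λ := 1 + Real.log (1 / e) with hΛ
  have hΛ1 : 1 ≤ Λ := by linarith [Real.log_nonneg he1]
  set I := ⌈Real.logb 2 (16 / e ^ 2)⌉₊ with hI
  set L := ⌈(4 * K / e) ^ ((1 : ℝ) / k)⌉₊ with hL
  have hL0 : 0 < L := Nat.ceil_pos.2 (Real.rpow_pos_of_pos (by positivity) _)
  have he2' : (1 : ℝ) < 16 / e ^ 2 := by
    rw [lt_div_iff₀ (by positivity)]; nlinarith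
  have hI2 : 16 / e ^ 2 ≤ (2 : ℝ) ^ I := by
    have := Real.rpow_le_rpow_of_exponent_le one_le_two (Nat.le_ceil (Real.logb 2 (16 / e ^ 2)))
    rwa [Real.rpow_logb two_pos (by norm_num) (by positivity), Real.rpow_natCast, ← hI] at this
  have hIle : (I : ℝ) ≤ 9 * Λ := by
    have h := Nat.ceil_lt_add_one (Real.logb_nonneg one_lt_two he2'.le)
    rw [← hI] at h
    have h2 : Real.logb 2 (16 / e ^ 2) = 4 + 2 * (Real.log (1 / e) / Real.log 2) := by
      rw [Real.logb, Real.log_div (by norm_num) (by positivity), Real.log_pow,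
        show (16 : ℝ) = 2 ^ 4 by norm_num, Real.log_pow, one_div, Real.log_inv]
      have := (Real.log_pos one_lt_two).ne'
      push_cast
      field_simp
      ring
    have h3 : Real.log (1 / e) / Real.log 2 ≤ 2 * Real.log (1 / e) := by
      rw [div_le_iff₀ (Real.log_pos one_lt_two)]
      nlinarith [Real.log_two_gt_d9, Real.log_nonneg he1]
    rw [hΛ]
    linarith [Real.log_nonneg he1]
  have hLk : 4 * K / e ≤ (L : ℝ) ^ k := by
    have := pow_le_pow_left₀ (Real.rpow_nonneg (by positivity) _)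
      (Nat.le_ceil ((4 * K / e) ^ ((1 : ℝ) / k))) k
    rwa [one_div, Real.rpow_inv_natCast_pow (by positivity) hk.ne', ← one_div, ← hL] at this
  have hLle : (L : ℝ) ≤ D * e ^ (-(1 : ℝ) / k) := by
    refine (Nat.ceil_lt_add_one (Real.rpow_nonneg (by positivity) _)).le.trans ?_
    have h1 : (4 * K / e) ^ ((1 : ℝ) / k) = (4 * K) ^ ((1 : ℝ) / k) * e ^ (-(1 : ℝ) / k) := by
      rw [Real.div_rpow (by positivity) he.le, neg_div, Real.rpow_neg he.le, div_eq_mul_inv]
    have h2 : 1 ≤ e ^ (-(1 : ℝ) / k) :=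
      Real.one_le_rpow_of_pos_of_le_one_of_nonpos he (by linarith)
        (div_nonpos_of_nonpos_of_nonneg (by norm_num) (Nat.cast_nonneg k))
    rw [h1, hD, add_mul, one_mul]
    linarith
  set ι := Fin I × Fin L × Fin k
  set s : ι → ℝ := fun p => e / 4 * 2 ^ (p.1 : ℕ) * (1 + ((p.2.1 : ℝ) + (p.2.2 : ℝ) / k) / L) with hs
  have hs0 : ∀ p, e / 4 * 2 ^ (p.1 : ℕ) ≤ s p := fun p => le_mul_of_one_le_right (by positivity)
    (le_add_of_nonneg_right (by positivity))
  set σ := Fintype.equivFin ι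
  refine ⟨Fintype.card ι, ⟨fun q => Real.exp (-s (σ.symm q)),
    fun q => e / 4 * 2 ^ ((σ.symm q).1 : ℕ) / L * c (σ.symm q).2.2 * Real.exp (-s (σ.symm q))⟩,
    ?_, fun q => ⟨Real.exp_pos _, Real.exp_le_one_iff.2 ?_⟩, ?_, fun l hl => ?_⟩
  · rw [Fintype.card_prod, Fintype.card_prod, Fintype.card_fin, Fintype.card_fin, Fintype.card_fin]
    push_cast
    have hE : 0 ≤ e ^ (-(1 : ℝ) / k) := Real.rpow_nonneg he.le _
    calc (I : ℝ) * (L * k) ≤ 9 * Λ * (D * e ^ (-(1 : ℝ) / k) * k) := by gcongr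
      _ ≤ 9 * (D * k + ∑ i, |c i|) * e ^ (-(1 : ℝ) / k) * Λ := by
        have : 0 ≤ (∑ i, |c i|) * e ^ (-(1 : ℝ) / k) * Λ := by positivity
        linarith
  · have := hs0 (σ.symm q)
    have : 0 ≤ e / 4 * 2 ^ ((σ.symm q).1 : ℕ) := by positivity
    linarith
  · rw [Equiv.sum_comp σ.symm (fun p : ι => |e / 4 * 2 ^ (p.1 : ℕ) / L * c p.2.2 * Real.exp (-s p)|)]
    have hb : ∀ p : ι, |e / 4 * 2 ^ (p.1 : ℕ) / L * c p.2.2 * Real.exp (-s p)|
        ≤ 1 / L * |c p.2.2| := fun p => by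
      set A := e / 4 * 2 ^ (p.1 : ℕ)
      have hA : 0 < A := by positivity
      rw [abs_mul, abs_mul, abs_div, abs_of_pos hA, Nat.abs_cast, abs_of_pos (Real.exp_pos _)]
      have h1 : A * Real.exp (-s p) ≤ 1 := by
        refine (mul_le_mul_of_nonneg_left (Real.exp_le_exp.2 (neg_le_neg (hs0 p))) hA.le).trans ?_
        simpa using pow_exp_le 1 hA.le
      calc A / L * |c p.2.2| * Real.exp (-s p) = A * Real.exp (-s p) * (1 / L * |c p.2.2|) := by ring
        _ ≤ 1 * (1 / L * |c p.2.2|) := mul_le_mul_of_nonneg_right h1 (by positivity)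
        _ = _ := one_mul _
    refine (sum_le_sum fun p _ => hb p).trans ?_
    rw [Fintype.sum_prod_type]
    simp only [Fintype.sum_prod_type, ← mul_sum, sum_const, card_univ, Fintype.card_fin, nsmul_eq_mul]
    have hL' : (L : ℝ) ≠ 0 := by positivity
    calc 1 / (L : ℝ) * (L * (I * ∑ i, |c i|)) = I * ∑ i, |c i| := by field_simp
      _ ≤ 9 * Λ * ∑ i, |c i| := mul_le_mul_of_nonneg_right hIle (by positivity)
      _ ≤ _ := by
        have : 0 ≤ D * k * Λ := by positivity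
        linarith
  · set μ := 1 + l with hμ
    have hμ1 : 1 ≤ μ := by linarith
    rw [Equiv.sum_comp σ.symm (fun p : ι => e / 4 * 2 ^ (p.1 : ℕ) / L * c p.2.2 * Real.exp (-s p)
      * Real.exp (-s p) ^ l)]
    have he' : (∑ p : ι, e / 4 * 2 ^ (p.1 : ℕ) / L * c p.2.2 * Real.exp (-s p) * Real.exp (-s p) ^ l)
        = expSum k c (e / 4) L I μ := by
      simp only [expSum, ι, Fintype.sum_prod_type]
      refine sum_congr rfl fun i _ => sum_congr rfl fun j _ => sum_congr rfl fun r _ => ?_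
      rw [← Real.exp_mul, mul_assoc, ← Real.exp_add]
      congr 2
      simp only [hs, hμ]
      ring
    rw [he']
    have hb := expSum_bound hk hc (show 0 < e / 4 by positivity) hμ1 hL0 I
    rw [← hK] at hb
    have h1 : K / (L : ℝ) ^ k ≤ e / 4 := by
      rw [div_le_iff₀ (by positivity)]
      rw [div_le_iff₀ he] at hLk
      nlinarith
    set E0 := Real.exp (-(μ * (e / 4)))
    set E1 := Real.exp (-(μ * (e / 4 * 2 ^ I)))
    have h2 : |(E0 - E1) / μ - 1 / μ| ≤ e / 4 + e / 4 := by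
      rw [← sub_div, abs_div, abs_of_pos (by linarith : 0 < μ), div_le_iff₀ (by linarith)]
      have a1 : 1 - μ * (e / 4) ≤ E0 := by
        simp only [E0]; linarith [Real.add_one_le_exp (-(μ * (e / 4)))]
      have a2 : E0 ≤ 1 := Real.exp_le_one_iff.2 (by nlinarith)
      have a3 : E1 ≤ e / 4 := by
        have h4 : 4 / e ≤ μ * (e / 4 * 2 ^ I) := by
          refine le_trans ?_ (le_mul_of_one_le_left (by positivity) hμ1)
          have h5 := mul_le_mul_of_nonneg_left hI2 (show (0 : ℝ) ≤ e / 4 by positivity)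
          rwa [show e / 4 * (16 / e ^ 2) = 4 / e by field_simp; ring] at h5
        refine (Real.exp_le_exp.2 (neg_le_neg h4)).trans ?_
        have h6 : Real.exp (-(4 / e)) ≤ 1 / (4 / e) := by
          rw [le_div_iff₀ (by positivity), mul_comm]
          simpa using pow_exp_le 1 (show (0 : ℝ) ≤ 4 / e by positivity)
        rwa [one_div_div] at h6
      have a4 : 0 ≤ E1 := (Real.exp_pos _).le
      have a5 : e / 4 ≤ μ * (e / 4) := le_mul_of_one_le_left (by linarith) hμ1
      have a6 : μ * (e / 4) ≤ μ * (e / 4 + e / 4) := by linarith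
      have a7 : 0 ≤ μ * (e / 4) := by positivity
      have a8 : μ * (e / 4 + e / 4) = (e / 4 + e / 4) * μ := mul_comm _ _
      rw [abs_le]
      constructor <;> linarith
    have := abs_sub_le (expSum k c (e / 4) L I μ) ((E0 - E1) / μ) (1 / μ)
    linarith

end Vale.Agent.P347
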