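import Vale.Agent.P347.MainChain
import Vale.Agent.P347.Basics
import Vale.Agent.P347.Poincare

/-!
The schedule of step sizes, the bias of every step and the contraction from the origin.
-/

noncomputable section

open MeasureTheory ProbabilityTheory
open scoped RealInnerProductSpace

namespace Vale.Agent.P347

variable {d m J : ℕ} {V : Space d → ℝ}

theorem var_le_one {μ : Measure (Space d)} [IsProbabilityMeasure μ] {f : Space d → ℝ}
    (hf : Measurable f) (h1 : ∀ x, |f x| ≤ 1) : var μ f ≤ 1 := by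
  set M := ∫ x, f x ∂μ with hM
  have hi := integrable_of_le_one (μ := μ) hf h1
  have hi2 : Integrable (fun x => f x ^ 2) μ :=
    integrable_of_le_one (hf.pow_const 2) fun x => by
      rw [abs_of_nonneg (sq_nonneg _)]; exact (sq_le_one_iff_abs_le_one _).2 (h1 x)
  have e : (fun x => (f x - M) ^ 2) = fun x => f x ^ 2 - (2 * M * f x - M ^ 2) := by funext x; ring
  have i2 : Integrable (fun x => 2 * M * f x - M ^ 2) μ := (hi.const_mul _).sub (integrable_const _)
  rw [var, e, integral_sub hi2 i2, integral_sub (hi.const_mul _) (integrable_const _),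
    integral_const_mul, integral_const, probReal_univ, one_smul, ← hM]
  have h2 : ∫ x, f x ^ 2 ∂μ ≤ 1 := (integral_mono hi2 (integrable_const 1)
    fun x => (sq_le_one_iff_abs_le_one _).2 (h1 x)).trans_eq (by simp)
  nlinarith [sq_nonneg M]

/-- Smoothing a bounded function. -/
theorem pf_bounds (hD : PostDeriv) {f : Space d → ℝ} (hf : Measurable f) (h1 : ∀ x, |f x| ≤ 1)
    {r : ℝ} (hr : 0 < r) :
    ContDiff ℝ 2 (Pf r f) ∧ GradBound (Pf r f) (1 / Real.sqrt r) ∧ HessBound (Pf r f) (2 / r) := by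
  obtain ⟨hc, hg, hh⟩ := hD d 0 (Pot.zero d) r hr f hf (grow_of_le_one h1)
  rw [Pf_eq_post]
  have hm : ∀ a : Space d, Measurable fun ξ => f (a + Real.sqrt r • ξ) := fun a =>
    hf.comp (by fun_prop)
  have hv : ∀ a, var (gam d) (fun ξ => f (a + Real.sqrt r • ξ)) ≤ 1 := fun a =>
    var_le_one (hm a) fun _ => h1 _
  refine ⟨hc, fun a => ContinuousLinearMap.opNorm_le_bound _ (by positivity) fun e => ?_,
    fun a => ?_⟩
  · have h2 := hg a e
    rw [mu_aff_zero] at h2
    rw [Real.norm_eq_abs, h2, abs_div, abs_of_nonneg (Real.sqrt_nonneg _), one_div,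
      inv_mul_eq_div]
    gcongr
    have h3 := abs_cov_le (Pot.zero d) (hm a) (grow_of_le_one fun _ => h1 _)
      (g := fun ξ => ⟪e, ξ⟫) (by fun_prop) (grow_inner e)
    have h4 := var_le_sq (Pot.zero d) (f := fun ξ => ⟪e, ξ⟫) (norm_nonneg e) fun x y => by
      rw [← inner_sub_right]; exact abs_real_inner_le_norm _ _
    rw [mu_zero] at h3 h4
    refine h3.trans (le_trans (Real.sqrt_le_sqrt ?_) (Real.sqrt_sq (norm_nonneg e)).le)
    have h5 : 0 ≤ var (gam d) (fun ξ => ⟪e, ξ⟫) := var_nonneg _ _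
    nlinarith [mul_le_mul_of_nonneg_right (hv a) h5]
  · have h2 := hh a
    rw [mu_aff_zero] at h2
    exact h2.trans (mul_le_of_le_one_right (sq_nonneg _) (hv a))

/-- Step sizes: constant for `n` steps, then halving. -/
def sched (η : ℝ) (n i : ℕ) : ℝ := η * (1 / 2 : ℝ) ^ (i - n)

theorem sched_pos {η : ℝ} (hη : 0 < η) (n i : ℕ) : 0 < sched η n i := by unfold sched; positivity

theorem sched_le {η : ℝ} (hη : 0 < η) (n i : ℕ) : sched η n i ≤ η :=
  mul_le_of_le_one_right hη.le (pow_le_one₀ (by norm_num) (by norm_num))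

theorem sched_main {η : ℝ} {n i : ℕ} (h : i ≤ n) : sched η n i = η := by
  simp [sched, Nat.sub_eq_zero_of_le h]

theorem sched_switch {η : ℝ} {n i : ℕ} (h : n ≤ i) : sched η n (i + 1) = sched η n i / 2 := by
  rw [sched, sched, Nat.succ_sub h, pow_succ]
  ring

theorem tail_main {P : Pot d 1} {η : ℝ} {n : ℕ} {f : Space d → ℝ} :
    ∀ q, q ≤ n → tailVal P (sched η n) f (J + q) (n - q)
      = (Qop P η)^[q] (tailVal P (sched η n) f J n)
  | 0, _ => by simp
  | q + 1, h => by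
    have ih := tail_main (P := P) (η := η) (f := f) q (Nat.le_of_succ_le h)
    rw [Function.iterate_succ_apply', ← ih, show J + (q + 1) = J + q + 1 from rfl]
    funext y
    simp only [tailVal, Qop]
    rw [sched_main (Nat.sub_le _ _), show n - (q + 1) + 1 = n - q by omega,
      sched_main (Nat.sub_le _ _)]

/-- The bias allowed to step `i`. -/
def stepErr (A η : ℝ) (d n i : ℕ) : ℝ :=
  if i < n then A * (η ^ 3 * Real.sqrt d) * (1 / ((max (n - (i + 1)) 1 : ℕ) * η) + 1)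
  else A * (η ^ 2 * Real.sqrt d)

theorem stepErr_nonneg {A η : ℝ} (hA : 0 ≤ A) (hη : 0 < η) (d n i : ℕ) : 0 ≤ stepErr A η d n i := by
  unfold stepErr
  split_ifs <;> positivity

theorem sum_stepErr_le {A η : ℝ} (hA : 0 ≤ A) (hη : 0 < η) (d n J : ℕ) :
    ∑ i ∈ Finset.range (n + J), stepErr A η d n i
      ≤ A * (η ^ 2 * Real.sqrt d * (2 + Real.log n) + n * η ^ 3 * Real.sqrt d
          + J * η ^ 2 * Real.sqrt d) := by
  rw [Finset.sum_range_add]
  have h2 : ∑ i ∈ Finset.range J, stepErr A η d n (n + i) = J * (A * (η ^ 2 * Real.sqrt d)) := by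
    simp [stepErr]
  have hh : ∑ i ∈ Finset.range n, 1 / ((max (n - (i + 1)) 1 : ℕ) : ℝ) ≤ 2 + Real.log n := by
    rcases n with _ | k
    · simp
    rw [← Finset.sum_range_reflect]
    have hk : Finset.range (k + 1) = insert 0 (Finset.Ico 1 (k + 1)) := by
      ext i; simp; omega
    have e : ∀ j ∈ Finset.range (k + 1),
        (1 : ℝ) / ((max (k + 1 - ((k + 1 - 1 - j) + 1)) 1 : ℕ) : ℝ) = 1 / ((max j 1 : ℕ) : ℝ) := by
      intro j hj
      rw [Finset.mem_range] at hj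
      congr 3
      omega
    rw [Finset.sum_congr rfl e, hk, Finset.sum_insert (by simp), Finset.sum_Ico_eq_sum_range]
    have h4 : ∑ j ∈ Finset.range (k + 1 - 1), (1 : ℝ) / ((max (1 + j) 1 : ℕ) : ℝ)
        = (harmonic k : ℝ) := by
      rw [harmonic, Rat.cast_sum]
      refine Finset.sum_congr (by simp) fun j _ => ?_
      rw [max_eq_left (by omega)]
      push_cast
      ring
    rw [h4]
    have h5 := harmonic_le_one_add_log k
    have h6 : Real.log k ≤ Real.log ((k + 1 : ℕ) : ℝ) := by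
      rcases k.eq_zero_or_pos with rfl | hk0
      · simp
      · exact Real.log_le_log (by exact_mod_cast hk0) (by push_cast; linarith)
    norm_num
    push_cast at h6
    linarith
  have h1 : ∑ i ∈ Finset.range n, stepErr A η d n i
      = A * (η ^ 3 * Real.sqrt d) * ((∑ i ∈ Finset.range n, 1 / ((max (n - (i + 1)) 1 : ℕ) : ℝ)) / η
        + n) := by
    rw [Finset.sum_div, mul_add, Finset.mul_sum,
      show A * (η ^ 3 * Real.sqrt d) * (n : ℝ) = ∑ _i ∈ Finset.range n, A * (η ^ 3 * Real.sqrt d) by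
        simp [mul_comm],
      ← Finset.sum_add_distrib]
    refine Finset.sum_congr rfl fun i hi => ?_
    rw [stepErr, if_pos (Finset.mem_range.1 hi), div_div]
    ring
  rw [h1, h2]
  have h3 := div_le_div_of_nonneg_right hh hη.le
  have h4 := mul_le_mul_of_nonneg_left h3 (show 0 ≤ A * (η ^ 3 * Real.sqrt d) by positivity)
  have e : A * (η ^ 3 * Real.sqrt d) * ((2 + Real.log n) / η)
      = A * (η ^ 2 * Real.sqrt d * (2 + Real.log n)) := by
    field_simp
  linarith

theorem norm_small {η R : ℝ} {K : ℕ} {ηi : ℝ} (hη : 0 < η) (hη1 : η ≤ 1 / 2) (hi : 0 < ηi)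
    (hi1 : ηi ≤ η) (hlow : η ^ 2 / 2 ≤ ηi) (hd : 1 ≤ d) (hR : η ^ K * R ≤ η / 4) {y : Space d}
    (hy : ‖y‖ ≤ R) :
    (ηi / (1 + ηi)) ^ K * ‖y‖ ≤ Real.sqrt (ηi / (1 + ηi)) * Real.sqrt d := by
  obtain ⟨h0, h1, h2⟩ := coef_pos hi
  refine (mul_le_mul (pow_le_pow_left₀ h0.le (h2.trans hi1) K) hy (norm_nonneg _) (by positivity)).trans
    (hR.trans ?_)
  have h3 : ηi / 2 ≤ ηi / (1 + ηi) := div_le_div_of_nonneg_left hi.le (by linarith) (by linarith)
  have h4 : η / 4 ≤ Real.sqrt (ηi / (1 + ηi)) := by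
    rw [Real.le_sqrt (by linarith) h0.le]
    nlinarith
  have h5 : (1 : ℝ) ≤ Real.sqrt d := by
    rw [← Real.sqrt_one]; exact Real.sqrt_le_sqrt (by exact_mod_cast hd)
  exact h4.trans (le_mul_of_one_le_right (Real.sqrt_nonneg _) h5)

theorem sched_low {η : ℝ} (hη : 0 < η) {n J i : ℕ} (hi : i ≤ n + J)
    (hJ : (2 : ℝ) ^ J * η ≤ 2) : η ^ 2 / 2 ≤ sched η n i := by
  have h1 : (1 / 2 : ℝ) ^ J ≤ (1 / 2 : ℝ) ^ (i - n) :=
    pow_le_pow_of_le_one (by norm_num) (by norm_num) (by omega)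
  refine le_trans ?_ (mul_le_mul_of_nonneg_left h1 hη.le)
  rw [one_div, inv_pow, ← div_eq_mul_inv, le_div_iff₀ (by positivity)]
  nlinarith [mul_le_mul_of_nonneg_left hJ hη.le]

/-- Constants of the chain bounds, unfolded. -/
def ChainConst (C : ℝ) : Prop :=
  ∀ (d : ℕ) (h : ℝ) (P : Pot d h) (η : ℝ) (m : ℕ) (f : Space d → ℝ),
    h ≤ 1 → 0 < η → η ≤ 1 → 1 ≤ m → Measurable f → (∀ x, |f x| ≤ 1) →
      ContDiff ℝ 2 ((Qop P η)^[m] f) ∧
      GradBound ((Qop P η)^[m] f) (C / Real.sqrt (m * η)) ∧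
      HessBound ((Qop P η)^[m] f) (C * (1 / (m * η) + 1))

theorem inv_sqrt_le {x : ℝ} (hx : 0 < x) : 1 / Real.sqrt x ≤ 1 / x + 1 := by
  have h := Real.sqrt_pos.2 hx
  have h2 : 0 ≤ (1 / Real.sqrt x - 1) ^ 2 := sq_nonneg _
  have h3 : 0 < 1 / Real.sqrt x := by positivity
  have e : (1 / Real.sqrt x) ^ 2 = 1 / x := by rw [div_pow, one_pow, Real.sq_sqrt hx.le]
  nlinarith

/-- Every step of the schedule has small bias. -/
theorem sched_bias (hB : MuBasic) (hS : PostShift) (hD : PostDeriv) (hPf : PfBound) {C c : ℝ}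
    (hC : StepConst C c) (hC0 : 0 ≤ C) {C2 : ℝ} (hC2 : ChainConst C2) (hC20 : 2 ≤ C2)
    (hV : InClass V) (N : Nodes m) {η Cw R : ℝ} {n K : ℕ} (hd : 1 ≤ d) (hη : 0 < η)
    (hη1 : η ≤ 1 / 2) (hCw : 1 ≤ Cw) (hN : N.Ok Cw η) (hJ : 1 ≤ (2 : ℝ) ^ J * η)
    (hJ' : (2 : ℝ) ^ J * η ≤ 2) (hc1 : η * Cw ≤ c)
    (hc2 : 2 * Cw ^ 2 * η * (η * Real.sqrt d) ≤ c) (hR : η ^ K * R ≤ η / 4)
    {f : Space d → ℝ} (hf : Measurable f) (h1 : ∀ x, |f x| ≤ 1) {i : ℕ} (hi : i < n + J)
    {y : Space d} (hy : ‖y‖ ≤ R) :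
    |(∫ S, tailVal hV.pot (sched η n) f (n + J - (i + 1)) (i + 1)
        (outStep (J := J) N K (sched η n i) (sched η n (i + 1)) (grd V) y S) ∂seedLaw d m J)
      - tailVal hV.pot (sched η n) f (n + J - i) i y|
      ≤ stepErr (16 * C * C2 * Cw ^ 4) η d n i := by
  set ηi := sched η n i with hηi
  set η' := sched η n (i + 1) with hη'
  have hi0 : 0 < ηi := sched_pos hη n i
  have hile : ηi ≤ η := sched_le hη n i
  obtain ⟨hs0, hs1, hsi⟩ := coef_pos hi0
  have hsη : ηi / (1 + ηi) ≤ η := hsi.trans hile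
  obtain ⟨hUm, hUb⟩ := tailVal_meas hV.pot hB hD (sched_pos hη n) hf h1 (n + J - (i + 1)) (i + 1)
  set U := tailVal hV.pot (sched η n) f (n + J - (i + 1)) (i + 1) with hU
  have hrhs : tailVal hV.pot (sched η n) f (n + J - i) i y
      = post hV.pot (ηi / (1 + ηi)) (Pf η' U) ((1 + ηi)⁻¹ • y) := by
    rw [show n + J - i = (n + J - (i + 1)) + 1 by omega]
    rfl
  rw [hrhs]
  have hJ2 : (1 / 2 : ℝ) ^ J ≤ η := by
    rw [one_div, inv_pow, inv_le_iff_one_le_mul₀ (by positivity), mul_comm]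
    exact hJ
  have hc2' : Cw ^ 2 * (ηi / (1 + ηi) + η) * (ηi / (1 + ηi) * Real.sqrt d) ≤ c := by
    refine le_trans ?_ hc2
    calc Cw ^ 2 * (ηi / (1 + ηi) + η) * (ηi / (1 + ηi) * Real.sqrt d)
        ≤ Cw ^ 2 * (η + η) * (η * Real.sqrt d) := by gcongr
      _ = 2 * Cw ^ 2 * η * (η * Real.sqrt d) := by ring
  have hη'b : ηi / 2 ≤ η' := by
    rcases lt_or_ge i n with h | h
    · rw [hηi, hη', sched_main h.le, sched_main h]; linarith
    · rw [hη', sched_switch h]
  have hη'0 : 0 < η' := sched_pos hη n (i + 1)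
  have main : ∀ B1 B2 : ℝ, 0 ≤ B1 → 0 ≤ B2 → ContDiff ℝ 2 (Pf (η' / 2) U) →
      GradBound (Pf (η' / 2) U) B1 → HessBound (Pf (η' / 2) U) B2 →
      |(∫ S, U (outStep (J := J) N K ηi η' (grd V) y S) ∂seedLaw d m J)
          - post hV.pot (ηi / (1 + ηi)) (Pf η' U) ((1 + ηi)⁻¹ • y)|
        ≤ C * Cw ^ 4 * (ηi / (1 + ηi) * B2 * (2 * η) + Real.sqrt (ηi / (1 + ηi)) * B1 * η * (3 * η))
          * (η * Real.sqrt d) := by
    intro B1 B2 hB1 hB2 hH hG1 hG2
    refine (step_bias hB hS hC hV N hd hi0 hη'b hCw hN hη.le (by linarith)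
      ((mul_le_mul_of_nonneg_right hsη (by linarith)).trans hc1) hc2' hB1 hB2 hUm hUb hH hG1 hG2
      (norm_small hη hη1 hi0 hile (sched_low hη hi.le hJ') hd hR hy)).trans ?_
    gcongr <;> linarith
  rcases lt_or_ge i n with hin | hin
  · have e1 : ηi = η := sched_main hin.le
    have e2 : η' = η := sched_main hin
    set q := n - (i + 1) with hq
    have hUq : U = (Qop hV.pot η)^[q] (tailVal hV.pot (sched η n) f J n) := by
      rw [← tail_main q (by omega), hU, show n + J - (i + 1) = J + q by omega,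
        show n - q = i + 1 by omega]
    have hmm : (0 : ℝ) < ((max q 1 : ℕ) : ℝ) * η := by positivity
    set X := 1 / (((max q 1 : ℕ) : ℝ) * η) + 1 with hX
    have hX0 : 1 ≤ X := by rw [hX]; linarith [one_div_nonneg.2 hmm.le]
    obtain ⟨hH, hG1, hG2⟩ : ContDiff ℝ 2 (Pf (η' / 2) U) ∧
        GradBound (Pf (η' / 2) U) (2 * C2 / Real.sqrt (((max q 1 : ℕ) : ℝ) * η)) ∧
        HessBound (Pf (η' / 2) U) (2 * C2 * X) := by
      rw [e2]
      rcases Nat.eq_zero_or_pos q with h0 | h0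
      · obtain ⟨a, b, c'⟩ := pf_bounds hD hUm hUb (half_pos hη)
        simp only [h0, Nat.zero_max, Nat.cast_one, one_mul] at hX ⊢
        refine ⟨a, fun x => (b x).trans ?_, fun x => (c' x).trans ?_⟩
        · rw [Real.sqrt_div hη.le, one_div_div]
          refine div_le_div_of_nonneg_right ?_ (Real.sqrt_nonneg _)
          nlinarith [Real.sq_sqrt zero_le_two, Real.sqrt_nonneg (2 : ℝ)]
        · refine pow_le_pow_left₀ (by positivity) ?_ 2
          rw [hX, div_div_eq_mul_div]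
          have : 2 * 2 / η ≤ 2 * C2 * (1 / η) := by
            rw [mul_one_div]; gcongr
          nlinarith
      · obtain ⟨hm', hb'⟩ := tailVal_meas hV.pot hB hD (sched_pos hη n) hf h1 J n
        obtain ⟨a, b, c'⟩ := hC2 d 1 hV.pot η q _ le_rfl hη (by linarith) h0 hm' hb'
        rw [← hUq] at a b c'
        have eq1 : max q 1 = q := max_eq_left h0
        simp only [eq1] at hX ⊢
        obtain ⟨a', b', c''⟩ := hPf d (η / 2) U _ _ a b c' (by positivity)
        refine ⟨a', fun x => (b' x).trans ?_, fun x => (c'' x).trans ?_⟩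
        · exact div_le_div_of_nonneg_right (by linarith) (Real.sqrt_nonneg _)
        · refine pow_le_pow_left₀ (by positivity) ?_ 2
          rw [hX]
          have : 0 ≤ C2 * (1 / ((q : ℝ) * η) + 1) := by positivity
          linarith
    refine (main _ _ (by positivity) (by positivity) hH hG1 hG2).trans ?_
    rw [stepErr, if_pos hin, e1]
    have hs : η / (1 + η) ≤ η := (coef_pos hη).2.2
    have hsq : Real.sqrt (η / (1 + η)) ≤ 1 := Real.sqrt_le_one.2 (coef_pos hη).2.1.le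
    have h5 : Real.sqrt (η / (1 + η)) * (2 * C2 / Real.sqrt (((max q 1 : ℕ) : ℝ) * η)) ≤ 2 * C2 * X := by
      refine (mul_le_of_le_one_left (by positivity) hsq).trans ?_
      rw [div_eq_mul_one_div]
      exact mul_le_mul_of_nonneg_left (inv_sqrt_le hmm) (by linarith)
    calc C * Cw ^ 4 * (η / (1 + η) * (2 * C2 * X) * (2 * η)
          + Real.sqrt (η / (1 + η)) * (2 * C2 / Real.sqrt (((max q 1 : ℕ) : ℝ) * η)) * η * (3 * η))
          * (η * Real.sqrt d)
        ≤ C * Cw ^ 4 * (η * (2 * C2 * X) * (2 * η) + 2 * C2 * X * η * (3 * η))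
          * (η * Real.sqrt d) := by gcongr
      _ = 10 * (C * C2 * Cw ^ 4 * (η ^ 3 * Real.sqrt d) * X) := by ring
      _ ≤ 16 * C * C2 * Cw ^ 4 * (η ^ 3 * Real.sqrt d) * X := by
          have : 0 ≤ C * C2 * Cw ^ 4 * (η ^ 3 * Real.sqrt d) * X := by positivity
          linarith
  · have e2 : η' = ηi / 2 := sched_switch hin
    have hr : 0 < η' / 2 := by linarith
    obtain ⟨a, b, c'⟩ := pf_bounds hD hUm hUb hr
    refine (main _ _ (by positivity) (by positivity) a b c').trans ?_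
    rw [stepErr, if_neg (not_lt.2 hin)]
    have h5 : ηi / (1 + ηi) * (2 / (η' / 2)) ≤ 8 := by
      rw [e2]
      refine (mul_le_mul_of_nonneg_right hsi (by positivity)).trans_eq ?_
      field_simp
      ring
    have h6 : Real.sqrt (ηi / (1 + ηi)) * (1 / Real.sqrt (η' / 2)) ≤ 2 := by
      rw [mul_one_div, div_le_iff₀ (Real.sqrt_pos.2 hr), e2, div_div]
      refine Real.sqrt_le_iff.2 ⟨by positivity, ?_⟩
      rw [mul_pow, Real.sq_sqrt (by positivity)]
      linarith
    calc C * Cw ^ 4 * (ηi / (1 + ηi) * (2 / (η' / 2)) * (2 * η)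
          + Real.sqrt (ηi / (1 + ηi)) * (1 / Real.sqrt (η' / 2)) * η * (3 * η)) * (η * Real.sqrt d)
        ≤ C * Cw ^ 4 * (8 * (2 * η) + 2 * η * (3 * η)) * (η * Real.sqrt d) := by gcongr
      _ = C * Cw ^ 4 * (η ^ 2 * Real.sqrt d) * (16 + 6 * η) := by ring
      _ ≤ 16 * C * C2 * Cw ^ 4 * (η ^ 2 * Real.sqrt d) := by
          have h7 : 0 ≤ C * Cw ^ 4 * (η ^ 2 * Real.sqrt d) := by positivity
          nlinarith [mul_le_mul_of_nonneg_left (show 16 + 6 * η ≤ 16 * C2 by linarith) h7]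

end Vale.Agent.P347
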