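import Vale.Agent.P347.Poincare
import Vale.Agent.P347.Smooth

/-!
A finite family of independent Gaussian vectors seen as one Gaussian vector.
-/

noncomputable section

open MeasureTheory ProbabilityTheory
open scoped RealInnerProductSpace

namespace Vale.Agent.P347

variable {d : ℕ} {ι : Type} [Fintype ι]

/-- The dimension of a family of vectors. -/
abbrev famDim (ι : Type) [Fintype ι] (d : ℕ) : ℕ :=
  Module.finrank ℝ (PiLp 2 fun _ : ι => Space d)

/-- A family of vectors as one vector. -/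
def emb (ι : Type) [Fintype ι] (d : ℕ) : Space (famDim ι d) ≃L[ℝ] (ι → Space d) :=
  (stdOrthonormalBasis ℝ (PiLp 2 fun _ : ι => Space d)).repr.symm.toContinuousLinearEquiv.trans
    (PiLp.continuousLinearEquiv 2 ℝ fun _ : ι => Space d)

theorem gp_map_toLp :
    (gp ι d).map (WithLp.toLp 2) = stdGaussian (PiLp 2 fun _ : ι => Space d) := by
  apply Measure.ext_of_charFun
  ext t
  simp_rw [charFun_pi, charFun_stdGaussian, ← Complex.exp_sum, ← Complex.ofReal_pow]
  rw [PiLp.norm_sq_eq_of_L2]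
  push_cast
  simp [Finset.sum_div, neg_div]

theorem gp_eq : gp ι d = (gam (famDim ι d)).map (emb ι d) := by
  set e := (stdOrthonormalBasis ℝ (PiLp 2 fun _ : ι => Space d)).repr.symm
  have h1 : (emb ι d : Space (famDim ι d) → ι → Space d) = WithLp.ofLp ∘ e := rfl
  rw [h1, ← Measure.map_map (by fun_prop) e.continuous.measurable, stdGaussian_map e,
    ← gp_map_toLp, Measure.map_map (by fun_prop) (by fun_prop)]
  simp [Function.comp_def]

theorem integral_gp {E : Type*} [NormedAddCommGroup E] [NormedSpace ℝ E]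
    (F : (ι → Space d) → E) : ∫ ω, F ω ∂gp ι d = ∫ x, F (emb ι d x) ∂gam (famDim ι d) := by
  have h := integral_map_equiv (μ := gam (famDim ι d))
    (emb ι d).toHomeomorph.toMeasurableEquiv F
  rw [gp_eq]
  exact h

theorem integrable_gp_iff {E : Type*} [NormedAddCommGroup E] {F : (ι → Space d) → E} :
    Integrable F (gp ι d) ↔ Integrable (fun x => F (emb ι d x)) (gam (famDim ι d)) := by
  rw [gp_eq]
  exact integrable_map_equiv (emb ι d).toHomeomorph.toMeasurableEquiv F

theorem emb_dist (x y : Space (famDim ι d)) :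
    Real.sqrt (∑ i, ‖emb ι d x i - emb ι d y i‖ ^ 2) = ‖x - y‖ := by
  set e := (stdOrthonormalBasis ℝ (PiLp 2 fun _ : ι => Space d)).repr.symm
  have h1 : ∑ i, ‖emb ι d x i - emb ι d y i‖ ^ 2 = ‖e x - e y‖ ^ 2 := by
    rw [PiLp.norm_sq_eq_of_L2]; rfl
  rw [h1, Real.sqrt_sq (norm_nonneg _), ← map_sub, e.norm_map]

theorem var_gp (f : (ι → Space d) → ℝ) :
    var (gp ι d) f = var (mu (Pot.zero (famDim ι d))) (fun x => f (emb ι d x)) := by
  simp only [var, mu_zero, integral_gp]

theorem Lip2.norm_emb_le {L : ℝ} {N : (ι → Space d) → Space d} (hN : Lip2 L N)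
    (x y : Space (famDim ι d)) : ‖N (emb ι d x) - N (emb ι d y)‖ ≤ L * ‖x - y‖ := by
  simpa only [emb_dist] using hN (emb ι d x) (emb ι d y)

theorem Lip2.norm_fderiv_emb_le {L : ℝ} (hL : 0 ≤ L) {N : (ι → Space d) → Space d}
    (hN : Lip2 L N) (x : Space (famDim ι d)) :
    ‖fderiv ℝ (fun z => N (emb ι d z)) x‖ ≤ L := by
  have := norm_fderiv_le_of_lipschitz ℝ (f := fun z => N (emb ι d z)) (x₀ := x) (C := L.toNNReal)
    (LipschitzWith.of_dist_le' fun a b => by
      rw [dist_eq_norm, dist_eq_norm]; exact hN.norm_emb_le a b)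
  rwa [Real.coe_toNNReal L hL] at this

theorem Lip2.lipF_inner {L : ℝ} {N : (ι → Space d) → Space d} (hN : Lip2 L N) (v : Space d) :
    LipF (‖v‖ * L) (fun x => ⟪v, N (emb ι d x)⟫) := fun x y => by
  rw [← inner_sub_right, mul_assoc]
  exact (abs_real_inner_le_norm _ _).trans
    (mul_le_mul_of_nonneg_left (hN.norm_emb_le x y) (norm_nonneg v))

theorem Lip2.norm_le {L : ℝ} {N : (ι → Space d) → Space d} (hN : Lip2 L N)
    (x : Space (famDim ι d)) : ‖N (emb ι d x)‖ ≤ ‖N (emb ι d 0)‖ + L * ‖x‖ := by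
  have h1 := hN.norm_emb_le x 0
  rw [sub_zero] at h1
  linarith [norm_sub_norm_le (N (emb ι d x)) (N (emb ι d 0))]

end Vale.Agent.P347
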